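import Vale.Agent.P129Z.ASupply

/-!
# Part (A1): the ground-level form of the counterexample
-/

open Set Filter Topology

namespace Vale.Agent.P129Z

open Vale.Agent.P129 H448 H3

/-- Transport of a system along an isomorphism of the ambient spaces. -/
noncomputable def Sys.congr {P Z Z' U : Type*} [Preorder P] [NormedAddCommGroup Z]
    [NormedSpace ℝ Z] [NormedAddCommGroup Z'] [NormedSpace ℝ Z'] [NormedAddCommGroup U]
    [NormedSpace ℝ U] (S : Sys P Z U) (e : Z' ≃L[ℝ] Z) : Sys P Z' U where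
  X p := (S.X p).comap (e : Z' →ₗ[ℝ] Z)
  B := S.B.comp (e : Z' →L[ℝ] Z)
  sigma := S.sigma
  mono h := Submodule.comap_mono (S.mono h)
  dual p Γ C hC hm hb ht := by
    obtain ⟨r, hr, v, h⟩ := S.dual p
      (fun t => (Γ t).comap ((e.symm : Z →ₗ[ℝ] Z').prodMap LinearMap.id))
      (C * ‖(e.symm : Z →L[ℝ] Z')‖) (by positivity)
      (fun s t hst htp => Submodule.comap_mono (hm s t hst htp))
      (fun t htp w hw => by
        refine (hb t htp _ hw).trans ?_
        rw [mul_assoc]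
        exact mul_le_mul_of_nonneg_left ((e.symm : Z →L[ℝ] Z').le_opNorm w.1) hC)
      (fun t htp z hz => ht t htp (e.symm z) (by simpa using hz))
    refine ⟨r, hr, v, fun s hs z hz c hc => h s hs (e z) hz c ?_⟩
    simpa using hc
  kill p v hv := by
    obtain ⟨s, hs, y, hy, δ, hδ, h⟩ := S.kill p v hv
    refine ⟨s, hs, e.symm y, by simpa using hy, δ / (‖(e : Z' →L[ℝ] Z)‖ + 1), by positivity,
      fun w hw => ?_⟩
    have h1 := h (e w) hw
    have h2 := (e : Z' →L[ℝ] Z).le_opNorm (e.symm y - w)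
    rw [map_sub] at h2
    simp only [ContinuousLinearEquiv.coe_coe, ContinuousLinearEquiv.apply_symm_apply] at h2
    rw [div_le_iff₀ (by positivity)]
    nlinarith [norm_nonneg (e.symm y - w)]

/-- the real system -/
noncomputable def badR : Bad ℝ (StrongDual ℝ V) Cond where
  X := Cond.X
  mono _ _ h := Cond.X_mono h
  closed := Cond.isClosed_X
  inf := Cond.exists_inf
  kill := sysR.not_forced Cond.X (fun _ => rfl) Cond.isClosed_X

/-- the complex spaces -/
noncomputable def Cond.XC (p : Cond) : Submodule ℂ (Cx ℂ (StrongDual ℝ V)) where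
  carrier := {f | ∀ z, Cx.toMap f z ∈ p.X}
  add_mem' hf hg z := p.X.add_mem (hf z) (hg z)
  zero_mem' _ := p.X.zero_mem
  smul_mem' c _ hf z := hf (c * z)

theorem Cond.mem_XC {p : Cond} {f : Cx ℂ (StrongDual ℝ V)} :
    f ∈ p.XC ↔ Cx.toMap f 1 ∈ p.X ∧ Cx.toMap f Complex.I ∈ p.X := by
  refine ⟨fun h => ⟨h 1, h _⟩, fun h z => ?_⟩
  have h1 : z = z.re • (1 : ℂ) + z.im • Complex.I := by
    simp
  rw [h1, map_add, map_smul, map_smul]
  exact p.X.add_mem (p.X.smul_mem _ h.1) (p.X.smul_mem _ h.2)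

theorem Cond.isClosed_XC (p : Cond) : IsClosed (p.XC : Set (Cx ℂ (StrongDual ℝ V))) := by
  have : (p.XC : Set (Cx ℂ (StrongDual ℝ V))) = ⋂ z, (fun f => Cx.toMap f z) ⁻¹' p.X := by
    ext f
    simp only [mem_iInter]
    rfl
  rw [this]
  exact isClosed_iInter fun z => p.isClosed_X.preimage (Cx.continuous_toMap_apply z)

/-- the complexification is the dual of the square -/
noncomputable def cxEquiv : Cx ℂ (StrongDual ℝ V) ≃L[ℝ] (V × V →L[ℝ] ℝ) :=
  (Cx.equivProd (𝕜 := ℂ) (X := StrongDual ℝ V) (by simp)).trans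
    (ContinuousLinearMap.coprodEquivL ℝ)

theorem cxEquiv_apply (f : Cx ℂ (StrongDual ℝ V)) :
    cxEquiv f = (Cx.toMap f 1).coprod (Cx.toMap f Complex.I) := rfl

/-- the complex system -/
noncomputable def badC : Bad ℂ (Cx ℂ (StrongDual ℝ V)) Cond where
  X := Cond.XC
  mono _ _ h _ hf z := Cond.X_mono h (hf z)
  closed := Cond.isClosed_XC
  inf q := by
    obtain ⟨r, hr, h⟩ := q.exists_inf
    refine ⟨r, hr, fun hfin => h ?_⟩
    have h1 : Module.Finite ℝ r.XC := Module.Finite.trans ℂ r.XC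
    let L : r.XC →ₗ[ℝ] r.X :=
      { toFun := fun f => ⟨Cx.toMap f.1 1, f.2 1⟩
        map_add' := fun _ _ => rfl
        map_smul' := fun c f => Subtype.ext (Cx.algebraMap_smul_apply (𝕜 := ℂ) c f.1 1) }
    refine Module.Finite.of_surjective L fun x => ?_
    refine ⟨⟨Cx.ofMap (Complex.reCLM.smulRight x.1), fun z => r.X.smul_mem _ x.2⟩, ?_⟩
    apply Subtype.ext
    change Complex.reCLM 1 • x.1 = x.1
    simp
  kill := (sysP.congr cxEquiv).not_forced Cond.XC (fun p => by
    ext f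
    change cxEquiv f ∈ prodDual p.X ↔ f ∈ p.XC
    rw [mem_prodDual, cxEquiv_apply, Cond.mem_XC, ContinuousLinearMap.coprod_comp_inl,
      ContinuousLinearMap.coprod_comp_inr]) Cond.isClosed_XC

/-- Main theorem of part (A1). -/
theorem exists_bad : ∃ (P : Type) (_ : Preorder P) (_ : OrderTop P), SigmaClosed P ∧
    (∃ (Z : Type) (_ : NormedAddCommGroup Z) (_ : NormedSpace ℝ Z) (_ : CompleteSpace Z),
      Nonempty (Bad ℝ Z P)) ∧
    (∃ (Z : Type) (_ : NormedAddCommGroup Z) (_ : NormedSpace ℂ Z) (_ : CompleteSpace Z),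
      Nonempty (Bad ℂ Z P)) :=
  ⟨Cond, inferInstance, inferInstance, sigmaClosed_cond,
    ⟨StrongDual ℝ V, inferInstance, inferInstance, inferInstance, ⟨badR⟩⟩,
    ⟨Cx ℂ (StrongDual ℝ V), inferInstance, inferInstance, inferInstance, ⟨badC⟩⟩⟩

end Vale.Agent.P129Z
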