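import Mathlib.Analysis.RCLike.Basic
import Mathlib.Analysis.Normed.Module.FiniteDimension

/-!
# Part (A): systems of closed subspaces indexed by a poset
-/

namespace Vale.Agent.P129Z

/-- Every decreasing sequence of conditions has a lower bound. -/
def SigmaClosed (P : Type*) [Preorder P] : Prop :=
  ∀ p : ℕ → P, (∀ n, p (n + 1) ≤ p n) → ∃ q, ∀ n, q ≤ p n

/-- The condition `p` forces: `M` is a closed subspace of infinite codimension of the union of the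
spaces `X q` along the generic filter, and `d` is dense modulo `M`. -/
structure ForcedSQ {𝕜 Z P : Type} [RCLike 𝕜] [NormedAddCommGroup Z] [NormedSpace 𝕜 Z] [Preorder P]
    (X : P → Submodule 𝕜 Z) (p : P) (M : P → Submodule 𝕜 Z) (d : ℕ → Z) : Prop where
  mono : ∀ q ≤ p, ∀ r ≤ q, M q ≤ M r
  sub : ∀ q ≤ p, ∀ z ∈ M q, ∃ r ≤ q, z ∈ X r
  d_mem : ∀ n, d n ∈ X p
  codim : ∀ q ≤ p, ∀ F : Finset Z, (∀ z ∈ F, z ∈ X q) →
    ∃ r ≤ q, ∃ z ∈ X r, ∀ s ≤ r, z ∉ M s ⊔ Submodule.span 𝕜 (F : Set Z)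
  closed : ∀ q ≤ p, ∀ z ∈ X q, (∀ r ≤ q, ∀ ε > 0, ∃ s ≤ r, ∃ m ∈ M s, ‖z - m‖ < ε) → z ∈ M q
  sep : ∀ q ≤ p, ∀ z ∈ X q, ∀ ε > 0, ∃ r ≤ q, ∃ n, ∃ m ∈ M r, ‖z - d n - m‖ < ε

/-- An increasing system of closed subspaces, of unbounded dimension, such that no condition forces
a separable infinite-dimensional quotient of the union. -/
structure Bad (𝕜 Z P : Type) [RCLike 𝕜] [NormedAddCommGroup Z] [NormedSpace 𝕜 Z] [Preorder P] where
  X : P → Submodule 𝕜 Z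
  mono : ∀ q r, r ≤ q → X q ≤ X r
  closed : ∀ q, IsClosed (X q : Set Z)
  inf : ∀ q, ∃ r ≤ q, ¬ FiniteDimensional 𝕜 (X r)
  kill : ∀ p M d, ¬ ForcedSQ X p M d

/-- Countably many sets which are dense below `p` are met above a single condition. -/
theorem SigmaClosed.baire {P : Type*} [Preorder P] (h : SigmaClosed P) {ι : Type*} [Countable ι]
    (D : ι → P → Prop) (p : P) (hd : ∀ i, ∀ q ≤ p, ∃ r ≤ q, D i r) :
    ∃ r ≤ p, ∀ i, ∃ s, r ≤ s ∧ s ≤ p ∧ D i s := by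
  rcases isEmpty_or_nonempty ι with hι | hι
  · exact ⟨p, le_rfl, fun i => isEmptyElim i⟩
  obtain ⟨e, he⟩ := exists_surjective_nat ι
  have h1 : ∀ (n : ℕ) (q : {q // q ≤ p}), ∃ r : {q // q ≤ p}, r.1 ≤ q.1 ∧ D (e n) r.1 := by
    intro n q
    obtain ⟨r, hr, hD⟩ := hd (e n) q.1 q.2
    exact ⟨⟨r, hr.trans q.2⟩, hr, hD⟩
  choose nx hnx hD using h1
  let f : ℕ → {q // q ≤ p} := fun n => Nat.rec ⟨p, le_rfl⟩ (fun n q => nx n q) n
  have hf : ∀ n, f (n + 1) = nx n (f n) := fun n => rfl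
  obtain ⟨q, hq⟩ := h (fun n => (f n).1) fun n => by rw [hf]; exact hnx n (f n)
  refine ⟨q, hq 0, fun i => ?_⟩
  obtain ⟨n, rfl⟩ := he i
  exact ⟨(f (n + 1)).1, hq (n + 1), (f (n + 1)).2, by rw [hf]; exact hD n (f n)⟩

/-- The same for sets which are closed downwards. -/
theorem SigmaClosed.baire_open {P : Type*} [Preorder P] (h : SigmaClosed P) {ι : Type*}
    [Countable ι] (D : ι → P → Prop) (p : P) (hd : ∀ i, ∀ q ≤ p, ∃ r ≤ q, D i r)
    (ho : ∀ i r s, r ≤ s → s ≤ p → D i s → D i r) : ∃ r ≤ p, ∀ i, D i r := by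
  obtain ⟨r, hr, h1⟩ := h.baire D p hd
  refine ⟨r, hr, fun i => ?_⟩
  obtain ⟨s, h2, h3, h4⟩ := h1 i
  exact ho i r s h2 h3 h4

end Vale.Agent.P129Z
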