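import Vale.Agent.P129Z.Reals
import Mathlib.Analysis.Complex.Basic

/-!
# The complex numbers, coded as pairs of real numbers
-/

namespace Vale.Agent.P129Z

universe v

variable {N : Type v} [ZM N] [Coded N ℝ]

noncomputable instance codedComplex : Coded N ℂ :=
  Coded.pull (α := ℝ × ℝ) (fun z => (z.re, z.im))
    (fun _ _ _ _ h => Complex.ext (Prod.ext_iff.1 h).1 (Prod.ext_iff.1 h).2)
    ((DefF.const True).congrP fun p _ => iff_of_true trivial ⟨⟨p.1, p.2⟩, rfl⟩)

theorem code_complex (z : ℂ) : code N z = op (code N z.re) (code N z.im) := rfl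

theorem intl_complex {z : ℂ} : Intl N z ↔ Intl N z.re ∧ Intl N z.im :=
  intl_iff.trans (intl_prod (p := (z.re, z.im)))

theorem defF_reim : DefF N (fun z : ℂ => (z.re, z.im)) :=
  ⟨fun _ h => intl_iff.1 h, (DefF.id (N := N) (α := ℂ)).2⟩

instance ksetComplex [RSet N] : KSet N ℂ where
  car := by
    obtain ⟨A, hA⟩ := Bdd.car (N := N) (α := ℝ × ℝ)
    refine ⟨A, fun x => (hA x).trans ⟨?_, ?_⟩⟩
    · rintro ⟨p, hp, rfl⟩
      exact ⟨⟨p.1, p.2⟩, intl_complex.2 (intl_prod.1 hp), rfl⟩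
    · rintro ⟨z, hz, rfl⟩
      exact ⟨(z.re, z.im), intl_iff.1 hz, rfl⟩
  re := defF_reim.fst
  im := defF_reim.snd
  mk' a b ha hb := intl_complex.2 (by simpa using ⟨ha, hb⟩)

end Vale.Agent.P129Z
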