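import Vale.Agent.P129Z.Force
import Vale.Agent.P129Z.Cplx
import Vale.Agent.P129Z.ADefs

/-!
# Ground types coded in a generic model by atoms
-/

namespace Vale.Agent.P129Z

open Filter Topology

universe v w

variable {P : Type} [Preorder P] [OrderTop P]

/-- Either a witness is found, or a member of the filter excludes all witnesses. -/
theorem ev_dich {A : Type v} {B : Type w} [Small.{1} A] [Small.{1} B] [Nonempty B]
    (R : A → P → B → Prop) : ∀ᶠ g in gen P, ∀ a, g.In a →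
      (∃ q ∈ g.G, ∃ b, g.In b ∧ R a q b) ∨ ∃ q ∈ g.G, ∀ r ≤ q, ∀ b, ¬ R a r b := by
  filter_upwards [ev_task (P := P) fun a q b => R a q b ∨ ∀ r ≤ q, ∀ b, ¬ R a r b] with g h a ha
  obtain ⟨q, hq, -, b, hb, h1 | h1⟩ := h a ha ⊤ g.top fun q _ => by
    by_cases h2 : ∃ r ≤ q, ∃ b, R a r b
    · obtain ⟨r, hr, b, h3⟩ := h2
      exact ⟨r, hr, b, Or.inl h3⟩
    · push Not at h2
      exact ⟨q, le_rfl, Classical.arbitrary B, Or.inr h2⟩
  · exact Or.inl ⟨q, hq, b, hb, h1⟩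
  · exact Or.inr ⟨q, hq, h1⟩

/-- the terms of a sequence which is an object are objects -/
theorem ev_term (α : Type) : ∀ᶠ g in gen P, ∀ s : ℕ → α, g.In s → ∀ n, g.In (s n) := by
  filter_upwards [ev_countable (P := P) fun s : ℕ → α => Set.range s] with g h s hs n
  exact h s hs (Set.countable_range s) _ ⟨n, rfl⟩

/-- names for the elements of a ground type -/
structure Naming (P : Type) [Preorder P] (α : Type) where
  nm : α → Nm P
  inj : ∀ {a b : α} {p : P}, feq (nm a) (nm b) p → a = b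

variable {α β : Type}

/-- atoms as names -/
noncomputable def Naming.atoms (α : Type) : Naming P α := ⟨atom, feq_atom.1⟩

/-- pairs of names -/
def Naming.prod (ν : Naming P α) (μ : Naming P β) : Naming P (α × β) :=
  ⟨fun x => opN (ν.nm x.1) (μ.nm x.2),
    fun h => Prod.ext (ν.inj (feq_opN.1 h).1) (μ.inj (feq_opN.1 h).2)⟩

/-- The codes are the values of the names. -/
def Named (g : Gen P) [Coded g.N α] (ν : Naming P α) : Prop :=
  ∀ a : α, Intl g.N a → ν.nm a ∈ g.S ∧ code g.N a = g.val (ν.nm a)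

theorem Named.prod {g : Gen P} [Coded g.N α] [Coded g.N β] {ν : Naming P α} {μ : Naming P β}
    (h : Named g ν) (k : Named g μ) : Named g (ν.prod μ) := fun x _ => by
  obtain ⟨h1, h2⟩ := h x.1 inferInstance
  obtain ⟨h3, h4⟩ := k x.2 inferInstance
  exact ⟨g.opN_mem h1 h3, by rw [code_prod, h2, h4]; exact (g.val_opN h1 h3).symm⟩

/-- Ground predicates are definable. -/
theorem ev_defP (ν : Naming P α) (R : α → Prop) :
    ∀ᶠ g in gen P, ∀ [Coded g.N α], Named g ν → DefF g.N R := by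
  filter_upwards [ev_const (P := P) (setN fun a : {a // R a} => ν.nm a.1)] with g h _ hν
  have h1 := g.mem_S.2 h
  refine (DefF.memN defF_code (DefF.const (g.val (setN fun a : {a // R a} => ν.nm a.1)))).congrP
    fun a ha => ?_
  obtain ⟨h2, h3⟩ := hν a ha
  rw [g.mem_val_setN h1, h3]
  constructor
  · rintro ⟨b, hb, h4⟩
    obtain ⟨p, -, h5⟩ := (g.val_eq hb h2).1 h4
    exact ν.inj h5 ▸ b.2
  · intro h4
    exact ⟨⟨a, h4⟩, h2, rfl⟩

/-- Ground functions which preserve the internal elements are definable. -/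
theorem ev_defF (ν : Naming P α) (μ : Naming P β) (f : α → β) :
    ∀ᶠ g in gen P, ∀ [Coded g.N α] [Coded g.N β], Named g ν → Named g μ →
      (∀ a, Intl g.N a → Intl g.N (f a)) → DefF g.N f := by
  filter_upwards [ev_defP (ν.prod μ) fun x => f x.1 = x.2] with g h _ _ hν hμ hf
  exact defF_of_graph hf (h (hν.prod hμ))

/-- the name of the union along the filter -/
noncomputable def famN (A : P → Set α) : Nm P :=
  .mk {x : P × α // x.2 ∈ A x.1} (fun x => x.1.1) (fun x => atom x.1.2)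

/-- The internal elements are the objects in the union along the filter, coded by atoms. -/
structure AtomCoded (g : Gen P) [Coded g.N α] (A : P → Set α) : Prop where
  intl : ∀ a : α, Intl g.N a ↔ g.In a ∧ ∃ p ∈ g.G, a ∈ A p
  code : ∀ a : α, code g.N a = g.val (atom a)
  mem : ∀ a : α, (atom a : Nm P) ∈ g.S ↔ g.In a
  bdd : Bdd g.N α

theorem ev_atomCoded (A : P → Set α) : ∀ᶠ g in gen P, ∃ _ : Coded g.N α, AtomCoded g A := by
  filter_upwards [ev_const (P := P) (famN A), ev_atom (P := P) α] with g h1 h2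
  have h3 : ∀ x, x ∈ g.val (famN A) ↔
      ∃ a : α, (g.In a ∧ ∃ p ∈ g.G, a ∈ A p) ∧ g.val (atom a) = x := by
    intro x
    rw [famN, g.mem_val_mk (g.mem_S.2 h1)]
    constructor
    · rintro ⟨⟨⟨p, a⟩, ha⟩, hp, h4, h5⟩
      exact ⟨a, ⟨(h2 a).1 h4, p, hp, ha⟩, h5⟩
    · rintro ⟨a, ⟨h4, p, hp, ha⟩, h5⟩
      exact ⟨⟨(p, a), ha⟩, hp, (h2 a).2 h4, h5⟩
  let inst : Coded g.N α :=
    { Int := fun a => g.In a ∧ ∃ p ∈ g.G, a ∈ A p
      code := fun a => g.val (atom a)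
      inj := fun ha hb h => (g.val_atom_inj ((h2 _).2 ha.1) ((h2 _).2 hb.1)).1 h
      dom := (DefF.memN DefF.id (DefF.const (g.val (famN A)))).d1.congr h3 }
  refine ⟨inst, fun a => intl_iff, fun a => rfl, h2, ⟨g.val (famN A), fun x => (h3 x).trans ?_⟩⟩
  exact exists_congr fun a => and_congr (intl_iff (N := g.N) (a := a)).symm Iff.rfl

namespace AtomCoded

variable {g : Gen P} [Coded g.N α] {A : P → Set α}

theorem named (h : AtomCoded g A) : Named g (Naming.atoms α) := fun a ha =>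
  ⟨(h.mem a).2 ((h.intl a).1 ha).1, h.code a⟩

theorem isIn (h : AtomCoded g A) {a : α} (ha : Intl g.N a) : g.In a := ((h.intl a).1 ha).1

/-- An internal set is given by a name. -/
theorem exists_name (h : AtomCoded g A) {s : Set α} (hs : Intl g.N s) :
    ∃ τ : Nm P, g.In τ ∧ ∀ a : α, g.In a → (a ∈ s ↔ ∃ q ∈ g.G, fmem (atom a) τ q) := by
  obtain ⟨τ, hτ, h1⟩ := g.val_surj (P129Z.code g.N s)
  refine ⟨τ, g.mem_S.1 hτ, fun a ha => ?_⟩
  have h2 := (h.mem a).2 ha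
  rw [← g.val_mem' h2 hτ, h1, mem_code_set hs]
  constructor
  · intro h3
    exact ⟨a, h3, h.code a⟩
  · rintro ⟨b, hb, h3⟩
    rw [h.code] at h3
    exact (g.val_atom_inj ((h.mem b).2 (h.isIn (hs.of_mem hb))) h2).1 h3 ▸ hb

end AtomCoded

/-- Internal sequences are ground objects. -/
theorem ev_seq (hσ : SigmaClosed P) (α : Type) [Nonempty α] :
    ∀ᶠ g in gen P, ∀ [Coded g.N α] (A : P → Set α), AtomCoded g A →
      ∀ s : ℕ → α, Intl g.N s → g.In s := by
  filter_upwards [ev_task (P := P) fun (τ : Nm P) r (f : ℕ → α) =>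
      (∀ n, fmem (opN (numN n) (atom (f n))) τ r) ∨
        ∃ n, ∀ r' ≤ r, ∀ a : α, ¬ fmem (opN (numN n) (atom a)) τ r',
    ev_term (P := P) α] with g h1 h2 _ A hA s hs
  have hs' := intl_fun_graph.1 hs
  obtain ⟨τ, hτ, h3⟩ := g.val_surj (code g.N (graph s))
  have key : ∀ n (a : α), g.In a → ((∃ p ∈ g.G, fmem (opN (numN n) (atom a)) τ p) ↔ s n = a) := by
    intro n a ha
    have h4 := (hA.mem a).2 ha
    rw [← g.val_mem' (g.opN_mem (g.numN_mem n) h4) hτ, h3, mem_code_set hs',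
      g.val_opN (g.numN_mem n) h4, g.val_numN]
    constructor
    · rintro ⟨⟨m, b⟩, hb, h5⟩
      have h6 : s m = b := hb
      rw [code_prod, op_inj, code_nat, num_inj, hA.code] at h5
      obtain ⟨rfl, h7⟩ := h5
      have h8 : Intl g.N (s m) := inferInstance
      rw [h6] at h8 ⊢
      exact (g.val_atom_inj ((hA.mem b).2 (hA.isIn h8)) h4).1 h7
    · rintro rfl
      exact ⟨(n, s n), rfl, by rw [code_prod, code_nat, hA.code]⟩
  obtain ⟨q, hq, -, f, hf, h4 | ⟨n, h4⟩⟩ := h1 τ (g.mem_S.1 hτ) ⊤ g.top fun q _ => by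
    by_cases h5 : ∃ r ≤ q, ∃ n, ∀ r' ≤ r, ∀ a : α, ¬ fmem (opN (numN n) (atom a)) τ r'
    · obtain ⟨r, hr, h6⟩ := h5
      exact ⟨r, hr, Classical.arbitrary _, Or.inr h6⟩
    · push Not at h5
      obtain ⟨r, hr, h6⟩ := hσ.baire_open
        (fun n r => ∃ a : α, fmem (opN (numN n) (atom a)) τ r) q
        (fun n r hr => h5 r hr n) (fun n r r' h _ ⟨a, ha⟩ => ⟨a, ha.mono h⟩)
      choose f hf using h6
      exact ⟨r, hr, f, Or.inl hf⟩
  · have : s = f := funext fun n => (key n (f n) (h2 f hf n)).1 ⟨q, hq, h4 n⟩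
    rw [this]
    exact hf
  · obtain ⟨p, hp, h5⟩ := (key n (s n) (hA.isIn inferInstance)).2 rfl
    obtain ⟨r, -, h6, h7⟩ := g.dir hp hq
    exact absurd (h5.mono h6) (h4 r h7 _)

/-- The terms of a ground sequence enter the union at a single condition. -/
theorem ev_seq_bound (hσ : SigmaClosed P) (A : P → Set α) (hA : ∀ q r, r ≤ q → A q ⊆ A r) :
    ∀ᶠ g in gen P, ∀ s : ℕ → α, g.In s → (∀ n, ∃ p ∈ g.G, s n ∈ A p) →
      ∃ p ∈ g.G, ∀ n, s n ∈ A p := by
  filter_upwards [ev_dense (P := P) fun (s : ℕ → α) r =>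
    (∀ n, s n ∈ A r) ∨ ∃ n, ∀ r' ≤ r, s n ∉ A r'] with g h s hs h1
  obtain ⟨q, hq, -, h2 | ⟨n, h2⟩⟩ := h s hs ⊤ g.top fun q _ => by
    by_cases h5 : ∃ r ≤ q, ∃ n, ∀ r' ≤ r, s n ∉ A r'
    · obtain ⟨r, hr, h6⟩ := h5
      exact ⟨r, hr, Or.inr h6⟩
    · push Not at h5
      obtain ⟨r, hr, h6⟩ := hσ.baire_open (fun n r => s n ∈ A r) q
        (fun n r hr => h5 r hr n) (fun n r r' h _ ha => hA r' r h ha)
      exact ⟨r, hr, Or.inl h6⟩
  · exact ⟨q, hq, h2⟩
  · obtain ⟨p, hp, h3⟩ := h1 n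
    obtain ⟨r, -, h6, h7⟩ := g.dir hp hq
    exact absurd (hA p r h6 h3) (h2 r h7)

omit [OrderTop P] in
/-- A set of points of a second countable space is decided up to closure. -/
theorem exists_decide_closure (hσ : SigmaClosed P) [TopologicalSpace α]
    [SecondCountableTopology α] (M : P → Set α) (hM : ∀ q r, r ≤ q → M q ⊆ M r) (q : P) :
    ∃ r ≤ q, ∃ W : Set α, W.Countable ∧ W ⊆ M r ∧ ∀ r' ≤ r, M r' ⊆ closure W := by
  have := (TopologicalSpace.countable_countableBasis α).to_subtype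
  obtain ⟨r, hr, h⟩ := hσ.baire_open (ι := TopologicalSpace.countableBasis α)
    (fun U r => (∃ x ∈ M r, x ∈ U.1) ∨ ∀ r' ≤ r, ∀ x ∈ M r', x ∉ U.1) q
    (fun U r _ => by
      by_cases h5 : ∃ r' ≤ r, ∃ x ∈ M r', x ∈ U.1
      · obtain ⟨r', hr', h6⟩ := h5
        exact ⟨r', hr', Or.inl h6⟩
      · push Not at h5
        exact ⟨r, le_rfl, Or.inr h5⟩)
    (fun U r s hrs _ h => h.imp (fun ⟨x, hx, h1⟩ => ⟨x, hM s r hrs hx, h1⟩)
      fun h1 r' hr' => h1 r' (hr'.trans hrs))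
  let T := {U : TopologicalSpace.countableBasis α // ∃ x ∈ M r, x ∈ U.1}
  have h1 : ∀ U : T, ∃ x ∈ M r, x ∈ U.1.1 := fun U => U.2
  choose w hw1 hw2 using h1
  refine ⟨r, hr, Set.range w, Set.countable_range w, ?_, fun r' hr' x hx => ?_⟩
  · rintro _ ⟨U, rfl⟩
    exact hw1 U
  · rw [(TopologicalSpace.isBasis_countableBasis α).mem_closure_iff]
    intro U hU hxU
    rcases h ⟨U, hU⟩ with h2 | h2
    · exact ⟨w ⟨⟨U, hU⟩, h2⟩, hw2 ⟨⟨U, hU⟩, h2⟩, ⟨_, rfl⟩⟩
    · exact absurd hxU (h2 r' hr' x hx)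

theorem AtomCoded.intl_univ {g : Gen P} [Coded g.N α] (h : AtomCoded g fun _ => (Set.univ : Set α))
    {a : α} : Intl g.N a ↔ g.In a :=
  (h.intl a).trans ⟨fun h => h.1, fun h => ⟨h, ⊤, g.top, trivial⟩⟩

/-- The real numbers of the generic model. -/
theorem ev_rset (hσ : SigmaClosed P) : ∀ᶠ g in gen P, ∀ [Coded g.N ℝ],
    AtomCoded g (fun _ => (Set.univ : Set ℝ)) → RSet g.N := by
  let ν : Naming P ℝ := Naming.atoms ℝ
  filter_upwards [ev_defF (ν.prod ν) ν fun x => x.1 + x.2, ev_defF (ν.prod ν) ν fun x => x.1 * x.2,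
    ev_defP (ν.prod ν) fun x => x.1 < x.2, ev_fun₂ (P := P) fun x y : ℝ => x + y,
    ev_fun₂ (P := P) fun x y : ℝ => x * y, ev_fun (P := P) fun x : ℝ => -x,
    ev_fun (P := P) fun x : ℝ => x⁻¹, ev_const (P := P) (1 : ℝ),
    ev_fun (P := P) fun W : Set ℝ => sSup W, ev_countable (P := P) fun W : Set ℝ => W,
    ev_task (P := P) fun (τ : Nm P) r (W : Set ℝ) => W.Countable ∧
      W ⊆ {x | fmem (atom x) τ r} ∧ ∀ r' ≤ r, {x : ℝ | fmem (atom x) τ r'} ⊆ closure W]
    with g h1 h2 h3 h4 h5 h6 h7 h8 h9 h10 h11 _ hA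
  have hν := hA.named
  have := hA.bdd
  refine { add := ⟨h1 (hν.prod hν) hν fun x _ => ?_⟩, mul := ⟨h2 (hν.prod hν) hν fun x _ => ?_⟩
           lt := ⟨h3 (hν.prod hν)⟩, neg := fun a ha => ?_, inv := fun a ha => ?_
           one := hA.intl_univ.2 h8, sup := fun s hs hne hb => ?_ }
  · exact hA.intl_univ.2 (h4 _ _ (hA.isIn inferInstance) (hA.isIn inferInstance))
  · exact hA.intl_univ.2 (h5 _ _ (hA.isIn inferInstance) (hA.isIn inferInstance))
  · exact hA.intl_univ.2 (h6 _ (hA.isIn ha))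
  · exact hA.intl_univ.2 (h7 _ (hA.isIn ha))
  · obtain ⟨τ, hτ, h12⟩ := hA.exists_name hs
    obtain ⟨q, hq, -, W, hW, hWc, hW1, hW2⟩ := h11 τ hτ ⊤ g.top fun q _ =>
      exists_decide_closure hσ (fun r => {x : ℝ | fmem (atom x) τ r})
        (fun _ _ h _ hx => fmem.mono hx h) q
    have hWs : W ⊆ s := fun x hx => (h12 x (h10 W hW hWc x hx)).2 ⟨q, hq, hW1 hx⟩
    have hsW : s ⊆ closure W := fun x hx => by
      obtain ⟨p, hp, h13⟩ := (h12 x (hA.isIn (hs.of_mem hx))).1 hx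
      obtain ⟨r, -, h14, h15⟩ := g.dir hp hq
      exact hW2 r h15 (h13.mono h14)
    have hWne : W.Nonempty := by
      obtain ⟨x, hx⟩ := hne
      exact closure_nonempty_iff.1 ⟨x, hsW hx⟩
    have : sSup s = sSup W := by
      refine le_antisymm (csSup_le hne fun x hx => ?_) (csSup_le_csSup hb hWne hWs)
      exact isClosed_Iic.closure_subset_iff.2 (fun y hy => le_csSup (hb.mono hWs) hy) (hsW hx)
    rw [this]
    exact hA.intl_univ.2 (h9 W hW)

/-- names of complex numbers -/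
noncomputable def Naming.cplx : Naming P ℂ :=
  ⟨fun z => opN (atom z.re) (atom z.im),
    fun h => Complex.ext (feq_atom.1 (feq_opN.1 h).1) (feq_atom.1 (feq_opN.1 h).2)⟩

/-- The complex numbers of the generic model. -/
theorem ev_cplx : ∀ᶠ g in gen P, ∀ [Coded g.N ℝ], AtomCoded g (fun _ => (Set.univ : Set ℝ)) →
    Named g Naming.cplx ∧ ∀ c : ℂ, Intl g.N c ↔ g.In c := by
  filter_upwards [ev_fun (P := P) Complex.re, ev_fun (P := P) Complex.im,
    ev_fun₂ (P := P) Complex.mk] with g h1 h2 h3 _ hR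
  refine ⟨fun c hc => ?_, fun c => ?_⟩
  · exact (hR.named.prod hR.named) (c.re, c.im) (intl_prod.2 (intl_complex.1 hc))
  · rw [intl_complex, hR.intl_univ, hR.intl_univ]
    exact ⟨fun h => h3 _ _ h.1 h.2, fun h => ⟨h1 c h, h2 c h⟩⟩

end Vale.Agent.P129Z
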