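import Vale.Agent.P129Z.HB
import Mathlib.Analysis.Normed.Module.FiniteDimension
import Mathlib.Analysis.Normed.Operator.Extend
import Mathlib.Analysis.Normed.Operator.BoundedLinearMaps
import Mathlib.Analysis.Normed.Operator.CompleteCodomain

/-!
# Internal Banach spaces inside an outer normed space
-/

namespace Vale.Agent.P129Z

open Filter Topology

universe v

/-- The internal points of `E` form an internal Banach space. -/
class PreSet (N : Type v) [ZM N] [Coded N ℝ] (𝕜 : outParam Type*) [RCLike 𝕜] [Coded N 𝕜]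
    (E : Type*) [Coded N E] [NormedAddCommGroup E] [NormedSpace 𝕜 E] : Prop extends NGrp N E where
  smul : DefSMul N 𝕜 E

attribute [instance] PreSet.smul

/-- The internal points of `E` form an internal Banach space which is dense in `E`. -/
class Setting (N : Type v) [ZM N] [Coded N ℝ] (𝕜 : outParam Type*) [RCLike 𝕜] [Coded N 𝕜]
    (E : Type*) [Coded N E] [NormedAddCommGroup E] [NormedSpace 𝕜 E] : Prop
    extends PreSet N 𝕜 E where
  dense : Dense {x : E | Intl N x}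

section Defs

variable (N : Type v) [ZM N] (𝕜 : Type*) [RCLike 𝕜] [Coded N 𝕜]
  {E : Type*} [Coded N E] [NormedAddCommGroup E] [NormedSpace 𝕜 E]

/-- internal linear subspaces -/
structure IsISub (M : Set E) : Prop where
  intl : Intl N M
  zero : (0 : E) ∈ M
  add : ∀ x ∈ M, ∀ y ∈ M, x + y ∈ M
  smul : ∀ c : 𝕜, Intl N c → ∀ x ∈ M, c • x ∈ M

/-- finite codimension, internally -/
def IFinCodim (M : Set E) : Prop :=
  ∃ (n : ℕ) (v : ℕ → E), (∀ i, Intl N (v i)) ∧ ∀ x : E, Intl N x →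
    ∃ c : ℕ → 𝕜, (∀ i, Intl N (c i)) ∧ x - ∑ i ∈ Finset.range n, c i • v i ∈ M

variable (E)

/-- finite dimension, internally -/
def IFinDim : Prop := IFinCodim N 𝕜 ({0} : Set E)

/-- a separable infinite-dimensional quotient, internally -/
def AbsSQ : Prop :=
  ∃ M : Set E, IsISub N 𝕜 M ∧ (∀ x : E, Intl N x → x ∈ closure M → x ∈ M) ∧ ¬ IFinCodim N 𝕜 M ∧
    ∃ d : ℕ → E, Intl N d ∧ ∀ x : E, Intl N x → ∀ ε > 0, ∃ n, ∃ m ∈ M, ‖x - d n - m‖ < ε

end Defs

/-- The free set principle for the family `r` of sequences. -/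
def FSFor (N : Type v) [ZM N] (I : Type*) [Coded N I] [Tot N I] [DecidableEq I]
    (r : I → ℕ → ℕ) : Prop :=
  Intl N r ∧ (∀ a k, r a k < 32 ^ k) ∧
    ∀ S : Set (Finset I × ℕ × ℕ × ℕ), Intl N S →
      (∀ (T : Finset I) (m k : ℕ) (s : Finset ℕ), (∀ x ∈ s, x < 32 ^ k ∧ (T, m, k, x) ∈ S) →
        s.card ≤ 16 ^ k) →
      ∃ g : ℕ → I, Intl N g ∧ Function.Injective g ∧ ∀ (T : Finset ℕ) (j : ℕ), j ∉ T → ∀ m,
        ∀ᶠ k in atTop, (T.image g, m, k, r (g j) k) ∉ S

open Classical in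
/-- The free set principle. -/
def FS (N : Type v) [ZM N] : Prop := ∃ (A : N) (r : El A → ℕ → ℕ), FSFor N (El A) r

variable {N : Type v} [ZM N]

/-- The free set principle for definable families of bad sets which are small for large `k`. -/
theorem FSFor.apply {I : Type*} [Coded N I] [Tot N I] [DecidableEq I] {r : I → ℕ → ℕ}
    (h : FSFor N I r) (B : Finset I → ℕ → ℕ → ℕ → Prop)
    (hB : DefF N (fun p : Finset I × ℕ × ℕ × ℕ => B p.1 p.2.1 p.2.2.1 p.2.2.2))
    (hc : ∀ T m, ∀ᶠ k in atTop, ∀ s : Finset ℕ, (∀ x ∈ s, x < 32 ^ k ∧ B T m k x) →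
      s.card ≤ 16 ^ k) :
    ∃ g : ℕ → I, Intl N g ∧ Function.Injective g ∧ ∀ (T : Finset ℕ) (j : ℕ), j ∉ T → ∀ m,
      ∀ᶠ k in atTop, ¬ B (T.image g) m k (r (g j) k) := by
  have hB' : ∀ {α : Type _} [Coded N α] {f : α → Finset I} {g h i : α → ℕ}, DefF N f → DefF N g →
      DefF N h → DefF N i → DefF N (fun a => B (f a) (g a) (h a) (i a)) := by
    intro α _ f g h i hf hg hh hi
    exact DefF.comp (f := fun p : Finset I × ℕ × ℕ × ℕ => B p.1 p.2.1 p.2.2.1 p.2.2.2)
      (g := fun a => (f a, g a, h a, i a)) hB (by fun_prop)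
  have hS : Intl N {p : Finset I × ℕ × ℕ × ℕ | B p.1 p.2.1 p.2.2.1 p.2.2.2 ∧
      ∀ s : Finset ℕ, (∀ x ∈ s, x < 32 ^ p.2.2.1 ∧ B p.1 p.2.1 p.2.2.1 x) →
        s.card ≤ 16 ^ p.2.2.1} := by
    refine intl_setOfT (hB.and (DefF.allT (DefF.imp (DefF.ballF (by fun_prop)
      (DefF.and (by fun_prop) (hB' ?_ ?_ ?_ ?_))) (by fun_prop)))) <;> fun_prop
  obtain ⟨g, h1, h2, h3⟩ := h.2.2 _ hS fun T m k s hs => by
    rcases s.eq_empty_or_nonempty with rfl | ⟨x, hx⟩
    · simp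
    · exact (hs x hx).2.2 s fun y hy => ⟨(hs y hy).1, (hs y hy).2.1⟩
  refine ⟨g, h1, h2, fun T j hj m => ?_⟩
  filter_upwards [h3 T j hj m, hc (T.image g) m] with k h4 h5 h6
  exact h4 ⟨h6, h5⟩

variable {α β : Type*} [Coded N α] [Coded N β]
variable [Coded N ℝ] [RSet N] {𝕜 : Type*} [RCLike 𝕜] [Coded N 𝕜] [KSet N 𝕜]
  {E : Type*} [Coded N E] [NormedAddCommGroup E] [NormedSpace 𝕜 E]

/-! ### Internal functionals -/

section Dual

variable [Setting N 𝕜 E]

omit [RSet N] [KSet N 𝕜] in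
variable (𝕜) in
include 𝕜 in
theorem dense_intl : Dense {x : E | Intl N x} := Setting.dense (𝕜 := 𝕜)

/-- A bounded function which is linear on the internal points extends to a functional. -/
theorem exists_clm_extend (l : E → 𝕜) (add : ∀ x y, Intl N x → Intl N y → l (x + y) = l x + l y)
    (smul : ∀ (c : 𝕜) (x : E), Intl N c → Intl N x → l (c • x) = c * l x) (C : ℝ)
    (bd : ∀ x, Intl N x → ‖l x‖ ≤ C * ‖x‖) : ∃ φ : E →L[𝕜] 𝕜, ∀ x, Intl N x → φ x = l x := by
  have hd := dense_intl (N := N) 𝕜 (E := E)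
  have hsub : ∀ x y, Intl N x → Intl N y → l x - l y = l (x - y) := fun x y hx hy => by
    have := add (x - y) y inferInstance hy
    rw [sub_add_cancel] at this
    rw [this, add_sub_cancel_right]
  have hu : UniformContinuous (fun x : {x : E | Intl N x} => l x) := by
    refine (LipschitzWith.of_dist_le_mul (K := ⟨max C 0, le_max_right _ _⟩)
      fun x y => ?_).uniformContinuous
    have hx : Intl N x.1 := x.2
    have hy : Intl N y.1 := y.2
    rw [dist_eq_norm, hsub _ _ hx hy, Subtype.dist_eq, dist_eq_norm]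
    exact (bd _ inferInstance).trans
      (mul_le_mul_of_nonneg_right (le_max_left _ _) (norm_nonneg _))
  let L : E → 𝕜 := hd.extend (fun x => l x)
  have hL : ∀ x, Intl N x → L x = l x := fun x hx => hd.extend_of_ind hu ⟨x, hx⟩
  have hc : Continuous L := (hd.uniformContinuous_extend hu).continuous
  have h1 : (fun p : E × E => L (p.1 + p.2)) = fun p => L p.1 + L p.2 :=
    Continuous.ext_on (hd.prod hd) (by fun_prop) (by fun_prop) fun p hp => by
      have h1 : Intl N p.1 := hp.1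
      have h2 : Intl N p.2 := hp.2
      beta_reduce
      rw [hL _ h1, hL _ h2, hL _ inferInstance, add _ _ h1 h2]
  have h2 : (fun p : 𝕜 × E => L (p.1 • p.2)) = fun p => p.1 * L p.2 :=
    Continuous.ext_on ((dense_intl_scalar (N := N)).prod hd) (by fun_prop) (by fun_prop)
      fun p hp => by
        have h1 : Intl N p.1 := hp.1
        have h2 : Intl N p.2 := hp.2
        beta_reduce
        rw [hL _ h2, hL _ inferInstance, smul _ _ h1 h2]
  exact ⟨⟨⟨⟨L, fun x y => congrFun h1 (x, y)⟩, fun c x => congrFun h2 (c, x)⟩, hc⟩, hL⟩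

variable (N) in
/-- the graph of a functional on the internal points -/
def clmGraph (φ : E →L[𝕜] 𝕜) : Set (E × 𝕜) := {p | Intl N p.1 ∧ φ p.1 = p.2}

omit [RSet N] [KSet N 𝕜] in
theorem clm_ext_intl {φ ψ : E →L[𝕜] 𝕜} (h : ∀ x, Intl N x → φ x = ψ x) : φ = ψ :=
  ContinuousLinearMap.ext fun x => congrFun
    (Continuous.ext_on (dense_intl (N := N) 𝕜) φ.continuous ψ.continuous h) x

theorem defF_isClmGraph : DefF N (fun s : Set (E × 𝕜) => ∃ φ, clmGraph N φ = s) := by
  have : DefF N (fun s : Set (E × 𝕜) => (∀ x : E, Intl N x → ∃ c : 𝕜, Intl N c ∧ (x, c) ∈ s) ∧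
      (∀ p ∈ s, ∀ q ∈ s, p.1 = q.1 → p.2 = q.2) ∧
      (∀ p ∈ s, ∀ q ∈ s, (p.1 + q.1, p.2 + q.2) ∈ s) ∧
      (∀ c : 𝕜, Intl N c → ∀ p ∈ s, (c • p.1, c * p.2) ∈ s) ∧
      ∃ C : ℝ, Intl N C ∧ ∀ p ∈ s, ‖p.2‖ ≤ C * ‖p.1‖) := by fun_prop
  refine this.congrP fun s hs => ⟨?_, ?_⟩
  · rintro ⟨h1, h2, h3, h4, C, -, h5⟩
    choose! l _ hl using h1
    obtain ⟨φ, hφ⟩ := exists_clm_extend (N := N) l
      (fun x y hx hy => h2 _ (hl _ inferInstance) _ (h3 _ (hl x hx) _ (hl y hy)) rfl)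
      (fun c x hc hx => h2 _ (hl _ inferInstance) _ (h4 c hc _ (hl x hx)) rfl) C
      fun x hx => h5 _ (hl x hx)
    refine ⟨φ, Set.ext fun p => ⟨fun hp => ?_, fun hp => ?_⟩⟩
    · have : p = (p.1, l p.1) := Prod.ext rfl (hp.2.symm.trans (hφ _ hp.1))
      rw [this]; exact hl _ hp.1
    · have h6 : Intl N p.1 := (intl_prod.1 (hs.of_mem hp)).1
      exact ⟨h6, (hφ _ h6).trans (h2 _ (hl _ h6) _ hp rfl)⟩
  · rintro ⟨φ, rfl⟩
    obtain ⟨C, hC, hC'⟩ := exists_intl_gt (N := N) ‖φ‖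
    refine ⟨fun x hx => ⟨φ x, (intl_prod.1 (hs.of_mem (a := (x, φ x)) ⟨hx, rfl⟩)).2, hx, rfl⟩,
      fun p hp q hq h => by rw [← hp.2, ← hq.2, h], fun p hp q hq => ?_, fun c hc p hp => ?_,
      C, hC, fun p hp => ?_⟩
    · have := hp.1
      have := hq.1
      exact ⟨inferInstanceAs (Intl N (p.1 + q.1)), by rw [← hp.2, ← hq.2, ← map_add]⟩
    · have := hp.1
      exact ⟨inferInstanceAs (Intl N (c • p.1)), by rw [← hp.2, ← smul_eq_mul, ← map_smul]⟩
    · rw [← hp.2]
      exact φ.le_of_opNorm_le hC'.le _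

noncomputable instance codedCLM : Coded N (E →L[𝕜] 𝕜) :=
  Coded.pull (α := Set (E × 𝕜)) (clmGraph N)
    (fun φ ψ _ _ h => clm_ext_intl (N := N) fun x hx => by
      have : (x, φ x) ∈ clmGraph N ψ := h ▸ ⟨hx, rfl⟩
      exact this.2.symm) defF_isClmGraph

theorem intl_clm_graph {φ : E →L[𝕜] 𝕜} : Intl N φ ↔ Intl N (clmGraph N φ) := intl_iff

theorem defF_clmGraph : DefF N (clmGraph N : (E →L[𝕜] 𝕜) → Set (E × 𝕜)) :=
  ⟨fun _ h => intl_clm_graph.1 h, (DefF.id (N := N) (α := E →L[𝕜] 𝕜)).2⟩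

@[fun_prop] theorem DefF.clm {f : α → E →L[𝕜] 𝕜} {g : α → E} (hf : DefF N f) (hg : DefF N g) :
    DefF N (fun a => f a (g a)) := by
  have h1 := defF_clmGraph.comp hf
  refine defF_of_rel (R := fun a (c : 𝕜) => (g a, c) ∈ clmGraph N (f a)) (fun a ha =>
    (intl_prod.1 ((h1.1 a ha).of_mem (a := (g a, f a (g a))) ⟨hg.1 a ha, rfl⟩)).2)
    (DefF.mem (by fun_prop) (h1.comp DefF.id.fst)) fun a c ha _ => ⟨fun h => h.2, fun h => ⟨hg.1 a ha, h⟩⟩

instance intl_clm_apply (φ : E →L[𝕜] 𝕜) [Intl N φ] (x : E) [Intl N x] : Intl N (φ x) :=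
  (DefF.clm (DefF.const φ) DefF.id).intl x

/-- A family of functionals with a definable evaluation is definable. -/
theorem defF_clm {φ : α → E →L[𝕜] 𝕜} (h : DefF N (fun p : α × E => φ p.1 p.2)) : DefF N φ := by
  have h0 : DefF N (fun q : α × E × 𝕜 => φ q.1 q.2.1) :=
    h.comp2 (F := fun a (x : E) => φ a x) (by fun_prop) (by fun_prop)
  have h1 : DefF N (fun a => {p : E × 𝕜 | Intl N p ∧ φ a p.1 = p.2}) :=
    DefF.setOf (h0.eq (by fun_prop))
  have h2 : DefF N (fun a => clmGraph N (φ a)) := h1.congr fun a ha => by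
    ext p
    constructor
    · exact fun hp => ⟨(intl_prod.1 hp.1).1, hp.2⟩
    · intro hp
      have := hp.1
      exact ⟨intl_prod.2 ⟨this, hp.2 ▸ h.intl (a, p.1)⟩, hp.2⟩
  exact ⟨fun a ha => intl_clm_graph.2 (h2.1 a ha), h2.2⟩

theorem intl_clm {φ : E →L[𝕜] 𝕜} : Intl N φ ↔ DefF N (fun x : E => φ x) :=
  ⟨fun _ => by fun_prop, fun h =>
    (defF_clm (α := ℕ) (φ := fun _ => φ) (h.comp DefF.id.snd)).intl 0⟩

/-- Formation of internal functionals. -/
theorem exists_intl_clm (l : E → 𝕜) (hl : DefF N l)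
    (add : ∀ x y, Intl N x → Intl N y → l (x + y) = l x + l y)
    (smul : ∀ (c : 𝕜) (x : E), Intl N c → Intl N x → l (c • x) = c * l x) (C : ℝ)
    (bd : ∀ x, Intl N x → ‖l x‖ ≤ C * ‖x‖) :
    ∃ φ : E →L[𝕜] 𝕜, Intl N φ ∧ ∀ x, Intl N x → φ x = l x := by
  obtain ⟨φ, hφ⟩ := exists_clm_extend l add smul C bd
  exact ⟨φ, intl_clm.2 (hl.congr fun x hx => (hφ x hx).symm), hφ⟩

omit [RSet N] [KSet N 𝕜] in
theorem opNorm_le_of_intl {φ : E →L[𝕜] 𝕜} {C : ℝ} (hC : 0 ≤ C)
    (h : ∀ x, Intl N x → ‖φ x‖ ≤ C * ‖x‖) : ‖φ‖ ≤ C :=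
  φ.opNorm_le_bound hC fun x => (dense_intl (N := N) 𝕜).induction
    (P := fun x => ‖φ x‖ ≤ C * ‖x‖) h (isClosed_le (by fun_prop) (by fun_prop)) x

instance preSetDual : PreSet N 𝕜 (E →L[𝕜] 𝕜) where
  car := by
    have h1 : Intl N {s : Set (E × 𝕜) | Intl N s ∧ Dom N (E →L[𝕜] 𝕜) (code N s)} :=
      intl_setOf (by fun_prop)
    refine ⟨code N _, fun x => (mem_code_set h1).trans ?_⟩
    constructor
    · rintro ⟨s, ⟨-, f, hf, h⟩, rfl⟩; exact ⟨f, hf, h⟩
    · rintro ⟨f, hf, rfl⟩; exact ⟨clmGraph N f, ⟨intl_clm_graph.1 hf, f, hf, rfl⟩, rfl⟩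
  add := ⟨defF_clm (by simp only [add_apply]; fun_prop)⟩
  neg := ⟨defF_clm (by simp only [neg_apply]; fun_prop)⟩
  zero := ⟨intl_clm.2 (by simp only [zero_apply]; fun_prop)⟩
  smul := ⟨defF_clm (by simp only [smul_apply]; fun_prop)⟩
  norm := ⟨defF_of_cut (by
    have : DefF N (fun p : (E →L[𝕜] 𝕜) × ℝ =>
        p.2 < 0 ∨ ∃ x : E, Intl N x ∧ p.2 * ‖x‖ < ‖p.1 x‖) := by fun_prop
    refine this.congrP fun p _ => ⟨?_, fun h => ?_⟩
    · rintro (h | ⟨x, -, h⟩)
      · exact h.trans_le (norm_nonneg _)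
      · exact lt_of_mul_lt_mul_right (h.trans_le (p.1.le_opNorm x)) (norm_nonneg x)
    · by_contra hcon
      push Not at hcon
      exact absurd h (not_lt.2 (opNorm_le_of_intl hcon.1 hcon.2)))⟩
  lim s hs h := by
    obtain ⟨φ, hφ⟩ := cauchySeq_tendsto_of_complete h
    refine ⟨φ, intl_clm.2 (defF_of_tendsto (u := fun x n => s n x) (by fun_prop) fun x _ => ?_), hφ⟩
    exact ((ContinuousLinearMap.apply 𝕜 𝕜 x).continuous.tendsto φ).comp hφ

/-- Hahn-Banach, internally: a definable seminorm on the internal points, dominated by the norm. -/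
theorem exists_intl_dual_le (p : E → ℝ) (hp : DefF N p)
    (add : ∀ x y, Intl N x → Intl N y → p (x + y) ≤ p x + p y)
    (smul : ∀ (c : 𝕜) (x : E), Intl N c → Intl N x → p (c • x) = ‖c‖ * p x) (C : ℝ)
    (bd : ∀ x, Intl N x → p x ≤ C * ‖x‖) (x₀ : E) [Intl N x₀] :
    ∃ φ : E →L[𝕜] 𝕜, Intl N φ ∧ φ x₀ = (p x₀ : 𝕜) ∧ ∀ x, Intl N x → ‖φ x‖ ≤ p x := by
  let _ : Module ℝ E := Module.compHom E (algebraMap ℝ 𝕜)
  have hsm : ∀ (r : ℝ) (x : E), r • x = (r : 𝕜) • x := fun _ _ => rfl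
  have : DefSMul N ℝ E := ⟨by simp only [hsm]; fun_prop⟩
  obtain ⟨l, h1, h2, h3, h4, h5⟩ := exists_defF_linear (N := N) {x : E | Intl N x}
    (fun x (hx : Intl N x) y (hy : Intl N y) => inferInstanceAs (Intl N (x + y)))
    (fun c hc x (hx : Intl N x) => inferInstanceAs (Intl N (c • x))) p hp
    (fun x hx y hy => add x y hx hy) (fun c hc h0 x hx => by
      rw [hsm, smul _ _ inferInstance hx, RCLike.norm_ofReal, abs_of_pos h0]) (x₀ := x₀) ‹_›
  simp only [hsm, Set.mem_ofPred_eq] at h2 h3 h4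
  let f : E → 𝕜 := fun x => (l x : 𝕜) - RCLike.I * (l ((RCLike.I : 𝕜) • x) : 𝕜)
  have hre : ∀ x, RCLike.re (f x) = l x := fun x => by simp [f]
  have fadd : ∀ x y, Intl N x → Intl N y → f (x + y) = f x + f y := fun x y hx hy => by
    simp only [f]
    rw [smul_add, h2 _ hx _ hy, h2 _ inferInstance _ inferInstance]
    push_cast; ring
  have hdec : ∀ (c : 𝕜) (x : E), Intl N c → Intl N x →
      l (c • x) = RCLike.re c * l x + RCLike.im c * l ((RCLike.I : 𝕜) • x) := fun c x hc hx => by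
    rw [← h3 _ inferInstance _ hx, ← h3 _ inferInstance _ inferInstance,
      ← h2 _ inferInstance _ inferInstance, smul_smul, ← add_smul, RCLike.re_add_im]
  have fsmul : ∀ (c : 𝕜) (x : E), Intl N c → Intl N x → f (c • x) = c * f x := by
    intro c x hc hx
    simp only [f]
    rw [smul_smul, hdec c x hc hx, hdec (RCLike.I * c) x inferInstance hx]
    conv_rhs => rw [← RCLike.re_add_im c]
    rcases RCLike.I_eq_zero_or_im_I_eq_one (K := 𝕜) with hI | hI
    · have h6 : RCLike.im c = 0 := by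
        rw [← RCLike.re_add_im c, hI]; simp
      simp [hI, h6]
    · have h6 : (RCLike.I : 𝕜) * RCLike.I = -1 := RCLike.I_mul_I_of_nonzero fun h => by
        simp [h] at hI
      simp only [RCLike.mul_re, RCLike.mul_im, RCLike.I_re, hI]
      push_cast
      linear_combination (RCLike.im c : 𝕜) * (l ((RCLike.I : 𝕜) • x) : 𝕜) * h6
  have p0 : ∀ x, Intl N x → 0 ≤ p x := fun x hx => by
    have h6 := add x ((-1 : 𝕜) • x) hx inferInstance
    have h7 := smul 0 x inferInstance hx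
    rw [smul _ _ inferInstance hx, neg_smul, one_smul, add_neg_cancel] at h6
    rw [zero_smul, norm_zero, zero_mul] at h7
    rw [h7, norm_neg, norm_one, one_mul] at h6
    linarith
  have fle : ∀ x, Intl N x → ‖f x‖ ≤ p x := fun x hx => by
    by_cases h0 : f x = 0
    · rw [h0, norm_zero]; exact p0 x hx
    · have hI : Intl N (f x) := by
        have := h1.intl x
        have := h1.intl ((RCLike.I : 𝕜) • x)
        simp only [f]; infer_instance
      have hn : ‖f x‖ ≠ 0 := norm_ne_zero_iff.2 h0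
      have h6 := h4 (((‖f x‖ : 𝕜) / f x) • x) inferInstance
      rw [← hre, fsmul _ _ inferInstance hx, div_mul_cancel₀ _ h0, RCLike.ofReal_re,
        smul _ _ inferInstance hx, norm_div, RCLike.norm_ofReal, abs_norm, div_self hn,
        one_mul] at h6
      exact h6
  obtain ⟨φ, hφ, hφ'⟩ := exists_intl_clm (N := N) f (by simp only [f]; fun_prop) fadd fsmul C
    fun x hx => (fle x hx).trans (bd x hx)
  refine ⟨φ, hφ, ?_, fun x hx => hφ' x hx ▸ fle x hx⟩
  rw [hφ' _ ‹_›]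
  rw [← h5, ← hre]
  exact (RCLike.re_eq_self_of_le (by rw [hre, h5]; exact fle _ ‹_›)).symm

theorem exists_intl_dual_norming (x₀ : E) [Intl N x₀] :
    ∃ φ : E →L[𝕜] 𝕜, Intl N φ ∧ ‖φ‖ ≤ 1 ∧ φ x₀ = (‖x₀‖ : 𝕜) := by
  obtain ⟨φ, h1, h2, h3⟩ := exists_intl_dual_le (N := N) (𝕜 := 𝕜) (fun x : E => ‖x‖) (by fun_prop)
    (fun x y _ _ => norm_add_le x y) (fun c x _ _ => norm_smul c x) 1 (fun x _ => by simp) x₀
  exact ⟨φ, h1, opNorm_le_of_intl zero_le_one fun x hx => by simpa using h3 x hx, h2⟩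

theorem exists_intl_dual_vanishing {M : Set E} (hM : IsISub N 𝕜 M) (x₀ : E) [Intl N x₀] :
    ∃ φ : E →L[𝕜] 𝕜, Intl N φ ∧ ‖φ‖ ≤ 1 ∧ (∀ m ∈ M, φ m = 0) ∧
      φ x₀ = (Metric.infDist x₀ M : 𝕜) := by
  have hI := hM.intl
  have hne : M.Nonempty := ⟨0, hM.zero⟩
  have hbd : ∀ x : E, Metric.infDist x M ≤ ‖x‖ := fun x => by
    simpa using Metric.infDist_le_dist_of_mem (x := x) hM.zero
  have hsm : ∀ (c : 𝕜) (x : E), Intl N c → Metric.infDist (c • x) M ≤ ‖c‖ * Metric.infDist x M := by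
    intro c x hc
    refine le_of_forall_pos_le_add fun ε hε => ?_
    have h0 : 0 < ε / (‖c‖ + 1) := by positivity
    obtain ⟨m, hm, h⟩ := (Metric.infDist_lt_iff hne).1 (lt_add_of_pos_right (Metric.infDist x M) h0)
    refine (Metric.infDist_le_dist_of_mem (hM.smul c hc m hm)).trans ?_
    rw [dist_smul₀]
    have h1 : ‖c‖ * (ε / (‖c‖ + 1)) ≤ ε := by
      rw [← mul_div_assoc, div_le_iff₀ (by positivity)]
      nlinarith [norm_nonneg c]
    nlinarith [norm_nonneg c]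
  have key := exists_intl_dual_le (N := N) (𝕜 := 𝕜)
    (fun x : E => Metric.infDist x M) (by fun_prop) (fun x y _ _ => ?_) (fun c x hc _ => ?_) 1
    (fun x _ => by simpa using hbd x) x₀
  · obtain ⟨φ, h1, h2, h3⟩ := key
    refine ⟨φ, h1, opNorm_le_of_intl (N := N) zero_le_one fun x hx => ?_, fun m hm => ?_, h2⟩
    · simpa using (h3 x hx).trans (hbd x)
    · have := h3 m (hI.of_mem hm)
      rwa [Metric.infDist_zero_of_mem hm, norm_le_zero_iff] at this
  · refine le_of_forall_pos_le_add fun ε hε => ?_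
    obtain ⟨m, hm, h⟩ := (Metric.infDist_lt_iff hne).1
      (lt_add_of_pos_right (Metric.infDist x M) (half_pos hε))
    obtain ⟨m', hm', h'⟩ := (Metric.infDist_lt_iff hne).1
      (lt_add_of_pos_right (Metric.infDist y M) (half_pos hε))
    refine (Metric.infDist_le_dist_of_mem (hM.add m hm m' hm')).trans ?_
    linarith [dist_add_add_le x y m m']
  · by_cases h0 : c = 0
    · simp [h0, Metric.infDist_zero_of_mem hM.zero]
    · refine le_antisymm (hsm c x hc) ?_
      have h4 := hsm c⁻¹ (c • x) inferInstance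
      rw [smul_smul, inv_mul_cancel₀ h0, one_smul, norm_inv] at h4
      have h5 := mul_le_mul_of_nonneg_left h4 (norm_nonneg c)
      rwa [← mul_assoc, mul_inv_cancel₀ (norm_ne_zero_iff.2 h0), one_mul] at h5

theorem not_finiteDimensional_of_not_iFinDim (h : ¬ IFinDim N 𝕜 E) : ¬ FiniteDimensional 𝕜 E := by
  intro hE
  apply h
  classical
  obtain ⟨b, hb, hspan, hli⟩ := exists_linearIndependent 𝕜 {x : E | Intl N x}
  have htop : Submodule.span 𝕜 b = ⊤ := by
    rw [hspan, ← Submodule.coe_eq_univ,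
      ← (Submodule.closed_of_finiteDimensional _).closure_eq]
    exact ((dense_intl (N := N) 𝕜).mono Submodule.subset_span).closure_eq
  have hfin : Finite b := hli.finite
  obtain ⟨n, ⟨e⟩⟩ := Finite.exists_equiv_fin b
  let B : Module.Basis (Fin n) 𝕜 E :=
    (Module.Basis.mk hli (by rw [Subtype.range_coe, htop])).reindex e
  have hB : ∀ i, Intl N (B i) := fun i => by
    simp only [B, Module.Basis.reindex_apply, Module.Basis.mk_apply]
    exact hb (Subtype.prop _)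
  let v : ℕ → E := fun i => if h : i < n then B ⟨i, h⟩ else 0
  have hv : ∀ i, Intl N (v i) := fun i => by
    simp only [v]; split_ifs
    exacts [hB _, inferInstance]
  have hvI : Intl N v := intl_of_eventually_const v hv n fun i hi => by
    simp only [v, dif_neg (not_lt.2 hi), dif_neg (lt_irrefl n)]
  have hsum : ∀ c : ℕ → 𝕜, ∑ i ∈ Finset.range n, c i • v i = ∑ i : Fin n, c i • B i := fun c => by
    rw [Finset.sum_range]
    exact Finset.sum_congr rfl fun i _ => by simp only [v, dif_pos i.2]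
  refine ⟨n, v, hv, fun x hx => ?_⟩
  let c : ℕ → 𝕜 := fun i => if h : i < n then B.repr x ⟨i, h⟩ else 0
  have hc : ∑ i ∈ Finset.range n, c i • v i = x := by
    rw [hsum]
    simp only [c, Fin.is_lt, dif_pos, Fin.eta]
    exact B.sum_repr x
  refine ⟨c, fun i => ?_, by rw [hc, sub_self]; rfl⟩
  by_cases hi : i < n
  swap
  · simp only [c, dif_neg hi]; infer_instance
  -- approximate coefficient vectors
  have happ : ∀ k : ℕ, ∃ a : ℕ → 𝕜, Intl N a ∧
      ‖∑ i ∈ Finset.range n, a i • v i - x‖ < 1 / ((k : ℝ) + 1) := by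
    intro k
    have hcont : Continuous fun a : Fin n → 𝕜 => ‖∑ i : Fin n, a i • B i - x‖ := by fun_prop
    have hd : Dense (Set.pi Set.univ fun _ : Fin n => {c : 𝕜 | Intl N c}) :=
      dense_pi _ fun _ _ => dense_intl_scalar
    obtain ⟨a, ha, ha'⟩ := hd.exists_mem_open (isOpen_lt hcont continuous_const)
      ⟨B.repr x, by simp only [Set.mem_ofPred_eq, B.sum_repr x, sub_self, norm_zero]
                    exact Nat.one_div_pos_of_nat (n := k)⟩
    refine ⟨fun i => if h : i < n then a ⟨i, h⟩ else 0, intl_of_eventually_const _ (fun i => ?_) n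
      fun i hi => by simp only [dif_neg (not_lt.2 hi), dif_neg (lt_irrefl n)], ?_⟩
    · split_ifs
      exacts [ha _ trivial, inferInstance]
    · rw [hsum]
      simpa only [Fin.is_lt, dif_pos, Fin.eta, Set.mem_ofPred_eq] using ha'
  obtain ⟨a, ha, ha'⟩ := exists_intl_choice (N := N) (R := fun (k : ℕ) (a : ℕ → 𝕜) =>
    ‖∑ i ∈ Finset.range n, a i • v i - x‖ < 1 / ((k : ℝ) + 1)) (by fun_prop) happ
  have h1 : Tendsto (fun k => ∑ i ∈ Finset.range n, a k i • v i) atTop (𝓝 x) := by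
    rw [tendsto_iff_norm_sub_tendsto_zero]
    exact squeeze_zero (fun _ => norm_nonneg _) (fun k => (ha' k).le)
      tendsto_one_div_add_atTop_nhds_zero_nat
  have h2 := (((B.coord ⟨i, hi⟩).continuous_of_finiteDimensional).tendsto x).comp h1
  have h3 := DefF.ofIntl2 (N := N) a
  refine intl_of_tendsto (s := fun k => a k i) (DefF.toIntl (by fun_prop)) ?_
  simp only [c, dif_pos hi]
  refine h2.congr fun k => ?_
  simp only [Function.comp_apply, hsum, Module.Basis.coord_apply]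
  rw [B.repr_sum_self]

end Dual

end Vale.Agent.P129Z
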