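import Vale.Agent.P129Z.A1
import Vale.Agent.P129Z.A2a
import Vale.Agent.P129Z.Setting

/-!
# Part (A2): a generic model with a Banach space without separable quotients
-/

namespace Vale.Agent.P129Z

open Filter Topology

variable {P : Type} [Preorder P] [OrderTop P] {𝕜 Z : Type} [RCLike 𝕜] [NormedAddCommGroup Z]
  [NormedSpace 𝕜 Z]

/-- The union of the spaces along the filter is an internal Banach space. -/
theorem ev_preSet [CompleteSpace Z] (hσ : SigmaClosed P) (B : Bad 𝕜 Z P) (κ : Naming P 𝕜) :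
    ∀ᶠ g in gen P, ∀ [Coded g.N ℝ] [Coded g.N 𝕜] [Coded g.N Z],
      AtomCoded g (fun _ => (Set.univ : Set ℝ)) → Named g κ → (∀ c : 𝕜, Intl g.N c ↔ g.In c) →
      AtomCoded g (fun p => (B.X p : Set Z)) → PreSet g.N 𝕜 Z := by
  let ν : Naming P Z := Naming.atoms Z
  filter_upwards [ev_defF (ν.prod ν) ν fun x => x.1 + x.2, ev_defF ν ν fun x => -x,
    ev_defF ν (Naming.atoms ℝ) fun x => ‖x‖,
    ev_defF (κ.prod ν) ν fun x => x.1 • x.2,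
    ev_fun₂ (P := P) fun x y : Z => x + y, ev_fun (P := P) fun x : Z => -x,
    ev_fun (P := P) fun x : Z => ‖x‖, ev_fun₂ (P := P) fun (c : 𝕜) (x : Z) => c • x,
    ev_const (P := P) (0 : Z), ev_fun (P := P) fun s : ℕ → Z => limUnder atTop s,
    ev_seq hσ Z, ev_seq_bound hσ (fun p => (B.X p : Set Z)) fun q r h => B.mono q r h]
    with g h1 h2 h3 h4 h5 h6 h7 h8 h9 h10 h11 h12 _ _ _ hR hκ hK hZ
  have hν := hZ.named
  have := hZ.bdd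
  refine { add := ⟨h1 (hν.prod hν) hν fun x _ => ?_⟩, neg := ⟨h2 hν hν fun x hx => ?_⟩
           norm := ⟨h3 hν hR.named fun x hx => hR.intl_univ.2 (h7 x (hZ.isIn hx))⟩
           zero := ⟨(hZ.intl 0).2 ⟨h9, ⊤, g.top, (B.X ⊤).zero_mem⟩⟩
           lim := fun s hs hc => ?_
           smul := ⟨h4 (hκ.prod hν) hν fun x _ => ?_⟩ }
  · obtain ⟨a1, p, hp, a2⟩ := (hZ.intl x.1).1 inferInstance
    obtain ⟨b1, q, hq, b2⟩ := (hZ.intl x.2).1 inferInstance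
    obtain ⟨r, hr, h13, h14⟩ := g.dir hp hq
    exact (hZ.intl _).2 ⟨h5 _ _ a1 b1, r, hr,
      (B.X r).add_mem (B.mono p r h13 a2) (B.mono q r h14 b2)⟩
  · obtain ⟨a1, p, hp, a2⟩ := (hZ.intl x).1 hx
    exact (hZ.intl _).2 ⟨h6 _ a1, p, hp, (B.X p).neg_mem a2⟩
  · have h13 := h11 _ hZ s hs
    obtain ⟨p, hp, h14⟩ := h12 s h13 fun n => ((hZ.intl (s n)).1 inferInstance).2
    have h15 := hc.tendsto_limUnder
    exact ⟨_, (hZ.intl _).2 ⟨h10 s h13, p, hp,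
      (B.closed p).mem_of_tendsto h15 (Eventually.of_forall h14)⟩, h15⟩
  · obtain ⟨b1, q, hq, b2⟩ := (hZ.intl x.2).1 inferInstance
    exact (hZ.intl _).2 ⟨h8 _ _ ((hK _).1 inferInstance) b1, q, hq, (B.X q).smul_mem _ b2⟩

/-- It is infinite-dimensional. -/
theorem ev_not_iFinDim (B : Bad 𝕜 Z P) :
    ∀ᶠ g in gen P, ∀ [Coded g.N 𝕜] [Coded g.N Z],
      AtomCoded g (fun p => (B.X p : Set Z)) → ¬ IFinDim g.N 𝕜 Z := by
  filter_upwards [ev_finset (P := P) Z, ev_task (P := P) fun (A : Finset Z) r (z : Z) =>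
    z ∈ B.X r ∧ z ∉ Submodule.span 𝕜 (A : Set Z)] with g h1 h2 _ _ hZ
  classical
  rintro ⟨n, v, hv, h3⟩
  obtain ⟨q, hq, -, z, hz, h4, h5⟩ := h2 ((Finset.range n).image v)
    ((h1 _).2 fun a ha => by
      obtain ⟨i, -, rfl⟩ := Finset.mem_image.1 ha
      exact hZ.isIn (hv i)) ⊤ g.top fun q _ => by
    obtain ⟨r, hr, h6⟩ := B.inf q
    by_contra h7
    push Not at h7
    have := FiniteDimensional.span_of_finite 𝕜 ((Finset.range n).image v).finite_toSet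
    exact h6 (Submodule.finiteDimensional_of_le (h7 r hr))
  obtain ⟨c, -, h6⟩ := h3 z ((hZ.intl z).2 ⟨hz, q, hq, h4⟩)
  refine h5 ?_
  rw [sub_eq_zero.1 (Set.mem_singleton_iff.1 h6)]
  exact Submodule.sum_mem _ fun i hi => Submodule.smul_mem _ _
    (Submodule.subset_span (Finset.mem_coe.2 (Finset.mem_image_of_mem v hi)))

theorem exists_enum_span (X : Submodule 𝕜 Z) (A : Finset Z) (hA : ∀ z ∈ A, z ∈ X) :
    ∃ (n : ℕ) (v : ℕ → Z), (∀ i, v i ∈ X) ∧ ∀ w ∈ Submodule.span 𝕜 (A : Set Z),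
      ∃ c : ℕ → 𝕜, w = ∑ i ∈ Finset.range n, c i • v i := by
  classical
  induction A using Finset.induction_on with
  | empty =>
    refine ⟨0, fun _ => 0, fun _ => X.zero_mem, fun w hw => ⟨0, ?_⟩⟩
    simpa using hw
  | insert a A _ ih =>
    obtain ⟨n, v, h1, h2⟩ := ih fun z hz => hA z (Finset.mem_insert_of_mem hz)
    refine ⟨n + 1, Function.update v n a, fun i => ?_, fun w hw => ?_⟩
    · rw [Function.update_apply]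
      split_ifs
      · exact hA a (Finset.mem_insert_self a A)
      · exact h1 i
    · rw [Finset.coe_insert, Submodule.mem_span_insert] at hw
      obtain ⟨t, w', hw', rfl⟩ := hw
      obtain ⟨c, rfl⟩ := h2 w' hw'
      refine ⟨Function.update c n t, ?_⟩
      rw [Finset.sum_range_succ, Function.update_self, Function.update_self, add_comm]
      congr 1
      refine Finset.sum_congr rfl fun i hi => ?_
      have := (Finset.mem_range.1 hi).ne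
      rw [Function.update_of_ne this, Function.update_of_ne this]

omit [OrderTop P] in
/-- If no failure is witnessed below `p`, then `p` forces a separable quotient. -/
theorem forced_of_no_failure (hσ : SigmaClosed P) (X : P → Submodule 𝕜 Z) (F : P → Set Z)
    (hm : ∀ q r, r ≤ q → F q ⊆ F r) (hreg : ∀ q z, (∀ r ≤ q, ∃ s ≤ r, z ∈ F s) → z ∈ F q)
    (p : P) (d : ℕ → Z) (hd : ∀ n, d n ∈ X p)
    (f0 : ∀ r ≤ p, ¬ ∀ r' ≤ r, (0 : Z) ∉ F r')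
    (f1 : ∀ r ≤ p, ∀ b : Z × Z, ¬ (b.1 ∈ F r ∧ b.2 ∈ F r ∧ ∀ r' ≤ r, b.1 + b.2 ∉ F r'))
    (f2 : ∀ r ≤ p, ∀ b : 𝕜 × Z, ¬ (b.2 ∈ F r ∧ ∀ r' ≤ r, b.1 • b.2 ∉ F r'))
    (f3 : ∀ r ≤ p, ∀ b : Z, ¬ (b ∈ F r ∧ ∀ r' ≤ r, b ∉ X r'))
    (f4 : ∀ r ≤ p, ∀ b : ℕ × (ℕ → Z), ¬ ((∀ i, b.2 i ∈ X r) ∧ ∀ r' ≤ r, ∀ z ∈ X r',
      ∃ s ≤ r', ∃ c : ℕ → 𝕜, z - ∑ i ∈ Finset.range b.1, c i • b.2 i ∈ F s))
    (f5 : ∀ r ≤ p, ∀ b : Z × (ℕ → Z), ¬ (b.1 ∈ X r ∧ (∀ i, b.2 i ∈ F r) ∧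
      b.1 ∈ closure (Set.range b.2) ∧ ∀ r' ≤ r, b.1 ∉ F r'))
    (f6 : ∀ r ≤ p, ∀ b : Z, ¬ (b ∈ X r ∧ ∃ ε > 0, ∀ r' ≤ r, ∀ n, ∀ m ∈ F r', ε ≤ ‖b - d n - m‖))
    (hX : ∀ q r, r ≤ q → X q ≤ X r) :
    ForcedSQ X p (fun r => Submodule.span 𝕜 (F r)) d := by
  have hsp : ∀ r ≤ p, ∀ z, z ∈ Submodule.span 𝕜 (F r) ↔ z ∈ F r := by
    intro r hr z
    refine ⟨fun hz => ?_, fun hz => Submodule.subset_span hz⟩
    induction hz using Submodule.span_induction with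
    | mem x hx => exact hx
    | zero =>
      refine hreg r 0 fun s hs => ?_
      have := f0 s (hs.trans hr)
      push Not at this
      exact this
    | add x y _ _ hx hy =>
      refine hreg r _ fun s hs => ?_
      have := f1 s (hs.trans hr) (x, y)
      push Not at this
      exact this (hm r s hs hx) (hm r s hs hy)
    | smul c x _ hx =>
      refine hreg r _ fun s hs => ?_
      have := f2 s (hs.trans hr) (c, x)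
      push Not at this
      exact this (hm r s hs hx)
  refine ⟨fun q _ r hr => Submodule.span_mono (hm q r hr), fun q hq z hz => ?_, hd,
    fun q hq A hA => ?_, fun q hq z hz h => ?_, fun q hq z hz ε hε => ?_⟩
  · have := f3 q hq z
    push Not at this
    exact this ((hsp q hq z).1 hz)
  · obtain ⟨n, v, h1, h2⟩ := exists_enum_span (X q) A hA
    have h3 := f4 q hq (n, v)
    push Not at h3
    obtain ⟨r, hr, z, hz, h4⟩ := h3 h1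
    refine ⟨r, hr, z, hz, fun s hs h5 => ?_⟩
    obtain ⟨a, ha, b, hb, rfl⟩ := Submodule.mem_sup.1 h5
    obtain ⟨c, rfl⟩ := h2 b hb
    refine h4 s hs c ?_
    rw [add_sub_cancel_right]
    exact (hsp s ((hs.trans hr).trans hq) a).1 ha
  · refine Submodule.subset_span (hreg q z fun r hr => ?_)
    obtain ⟨s, hs, h1⟩ := hσ.baire_open (ι := ℕ)
      (fun k s => ∃ m ∈ F s, ‖z - m‖ < 1 / ((k : ℝ) + 1)) r
      (fun k s hs => by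
        obtain ⟨t, ht, m, hm1, hm2⟩ := h s (hs.trans hr) (1 / ((k : ℝ) + 1)) (by positivity)
        exact ⟨t, ht, m, (hsp t ((ht.trans hs).trans (hr.trans hq)) m).1 hm1, hm2⟩)
      (fun k s t hst _ ⟨m, hm1, hm2⟩ => ⟨m, hm t s hst hm1, hm2⟩)
    choose m hm1 hm2 using h1
    have h2 := f5 s ((hs.trans hr).trans hq) (z, m)
    push Not at h2
    obtain ⟨t, ht, h3⟩ := h2 (hX q s (hs.trans hr) hz) hm1 (by
      rw [Metric.mem_closure_iff]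
      intro ε hε
      obtain ⟨k, hk⟩ := exists_nat_one_div_lt hε
      exact ⟨m k, ⟨k, rfl⟩, by rw [dist_eq_norm]; exact (hm2 k).trans hk⟩)
    exact ⟨t, ht.trans hs, h3⟩
  · have h1 := f6 q hq z
    push Not at h1
    obtain ⟨r, hr, n, m, hm1, hm2⟩ := h1 hz ε hε
    exact ⟨r, hr, n, m, Submodule.subset_span hm1, hm2⟩

/-- It has no separable infinite-dimensional quotient. -/
theorem ev_not_absSQ (hσ : SigmaClosed P) (B : Bad 𝕜 Z P) :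
    ∀ᶠ g in gen P, ∀ [Coded g.N 𝕜] [Coded g.N Z], (∀ c : 𝕜, Intl g.N c ↔ g.In c) →
      AtomCoded g (fun p => (B.X p : Set Z)) → ¬ AbsSQ g.N 𝕜 Z := by
  let F : Nm P → P → Set Z := fun τ q => {z | fmem (atom z) τ q}
  filter_upwards [ev_seq hσ Z, ev_seq_bound hσ (fun p => (B.X p : Set Z)) fun q r h => B.mono q r h,
    ev_dich (P := P) fun (τ : Nm P) r (_ : Z) => ∀ r' ≤ r, (0 : Z) ∉ F τ r',
    ev_dich (P := P) fun (τ : Nm P) r (b : Z × Z) =>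
      b.1 ∈ F τ r ∧ b.2 ∈ F τ r ∧ ∀ r' ≤ r, b.1 + b.2 ∉ F τ r',
    ev_dich (P := P) fun (τ : Nm P) r (b : 𝕜 × Z) => b.2 ∈ F τ r ∧ ∀ r' ≤ r, b.1 • b.2 ∉ F τ r',
    ev_dich (P := P) fun (τ : Nm P) r (b : Z) => b ∈ F τ r ∧ ∀ r' ≤ r, b ∉ B.X r',
    ev_dich (P := P) fun (τ : Nm P) r (b : ℕ × (ℕ → Z)) => (∀ i, b.2 i ∈ B.X r) ∧
      ∀ r' ≤ r, ∀ z ∈ B.X r', ∃ s ≤ r', ∃ c : ℕ → 𝕜,
        z - ∑ i ∈ Finset.range b.1, c i • b.2 i ∈ F τ s,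
    ev_dich (P := P) fun (τ : Nm P) r (b : Z × (ℕ → Z)) => b.1 ∈ B.X r ∧ (∀ i, b.2 i ∈ F τ r) ∧
      b.1 ∈ closure (Set.range b.2) ∧ ∀ r' ≤ r, b.1 ∉ F τ r',
    ev_dich (P := P) fun (a : Nm P × (ℕ → Z)) r (b : Z) => b ∈ B.X r ∧
      ∃ ε > 0, ∀ r' ≤ r, ∀ n, ∀ m ∈ F a.1 r', ε ≤ ‖b - a.2 n - m‖,
    ev_task₃ (P := P) fun (τ : Nm P) (b : ℕ × (ℕ → Z)) (z : Z) s (c : ℕ → 𝕜) =>
      z - ∑ i ∈ Finset.range b.1, c i • b.2 i ∈ F τ s,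
    ev_fun₃ (P := P) fun (b : ℕ × (ℕ → Z)) (z : Z) (c : ℕ → 𝕜) =>
      z - ∑ i ∈ Finset.range b.1, c i • b.2 i,
    ev_prod (P := P) Z Z, ev_prod (P := P) 𝕜 Z, ev_prod (P := P) ℕ (ℕ → Z),
    ev_prod (P := P) Z (ℕ → Z), ev_prod (P := P) (Nm P) (ℕ → Z), ev_term (P := P) Z,
    ev_term (P := P) 𝕜]
    with g hs1 hs2 t0 t1 t2 t3 t4 t5 t6 t7 t8 p1 p2 p3 p4 p5 e1 e2 _ _ hK hZ
  rintro ⟨M, hM, hcl, hcod, d, hd, hsep⟩
  obtain ⟨τ, hτ, hmem⟩ := hZ.exists_name hM.intl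
  have hin : ∀ z ∈ M, g.In z := fun z hz => hZ.isIn (hM.intl.of_mem hz)
  have hto : ∀ z, g.In z → ∀ q ∈ g.G, z ∈ F τ q → z ∈ M := fun z hz q hq h =>
    (hmem z hz).2 ⟨q, hq, h⟩
  have hfrom : ∀ z ∈ M, ∀ q ∈ g.G, ∃ r ≤ q, z ∈ F τ r := fun z hz q hq => by
    obtain ⟨p, hp, h⟩ := (hmem z (hin z hz)).1 hz
    obtain ⟨r, -, h1, h2⟩ := g.dir hp hq
    exact ⟨r, h2, h.mono h1⟩
  have hdI := hs1 _ hZ d hd
  obtain ⟨p₀, hp₀, hd₀⟩ := hs2 d hdI fun n => ((hZ.intl (d n)).1 inferInstance).2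
  obtain ⟨q0, hq0, f0⟩ := (t0 τ hτ).resolve_left (by
    rintro ⟨q, hq, -, -, h⟩
    obtain ⟨r, hr, h1⟩ := hfrom 0 hM.zero q hq
    exact h r hr h1)
  obtain ⟨q1, hq1, f1⟩ := (t1 τ hτ).resolve_left (by
    rintro ⟨q, hq, ⟨x, y⟩, hb, hx, hy, h⟩
    obtain ⟨h1, h2⟩ := (p1 x y).1 hb
    obtain ⟨r, hr, h3⟩ := hfrom _ (hM.add x (hto x h1 q hq hx) y (hto y h2 q hq hy)) q hq
    exact h r hr h3)
  obtain ⟨q2, hq2, f2⟩ := (t2 τ hτ).resolve_left (by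
    rintro ⟨q, hq, ⟨c, x⟩, hb, hx, h⟩
    obtain ⟨h1, h2⟩ := (p2 c x).1 hb
    obtain ⟨r, hr, h3⟩ := hfrom _ (hM.smul c ((hK c).2 h1) x (hto x h2 q hq hx)) q hq
    exact h r hr h3)
  obtain ⟨q3, hq3, f3⟩ := (t3 τ hτ).resolve_left (by
    rintro ⟨q, hq, x, hb, hx, h⟩
    obtain ⟨-, p, hp, h1⟩ := (hZ.intl x).1 (hM.intl.of_mem (hto x hb q hq hx))
    obtain ⟨r, -, h2, h3⟩ := g.dir hp hq
    exact h r h3 (B.mono p r h2 h1))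
  obtain ⟨q4, hq4, f4⟩ := (t4 τ hτ).resolve_left (by
    rintro ⟨q, hq, ⟨n, v⟩, hb, hv, h⟩
    have h1 := ((p3 n v).1 hb).2
    refine hcod ⟨n, v, fun i => (hZ.intl _).2 ⟨e1 v h1 i, q, hq, hv i⟩, fun x hx => ?_⟩
    obtain ⟨h2, p, hp, h3⟩ := (hZ.intl x).1 hx
    obtain ⟨r, hr, h4, h5⟩ := g.dir hp hq
    obtain ⟨s, hs, -, c, hc, h6⟩ := t7 τ (n, v) x hτ hb h2 r hr fun r' hr' =>
      h r' (hr'.trans h5) x (B.mono p r' (hr'.trans h4) h3)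
    exact ⟨c, fun i => (hK _).2 (e2 c hc i), hto _ (t8 (n, v) x c hb h2 hc) s hs h6⟩)
  obtain ⟨q5, hq5, f5⟩ := (t5 τ hτ).resolve_left (by
    rintro ⟨q, hq, ⟨x, m⟩, hb, hx, hm, hc, h⟩
    obtain ⟨h1, h2⟩ := (p4 x m).1 hb
    have h3 : Set.range m ⊆ M := by
      rintro _ ⟨i, rfl⟩
      exact hto _ (e1 m h2 i) q hq (hm i)
    obtain ⟨r, hr, h4⟩ := hfrom x (hcl x ((hZ.intl x).2 ⟨h1, q, hq, hx⟩) (closure_mono h3 hc)) q hq
    exact h r hr h4)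
  obtain ⟨q6, hq6, f6⟩ := (t6 (τ, d) ((p5 τ d).2 ⟨hτ, hdI⟩)).resolve_left (by
    rintro ⟨q, hq, x, hb, hx, ε, hε, h⟩
    obtain ⟨n, m, hm, h1⟩ := hsep x ((hZ.intl x).2 ⟨hb, q, hq, hx⟩) ε hε
    obtain ⟨r, hr, h2⟩ := hfrom m hm q hq
    exact absurd h1 (not_lt.2 (h r hr n m h2)))
  obtain ⟨a, ha, a0, a1, a2⟩ := g.dir3 hq0 hq1 hq2
  obtain ⟨b, hb, b3, b4, b5⟩ := g.dir3 hq3 hq4 hq5
  obtain ⟨c, hc, c6, c7⟩ := g.dir hq6 hp₀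
  obtain ⟨p, -, pa, pb, pc⟩ := g.dir3 ha hb hc
  exact B.kill p _ d (forced_of_no_failure hσ B.X (F τ) (fun q r h z hz => fmem.mono hz h)
    (fun q z h => fmem.of_dense h) p d (fun n => B.mono p₀ p (pc.trans c7) (hd₀ n))
    (fun r hr => f0 r (hr.trans (pa.trans a0)) 0) (fun r hr => f1 r (hr.trans (pa.trans a1)))
    (fun r hr => f2 r (hr.trans (pa.trans a2))) (fun r hr => f3 r (hr.trans (pb.trans b3)))
    (fun r hr => f4 r (hr.trans (pb.trans b4))) (fun r hr => f5 r (hr.trans (pb.trans b5)))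
    (fun r hr => f6 r (hr.trans (pc.trans c6))) B.mono)

/-- Main theorem of part (A). -/
theorem exists_model_bad : ∃ (N : Type) (_ : ZM N) (_ : Coded N ℝ), RSet N ∧
    (∃ (Z : Type) (_ : NormedAddCommGroup Z) (_ : NormedSpace ℝ Z) (_ : Coded N Z),
      PreSet N ℝ Z ∧ ¬ IFinDim N ℝ Z ∧ ¬ AbsSQ N ℝ Z) ∧
    (∃ (Z : Type) (_ : NormedAddCommGroup Z) (_ : NormedSpace ℂ Z) (_ : Coded N Z),
      PreSet N ℂ Z ∧ ¬ IFinDim N ℂ Z ∧ ¬ AbsSQ N ℂ Z) := by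
  obtain ⟨P, _, _, hσ, ⟨Z, _, _, _, ⟨B⟩⟩, ⟨Z', _, _, _, ⟨B'⟩⟩⟩ := exists_bad
  have key : ∀ᶠ g in gen P, ∃ (_ : Coded g.N ℝ), RSet g.N ∧
      (∃ (_ : Coded g.N Z), PreSet g.N ℝ Z ∧ ¬ IFinDim g.N ℝ Z ∧ ¬ AbsSQ g.N ℝ Z) ∧
      (∃ (_ : Coded g.N Z'), PreSet g.N ℂ Z' ∧ ¬ IFinDim g.N ℂ Z' ∧ ¬ AbsSQ g.N ℂ Z') := by
    filter_upwards [ev_atomCoded (P := P) fun _ => (Set.univ : Set ℝ),
      ev_atomCoded fun p => (B.X p : Set Z), ev_atomCoded fun p => (B'.X p : Set Z'),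
      ev_rset hσ, ev_cplx (P := P), ev_preSet hσ B (Naming.atoms ℝ), ev_preSet hσ B' Naming.cplx,
      ev_not_iFinDim B, ev_not_iFinDim B', ev_not_absSQ hσ B, ev_not_absSQ hσ B']
      with g ⟨iR, hR⟩ ⟨iZ, hZ⟩ ⟨iZ', hZ'⟩ h1 h2 h3 h4 h5 h6 h7 h8
    obtain ⟨h9, h10⟩ := h2 hR
    exact ⟨iR, h1 hR, ⟨iZ, h3 hR hR.named (fun _ => hR.intl_univ) hZ, h5 hZ,
      h7 (fun _ => hR.intl_univ) hZ⟩, ⟨iZ', h4 hR h9 h10 hZ', h6 hZ', h8 h10 hZ'⟩⟩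
  obtain ⟨g, -, iR, h1, ⟨iZ, h2⟩, ⟨iZ', h3⟩⟩ := exists_of_ev key ⊤
  exact ⟨g.N, g.zm, iR, h1, ⟨Z, _, _, iZ, h2⟩, ⟨Z', _, _, iZ', h3⟩⟩

end Vale.Agent.P129Z
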