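import Vale.Agent.P129.H223.Kill
import Vale.Agent.P129Z.ADefs
import Mathlib.Analysis.Convex.Cone.Extension

/-!
# Directed systems of spaces of functionals over a countably closed poset

The ground-level argument: no coherent family of closed subspaces below a condition describes a
separable infinite-dimensional quotient.
-/

namespace Vale.Agent.P129Z

open Set Filter Topology

variable {Z : Type*} [NormedAddCommGroup Z] [NormedSpace ℝ Z]

/-- A bounded graph extends to a bounded functional. -/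
theorem exists_hb (Γ : Submodule ℝ (Z × ℝ)) {C : ℝ} (hC : 0 ≤ C)
    (h : ∀ w ∈ Γ, |w.2| ≤ C * ‖w.1‖) :
    ∃ H : Z →L[ℝ] ℝ, (∀ z, |H z| ≤ C * ‖z‖) ∧ ∀ w ∈ Γ, H w.1 = w.2 := by
  have hg : ∀ x ∈ Γ, x.1 = 0 → x.2 = 0 := fun x hx h0 => by
    have := h x hx
    rw [h0, norm_zero, mul_zero] at this
    exact abs_nonpos_iff.1 this
  obtain ⟨g, hg1, hg2⟩ := exists_extension_of_le_sublinear Γ.toLinearPMap (fun z => C * ‖z‖)
    (fun c hc x => by rw [norm_smul, Real.norm_of_nonneg hc.le]; ring)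
    (fun x y => by
      have := mul_le_mul_of_nonneg_left (norm_add_le x y) hC
      linarith)
    (fun x => (le_abs_self _).trans (h _ (Γ.mem_graph_toLinearPMap hg x)))
  have hb : ∀ z, |g z| ≤ C * ‖z‖ := fun z => by
    rw [abs_le]
    refine ⟨?_, hg2 z⟩
    have := hg2 (-z)
    rw [map_neg, norm_neg] at this
    linarith
  refine ⟨g.mkContinuous C hb, hb, fun w hw => ?_⟩
  have h1 : w.1 ∈ Γ.map (LinearMap.fst ℝ Z ℝ) := ⟨w, hw, rfl⟩
  have h2 := Γ.mem_graph_toLinearPMap hg ⟨w.1, h1⟩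
  have h3 := hg _ (Γ.sub_mem h2 hw) (by simp)
  have h4 : g w.1 = Γ.toLinearPMap ⟨w.1, h1⟩ := hg1 ⟨w.1, h1⟩
  change g w.1 = w.2
  rw [h4]
  exact sub_eq_zero.1 h3

/-- Functionals on a separable part of an infinite-dimensional quotient. -/
theorem exists_funcs (M Y : Submodule ℝ Z) (hM : IsClosed (M : Set Z))
    (hY : TopologicalSpace.IsSeparable (Y : Set Z))
    (hinf : ∀ A : Finset Z, (A : Set Z) ⊆ Y → ¬ Y ≤ M ⊔ Submodule.span ℝ (A : Set Z)) :
    ∃ G : ℕ → Z →L[ℝ] ℝ, (∀ n, ∃ C, 0 ≤ C ∧ ∀ x, |G n x| ≤ C * Metric.infDist x M) ∧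
      (∀ (s : Finset ℕ) (c : ℕ → ℝ), (∀ x ∈ Y, ∑ i ∈ s, c i * G i x = 0) → ∀ i ∈ s, c i = 0) ∧
      ∀ x ∈ Y, ∀ ε > 0, ∃ x' ∈ Y, (∀ᶠ n in atTop, G n x' = 0) ∧
        Metric.infDist (x - x') M < ε := by
  have hn : ∀ x : Z, ‖M.mkQ x‖ = Metric.infDist x M := fun x => QuotientAddGroup.norm_mk x
  let Y' : Submodule ℝ (Z ⧸ M) := Y.map M.mkQ
  have hsep : TopologicalSpace.SeparableSpace Y' := by
    have h1 : TopologicalSpace.IsSeparable (Y' : Set (Z ⧸ M)) := by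
      have := hY.image (f := M.mkQL) M.mkQL.continuous
      exact this
    exact h1.separableSpace
  have hfd : ¬ FiniteDimensional ℝ Y' := by
    intro hfin
    obtain ⟨t, ht⟩ := (Submodule.fg_iff_finiteDimensional Y').2 hfin
    have h1 : ∀ y ∈ t, ∃ x ∈ Y, M.mkQ x = y := fun y hy => by
      have : y ∈ Y' := ht ▸ Submodule.subset_span hy
      exact this
    choose! f hf1 hf2 using h1
    classical
    refine hinf (t.image f) ?_ fun x hx => ?_
    · intro x hx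
      obtain ⟨y, hy, rfl⟩ := Finset.mem_image.1 hx
      exact hf1 y hy
    · rw [← Submodule.comap_map_mkQ, Submodule.mem_comap, Submodule.map_span]
      have h2 : M.mkQ x ∈ Y' := ⟨x, hx, rfl⟩
      rw [← ht] at h2
      refine Submodule.span_mono ?_ h2
      intro y hy
      exact ⟨f y, by simpa using ⟨y, hy, rfl⟩, hf2 y hy⟩
  obtain ⟨g, hg1, hg2⟩ := Vale.Agent.P129.H223.exists_functionals (Y := Y') hfd
  choose g' hg' hg'n using fun n => exists_extension_norm_eq Y' (g n)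
  refine ⟨fun n => (g' n).comp M.mkQL, fun n => ⟨‖g' n‖, norm_nonneg _, fun x => ?_⟩,
    fun s c hc => ?_, fun x hx ε hε => ?_⟩
  · rw [← hn]
    exact (g' n).le_opNorm (M.mkQ x)
  · refine linearIndependent_iff'.1 hg1 s c ?_
    ext ⟨y, x, hx, rfl⟩
    have := hc x hx
    simp only [_root_.sum_apply, _root_.smul_apply, smul_eq_mul, _root_.zero_apply]
    rw [← this]
    refine Finset.sum_congr rfl fun i _ => ?_
    rw [← hg' i]
    rfl
  · obtain ⟨⟨y, x', hx', rfl⟩, h1, h2⟩ :=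
      Metric.dense_iff.1 hg2 (⟨M.mkQ x, x, hx, rfl⟩ : Y') ε hε
    refine ⟨x', hx', ?_, ?_⟩
    · filter_upwards [h2] with n h3
      rw [← hg' n] at h3
      exact h3
    · rw [Metric.mem_ball, Subtype.dist_eq, dist_comm, dist_eq_norm] at h1
      rw [← hn, map_sub]
      exact h1

/-- A system of spaces `X p` over a countably closed poset, paired with a space `U`: coherent
bounded functionals are decided to be elements of `U`, and independent sequences in `U` are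
killed. -/
structure Sys (P Z U : Type*) [Preorder P] [NormedAddCommGroup Z] [NormedSpace ℝ Z]
    [NormedAddCommGroup U] [NormedSpace ℝ U] where
  X : P → Submodule ℝ Z
  B : Z →L[ℝ] U →L[ℝ] ℝ
  sigma : SigmaClosed P
  mono : ∀ {p q}, q ≤ p → X p ≤ X q
  dual : ∀ (p : P) (Γ : P → Submodule ℝ (Z × ℝ)) (C : ℝ), 0 ≤ C →
    (∀ s t, s ≤ t → t ≤ p → Γ t ≤ Γ s) → (∀ t ≤ p, ∀ w ∈ Γ t, |w.2| ≤ C * ‖w.1‖) →
    (∀ t ≤ p, ∀ z ∈ X t, ∃ s ≤ t, ∃ c, (z, c) ∈ Γ s) →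
    ∃ r ≤ p, ∃ v : U, ∀ s ≤ r, ∀ z ∈ X s, ∀ c, (z, c) ∈ Γ s → c = B z v
  kill : ∀ (p : P) (v : ℕ → U), LinearIndependent ℝ v → ∃ s ≤ p, ∃ y ∈ X s, ∃ δ > 0,
    ∀ w : Z, (∀ᶠ n in atTop, B w (v n) = 0) → δ ≤ ‖y - w‖

variable {P U : Type*} [Preorder P] [NormedAddCommGroup U] [NormedSpace ℝ U]

/-- Distances to the subspaces are decided on a separable set. -/
theorem exists_decide_dist (hσ : SigmaClosed P) (F : P → Submodule ℝ Z) (p : P)
    (hmono : ∀ s t, s ≤ t → t ≤ p → F t ≤ F s) {Y : Set Z} (hY : TopologicalSpace.IsSeparable Y) :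
    ∃ r ≤ p, ∀ s ≤ r, ∀ x ∈ Y, ∀ m ∈ F s, Metric.infDist x (F r) ≤ ‖x - m‖ := by
  obtain ⟨t, htc, ht⟩ := hY
  have := htc.to_subtype
  obtain ⟨r, hr, h1⟩ := hσ.baire_open (ι := t × ℕ)
    (fun i r => ∀ s ≤ r, ∀ m ∈ F s,
      Metric.infDist (i.1 : Z) (F r) ≤ ‖(i.1 : Z) - m‖ + 1 / ((i.2 : ℝ) + 1)) p
    (fun i q hq => by
      let A : Set ℝ := {a | ∃ s ≤ q, ∃ m ∈ F s, ‖(i.1 : Z) - m‖ = a}
      have hA : A.Nonempty := ⟨_, q, le_rfl, 0, (F q).zero_mem, rfl⟩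
      have hA' : BddBelow A := ⟨0, by rintro _ ⟨s, -, m, -, rfl⟩; exact norm_nonneg _⟩
      obtain ⟨_, ⟨s, hs, m, hm, rfl⟩, h2⟩ := exists_lt_of_csInf_lt hA
        (lt_add_of_pos_right (sInf A) (show (0 : ℝ) < 1 / ((i.2 : ℝ) + 1) by positivity))
      refine ⟨s, hs, fun s' hs' m' hm' => ?_⟩
      have h3 : sInf A ≤ ‖(i.1 : Z) - m'‖ := csInf_le hA' ⟨s', hs'.trans hs, m', hm', rfl⟩
      have h4 := Metric.infDist_le_dist_of_mem (x := (i.1 : Z)) (s := (F s : Set Z)) hm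
      rw [dist_eq_norm] at h4
      linarith)
    (fun i r s hrs hs h s' hs' m hm => by
      refine le_trans ?_ (h s' (hs'.trans hrs) m hm)
      exact Metric.infDist_le_infDist_of_subset (hmono r s hrs hs) ⟨0, (F s).zero_mem⟩)
  refine ⟨r, hr, fun s hs x hx m hm => ?_⟩
  refine le_of_forall_pos_le_add fun ε hε => ?_
  obtain ⟨z, hz, hxz⟩ := Metric.mem_closure_iff.1 (ht hx) (ε / 3) (by positivity)
  obtain ⟨k, hk⟩ := exists_nat_one_div_lt (show (0 : ℝ) < ε / 3 by positivity)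
  have h2 := h1 (⟨z, hz⟩, k) s hs m hm
  have h3 := Metric.infDist_le_infDist_add_dist (x := x) (y := z) (s := (F r : Set Z))
  have h4 : ‖z - m‖ ≤ ‖x - m‖ + dist x z := by
    rw [dist_eq_norm]
    have := norm_sub_le (x - m) (x - z)
    rwa [show x - m - (x - z) = z - m by abel] at this
  simp only at h2
  linarith

/-- The ground-level theorem. -/
theorem Sys.core (S : Sys P Z U) (F : P → Submodule ℝ Z) (p : P) (d : ℕ → Z)
    (hmono : ∀ s t, s ≤ t → t ≤ p → F t ≤ F s) (hcl : ∀ t ≤ p, IsClosed (F t : Set Z))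
    (hFX : ∀ t ≤ p, F t ≤ S.X t) (hd : ∀ n, d n ∈ S.X p)
    (hdense : ∀ q ≤ p, ∀ z ∈ S.X q, ∀ ε > 0, ∃ r ≤ q, ∃ m ∈ F r, ∃ n, ‖z - d n - m‖ < ε)
    (hinf : ∀ q ≤ p, ∀ A : Finset Z, (A : Set Z) ⊆ S.X q →
      ∃ r ≤ q, ∃ z ∈ S.X r, ∀ s ≤ r, z ∉ F s ⊔ Submodule.span ℝ (A : Set Z)) : False := by
  let Y : Submodule ℝ Z := Submodule.span ℝ (range d)
  have hYX : Y ≤ S.X p := Submodule.span_le.2 (by rintro _ ⟨n, rfl⟩; exact hd n)
  have hdY : ∀ n, d n ∈ Y := fun n => Submodule.subset_span ⟨n, rfl⟩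
  have hYs : TopologicalSpace.IsSeparable (Y : Set Z) := (countable_range d).isSeparable.span
  have hclos : ∀ q ≤ p, ∀ z ∈ S.X q, ∃ r ≤ q, ∀ ε > 0, ∃ m ∈ F r, ∃ n, ‖z - d n - m‖ < ε := by
    intro q hq z hz
    obtain ⟨r, hr, h1⟩ := S.sigma.baire_open (ι := ℕ)
      (fun k r => ∃ m ∈ F r, ∃ n, ‖z - d n - m‖ < 1 / ((k : ℝ) + 1)) q
      (fun k q' hq' => hdense q' (hq'.trans hq) z (S.mono hq' hz) _ (by positivity))
      (fun k r s hrs hs ⟨m, hm, h⟩ => ⟨m, hmono r s hrs (hs.trans hq) hm, h⟩)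
    refine ⟨r, hr, fun ε hε => ?_⟩
    obtain ⟨k, hk⟩ := exists_nat_one_div_lt hε
    obtain ⟨m, hm, n, h2⟩ := h1 k
    exact ⟨m, hm, n, h2.trans hk⟩
  obtain ⟨r₀, hr₀, hdist⟩ := exists_decide_dist S.sigma F p hmono hYs
  obtain ⟨G, hG1, hG2, hG3⟩ := exists_funcs (F r₀) Y (hcl r₀ hr₀) hYs (fun A hA hle => by
    obtain ⟨r, hr, z, hz, h1⟩ := hinf r₀ hr₀ A (fun x hx => S.mono hr₀ (hYX (hA hx)))
    obtain ⟨s, hs, h2⟩ := hclos r (hr.trans hr₀) z hz
    refine h1 s hs ?_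
    have hfd : FiniteDimensional ℝ (Submodule.span ℝ (A : Set Z)) :=
      FiniteDimensional.span_of_finite ℝ A.finite_toSet
    have h3 := Submodule.isClosed_sup_finiteDimensional (F s) (Submodule.span ℝ (A : Set Z))
      (hcl s ((hs.trans hr).trans hr₀))
    rw [← SetLike.mem_coe, ← h3.closure_eq, Metric.mem_closure_iff]
    intro ε hε
    obtain ⟨m, hm, n, h4⟩ := h2 ε hε
    refine ⟨d n + m, Submodule.add_mem _ ?_ (Submodule.mem_sup_left hm), ?_⟩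
    · exact sup_le_sup_right (hmono s r₀ (hs.trans hr) hr₀) _ (hle (hdY n))
    · rw [dist_eq_norm, ← sub_sub]
      exact h4)
  choose C hC0 hC using hG1
  let L : ℕ → (Z × Z →ₗ[ℝ] Z × ℝ) := fun n =>
    (LinearMap.fst ℝ Z Z + LinearMap.snd ℝ Z Z).prod ((G n : Z →ₗ[ℝ] ℝ).comp (LinearMap.fst ℝ Z Z))
  let Γ₀ : ℕ → P → Submodule ℝ (Z × ℝ) := fun n t => (Y.prod (F t)).map (L n)
  have hmem : ∀ n t, ∀ x ∈ Y, ∀ m ∈ F t, (x + m, G n x) ∈ Γ₀ n t := fun n t x hx m hm =>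
    ⟨(x, m), ⟨hx, hm⟩, rfl⟩
  have hb₀ : ∀ n, ∀ t ≤ r₀, ∀ w ∈ Γ₀ n t, |w.2| ≤ C n * ‖w.1‖ := by
    rintro n t ht _ ⟨⟨x, m⟩, ⟨hx, hm⟩, rfl⟩
    change |G n x| ≤ C n * ‖x + m‖
    refine (hC n x).trans (mul_le_mul_of_nonneg_left ?_ (hC0 n))
    have := hdist t ht x hx (-m) ((F t).neg_mem hm)
    rwa [sub_neg_eq_add] at this
  let Γ : ℕ → P → Submodule ℝ (Z × ℝ) := fun n t => (Γ₀ n t).topologicalClosure
  have hmem' : ∀ n t, ∀ x ∈ Y, ∀ m ∈ F t, (x + m, G n x) ∈ Γ n t := fun n t x hx m hm =>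
    Submodule.le_topologicalClosure _ (hmem n t x hx m hm)
  obtain ⟨r₁, hr₁, h1⟩ := S.sigma.baire_open (ι := ℕ)
    (fun n r => ∃ v : U, ∀ s ≤ r, ∀ z ∈ S.X s, ∀ c, (z, c) ∈ Γ n s → c = S.B z v) r₀
    (fun n q hq => S.dual q (Γ n) (C n) (hC0 n)
      (fun s t hst ht => Submodule.topologicalClosure_mono (Submodule.map_mono
        (Submodule.prod_mono le_rfl (hmono s t hst ((ht.trans hq).trans hr₀)))))
      (fun t ht w hw => by
        have h2 : IsClosed {w : Z × ℝ | |w.2| ≤ C n * ‖w.1‖} :=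
          isClosed_le (by fun_prop) (by fun_prop)
        exact h2.closure_subset_iff.2 (hb₀ n t (ht.trans hq)) hw)
      (fun t ht z hz => by
        obtain ⟨s, hs, h2⟩ := hclos t ((ht.trans hq).trans hr₀) z hz
        obtain ⟨H, -, hH⟩ := exists_hb (Γ₀ n s) (hC0 n) (hb₀ n s ((hs.trans ht).trans hq))
        refine ⟨s, hs, H z, ?_⟩
        have h3 : z ∈ closure {x : Z | (x, H x) ∈ Γ₀ n s} := by
          rw [Metric.mem_closure_iff]
          intro ε hε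
          obtain ⟨m, hm, k, h4⟩ := h2 ε hε
          refine ⟨d k + m, ?_, ?_⟩
          · have h5 := hmem n s _ (hdY k) m hm
            have h6 := hH _ h5
            simp only at h6
            rw [mem_ofPred_eq, h6]
            exact h5
          · rw [dist_eq_norm, ← sub_sub]
            exact h4
        have h7 : Continuous fun x : Z => (x, H x) := by fun_prop
        exact map_mem_closure (f := fun x : Z => (x, H x)) h7 h3 fun x hx => hx))
    (fun n r s hrs _ ⟨v, hv⟩ => ⟨v, fun s' hs' => hv s' (hs'.trans hrs)⟩)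
  choose v hv using h1
  have hGv : ∀ n, ∀ t ≤ r₁, ∀ x ∈ Y, ∀ m ∈ F t, G n x = S.B (x + m) (v n) := by
    intro n t ht x hx m hm
    have htp : t ≤ p := (ht.trans hr₁).trans hr₀
    exact hv n t ht _ ((S.X t).add_mem (S.mono htp (hYX hx)) (hFX t htp hm)) _
      (hmem' n t x hx m hm)
  have hli : LinearIndependent ℝ v := by
    rw [linearIndependent_iff']
    intro s c hc
    refine hG2 s c fun x hx => ?_
    have h2 : S.B x (∑ i ∈ s, c i • v i) = 0 := by rw [hc, map_zero]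
    rw [map_sum] at h2
    rw [← h2]
    refine Finset.sum_congr rfl fun i _ => ?_
    rw [hGv i r₁ le_rfl x hx 0 (F r₁).zero_mem, add_zero, map_smul, smul_eq_mul]
  obtain ⟨s, hs, y, hy, δ, hδ, hk⟩ := S.kill r₁ v hli
  obtain ⟨t, ht, m, hm, n, h2⟩ := hdense s ((hs.trans hr₁).trans hr₀) y hy (δ / 2) (by positivity)
  obtain ⟨x', hx', h3, h4⟩ := hG3 (d n) (hdY n) (δ / 2) (by positivity)
  obtain ⟨m', hm', h5⟩ := (Metric.infDist_lt_iff ⟨0, (F r₀).zero_mem⟩).1 h4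
  have hm'' : m' + m ∈ F t :=
    (F t).add_mem (hmono t r₀ ((ht.trans hs).trans hr₁) hr₀ hm') hm
  have h6 := hk (x' + (m' + m)) (by
    filter_upwards [h3] with k hk'
    rw [← hGv k t (ht.trans hs) x' hx' _ hm'', hk'])
  rw [dist_eq_norm] at h5
  have h7 := norm_add_le (y - d n - m) (d n - x' - m')
  rw [show y - d n - m + (d n - x' - m') = y - (x' + (m' + m)) by abel] at h7
  linarith

/-- From the real system to the scalar field `𝕜`. -/
theorem Sys.not_forced {𝕜 Z P U : Type} [RCLike 𝕜] [NormedAddCommGroup Z] [NormedSpace 𝕜 Z]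
    [NormedSpace ℝ Z] [IsScalarTower ℝ 𝕜 Z] [Preorder P] [NormedAddCommGroup U] [NormedSpace ℝ U]
    (S : Sys P Z U) (X : P → Submodule 𝕜 Z) (hX : ∀ p, S.X p = (X p).restrictScalars ℝ)
    (hcl : ∀ p, IsClosed (X p : Set Z)) (p : P) (M : P → Submodule 𝕜 Z) (d : ℕ → Z) :
    ¬ ForcedSQ X p M d := by
  intro h
  have hmem : ∀ q z, z ∈ S.X q ↔ z ∈ X q := fun q z => by rw [hX]; rfl
  have hmono : ∀ q r, r ≤ q → X q ≤ X r := fun q r hr z hz =>
    (hmem r z).1 (S.mono hr ((hmem q z).2 hz))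
  refine S.core (fun t => (M t ⊓ X t).restrictScalars ℝ) p d
    (fun s t hst ht z hz => ⟨h.mono t ht s hst hz.1, hmono t s hst hz.2⟩) (fun t ht => ?_)
    (fun t _ z hz => (hmem t z).2 hz.2) (fun n => (hmem p _).2 (h.d_mem n))
    (fun q hq z hz ε hε => ?_) (fun q hq A hA => ?_)
  · refine isClosed_of_closure_subset fun z hz => ?_
    have h1 : z ∈ X t := (hcl t).closure_subset_iff.2 (fun w hw => hw.2) hz
    refine ⟨h.closed t ht z h1 fun r hr ε hε => ?_, h1⟩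
    obtain ⟨m, hm, h2⟩ := Metric.mem_closure_iff.1 hz ε hε
    exact ⟨r, le_rfl, m, h.mono t ht r hr hm.1, by rwa [dist_eq_norm] at h2⟩
  · obtain ⟨r, hr, n, m, hm, h1⟩ := h.sep q hq z ((hmem q z).1 hz) ε hε
    obtain ⟨s, hs, h2⟩ := h.sub r (hr.trans hq) m hm
    exact ⟨s, hs.trans hr, m, ⟨h.mono r (hr.trans hq) s hs hm, h2⟩, n, h1⟩
  · obtain ⟨r, hr, z, hz, h1⟩ := h.codim q hq A fun z hz => (hmem q z).1 (hA hz)
    refine ⟨r, hr, z, (hmem r z).2 hz, fun s hs h2 => h1 s hs ?_⟩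
    obtain ⟨a, ha, b, hb, rfl⟩ := Submodule.mem_sup.1 h2
    exact Submodule.add_mem _ (Submodule.mem_sup_left ha.1)
      (Submodule.mem_sup_right (Submodule.span_le_restrictScalars ℝ 𝕜 _ hb))

end Vale.Agent.P129Z
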