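import Vale.Agent.P129.H3.Prod

/-!
# The killing argument for a set of functionals

Local forms of the supply and kill lemmas: the supplied functional is taken from a set.
-/

open Set Submodule Filter Topology

namespace Vale.Agent.P129Z

open Vale.Agent.P129.H223 Vale.Agent.P129.H3

variable {ι V V' : Type*} [LinearOrder ι] [NormedAddCommGroup V] [NormedSpace ℝ V]
  [NormedAddCommGroup V'] [NormedSpace ℝ V']

/-- the supply for a block sequence, from a set of functionals -/
def SuppliedS (S : ProjSystem ι V) (X : Set (V →L[ℝ] ℝ)) (l : ι) (h : ℕ → V) : Prop :=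
  ∀ m : ι, ∃ y ∈ X, (∀ v, S.P m v = v → y v = y (S.P l v)) ∧
    ∃ (C : ℝ) (u : ℕ → V), (∀ i, u i ∈ span ℝ (h '' Ici i)) ∧ (∀ i, ‖u i‖ ≤ C) ∧ ∀ i, 1 ≤ y (u i)

/-- the supply for all block sequences -/
def SupplyForS (S : ProjSystem ι V) (X : Set (V →L[ℝ] ℝ)) (R : Submodule ℝ V) : Prop :=
  ∀ l : ι, Order.IsSuccLimit l → ∀ (α : ℕ → ι) (h : ℕ → V), IsBlock S l α h → (∀ k, h k ∈ R) →
    SuppliedS S X l h

theorem SuppliedS.mono {S : ProjSystem ι V} {X : Set (V →L[ℝ] ℝ)} {l : ι} {g h : ℕ → V}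
    (hg : SuppliedS S X l g) (hgh : ∀ i, g i ∈ span ℝ (h '' Ici i)) : SuppliedS S X l h := by
  intro m
  obtain ⟨y, hy, hy2, C, u, hu, hC, h1⟩ := hg m
  refine ⟨y, hy, hy2, C, u, fun i => ?_, hC, h1⟩
  refine (span_le.2 ?_) (hu i)
  rintro _ ⟨j, hj, rfl⟩
  exact span_mono (image_mono (Ici_subset_Ici.2 hj)) (hgh j)

/-- Supply is inherited along a map which is bounded below on the span of the block sequence. -/
theorem suppliedS_of_map (S : ProjSystem ι V) (S' : ProjSystem ι V') {X : Set (V →L[ℝ] ℝ)}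
    {X' : Set (V' →L[ℝ] ℝ)} {R : Submodule ℝ V} {R' : Submodule ℝ V'}
    (hs : SupplyForS S X R) (T : V' →L[ℝ] V) (hT : ∀ a v, S.P a (T v) = T (S'.P a v))
    (hX : ∀ y ∈ X, y.comp T ∈ X') (hR : ∀ r ∈ R', T r ∈ R) {l : ι} (hl : Order.IsSuccLimit l)
    {α : ℕ → ι} {h : ℕ → V'} (hb : IsBlock S' l α h) (hh : ∀ k, h k ∈ R') {c : ℝ} (hc : 0 < c)
    {n : ℕ} (hlow : ∀ g ∈ span ℝ (h '' Ici n), c * ‖g‖ ≤ ‖T g‖) : SuppliedS S' X' l h := by
  have hpos : ∀ k, 0 < ‖T (h (n + k))‖ := by
    intro k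
    have h1 := hlow (h (n + k)) (subset_span ⟨n + k, by simp, rfl⟩)
    have h2 := hb.one_le (n + k)
    nlinarith
  let g : ℕ → V' := fun k => (‖T (h (n + k))‖)⁻¹ • h (n + k)
  have hgT : ∀ k, ‖T (g k)‖ = 1 := by
    intro k
    simp only [g, map_smul, norm_smul, norm_inv, norm_norm]
    exact inv_mul_cancel₀ (hpos k).ne'
  have hblock : IsBlock S l (fun k => α (n + k)) (fun k => T (g k)) := by
    refine ⟨fun i j hij => hb.mono (by simpa using hij), fun k => hb.lt _, fun b hbl => ?_,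
      fun k => ?_, fun k => ?_, fun k => (hgT k).ge, fun k => by rw [hgT]; norm_num⟩
    · obtain ⟨k, hk⟩ := hb.cofinal b hbl
      exact ⟨k, hk.trans (hb.mono.monotone (by omega))⟩
    · rw [hT]
      simp only [g, map_smul, hb.low, smul_zero, map_zero]
    · rw [hT]
      have := hb.high (n + k)
      rw [add_assoc] at this
      simp only [g, map_smul, this]
  have hgR : ∀ k, T (g k) ∈ R := fun k => by
    simp only [g, map_smul]
    exact R.smul_mem _ (hR _ (hh _))
  intro m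
  obtain ⟨y, hy, hy2, C, u, hu, hC, h1⟩ := hs l hl _ _ hblock hgR m
  have hlift : ∀ i, ∃ w ∈ span ℝ (g '' Ici i), T w = u i := by
    intro i
    have h3 : (fun k => T (g k)) '' Ici i = (T : V' →ₗ[ℝ] V) '' (g '' Ici i) := by
      rw [image_image]; rfl
    have h4 := hu i
    rw [h3, ← Submodule.map_span, Submodule.mem_map] at h4
    exact h4
  choose w hw hwu using hlift
  have hgh : ∀ i, span ℝ (g '' Ici i) ≤ span ℝ (h '' Ici (n + i)) := by
    intro i
    refine span_le.2 ?_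
    rintro _ ⟨j, hj, rfl⟩
    exact smul_mem _ _ (subset_span ⟨n + j, by simpa using hj, rfl⟩)
  refine ⟨y.comp T, hX y hy, fun v hv => ?_, C / c, w, fun i => ?_, fun i => ?_, fun i => ?_⟩
  · have h5 : S.P m (T v) = T v := by rw [hT, hv]
    have h6 := hy2 _ h5
    simp only [ContinuousLinearMap.coe_comp, Function.comp_apply]
    rw [h6, hT]
  · exact span_mono (image_mono (Ici_subset_Ici.2 (by omega))) (hgh i (hw i))
  · rw [le_div_iff₀ hc, mul_comm]
    refine (hlow (w i) (span_mono (image_mono (Ici_subset_Ici.2 (by omega))) (hgh i (hw i)))).trans ?_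
    rw [hwu]
    exact hC i
  · simp only [ContinuousLinearMap.coe_comp, Function.comp_apply, hwu]
    exact h1 i

/-- The supply for the product. -/
theorem supplyS_prod (S : ProjSystem ι V) (X : Set (V →L[ℝ] ℝ)) (R : Submodule ℝ V)
    (hs : SupplyForS S X R) (X' : Set (V × V →L[ℝ] ℝ))
    (h1 : ∀ y ∈ X, y.comp (ContinuousLinearMap.fst ℝ V V) ∈ X')
    (h2 : ∀ y ∈ X, y.comp (ContinuousLinearMap.snd ℝ V V) ∈ X') :
    SupplyForS (prodSystem S) X' (R.prod R) := by
  intro l hl α h hb hh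
  by_cases hA : ∃ n : ℕ, ∃ c : ℝ, 0 < c ∧ ∀ g ∈ span ℝ (h '' Ici n), c * ‖g‖ ≤ ‖g.1‖
  · obtain ⟨n, c, hc, hn⟩ := hA
    exact suppliedS_of_map S (prodSystem S) (R' := R.prod R) hs (ContinuousLinearMap.fst ℝ V V) (fun a v => rfl) h1
      (fun r hr => (Submodule.mem_prod.1 hr).1) hl hb hh hc hn
  · push Not at hA
    obtain ⟨β, g, hg1, hg2, hg3, hg4, hg5⟩ := exists_blocks (prodSystem S) hb hh
      (fun k v => ‖v.1‖ ≤ (1 / 2) ^ (k + 3) * ‖v‖) (fun n k => by
        obtain ⟨g, hg, hlt⟩ := hA n ((1 / 2) ^ (k + 3)) (by positivity)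
        refine ⟨g, hg, ?_, fun c hc => ?_⟩
        · rintro rfl
          simp at hlt
        · have : ‖(c • g).1‖ = |c| * ‖g.1‖ := by
            rw [Prod.smul_fst, norm_smul, Real.norm_eq_abs]
          rw [this, norm_smul, Real.norm_eq_abs]
          nlinarith [abs_nonneg c])
    have hfst : ∀ w ∈ span ℝ (g '' Ici 0), ‖ContinuousLinearMap.fst ℝ V V w‖ ≤ 1 / 2 * ‖w‖ :=
      block_estimate (prodSystem S) hg1 (ContinuousLinearMap.fst ℝ V V) (fun k => by
        have := hg5 k
        rw [hg3, mul_one] at this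
        exact this) hg3
    have hsnd : ∀ w ∈ span ℝ (g '' Ici 0), 1 * ‖w‖ ≤ ‖ContinuousLinearMap.snd ℝ V V w‖ := by
      intro w hw
      have h3 := hfst w hw
      have h4 : ‖w‖ = max ‖w.1‖ ‖w.2‖ := Prod.norm_def w
      rw [one_mul]
      change ‖w.1‖ ≤ 1 / 2 * ‖w‖ at h3
      change ‖w‖ ≤ ‖w.2‖
      rcases le_total ‖w.1‖ ‖w.2‖ with h5 | h5
      · rw [h4, max_eq_right h5]
      · rw [max_eq_left h5] at h4
        have h6 := norm_nonneg w.1
        have h7 : ‖w‖ = 0 := by linarith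
        rw [h7]
        exact norm_nonneg _
    exact (suppliedS_of_map S (prodSystem S) (R' := R.prod R) hs (ContinuousLinearMap.snd ℝ V V) (fun a v => rfl) h2
      (fun r hr => (Submodule.mem_prod.1 hr).2) hl hg1 hg2 one_pos hsnd).mono hg4

/-- The killing argument: a supplied functional stays away from the functionals which vanish on
a tail of an independent sequence. -/
theorem kill_of_supply [WellFoundedLT ι] (S : ProjSystem ι V)
    (hcount : ∀ a : ι, (Set.Iio a).Countable) (R : Submodule ℝ V)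
    (hR : ∀ a b : ι, a < b → ∀ w : V, S.P a w = 0 → S.P b w = w → ∀ ε > 0,
      ∃ r ∈ R, S.P a r = 0 ∧ S.P b r = r ∧ ‖r - w‖ < ε)
    (X : Set (V →L[ℝ] ℝ)) (hsupply : SupplyForS S X R) (v : ℕ → V)
    (hvli : LinearIndependent ℝ v) :
    ∃ y ∈ X, ∃ η > 0, ∀ x : V →L[ℝ] ℝ, (∀ᶠ n in atTop, x (v n) = 0) → η ≤ ‖y - x‖ := by
  obtain ⟨m, hm⟩ := S.exists_support v
  obtain ⟨l, W, δ, hl, hδ, hWs, hW0, hWδ, hW⟩ := exists_level S v hvli m hm
  obtain ⟨α, z, r, hblock, hrR, hzW, hrz⟩ := exists_gliding S hcount R hR hl hW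
  obtain ⟨y, hyX, hy, C, u, hu, huC, hyu⟩ := hsupply l hl α r hblock hrR m
  have hC : 0 ≤ C := (norm_nonneg _).trans (huC 0)
  choose c hcs hcu using fun i => (Finsupp.mem_span_image_iff_linearCombination ℝ).1 (hu i)
  let t : ℕ → V := fun i => (c i).sum fun k a => a • z k
  have hcI : ∀ i, ∀ k ∈ (c i).support, i ≤ k := fun i k hk => by
    have := (Finsupp.mem_supported ℝ (c i)).1 (hcs i) hk
    exact this
  have hcC : ∀ i k, |c i k| ≤ 2 * C := fun i k => by
    have h1 := abs_coeff_le S hblock (c i) k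
    have h2 : ((c i).sum fun j t => t • r j) = u i := by
      rw [← hcu i, Finsupp.linearCombination_apply]
    rw [h2] at h1
    have h3 := huC i
    linarith
  have htW : ∀ i, t i ∈ W 0 := fun i =>
    Submodule.sum_mem _ fun k _ => Submodule.smul_mem _ _ (hW0 k (hzW k))
  have htv : ∀ i, t i ∈ Submodule.span ℝ (v '' Set.Ici i) := fun i =>
    Submodule.sum_mem _ fun k hk => Submodule.smul_mem _ _
      (Submodule.span_mono (Set.image_mono (Set.Ici_subset_Ici.2 (hcI i k hk))) (hWs k (hzW k)))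
  have htu : ∀ i, ‖S.P l (t i) - u i‖ ≤ C * (1 / 2) ^ i := fun i => by
    have e1 : S.P l (t i) - u i = ∑ k ∈ (c i).support, c i k • (S.P l (z k) - r k) := by
      rw [← hcu i, Finsupp.linearCombination_apply]
      simp only [t, Finsupp.sum, map_sum, map_smul, smul_sub, Finset.sum_sub_distrib]
    rw [e1]
    refine (norm_sum_le _ _).trans ?_
    have h1 : ∀ k ∈ (c i).support, ‖c i k • (S.P l (z k) - r k)‖ ≤
        C / 2 * (1 / 2) ^ k := fun k _ => by
      rw [norm_smul, Real.norm_eq_abs, norm_sub_rev]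
      have h2 := hcC i k
      have h3 := hrz k
      have h4 : (0 : ℝ) < (1 / 2) ^ k := by positivity
      calc |c i k| * ‖r k - S.P l (z k)‖ ≤ (2 * C) * (1 / 4 * (1 / 2) ^ k) :=
            mul_le_mul h2 h3 (norm_nonneg _) (by positivity)
        _ = C / 2 * (1 / 2) ^ k := by ring
    refine (Finset.sum_le_sum h1).trans ?_
    rw [← Finset.mul_sum]
    have h5 := sum_pow_le (c i).support i (hcI i)
    nlinarith [mul_le_mul_of_nonneg_left h5 hC]
  have hpow : ∀ k : ℕ, (1 / 2 : ℝ) ^ k ≤ 1 := fun k => pow_le_one₀ (by norm_num) (by norm_num)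
  have htn : ∀ i, ‖t i‖ ≤ 2 * C / δ := fun i => by
    rw [le_div_iff₀ hδ, mul_comm]
    refine (hWδ _ (htW i)).trans ?_
    have h1 := norm_add_le (S.P l (t i) - u i) (u i)
    rw [sub_add_cancel] at h1
    have h2 := htu i
    have h3 := huC i
    have h4 := mul_le_mul_of_nonneg_left (hpow i) hC
    linarith
  have hspan : ∀ x ∈ Submodule.span ℝ (range v), S.P m x = x := fun x hx => by
    induction hx using Submodule.span_induction with
    | mem x hx => obtain ⟨n, rfl⟩ := hx; exact hm n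
    | zero => simp
    | add x y _ _ hx hy => rw [map_add, hx, hy]
    | smul a x _ hx => rw [map_smul, hx]
  have htm : ∀ i, S.P m (t i) = t i := fun i =>
    hspan _ (Submodule.span_mono (Set.image_subset_range _ _) (htv i))
  have hyt : ∀ i, 1 - ‖y‖ * (C * (1 / 2) ^ i) ≤ y (t i) := fun i => by
    rw [hy _ (htm i)]
    have e1 : y (S.P l (t i)) = y (u i) + y (S.P l (t i) - u i) := by
      rw [map_sub]; abel
    rw [e1]
    have h1 := hyu i
    have h2 : |y (S.P l (t i) - u i)| ≤ ‖y‖ * (C * (1 / 2) ^ i) := by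
      rw [← Real.norm_eq_abs]
      exact (y.le_opNorm _).trans (mul_le_mul_of_nonneg_left (htu i) (norm_nonneg _))
    have h3 := neg_abs_le (y (S.P l (t i) - u i))
    linarith
  refine ⟨y, hyX, 1 / (4 * (2 * C / δ + 1)), by positivity, fun x hxy => ?_⟩
  by_contra hx
  rw [not_le] at hx
  obtain ⟨N, hN⟩ := Filter.eventually_atTop.1 hxy
  have hxs : ∀ w ∈ Submodule.span ℝ (v '' Set.Ici N), x w = 0 := fun w hw => by
    induction hw using Submodule.span_induction with
    | mem w hw =>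
      obtain ⟨n, hn, rfl⟩ := hw
      exact hN n hn
    | zero => simp
    | add a b _ _ ha hb => rw [map_add, ha, hb, add_zero]
    | smul a b _ hb => rw [map_smul, hb, smul_zero]
  have hxt : ∀ i, N ≤ i → x (t i) = 0 := fun i hi =>
    hxs _ (Submodule.span_mono (Set.image_mono (Set.Ici_subset_Ici.2 hi)) (htv i))
  have hlim : Tendsto (fun i : ℕ => ‖y‖ * (C * (1 / 2 : ℝ) ^ i)) atTop (𝓝 0) := by
    have h1 := tendsto_pow_atTop_nhds_zero_of_lt_one (r := (1 / 2 : ℝ)) (by norm_num) (by norm_num)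
    have h2 := (h1.const_mul C).const_mul ‖y‖
    simpa using h2
  obtain ⟨N', hN'⟩ := Filter.eventually_atTop.1 (hlim.eventually (gt_mem_nhds (show (0 : ℝ) < 1 / 2 by norm_num)))
  have h1 := hyt (max N N')
  have h2 := hN' (max N N') (le_max_right _ _)
  have h3 := hxt (max N N') (le_max_left _ _)
  have h4 : |y (t (max N N')) - x (t (max N N'))| ≤ 1 / 4 := by
    have e1 : y (t (max N N')) - x (t (max N N')) =
        (y - x) (t (max N N')) := rfl
    rw [e1, ← Real.norm_eq_abs]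
    have h5 : ‖y - x‖ < 1 / (4 * (2 * C / δ + 1)) := hx
    have h6 := htn (max N N')
    refine ((y - x).le_opNorm _).trans ?_
    calc ‖y - x‖ * ‖t (max N N')‖ ≤ 1 / (4 * (2 * C / δ + 1)) * (2 * C / δ) :=
          mul_le_mul h5.le h6 (norm_nonneg _) (by positivity)
      _ ≤ 1 / 4 := by
          have h7 : 0 ≤ 2 * C / δ := by positivity
          rw [div_mul_eq_mul_div, one_mul, div_le_div_iff₀ (by positivity) (by norm_num)]
          linarith
  rw [h3, sub_zero] at h4
  have h8 := le_abs_self (y (t (max N N')))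
  linarith

end Vale.Agent.P129Z
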