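import Vale.Agent.P129.H448.Real
import Vale.Agent.P129.H471.Tree
import Vale.Agent.P129.H560.ZSeqEx
import Vale.Agent.P129.H200.Chain
import Vale.Agent.P129Z.ACore
import Vale.Agent.P129Z.AKill

/-!
# The poset of countable initial parts of families of branches
-/

open Set Filter Topology

namespace Vale.Agent.P129Z

open Vale.Agent.P129 H168 H448

/-! ### The generators depend only on the earlier branches -/

section Local

variable {ι V : Type*} [LinearOrder ι] [NormedAddCommGroup V] [NormedSpace ℝ V] {F : Frame ι V}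

open Classical in
/-- the choice made in one step of the recursion -/
noncomputable def stepAux (c : ℕ → StrongDual ℝ V) (nd : StrongDual ℝ V) (b : ℝ) :
    StrongDual ℝ V :=
  if h : ∃ K, ‖c K - nd‖ ≤ 2 * b then c h.choose else 0

theorem step_eq (B : BranchSystem F) (μ : ι) (prev : ∀ ν, ν < μ → ℕ → StrongDual ℝ V) (k : ℕ) :
    H168.step B μ prev k = stepAux (cand B μ prev k) ((B.br μ).node k) ((B.br μ).bd k) := rfl

theorem yOf_congr {B B' : BranchSystem F} {μ : ι} (h : B.br μ = B'.br μ)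
    (x : ℕ → StrongDual ℝ V) : yOf B μ x = yOf B' μ x := by
  rw [yOf, yOf, h]

theorem xRec_congr [WellFoundedLT ι] {B B' : BranchSystem F} (μ : ι)
    (h : ∀ ν ≤ μ, B.br ν = B'.br ν) : xRec B μ = xRec B' μ := by
  induction μ using (wellFounded_lt (α := ι)).induction with
  | _ μ ih =>
    funext k
    rw [xRec_eq B μ, xRec_eq B' μ, step_eq, step_eq]
    have h1 : cand B μ (fun ν _ => xRec B ν) k = cand B' μ (fun ν _ => xRec B' ν) k := by
      funext K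
      rw [cand_eq, cand_eq, ← h μ le_rfl]
      refine Finset.sum_congr rfl fun a ha => ?_
      have h2 := B.supp_lt μ k a ha
      rw [ih a h2 fun ν hν => h ν (hν.trans h2.le), yOf_congr (h a h2.le)]
    rw [h1, h μ le_rfl]

end Local

/-- the generators of a family -/
noncomputable def gens (𝓕 : Family) : Generators 𝓕.system where
  y := fun μ => yOf 𝓕.system μ (xRec 𝓕.system μ)
  x := xRec 𝓕.system
  x_mem := fun μ k => (xRec_spec 𝓕.system μ).2 k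
  x_sub_node := fun μ k => (xRec_spec 𝓕.system μ).1 k
  y_eq := fun _ => rfl
  y_self := fun μ => H168.y_self 𝓕.system μ
  y_lt := fun μ ν h => H168.y_lt 𝓕.system μ ν h
  norming := fun v M hM h => norming_aux 𝓕.system v M hM h
  norming_lt := fun a v M hM hP h => norming_lt_aux 𝓕.system a v M hM hP h

theorem gens_x_mem (𝓕 : Family) (μ : W) (k : ℕ) (l : W)
    (hl : ∀ a ∈ (𝓕.system.br μ).supp k, a < l) :
    (gens 𝓕).x μ k ∈ Submodule.span ℝ ((gens 𝓕).y '' Set.Iio l) := by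
  change xRec 𝓕.system μ k ∈
    Submodule.span ℝ ((fun a => yOf 𝓕.system a (xRec 𝓕.system a)) '' Set.Iio l)
  rw [xRec_eq 𝓕.system μ, H168.step]
  split_ifs with h
  · rw [cand_eq]
    refine Submodule.sum_mem _ fun a ha => Submodule.smul_mem _ _ (Submodule.sub_mem _ ?_ ?_)
    · exact Submodule.subset_span ⟨a, hl a ha, rfl⟩
    · refine Submodule.sum_mem _ fun j _ => ?_
      refine Submodule.span_mono (Set.image_mono ?_) ((xRec_spec 𝓕.system a).2 j)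
      exact Set.Iio_subset_Iio (hl a ha).le
  · exact Submodule.zero_mem _

theorem br_congr {𝓕 𝓖 : Family} {μ : W} (h : 𝓕.B μ = 𝓖.B μ) : 𝓕.br μ = 𝓖.br μ := by
  by_cases h1 : ∃ Φ, 𝓕.B μ = some Φ
  · obtain ⟨Φ, hΦ⟩ := h1
    rw [𝓕.br_some hΦ, 𝓖.br_some (h ▸ hΦ)]
  · rw [𝓕.br_none h1, 𝓖.br_none (h ▸ h1)]

theorem y_congr {𝓕 𝓖 : Family} {μ : W} (h : ∀ ν ≤ μ, 𝓕.B ν = 𝓖.B ν) :
    (gens 𝓕).y μ = (gens 𝓖).y μ := by
  change yOf 𝓕.system μ (xRec 𝓕.system μ) = yOf 𝓖.system μ (xRec 𝓖.system μ)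
  rw [xRec_congr (B := 𝓕.system) (B' := 𝓖.system) μ fun ν hν => br_congr (h ν hν),
    yOf_congr (B := 𝓕.system) (B' := 𝓖.system) (br_congr (h μ le_rfl))]

/-! ### The poset -/

/-- A condition: a family of branches, of which the part below the height counts. -/
structure Cond where
  ht : W
  fam : Family

instance : Preorder Cond where
  le q p := p.ht ≤ q.ht ∧ ∀ μ < p.ht, q.fam.B μ = p.fam.B μ
  le_refl _ := ⟨le_rfl, fun _ _ => rfl⟩
  le_trans _ _ _ h k := ⟨k.1.trans h.1, fun μ hμ => (h.2 μ (hμ.trans_le k.1)).trans (k.2 μ hμ)⟩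

theorem Cond.le_def {q p : Cond} :
    q ≤ p ↔ p.ht ≤ q.ht ∧ ∀ μ < p.ht, q.fam.B μ = p.fam.B μ := Iff.rfl

/-- the empty family -/
def emptyFam : Family where
  B _ := none
  inf _ _ h := by cases h
  lt _ _ h := by cases h
  disj _ _ _ _ _ h := by cases h

/-- the least index -/
noncomputable def botW : W := (wellFounded_lt (α := W)).min univ univ_nonempty

theorem not_lt_botW (a : W) : ¬ a < botW := (wellFounded_lt (α := W)).not_lt_min univ (mem_univ a)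

noncomputable instance : OrderTop Cond where
  top := ⟨botW, emptyFam⟩
  le_top p := ⟨not_lt.1 (not_lt_botW p.ht), fun μ hμ => absurd hμ (not_lt_botW μ)⟩

theorem Cond.raise_le (p : Cond) {a : W} (h : p.ht ≤ a) : (⟨a, p.fam⟩ : Cond) ≤ p :=
  ⟨h, fun _ _ => rfl⟩

theorem sigmaClosed_cond : SigmaClosed Cond := by
  classical
  intro f hf
  have hanti : ∀ m n, m ≤ n → f n ≤ f m := fun m n h => antitone_nat_of_succ_le hf h
  obtain ⟨a, ha⟩ := exists_gt_of_countable (range fun n => (f n).ht) (countable_range _)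
  let B : W → Option (ℕ → Node) := fun μ =>
    if h : ∃ n, μ < (f n).ht then (f h.choose).fam.B μ else none
  have hB : ∀ n, ∀ μ < (f n).ht, B μ = (f n).fam.B μ := by
    intro n μ hμ
    have h : ∃ n, μ < (f n).ht := ⟨n, hμ⟩
    simp only [B, dif_pos h]
    rcases le_total n h.choose with h1 | h1
    · exact (hanti _ _ h1).2 μ hμ
    · exact ((hanti _ _ h1).2 μ h.choose_spec).symm
  have hB' : ∀ μ Φ, B μ = some Φ → ∃ n, μ < (f n).ht := by
    intro μ Φ h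
    by_contra h1
    simp only [B, dif_neg h1] at h
    cases h
  refine ⟨⟨a, B, fun μ Φ h => ?_, fun μ Φ h => ?_, fun μ ν Φ Ψ hne h k => ?_⟩,
    fun n => ⟨(ha _ ⟨n, rfl⟩).le, hB n⟩⟩
  · obtain ⟨n, hn⟩ := hB' μ Φ h
    exact (f n).fam.inf μ Φ (hB n μ hn ▸ h)
  · obtain ⟨n, hn⟩ := hB' μ Φ h
    exact (f n).fam.lt μ Φ (hB n μ hn ▸ h)
  · obtain ⟨n, hn⟩ := hB' μ Φ h
    obtain ⟨m, hm⟩ := hB' ν Ψ k
    exact (f (max n m)).fam.disj μ ν Φ Ψ hne
      (hB _ μ (hn.trans_le (hanti _ _ (le_max_left n m)).1) ▸ h)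
      (hB _ ν (hm.trans_le (hanti _ _ (le_max_right n m)).1) ▸ k)

/-- the span of the generators below `a` -/
noncomputable def Cond.sp (p : Cond) (a : W) : Submodule ℝ (StrongDual ℝ V) :=
  Submodule.span ℝ ((gens p.fam).y '' Iio a)

/-- the space of a condition -/
noncomputable def Cond.X (p : Cond) : Submodule ℝ (StrongDual ℝ V) :=
  (p.sp p.ht).topologicalClosure

theorem Cond.y_eq {p q : Cond} (h : q ≤ p) {μ : W} (hμ : μ < p.ht) :
    (gens q.fam).y μ = (gens p.fam).y μ :=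
  y_congr fun ν hν => h.2 ν (hν.trans_lt hμ)

theorem Cond.sp_eq {p q : Cond} (h : q ≤ p) {a : W} (ha : a ≤ p.ht) : q.sp a = p.sp a := by
  unfold Cond.sp
  congr 1
  exact image_congr fun μ hμ => Cond.y_eq h (lt_of_lt_of_le hμ ha)

theorem Cond.sp_mono (p : Cond) {a b : W} (h : a ≤ b) : p.sp a ≤ p.sp b :=
  Submodule.span_mono (image_mono (Iio_subset_Iio h))

theorem Cond.X_mono {p q : Cond} (h : q ≤ p) : p.X ≤ q.X := by
  refine Submodule.topologicalClosure_mono ?_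
  rw [← Cond.sp_eq h le_rfl]
  exact q.sp_mono h.1

theorem Cond.y_mem (p : Cond) {μ : W} (hμ : μ < p.ht) : (gens p.fam).y μ ∈ p.X :=
  Submodule.le_topologicalClosure _ (Submodule.subset_span ⟨μ, hμ, rfl⟩)

theorem Cond.isClosed_X (p : Cond) : IsClosed (p.X : Set (StrongDual ℝ V)) :=
  Submodule.isClosed_topologicalClosure _

theorem Cond.exists_inf (q : Cond) : ∃ r ≤ q, ¬ FiniteDimensional ℝ r.X := by
  have hW : Infinite W := by
    rw [Cardinal.infinite_iff, mk_W]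
    exact Cardinal.aleph0_le_aleph 1
  let f : ℕ ↪ W := Infinite.natEmbedding W
  obtain ⟨a, ha⟩ := exists_gt_of_countable (insert q.ht (range f))
    ((countable_range f).insert _)
  refine ⟨⟨a, q.fam⟩, q.raise_le (ha _ (mem_insert _ _)).le, fun hfin => ?_⟩
  have h1 : LinearIndependent ℝ fun n : ℕ => (⟨(gens q.fam).y (f n),
      Cond.y_mem ⟨a, q.fam⟩ (ha _ (mem_insert_of_mem _ ⟨n, rfl⟩))⟩ : Cond.X ⟨a, q.fam⟩) := by
    refine LinearIndependent.of_comp (Cond.X ⟨a, q.fam⟩).subtype ?_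
    exact (linearIndependent_y (gens q.fam)).comp f f.injective
  have := h1.finite
  exact not_finite ℕ

/-! ### Coherent bounded functionals are decided to be vectors -/

section Dual

variable {p : Cond} {Γ : Cond → Submodule ℝ (StrongDual ℝ V × ℝ)} {C : ℝ}

/-- `v` represents the functional below `a`, according to `s` -/
def Rep (Γ : Cond → Submodule ℝ (StrongDual ℝ V × ℝ)) (s : Cond) (a : W) (v : V) : Prop :=
  a ≤ s.ht ∧ frame.P a v = v ∧ ∀ z ∈ s.sp a, (z, z v) ∈ Γ s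

theorem Rep.mono (hm : ∀ s t, s ≤ t → t ≤ p → Γ t ≤ Γ s) {s r : Cond} {a : W} {v : V}
    (h : Rep Γ s a v) (hr : r ≤ s) (hs : s ≤ p) : Rep Γ r a v :=
  ⟨h.1.trans hr.1, h.2.1, fun z hz => hm r s hr hs (h.2.2 z (Cond.sp_eq hr h.1 ▸ hz))⟩

theorem graph_unique (hb : ∀ t ≤ p, ∀ w ∈ Γ t, |w.2| ≤ C * ‖w.1‖) {t : Cond} (ht : t ≤ p)
    {z : StrongDual ℝ V} {c c' : ℝ} (h : (z, c) ∈ Γ t) (h' : (z, c') ∈ Γ t) : c = c' := by
  have := hb t ht _ ((Γ t).sub_mem h h')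
  simp only [Prod.mk_sub_mk, sub_self, norm_zero, mul_zero, abs_nonpos_iff] at this
  exact sub_eq_zero.1 this

theorem Rep.norm_le (hC : 0 ≤ C) (hb : ∀ t ≤ p, ∀ w ∈ Γ t, |w.2| ≤ C * ‖w.1‖) {s : Cond} {a : W}
    {v : V} (h : Rep Γ s a v) (hs : s ≤ p) : ‖v‖ ≤ 3 * C :=
  (gens s.fam).norming_lt a v C hC h.2.1 fun z hz => hb s hs _ (h.2.2 z hz)

theorem Rep.coh (hm : ∀ s t, s ≤ t → t ≤ p → Γ t ≤ Γ s)
    (hb : ∀ t ≤ p, ∀ w ∈ Γ t, |w.2| ≤ C * ‖w.1‖) {s s' : Cond} {a a' : W} {v v' : V}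
    (h : Rep Γ s a v) (h' : Rep Γ s' a' v') (hs' : s' ≤ s) (ha : a ≤ a') (hs : s ≤ p) :
    frame.P a v' = v := by
  have h1 := h.mono hm hs' hs
  refine (gens s'.fam).unique_lt (a := a) (by rw [frame.P_P, min_self]) h.2.1 fun z hz => ?_
  rw [(gens s'.fam).span_P hz]
  exact graph_unique hb (hs'.trans hs) (h'.2.2 z (s'.sp_mono ha hz)) (h1.2.2 z hz)

theorem exists_rep (hC : 0 ≤ C) (hm : ∀ s t, s ≤ t → t ≤ p → Γ t ≤ Γ s)
    (hb : ∀ t ≤ p, ∀ w ∈ Γ t, |w.2| ≤ C * ‖w.1‖)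
    (ht : ∀ t ≤ p, ∀ z ∈ t.X, ∃ s ≤ t, ∃ c, (z, c) ∈ Γ s) (t : Cond) (htp : t ≤ p) :
    ∃ s ≤ t, ∃ v, Rep Γ s t.ht v := by
  have := (countable_Iio t.ht).to_subtype
  obtain ⟨s, hs, h1⟩ := sigmaClosed_cond.baire_open (ι := Iio t.ht)
    (fun μ s => ∃ c, ((gens t.fam).y μ, c) ∈ Γ s) t
    (fun μ q hq => ht q (hq.trans htp) _ (Cond.X_mono hq (t.y_mem μ.2)))
    (fun μ r s hrs hs ⟨c, hc⟩ => ⟨c, hm r s hrs (hs.trans htp) hc⟩)
  obtain ⟨H, hH1, hH2⟩ := exists_hb (Γ s) hC (hb s (hs.trans htp))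
  obtain ⟨v, hv1, hv2⟩ := (gens s.fam).exists_lt H (fun x _ y _ => map_add H x y)
    (fun c x _ => map_smul H c x) C hC (fun x _ => hH1 x) t.ht
  refine ⟨s, hs, v, hs.1, hv1, fun z hz => ?_⟩
  rw [← hv2 z hz]
  induction hz using Submodule.span_induction with
  | mem x hx =>
    obtain ⟨μ, hμ, rfl⟩ := hx
    obtain ⟨c, hc⟩ := h1 ⟨μ, hμ⟩
    rw [← Cond.y_eq hs hμ] at hc
    have h2 : H ((gens s.fam).y μ) = c := hH2 _ hc
    rw [h2]
    exact hc
  | zero => rw [map_zero]; exact (Γ s).zero_mem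
  | add x y _ _ hx hy => rw [map_add]; exact (Γ s).add_mem hx hy
  | smul c x _ hx => rw [map_smul]; exact (Γ s).smul_mem c hx

theorem exists_rep_stable (hC : 0 ≤ C) (hm : ∀ s t, s ≤ t → t ≤ p → Γ t ≤ Γ s)
    (hb : ∀ t ≤ p, ∀ w ∈ Γ t, |w.2| ≤ C * ‖w.1‖)
    (ht : ∀ t ≤ p, ∀ z ∈ t.X, ∃ s ≤ t, ∃ c, (z, c) ∈ Γ s) {δ : ℝ} (hδ : 0 < δ) (t : Cond)
    (htp : t ≤ p) : ∃ s ≤ t, ∃ a v, Rep Γ s a v ∧
      ∀ s' ≤ s, ∀ a', a ≤ a' → ∀ v', Rep Γ s' a' v' → ‖v' - v‖ ≤ δ := by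
  by_contra hcon
  push Not at hcon
  let T := {x : Cond × W × V // x.1 ≤ t ∧ Rep Γ x.1 x.2.1 x.2.2}
  have h1 : ∀ x : T, ∃ y : T, y.1.1 ≤ x.1.1 ∧ x.1.2.1 ≤ y.1.2.1 ∧ δ < ‖y.1.2.2 - x.1.2.2‖ := by
    rintro ⟨⟨s, a, v⟩, hs, hr⟩
    obtain ⟨s', hs', a', ha', v', hr', h2⟩ := hcon s hs a v hr
    exact ⟨⟨(s', a', v'), hs'.trans hs, hr'⟩, hs', ha', h2⟩
  choose nx hn1 hn2 hn3 using h1
  obtain ⟨s₀, hs₀, v₀, h₀⟩ := exists_rep hC hm hb ht t htp
  let x : ℕ → T := fun n => nx^[n] ⟨(s₀, t.ht, v₀), hs₀, h₀⟩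
  have hx : ∀ n, x (n + 1) = nx (x n) := fun n => by
    simp only [x, Function.iterate_succ_apply']
  have hanti : Antitone fun n => (x n).1.1 :=
    antitone_nat_of_succ_le fun n => by rw [hx]; exact hn1 _
  have hmono : Monotone fun n => (x n).1.2.1 :=
    monotone_nat_of_le_succ fun n => by rw [hx]; exact hn2 _
  have hcoh : ∀ i N, i ≤ N → frame.P (x i).1.2.1 (x N).1.2.2 = (x i).1.2.2 := fun i N h =>
    (x i).2.2.coh hm hb (x N).2.2 (hanti h) (hmono h) ((x i).2.1.trans htp)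
  have key : ∀ N : ℕ, (N : ℝ) * δ ≤ frame.m N * ‖(x N).1.2.2‖ := by
    intro N
    refine le_trans ?_ (frame.sum_le (fun n => (x n).1.2.1) hmono N (x N).1.2.2)
    have h2 : ∀ i ∈ Finset.range N, δ ≤
        ‖frame.P (x (i + 1)).1.2.1 (x N).1.2.2 - frame.P (x i).1.2.1 (x N).1.2.2‖ := by
      intro i hi
      have hi' : i < N := Finset.mem_range.1 hi
      rw [hcoh _ _ hi', hcoh _ _ hi'.le, hx]
      exact (hn3 (x i)).le
    calc (N : ℝ) * δ = ∑ _i ∈ Finset.range N, δ := by simp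
      _ ≤ _ := Finset.sum_le_sum h2
  have h3 : ∀ᶠ N : ℕ in atTop, frame.m N / N < δ / (3 * C + 1) :=
    frame.m_small.eventually_lt_const (by positivity)
  obtain ⟨N, hN, hN0⟩ := (h3.and (eventually_gt_atTop 0)).exists
  have hN0' : (0 : ℝ) < N := by exact_mod_cast hN0
  have h4 : frame.m N < N * (δ / (3 * C + 1)) := by
    rw [div_lt_iff₀ hN0'] at hN
    linarith
  have h5 := key N
  have h6 : 0 ≤ ‖(x N).1.2.2‖ := norm_nonneg _
  have h7 : ‖(x N).1.2.2‖ ≤ 3 * C := (x N).2.2.norm_le hC hb ((x N).2.1.trans htp)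
  have h8 : frame.m N * ‖(x N).1.2.2‖ ≤ N * (δ / (3 * C + 1)) * (3 * C) := by
    calc frame.m N * ‖(x N).1.2.2‖ ≤ (N * (δ / (3 * C + 1))) * ‖(x N).1.2.2‖ :=
          mul_le_mul_of_nonneg_right h4.le h6
      _ ≤ _ := mul_le_mul_of_nonneg_left h7 (by positivity)
  have h9 : N * (δ / (3 * C + 1)) * (3 * C) < N * δ := by
    have : δ / (3 * C + 1) * (3 * C) < δ := by
      rw [div_mul_eq_mul_div, div_lt_iff₀ (by positivity)]
      nlinarith
    nlinarith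
  linarith

theorem cond_dual (p : Cond) (Γ : Cond → Submodule ℝ (StrongDual ℝ V × ℝ)) (C : ℝ) (hC : 0 ≤ C)
    (hm : ∀ s t, s ≤ t → t ≤ p → Γ t ≤ Γ s) (hb : ∀ t ≤ p, ∀ w ∈ Γ t, |w.2| ≤ C * ‖w.1‖)
    (ht : ∀ t ≤ p, ∀ z ∈ t.X, ∃ s ≤ t, ∃ c, (z, c) ∈ Γ s) :
    ∃ r ≤ p, ∃ v : V, ∀ s ≤ r, ∀ z ∈ s.X, ∀ c, (z, c) ∈ Γ s → c = z v := by
  obtain ⟨r, hr, h1⟩ := sigmaClosed_cond.baire_open (ι := ℕ)
    (fun k s => ∃ a v, Rep Γ s a v ∧
      ∀ s' ≤ s, ∀ a', a ≤ a' → ∀ v', Rep Γ s' a' v' → ‖v' - v‖ ≤ 1 / ((k : ℝ) + 1)) p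
    (fun k q hq => exists_rep_stable hC hm hb ht (by positivity) q hq)
    (fun k r s hrs hs ⟨a, v, h1, h2⟩ =>
      ⟨a, v, h1.mono hm hrs hs, fun s' hs' => h2 s' (hs'.trans hrs)⟩)
  choose a w hw1 hw2 using h1
  obtain ⟨s₀, hs₀, v, hv⟩ := exists_rep hC hm hb ht r hr
  have huniq : ∀ s' ≤ s₀, ∀ a', r.ht ≤ a' → ∀ v', Rep Γ s' a' v' → v' = v := by
    intro s' hs' a' ha' v' hv'
    refine sub_eq_zero.1 (norm_le_zero_iff.1 (le_of_forall_pos_le_add fun ε hε => ?_))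
    obtain ⟨k, hk⟩ := exists_nat_one_div_lt (half_pos hε)
    have h2 := hw2 k s' (hs'.trans hs₀) a' ((hw1 k).1.trans ha') v' hv'
    have h3 := hw2 k s₀ hs₀ r.ht (hw1 k).1 v hv
    have h4 := norm_sub_le (v' - w k) (v - w k)
    rw [show v' - w k - (v - w k) = v' - v by abel] at h4
    linarith
  refine ⟨s₀, hs₀.trans hr, v, fun s hs z hz c hc => ?_⟩
  have hsp : s ≤ p := (hs.trans hs₀).trans hr
  obtain ⟨s', hs', v', hv'⟩ := exists_rep hC hm hb ht s hsp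
  obtain rfl := huniq s' (hs'.trans hs) s.ht (hs.trans hs₀).1 v' hv'
  have h2 : IsClosed {w : StrongDual ℝ V | |c - w v'| ≤ C * ‖z - w‖} :=
    isClosed_le (by fun_prop) (by fun_prop)
  have h3 : (s.sp s.ht : Set (StrongDual ℝ V)) ⊆ {w | |c - w v'| ≤ C * ‖z - w‖} := by
    intro w hw
    have h4 := hv'.2.2 w (by rw [Cond.sp_eq hs' le_rfl]; exact hw)
    exact hb s' (hs'.trans hsp) _ ((Γ s').sub_mem (hm s' s hs' hsp hc) h4)
  have h5 := h2.closure_subset_iff.2 h3 hz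
  simp only [mem_ofPred_eq, sub_self, norm_zero, mul_zero, abs_nonpos_iff] at h5
  exact sub_eq_zero.1 h5

end Dual

end Vale.Agent.P129Z
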