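import Vale.Agent.P129Z.APoset

/-!
# The supply of killing branches below each condition, and the system of spaces
-/

open Set Filter Topology

namespace Vale.Agent.P129Z

open Vale.Agent.P129 H168 H223

section One

variable {ι V : Type*} [LinearOrder ι] [NormedAddCommGroup V] [NormedSpace ℝ V]

/-- One killing branch gives one supplied generator. -/
theorem supply_one [WellFoundedLT ι] [CompleteSpace V] {F : Frame ι V} {B : BranchSystem F}
    {hcof : ∀ s : Set ι, s.Countable → ∃ a, ∀ b ∈ s, b < a}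
    (G : Generators B) (hG : ∀ (μ : ι) (k : ℕ) (l : ι), (∀ a ∈ (B.br μ).supp k, a < l) →
      G.x μ k ∈ Submodule.span ℝ (G.y '' Set.Iio l)) {l : ι} (hl : Order.IsSuccLimit l)
    {α : ℕ → ι} {h : ℕ → V} (hblock : IsBlock (projSystem F hcof) l α h) {m μ : ι} (hmμ : m ≤ μ)
    (hlμ : l ≤ μ) (hsupp : ∀ k, ∀ a ∈ (B.br μ).supp k, a < l) {C : ℝ} {u : ℕ → V}
    (hu : ∀ i, u i ∈ Submodule.span ℝ (h '' Set.Ici i)) (huC : ∀ i, ‖u i‖ ≤ C)
    (hlim : ∀ i, 1 ≤ (B.br μ).lim (u i)) :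
    (∀ v, (projSystem F hcof).P m v = v → G.y μ v = G.y μ ((projSystem F hcof).P l v)) ∧
      ∃ (C : ℝ) (u : ℕ → V), (∀ i, u i ∈ Submodule.span ℝ (h '' Set.Ici i)) ∧
        (∀ i, ‖u i‖ ≤ C) ∧ ∀ i, 1 ≤ G.y μ (u i) := by
  have hC : 0 ≤ C := (norm_nonneg _).trans (huC 0)
  have hsum : Summable fun k => (G.x μ k - (B.br μ).node k) :=
    summable_sub_node B μ _ (G.x_sub_node μ)
  have hy : ∀ v, G.y μ v = F.es μ v + (B.br μ).lim v +
      ∑' k, (G.x μ k - (B.br μ).node k) v := fun v => by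
    rw [G.y_eq, add_apply, add_apply, tsum_apply hsum]
  refine ⟨?_, ?_⟩
  · intro v hv
    change F.P m v = v at hv
    change G.y μ v = G.y μ (F.P l v)
    rw [hy, hy]
    congr 1
    · congr 1
      · rw [es_P_of_le F hlμ, ← hv, es_P_of_le F hmμ]
      · rw [lim_P _ hsupp]
    · refine tsum_congr fun k => ?_
      rw [sub_apply, sub_apply, node_P _ k (hsupp k), G.span_P (hG μ k l (hsupp k))]
  · -- the vectors `u i` live on `[α i, l)`
    have hPl : ∀ i, F.P l (u i) = u i := fun i => by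
      refine eq_of_mem_span (f := F.P l) (g := ContinuousLinearMap.id ℝ V) ?_ (hu i)
      rintro _ ⟨k, -, rfl⟩
      have h1 : F.P (α (k + 1)) (h k) = h k := hblock.high k
      change F.P l (h k) = h k
      conv_lhs => rw [← h1]
      rw [F.P_P, min_eq_right (hblock.lt (k + 1)).le, h1]
    have hPa : ∀ i j, i ≤ j → F.P (α i) (u j) = 0 := fun i j hij => by
      refine eq_of_mem_span (f := F.P (α i)) (g := 0) ?_ (hu j)
      rintro _ ⟨k, hk, rfl⟩
      have h1 : F.P (α k) (h k) = 0 := hblock.low k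
      have h2 : F.P (α i) (F.P (α k) (h k)) = F.P (α i) (h k) := by
        rw [F.P_P, min_eq_left (hblock.mono.monotone (hij.trans hk))]
      rw [← h2, h1, map_zero]
      rfl
    have hzero : ∀ k, ∀ᶠ i in atTop, (G.x μ k - (B.br μ).node k) (u i) = 0 := fun k => by
      obtain ⟨b, hbl, hb⟩ : ∃ b < l, ∀ a ∈ (B.br μ).supp k, a < b := by
        have hne : ∃ c, c < l := ⟨α 0, hblock.lt 0⟩
        obtain ⟨c, hc⟩ := hne
        classical
        have h1 : (insert c ((B.br μ).supp k)).max' (Finset.insert_nonempty _ _) < l := by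
          rcases Finset.mem_insert.1 (Finset.max'_mem (insert c ((B.br μ).supp k))
            (Finset.insert_nonempty _ _)) with h | h
          · rw [h]; exact hc
          · exact hsupp k _ h
        obtain ⟨b, hcb, hbl⟩ := (not_covBy_iff h1).1 (hl.2 _)
        exact ⟨b, hbl, fun a ha => lt_of_le_of_lt
          (Finset.le_max' _ _ (Finset.mem_insert_of_mem ha)) hcb⟩
      obtain ⟨j, hj⟩ := hblock.cofinal b hbl
      filter_upwards [eventually_ge_atTop j] with i hi
      have h1 : ∀ a ∈ (B.br μ).supp k, a < α j := fun a ha => (hb a ha).trans_le hj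
      rw [sub_apply, ← node_P _ k h1, ← G.span_P (hG μ k _ h1), hPa j i hi, map_zero, map_zero,
        sub_zero]
    have htend : Tendsto (fun i => ∑' k, (G.x μ k - (B.br μ).node k) (u i)) atTop (𝓝 0) := by
      have h0 : (0 : ℝ) = ∑' _ : ℕ, (0 : ℝ) := by simp
      rw [h0]
      refine tendsto_tsum_of_dominated_convergence
        (bound := fun k => 2 * (B.br μ).bd k * C) ?_ ?_ ?_
      · exact ((B.br μ).bd_summable.mul_left 2).mul_right C
      · intro k
        exact tendsto_const_nhds.congr' (by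
          filter_upwards [hzero k] with i hi
          exact hi.symm)
      · refine Filter.Eventually.of_forall fun i k => ?_
        refine ((G.x μ k - (B.br μ).node k).le_opNorm (u i)).trans ?_
        exact mul_le_mul (G.x_sub_node μ k) (huC i) (norm_nonneg _)
          (mul_nonneg zero_le_two ((B.br μ).bd_nonneg k))
    obtain ⟨N, hN⟩ := Filter.eventually_atTop.1
      (htend.eventually (lt_mem_nhds (show (-(1 / 2) : ℝ) < 0 by norm_num)))
    refine ⟨2 * C, fun i => (2 : ℝ) • u (max i N), fun i => ?_, fun i => ?_, fun i => ?_⟩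
    · refine Submodule.smul_mem _ _ (Submodule.span_mono (Set.image_mono ?_) (hu (max i N)))
      exact Set.Ici_subset_Ici.2 (le_max_left _ _)
    · rw [norm_smul, Real.norm_of_nonneg zero_le_two]
      linarith [huC (max i N)]
    · rw [map_smul, smul_eq_mul, hy]
      have h1 := hN (max i N) (le_max_right _ _)
      have h2 := hlim (max i N)
      have h3 : F.es μ (u (max i N)) = 0 := by
        rw [← hPl (max i N), es_P_of_le F hlμ]
      rw [h3]
      linarith

end One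

open H448

/-- Block sequences of the frame come from block sequences of finitely supported vectors. -/
theorem exists_block {l : W} {α : ℕ → W} {h : ℕ → V}
    (hb : H223.IsBlock (projSystem frame exists_gt_of_countable) l α h)
    (hfin : ∀ k, h k ∈ (Submodule.span ℝ (Set.range frame.e) : Set V)) :
    ∃ x : ℕ → Vec, (∀ k, inc (x k) = h k) ∧ H448.IsBlock l x := by
  classical
  choose x hx using fun k => exists_inc (hfin k)
  have hlow : ∀ k, ∀ a ∈ (x k).support, α k ≤ a := by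
    intro k a ha
    have h1 : frame.P (α k) (h k) = 0 := hb.low k
    rw [← hx, frame_P_inc, ← map_zero inc] at h1
    have h2 := inc_injective h1
    by_contra h3
    have h4 : res (Set.Iio (α k)) (x k) a = x k a := by
      rw [res_apply, if_pos (Set.mem_Iio.2 (not_le.1 h3))]
    rw [h2] at h4
    exact (Finsupp.mem_support_iff.1 ha) h4.symm
  have hhigh : ∀ k, ∀ a ∈ (x k).support, a < α (k + 1) := by
    intro k a ha
    have h1 : frame.P (α (k + 1)) (h k) = h k := hb.high k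
    rw [← hx, frame_P_inc] at h1
    have h2 := inc_injective h1
    by_contra h3
    have h4 : res (Set.Iio (α (k + 1))) (x k) a = 0 := by
      rw [res_apply, if_neg (fun h5 => h3 (Set.mem_Iio.1 h5))]
    rw [h2] at h4
    exact (Finsupp.mem_support_iff.1 ha) h4
  have hblock : H448.IsBlock l x := by
    refine ⟨fun k hk => ?_, fun j k hjk a ha b hb' => ?_, fun k a ha => ?_, fun a ha => ?_⟩
    · have h1 := hb.one_le k
      rw [← hx, hk, map_zero, norm_zero] at h1
      exact absurd h1 (by norm_num)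
    · exact (hhigh j a ha).trans_le ((hb.mono.monotone hjk).trans (hlow k b hb'))
    · exact (hhigh k a ha).trans (hb.lt (k + 1))
    · obtain ⟨k, hk⟩ := hb.cofinal a ha
      refine ⟨k + 1, fun b hb' => ?_⟩
      exact hk.trans_lt ((hb.mono (Nat.lt_succ_self k)).trans_le (hlow (k + 1) b hb'))
  exact ⟨x, hx, hblock⟩

/-- Below each condition a block sequence is killed by a new branch. -/
theorem exists_ext_kill (p : Cond) {l : W} {x : ℕ → Vec} (hb : H448.IsBlock l x) (m : W) :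
    ∃ s ≤ p, ∃ μ, μ < s.ht ∧ m ≤ μ ∧ l ≤ μ ∧ ∃ Φ, s.fam.B μ = some Φ ∧ Cofinal Φ l ∧
      H448.Kills 3072 Φ x := by
  classical
  obtain ⟨z, a, b, hz⟩ := H560.exists_zseq hb
  have hP := H200.pairSupply hb hz
  obtain ⟨Bx, hBx⟩ := H471.exists_branches l (fun _ => false)
  obtain ⟨x₀, hx₀, -⟩ := (dense_of_mem_residual (hBx x 3072 hb hP fun _ _ => ⟨0, 0, 0⟩)).nonempty
  let A : Set (ℕ → Node) := insert (Bx x₀) {Φ | ∃ ν < p.ht, p.fam.B ν = some Φ}
  have hA : A.Countable := by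
    refine Set.Countable.insert _ ?_
    have h1 : {Φ | ∃ ν < p.ht, p.fam.B ν = some Φ} ⊆
        (fun ν => (p.fam.B ν).getD (Bx x₀)) '' Iio p.ht := by
      rintro Φ ⟨ν, hν, h⟩
      exact ⟨ν, hν, by simp [h]⟩
    exact ((countable_Iio p.ht).image _).mono h1
  obtain ⟨E, hE⟩ := hA.exists_eq_range (insert_nonempty _ _)
  have hEi : ∀ i, IsInf (E i) := fun i => by
    have : E i ∈ A := hE ▸ mem_range_self i
    rcases this with h | ⟨ν, -, h⟩
    · rw [h]; exact hx₀
    · exact p.fam.inf ν _ h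
  obtain ⟨Φ, hΦ, hcof, hdis, u, hu⟩ := H50.supply_of_pairs hb hP E hEi
  have hdis' : ∀ ν < p.ht, ∀ Ψ, p.fam.B ν = some Ψ → AlmostDisj Φ Ψ := by
    intro ν hν Ψ h
    have : Ψ ∈ range E := hE ▸ mem_insert_of_mem _ ⟨ν, hν, h⟩
    obtain ⟨i, rfl⟩ := this
    exact hdis i
  let μ : W := max p.ht (max m l)
  obtain ⟨c, hc⟩ := exists_gt μ
  have hμ : ¬ μ < p.ht := not_lt.2 (le_max_left _ _)
  let B : W → Option (ℕ → Node) := fun ν =>
    if ν < p.ht then p.fam.B ν else if ν = μ then some Φ else none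
  have hB : ∀ ν Ψ, B ν = some Ψ → (ν < p.ht ∧ p.fam.B ν = some Ψ) ∨ (ν = μ ∧ Ψ = Φ) := by
    intro ν Ψ h
    simp only [B] at h
    split_ifs at h with h1 h2
    · exact Or.inl ⟨h1, h⟩
    · exact Or.inr ⟨h2, (Option.some.inj h).symm⟩
  have hlμ : l ≤ μ := (le_max_right _ _).trans (le_max_right _ _)
  refine ⟨⟨c, B, fun ν Ψ h => ?_, fun ν Ψ h => ?_, fun ν ν' Ψ Ψ' hne h h' => ?_⟩,
    ⟨(le_max_left _ _).trans hc.le, fun ν hν => if_pos hν⟩, μ, hc,
    (le_max_left _ _).trans (le_max_right _ _), hlμ, Φ, ?_, hcof, u, fun i =>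
      ⟨(hu i).1, (hu i).2.1, (hu i).2.2.1⟩⟩
  · rcases hB ν Ψ h with ⟨-, h1⟩ | ⟨-, rfl⟩
    · exact p.fam.inf ν Ψ h1
    · exact hΦ
  · rcases hB ν Ψ h with ⟨-, h1⟩ | ⟨rfl, rfl⟩
    · exact p.fam.lt ν Ψ h1
    · exact fun k a ha => (hcof.1 k a ha).trans_le hlμ
  · rcases hB ν Ψ h with ⟨h0, h1⟩ | ⟨rfl, rfl⟩
    · rcases hB ν' Ψ' h' with ⟨-, h2⟩ | ⟨rfl, rfl⟩
      · exact p.fam.disj ν ν' Ψ Ψ' hne h1 h2
      · refine (hdis' ν h0 Ψ h1).subset ?_
        rintro w ⟨h3, h4⟩
        exact ⟨h4, h3⟩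
    · rcases hB ν' Ψ' h' with ⟨h0, h2⟩ | ⟨rfl, rfl⟩
      · exact hdis' ν' h0 Ψ' h2
      · exact absurd rfl hne
  · simp only [B, if_neg hμ, if_true]

theorem cond_supply (p : Cond) : SupplyForS (projSystem frame exists_gt_of_countable)
    {y | ∃ s ≤ p, y ∈ s.X} (Submodule.span ℝ (Set.range frame.e)) := by
  intro l hl α h hb hfin m
  obtain ⟨x, hx, hblock⟩ := exists_block hb hfin
  obtain ⟨s, hs, μ, hμ, hmμ, hlμ, Φ, hΦ, hcof, u, hu⟩ := exists_ext_kill p hblock m
  refine ⟨(gens s.fam).y μ, ⟨s, hs, s.y_mem hμ⟩, supply_one (gens s.fam) (gens_x_mem s.fam) hl hb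
    hmμ hlμ ?_ (C := 3072) (u := fun i => inc (u i)) (fun i => ?_) (fun i => ?_) (fun i => ?_)⟩
  · intro k a ha
    rw [show s.fam.system.br μ = s.fam.br μ from rfl, s.fam.br_some hΦ] at ha
    exact hcof.1 k a ha
  · have h1 := (hu i).1
    have h2 : inc (u i) ∈ (Submodule.span ℝ (x '' {k | i ≤ k})).map inc :=
      Submodule.mem_map_of_mem h1
    rw [Submodule.map_span, Set.image_image] at h2
    have h3 : (fun k => inc (x k)) = h := funext hx
    rw [h3] at h2
    exact h2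
  · rw [norm_inc]
    exact (hu i).2.1
  · rw [show s.fam.system.br μ = s.fam.br μ from rfl, s.fam.br_some hΦ]
    have h1 : (s.fam.inf μ Φ hΦ).branch.lim (inc (u i)) = pr (br Φ) (u i) :=
      (s.fam.inf μ Φ hΦ).fnl_tl_inc 0 (u i)
    rw [h1, (hu i).2.2]

/-- the real system -/
noncomputable def sysR : Sys Cond (StrongDual ℝ V) V where
  X := Cond.X
  B := ContinuousLinearMap.id ℝ _
  sigma := sigmaClosed_cond
  mono := Cond.X_mono
  dual := cond_dual
  kill p v hv := by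
    obtain ⟨y, ⟨s, hs, hy⟩, η, hη, h⟩ := kill_of_supply (projSystem frame exists_gt_of_countable)
      countable_Iio (Submodule.span ℝ (Set.range frame.e))
      (fun a b hab w hwa hwb ε hε => frame_dense_interval frame a b hab w hwa hwb ε hε) _
      (cond_supply p) v hv
    exact ⟨s, hs, y, hy, η, hη, h⟩

theorem mem_prodDual {X : Submodule ℝ (V →L[ℝ] ℝ)} {f : V × V →L[ℝ] ℝ} : f ∈ H3.prodDual X ↔
    f.comp (ContinuousLinearMap.inl ℝ V V) ∈ X ∧ f.comp (ContinuousLinearMap.inr ℝ V V) ∈ X :=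
  Iff.rfl

theorem fst_mem_prodDual {X : Submodule ℝ (V →L[ℝ] ℝ)} {y : V →L[ℝ] ℝ} (hy : y ∈ X) :
    y.comp (ContinuousLinearMap.fst ℝ V V) ∈ H3.prodDual X := by
  have h1 : (y.comp (ContinuousLinearMap.fst ℝ V V)).comp (ContinuousLinearMap.inl ℝ V V) = y := by
    ext v; simp
  have h2 : (y.comp (ContinuousLinearMap.fst ℝ V V)).comp (ContinuousLinearMap.inr ℝ V V) = 0 := by
    ext v; simp
  rw [mem_prodDual, h1, h2]
  exact ⟨hy, X.zero_mem⟩

theorem snd_mem_prodDual {X : Submodule ℝ (V →L[ℝ] ℝ)} {y : V →L[ℝ] ℝ} (hy : y ∈ X) :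
    y.comp (ContinuousLinearMap.snd ℝ V V) ∈ H3.prodDual X := by
  have h1 : (y.comp (ContinuousLinearMap.snd ℝ V V)).comp (ContinuousLinearMap.inl ℝ V V) = 0 := by
    ext v; simp
  have h2 : (y.comp (ContinuousLinearMap.snd ℝ V V)).comp (ContinuousLinearMap.inr ℝ V V) = y := by
    ext v; simp
  rw [mem_prodDual, h1, h2]
  exact ⟨X.zero_mem, hy⟩

/-- the part of a graph along a map of norm at most one -/
theorem dual_along (T : V × V →L[ℝ] V) (hT : ∀ v, ‖T v‖ ≤ ‖v‖)
    (hX : ∀ (t : Cond), ∀ y ∈ t.X, y.comp T ∈ H3.prodDual t.X) (p : Cond)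
    (Γ : Cond → Submodule ℝ ((V × V →L[ℝ] ℝ) × ℝ)) (C : ℝ) (hC : 0 ≤ C)
    (hm : ∀ s t, s ≤ t → t ≤ p → Γ t ≤ Γ s) (hb : ∀ t ≤ p, ∀ w ∈ Γ t, |w.2| ≤ C * ‖w.1‖)
    (ht : ∀ t ≤ p, ∀ z ∈ H3.prodDual t.X, ∃ s ≤ t, ∃ c, (z, c) ∈ Γ s) :
    ∃ r ≤ p, ∃ v : V, ∀ s ≤ r, ∀ z ∈ s.X, ∀ c, (z.comp T, c) ∈ Γ s → c = z v := by
  let L : (V →L[ℝ] ℝ) →ₗ[ℝ] (V × V →L[ℝ] ℝ) :=
    { toFun := fun y => y.comp T
      map_add' := fun _ _ => rfl
      map_smul' := fun _ _ => rfl }
  refine cond_dual p (fun t => (Γ t).comap (L.prodMap LinearMap.id)) C hC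
    (fun s t hst htp => Submodule.comap_mono (hm s t hst htp)) (fun t htp w hw => ?_)
    (fun t htp z hz => ht t htp _ (hX t z hz))
  refine (hb t htp _ hw).trans (mul_le_mul_of_nonneg_left ?_ hC)
  refine ContinuousLinearMap.opNorm_le_bound _ (norm_nonneg _) fun v => ?_
  exact (w.1.le_opNorm (T v)).trans (mul_le_mul_of_nonneg_left (hT v) (norm_nonneg _))

/-- the system of the squares -/
noncomputable def sysP : Sys Cond (V × V →L[ℝ] ℝ) (V × V) where
  X p := H3.prodDual p.X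
  B := ContinuousLinearMap.id ℝ _
  sigma := sigmaClosed_cond
  mono h _ hf := ⟨Cond.X_mono h hf.1, Cond.X_mono h hf.2⟩
  dual p Γ C hC hm hb ht := by
    obtain ⟨r₁, hr₁, v₁, h₁⟩ := dual_along (ContinuousLinearMap.fst ℝ V V) (fun v => norm_fst_le v)
      (fun t y hy => fst_mem_prodDual hy) p Γ C hC hm hb ht
    obtain ⟨r₂, hr₂, v₂, h₂⟩ := dual_along (ContinuousLinearMap.snd ℝ V V) (fun v => norm_snd_le v)
      (fun t y hy => snd_mem_prodDual hy) r₁ Γ C hC
      (fun s t hst h => hm s t hst (h.trans hr₁)) (fun t h => hb t (h.trans hr₁))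
      (fun t h => ht t (h.trans hr₁))
    refine ⟨r₂, hr₂.trans hr₁, (v₁, v₂), fun s hs f hf c hc => ?_⟩
    have hsp : s ≤ p := (hs.trans hr₂).trans hr₁
    obtain ⟨s', hs', c₁, hc₁⟩ := ht s hsp _ (fst_mem_prodDual hf.1)
    have h3 := (Γ s').sub_mem (hm s' s hs' hsp hc) hc₁
    have h4 : f - (f.comp (ContinuousLinearMap.inl ℝ V V)).comp (ContinuousLinearMap.fst ℝ V V) =
        (f.comp (ContinuousLinearMap.inr ℝ V V)).comp (ContinuousLinearMap.snd ℝ V V) := by
      have h0 : f (0, 0) = 0 := map_zero f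
      ext v <;> simp [h0]
    rw [Prod.mk_sub_mk, h4] at h3
    have h5 := h₁ s' ((hs'.trans hs).trans hr₂) _ (Cond.X_mono hs' hf.1) c₁ hc₁
    have h6 := h₂ s' (hs'.trans hs) _ (Cond.X_mono hs' hf.2) _ h3
    have h7 : f (v₁, v₂) = f (v₁, 0) + f (0, v₂) := by
      rw [← map_add]
      simp
    change c = f (v₁, v₂)
    change c₁ = f (v₁, 0) at h5
    change c - c₁ = f (0, v₂) at h6
    linarith
  kill p v hv := by
    obtain ⟨y, ⟨s, hs, hy⟩, η, hη, h⟩ := kill_of_supply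
      (H3.prodSystem (projSystem frame exists_gt_of_countable)) countable_Iio
      ((Submodule.span ℝ (Set.range frame.e)).prod (Submodule.span ℝ (Set.range frame.e)))
      (fun a b hab w hw1 hw2 ε hε => by
        obtain ⟨r, hr, hr1, hr2, hr3⟩ := frame_dense_interval frame a b hab w.1
          (congrArg Prod.fst hw1) (congrArg Prod.fst hw2) ε hε
        obtain ⟨t, ht, ht1, ht2, ht3⟩ := frame_dense_interval frame a b hab w.2
          (congrArg Prod.snd hw1) (congrArg Prod.snd hw2) ε hε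
        refine ⟨(r, t), ⟨hr, ht⟩, Prod.ext hr1 ht1, Prod.ext hr2 ht2, ?_⟩
        rw [Prod.norm_def]
        exact max_lt hr3 ht3)
      {y | ∃ s ≤ p, y ∈ H3.prodDual s.X}
      (supplyS_prod _ _ _ (cond_supply p) _
        (fun y ⟨s, hs, hy⟩ => ⟨s, hs, fst_mem_prodDual hy⟩)
        (fun y ⟨s, hs, hy⟩ => ⟨s, hs, snd_mem_prodDual hy⟩)) v hv
    exact ⟨s, hs, y, hy, η, hη, h⟩

end Vale.Agent.P129Z
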