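import Vale.Agent.P129Z.An7

/-!
# P129: the analysis inside the model, part 3

The free set principle gives separable quotients of the internal Banach spaces.
-/

set_option linter.all false

open Filter Topology

namespace Vale.Agent.P129Z

open Vale.Agent.P129

universe v

variable {N : Type v} [ZM N] [Coded N ℝ] [RSet N] {𝕜 : Type*} [RCLike 𝕜] [Coded N 𝕜] [KSet N 𝕜]
  {E : Type*} [Coded N E] [NormedAddCommGroup E] [NormedSpace 𝕜 E] [Setting N 𝕜 E]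

/-- A stable sequence of normalised combinations. -/
theorem exists_stable_intl (f : ℕ → E →L[𝕜] 𝕜) [Intl N f] (hf : ∀ i, ‖f i‖ ≤ 1) :
    ∃ g : ℕ → E →L[𝕜] 𝕜, Intl N g ∧ (∀ n, ∃ M, n ≤ M ∧ (ix N 𝕜 E).InK f n M 1 (g n)) ∧
      ∀ h, Intl N h → (ix N 𝕜 E).Ad f h → (ix N 𝕜 E).Do g h → (ix N 𝕜 E).LeAdd g h 0 := by
  obtain ⟨G, hG, -, H⟩ := exists_intl_seq (N := N)
    (R := fun k (g t : ℕ → E →L[𝕜] 𝕜) => (ix N 𝕜 E).Ad f t ∧ (ix N 𝕜 E).Do g t ∧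
      ∀ h : ℕ → E →L[𝕜] 𝕜, Intl N h → (ix N 𝕜 E).Ad f h → (ix N 𝕜 E).Do g h →
        (ix N 𝕜 E).LeAdd t h (1 / ((k : ℝ) + 1)))
    (by fun_prop) (fun _ g => (ix N 𝕜 E).Ad f g) f (Ext.ad_self f)
    (fun k g hg h => Ext.stable_step (fun h => Intl N h) hf hg h (by positivity))
    (fun k g t _ _ _ h => h.1)
  have h2 := DefF.ofIntl2 (N := N) G
  obtain ⟨m, hm, hm'⟩ := exists_intl_choice (N := N)
    (R := fun (n m : ℕ) => (∃ M, n ≤ M ∧ (ix N 𝕜 E).InK f n M 1 (G n m)) ∧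
      ∀ k, k ≤ n → (ix N 𝕜 E).Dm (G k) n (G n m)) (by fun_prop) fun n => by
      obtain ⟨m, hm⟩ := Ext.diag_step G (fun k => (H k).1) (fun k => (H k).2.2.1) n
      exact ⟨m, inferInstance, hm⟩
  refine ⟨fun n => G n (m n), DefF.toIntl (by fun_prop), fun n => (hm' n).1,
    fun h k1 k2 k3 => ?_⟩
  refine Ext.stable_final (fun h => Intl N h) G (fun k => (H k).2.2.2) (fun k => ?_) k1 k2 k3
  intro M
  exact ⟨max M k, fun n hn => ((hm' n).2 k ((le_max_right _ _).trans hn)).mono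
    ((le_max_left _ _).trans hn)⟩

/-- The tree. -/
theorem exists_tree_intl (f g : ℕ → E →L[𝕜] 𝕜) [Intl N f] [Intl N g] (hf : ∀ i, ‖f i‖ ≤ 1)
    (hg : (ix N 𝕜 E).Ad f g)
    (hst : ∀ h, Intl N h → (ix N 𝕜 E).Ad f h → (ix N 𝕜 E).Do g h → (ix N 𝕜 E).LeAdd g h 0)
    {r₀ : ℝ} (hr₀ : 0 < r₀) (h0 : ¬ (ix N 𝕜 E).OscLe g r₀) :
    ∃ δ : ℝ, Intl N δ ∧ 0 < δ ∧ ∃ x : ℕ → E, Intl N x ∧ ∀ k, Ext.TQ g δ k x := by
  obtain ⟨δ, hδI, hδ, hpar⟩ := Ext.tree_params (hg.oscLe hf) hr₀ h0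
  replace hδI : Intl N δ := hδI
  have key : ∀ (k : ℕ) (x : ℕ → E),
      (∀ i < k, Ext.TQ g δ (i + 1) (Function.update x i (x i))) → Ext.TQ g δ k x := by
    intro k x h
    cases k with
    | zero => exact Ext.TQ.zero g δ x
    | succ k => simpa only [Function.update_eq_self] using h k (Nat.lt_succ_self k)
  obtain ⟨x, hx, H⟩ := exists_intl_cov (N := N) (0 : E)
    (R := fun k x y => Ext.TQ g δ (k + 1) (Function.update x k y))
    (DefF.tq (by fun_prop) (by fun_prop) (by fun_prop) (DefF.uncurry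
      (s := fun p : ℕ × (ℕ → E) × E => Function.update p.2.1 p.1 p.2.2) (by fun_prop)))
    (fun k s t c e h => h.congr fun i hi => by
      rcases Nat.lt_succ_iff_lt_or_eq.1 hi with h1 | rfl
      · rw [Function.update_of_ne h1.ne, Function.update_of_ne h1.ne, e i h1]
      · rw [Function.update_self, Function.update_self])
    (fun k x hx h => by
      have hQ := key k x h
      obtain ⟨p, hp, m, hm, m', hm', s, hs, k1, k2, k3, k4, k5, k6, k7⟩ := hpar k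
      replace hp : Intl N p := hp
      replace hm : Intl N m := hm
      have h1 := defF_tr (N := N) g δ p m k x
      obtain ⟨u, hu, hu'⟩ := exists_intl_choice (N := N)
        (R := fun (n : ℕ) (u : E →L[𝕜] 𝕜) => (∃ M, n ≤ M ∧ (ix N 𝕜 E).InK f n M 1 u) ∧
          (ix N 𝕜 E).Dm g n u ∧ (ix N 𝕜 E).Tr g δ p m k x n u)
        (DefF.and (by fun_prop) (DefF.and (by fun_prop) h1)) fun n => by
          obtain ⟨u, ⟨M, l1, l2⟩, l3, l4⟩ := Ext.tree_sum hg hδ k1 k2 k3 hQ n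
          exact ⟨u, l2.mem fun i => (inferInstance : Intl N (f i)), ⟨M, l1, l2⟩, l3, l4⟩
      have h2 := hst u hu (Ext.ad_of_forall fun n => (hu' n).1)
        (Ext.do_of_forall 0 fun n _ => (hu' n).2.1)
      exact Ext.tree_next hf k4 hQ (fun n => (hu' n).1) (fun n => (hu' n).2.2) k6
        fun h3 => k7 (h2 m' hm' s hs (by linarith) h3))
  exact ⟨δ, hδI, hδ, x, hx, fun k => key k x fun i _ => H i⟩

/-- The theorem of Hagler and Johnson inside the model. -/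
theorem absSQ_of_l1 [CompleteSpace E] (f : ℕ → E →L[𝕜] 𝕜) [Intl N f] (hf : ∀ i, ‖f i‖ ≤ 1)
    (H : (ix N 𝕜 E).HasH f) {c : ℝ} (hc : 0 < c)
    (hlow : ∀ (n : ℕ) (a : ℕ → 𝕜), c * ∑ k ∈ Finset.range n, ‖a k‖ ≤
      ‖∑ k ∈ Finset.range n, a k • f k‖) : AbsSQ N 𝕜 E := by
  obtain ⟨g, hg, hg1, hg2⟩ := exists_stable_intl (N := N) f hf
  have hAd := Ext.ad_of_forall hg1
  have hgn : ∀ n, ‖g n‖ ≤ 1 := fun n => by
    obtain ⟨M, -, hM⟩ := hg1 n
    exact hM.inS.norm_le hf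
  by_cases h : ∀ r : ℝ, 0 < r → (ix N 𝕜 E).OscLe g r
  · obtain ⟨s, hs, -, hs'⟩ := exists_intl_seq (N := N)
      (R := fun _ (s t : ℕ × ℕ) => s.1 < t.1 ∧ s.2 ≤ t.2 ∧ (ix N 𝕜 E).InK f s.2 t.2 1 (g t.1))
      (by fun_prop) (fun _ _ => True) (0, 0) trivial
      (fun k s _ _ => by
        obtain ⟨n, M, h1⟩ := Ext.block_step hAd s.1 s.2
        exact ⟨(n, M), inferInstance, h1⟩)
      (fun _ _ _ _ _ _ _ => trivial)
    have hv : Intl N (fun k => g (s (k + 1)).1) := DefF.toIntl (by fun_prop)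
    have hl := block_lower hlow (fun k => (s k).2) (fun k => (hs' k).2.2.1)
      (u := fun k => g (s (k + 1)).1) fun k => (hs' k).2.2.2.inS
    have hmono : StrictMono fun k => (s (k + 1)).1 :=
      strictMono_nat_of_lt_succ fun k => (hs' (k + 1)).2.1
    refine absSQ_of_alpha (fun k => g (s (k + 1)).1) hc
      (fun k => (hs' k).2.2.2.inS.le_norm hlow |>.trans_eq' (mul_one c)) (fun k => hgn _)
      (H.block (monotone_nat_of_le_succ fun k => (hs' k).2.2.1) fun k => (hs' k).2.2.2.mem_span)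
      fun x hx ε hε => Ext.Ta.of_null hc hl
        ((Ext.tendsto_of_oscLe (fun r _ hr => h r hr) hx).comp hmono.tendsto_atTop) hε
  · push Not at h
    obtain ⟨r₀, hr₀, h0⟩ := h
    obtain ⟨δ, hδI, hδ, x, hx, hQ⟩ := exists_tree_intl f g hf hAd hg2 hr₀ h0
    refine absSQ_of_signs hδ x (fun i => (hQ (i + 1)).1 i (Nat.lt_succ_self i)) fun n ε hε => ?_
    obtain ⟨j, -, hj⟩ := (hQ n).2 ε hε 0
    exact ⟨g j, (inferInstance : Intl N (g j)), hgn j, hj⟩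

/-- Sequences with the property `HasH` give separable quotients. -/
theorem absSQ_of_hasH [CompleteSpace E] (φ : ℕ → E →L[𝕜] 𝕜) [Intl N φ] (hφ : ∀ k, ‖φ k‖ = 1)
    (H : (ix N 𝕜 E).HasH φ) : AbsSQ N 𝕜 E := by
  by_cases h : ∀ x ∈ (ix N 𝕜 E).D, ∀ ε : ℝ, 0 < ε → ∃ n, (ix N 𝕜 E).Ta φ n x ε
  · exact absSQ_of_alpha φ one_pos (fun k => (hφ k).ge) (fun k => (hφ k).le) H h
  · push Not at h
    obtain ⟨x₀, hx₀, ε, hε, h⟩ := h
    obtain ⟨δ, hδI, hδ, hδε⟩ := exists_intl_btwn (N := N) hε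
    have hx₀I : Intl N x₀ := hx₀
    obtain ⟨s, hs, -, hs'⟩ := exists_intl_seq (N := N)
      (R := fun _ (s t : ℕ × (E →L[𝕜] 𝕜)) => s.1 ≤ t.1 ∧ (ix N 𝕜 E).InSp φ s.1 t.1 t.2 ∧
        ‖t.2‖ ≤ 1 ∧ δ < RCLike.re (t.2 x₀) ∧ RCLike.im (t.2 x₀) = 0)
      (by fun_prop) (fun _ _ => True) (0, 0) trivial
      (fun k s _ _ => by
        obtain ⟨m, h1, u, hu, h2⟩ := Ext.beta_step (fun i => (inferInstance : Intl N (φ i))) hx₀
          fun h3 => h s.1 (h3.mono le_rfl hδε.le)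
        exact ⟨(m, u), intl_prod.2 ⟨inferInstance, hu⟩, h1, h2⟩)
      (fun _ _ _ _ _ _ _ => trivial)
    have hu : Intl N (fun k => (s (k + 1)).2) := DefF.toIntl (by fun_prop)
    have H' : (ix N 𝕜 E).HasH fun k => (s (k + 1)).2 :=
      H.block (monotone_nat_of_le_succ fun k => (hs' k).2.1) fun k => (hs' k).2.2.1.mem_span
    exact absSQ_of_l1 (fun k => (s (k + 1)).2) (fun k => (hs' k).2.2.2.1) H'
      (show 0 < δ / (4 * (‖x₀‖ + 1)) by positivity)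
      (H'.l1_lower hδ (fun k => (hs' k).2.2.2.2.1) fun k => (hs' k).2.2.2.2.2)

/-- A normalised internal functional which vanishes where `g` is bounded. -/
theorem exists_null_intl (g : ℕ → E →L[𝕜] 𝕜) [Intl N g] (h : ¬ Dense {x | (ix N 𝕜 E).Bd g x}) :
    ∃ φ : E →L[𝕜] 𝕜, Intl N φ ∧ ‖φ‖ = 1 ∧ ∀ x : E, Intl N x → (ix N 𝕜 E).Bd g x → φ x = 0 := by
  have hM : IsISub N 𝕜 {x | Intl N x ∧ (ix N 𝕜 E).Bd g x} :=
    ⟨intl_setOf (by fun_prop), ⟨inferInstance, Ext.Bd.zero _ g⟩,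
      fun x hx y hy => ⟨(hx.2.add hy.2).1, hx.2.add hy.2⟩,
      fun c hc x hx => ⟨(hx.2.smul hc).1, hx.2.smul hc⟩⟩
  have h1 : ∃ x₀ : E, Intl N x₀ ∧ x₀ ∉ closure {x | Intl N x ∧ (ix N 𝕜 E).Bd g x} := by
    by_contra hc
    push Not at hc
    refine h fun x => closure_mono (fun y hy => hy.2) (closure_minimal hc isClosed_closure
      (dense_intl (N := N) 𝕜 x))
  obtain ⟨x₀, hx₀, hx₀'⟩ := h1
  obtain ⟨φ, hφ, -, h2, h3⟩ := exists_intl_dual_vanishing hM x₀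
  have h4 : φ ≠ 0 := by
    rintro rfl
    refine hx₀' ((Metric.mem_closure_iff_infDist_zero ⟨0, hM.zero⟩).2 ?_)
    have h6 : ((Metric.infDist x₀ {x | Intl N x ∧ (ix N 𝕜 E).Bd g x} : ℝ) : 𝕜) = 0 := h3.symm
    exact_mod_cast h6
  have h5 : 0 < ‖φ‖ := norm_pos_iff.2 h4
  refine ⟨((‖φ‖⁻¹ : ℝ) : 𝕜) • φ, inferInstance, ?_, fun x hx hx' => ?_⟩
  · rw [norm_smul, RCLike.norm_ofReal, abs_of_pos (by positivity), inv_mul_cancel₀ h5.ne']
  · rw [smul_apply, h2 x ⟨hx, hx'⟩, smul_zero]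

theorem absSQ_of_FSFor [CompleteSpace E] {I : Type*} [Coded N I] [Tot N I] [DecidableEq I]
    {r : I → ℕ → ℕ} (h : FSFor N I r) (hE : ¬ IFinDim N 𝕜 E) : AbsSQ N 𝕜 E := by
  by_contra hno
  have hr : Intl N r := h.1
  have hr2 := DefF.ofIntl2 (N := N) r
  obtain ⟨F, hF, hF'⟩ := exists_intl_choice (N := N)
    (R := fun (k : ℕ) (F : ℕ → E →L[𝕜] 𝕜) => (∀ j, j < 32 ^ k → 1 / 4 ≤ ‖F j‖) ∧
      ∀ x : E, Intl N x → ∑ j ∈ Finset.range (32 ^ k), ‖F j x‖ ^ 2 ≤ 5 * ‖x‖ ^ 2)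
    (by fun_prop) fun k => by
      obtain ⟨F, h1, h2, h3, h4⟩ := (ix N 𝕜 E).two_estimate
        (not_finiteDimensional_of_not_iFinDim hE)
        (fun x (hx : Intl N x) => exists_intl_dual_norming x) (32 ^ k)
      exact ⟨F, intl_of_eventually_const F h1 (32 ^ k) (fun i hi => by rw [h2 i hi, h2 _ le_rfl]),
        h3, fun x _ => h4 x⟩
  have hF2 := DefF.ofIntl2 (N := N) F
  obtain ⟨φ, hφ, hφ'⟩ := exists_intl_choice (N := N)
    (R := fun (a : I) (φ : E →L[𝕜] 𝕜) => ‖φ‖ = 1 ∧ ∀ x : E, Intl N x →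
      (ix N 𝕜 E).Bd (fun k : ℕ => ((k : ℝ) : 𝕜) • F k (r a k)) x → φ x = 0)
    (by fun_prop) fun a => by
      have : Intl N (fun k : ℕ => ((k : ℝ) : 𝕜) • F k (r a k)) := DefF.toIntl (by fun_prop)
      exact exists_null_intl _ fun hd => hno (absSQ_of_unbounded _
        (unbounded_of_le _ (show (0 : ℝ) < 1 / 4 by norm_num)
          fun k => (hF' k).1 _ (h.2.1 a k)) hd)
  obtain ⟨X, hX, hX'⟩ := exists_intl_choice (N := N)
    (R := fun (p : Finset I × ℕ) (X : Finset E) => (ix N 𝕜 E).Net φ p.1 (1 / ((p.2 : ℝ) + 1)) X)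
    (defF_net φ) fun p => by
      obtain ⟨X, h1, h2⟩ := (ix N 𝕜 E).exists_net φ p.1 (show 0 < 1 / ((p.2 : ℝ) + 1) by positivity)
      exact ⟨X, intl_finset.2 h1, h2⟩
  have hXI : ∀ p, ∀ x ∈ X p, Intl N x := fun p x hx =>
    (inferInstance : Intl N (X p)).of_mem_finset hx
  obtain ⟨g, hg, -, hg'⟩ := h.apply (fun T m k j => ∃ x ∈ X (T, m), (1 / 2 : ℝ) ^ k < ‖F k j x‖)
    (by fun_prop) fun T m => card_bad F (X (T, m)) (hX' (T, m)).1
      fun k x hx => (hF' k).2 x (hXI _ x hx)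
  have hφg : Intl N (fun j => φ (g j)) := DefF.toIntl (by fun_prop)
  refine hno (absSQ_of_hasH (fun j => φ (g j)) (fun j => (hφ' _).1)
    (Ext.hasH_of_net (A := ix N 𝕜 E) φ (fun T m => X (T, m)) (fun T m => hXI (T, m)) (fun T m => hX' (T, m)) g
      fun S j hj m x hx => ?_))
  obtain ⟨c, hc⟩ := bound_of_fast (fun k => F k (r (g j) k)) x
    ((hg' S j hj m).mono fun k hk => not_lt.1 fun h1 => hk ⟨x, hx, h1⟩)
  exact (hφ' (g j)).2 x (hXI _ x hx) ((ix N 𝕜 E).bd_of_real (hXI _ x hx) hc)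

/-- The free set principle gives separable quotients. -/
theorem absSQ_of_FS [CompleteSpace E] (h : FS N) (hE : ¬ IFinDim N 𝕜 E) : AbsSQ N 𝕜 E := by
  classical
  obtain ⟨A, r, hr⟩ := h
  exact absSQ_of_FSFor hr hE

end Vale.Agent.P129Z
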