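import Vale.Agent.P129.Bdl.B1

/-!
# P129: the analysis seen from outside, part 1

`Ext 𝕜 E`: a dense subfield of scalars, a dense group of vectors and a group of functionals of a
Banach space `E`, closed under the algebraic operations. The steps of the construction of a
biorthogonal sequence and of the successive corrections stay inside these sets.
-/

set_option linter.all false

open Filter Topology

namespace Vale.Agent.P129Z

/-- Distinguished scalars, vectors and functionals. -/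
structure Ext (𝕜 E : Type*) [RCLike 𝕜] [NormedAddCommGroup E] [NormedSpace 𝕜 E] where
  R : Subfield ℝ
  K : Subfield 𝕜
  D : AddSubgroup E
  Φ : AddSubgroup (E →L[𝕜] 𝕜)
  denseD : Dense (D : Set E)
  ofR : ∀ r ∈ R, ((r : ℝ) : 𝕜) ∈ K
  memI : (RCLike.I : 𝕜) ∈ K
  reK : ∀ a ∈ K, RCLike.re a ∈ R
  imK : ∀ a ∈ K, RCLike.im a ∈ R
  normK : ∀ a ∈ K, ‖a‖ ∈ R
  smulD : ∀ a ∈ K, ∀ x ∈ D, a • x ∈ D
  smulΦ : ∀ a ∈ K, ∀ u ∈ Φ, a • u ∈ Φ
  app : ∀ u ∈ Φ, ∀ x ∈ D, u x ∈ K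
  normΦ : ∀ u ∈ Φ, ‖u‖ ∈ R

namespace Ext

variable {𝕜 E : Type*} [RCLike 𝕜] [NormedAddCommGroup E] [NormedSpace 𝕜 E] (A : Ext 𝕜 E)

theorem ratR (q : ℚ) : (q : ℝ) ∈ A.R := SubfieldClass.ratCast_mem A.R q

theorem exists_R_btwn {x y : ℝ} (h : x < y) : ∃ r ∈ A.R, x < r ∧ r < y := by
  obtain ⟨q, h1, h2⟩ := exists_rat_btwn h
  exact ⟨q, A.ratR q, h1, h2⟩

theorem conjK {a : 𝕜} (ha : a ∈ A.K) : (starRingEnd 𝕜) a ∈ A.K := by
  have h : (starRingEnd 𝕜) a = ((RCLike.re a : ℝ) : 𝕜) - ((RCLike.im a : ℝ) : 𝕜) * RCLike.I := by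
    apply RCLike.ext <;> simp
  rw [h]
  exact A.K.sub_mem (A.ofR _ (A.reK a ha)) (A.K.mul_mem (A.ofR _ (A.imK a ha)) A.memI)

theorem norm_I_le : ‖(RCLike.I : 𝕜)‖ ≤ 1 := by
  rcases eq_or_ne (RCLike.I : 𝕜) 0 with h | h
  · rw [h, norm_zero]; exact zero_le_one
  · rw [RCLike.norm_I_of_ne_zero h]

theorem exists_K_near (a : 𝕜) {ε : ℝ} (hε : 0 < ε) : ∃ b ∈ A.K, ‖a - b‖ < ε := by
  obtain ⟨r, hr, h1, h2⟩ := A.exists_R_btwn (show RCLike.re a - ε / 2 < RCLike.re a by linarith)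
  obtain ⟨s, hs, h3, h4⟩ := A.exists_R_btwn (show RCLike.im a - ε / 2 < RCLike.im a by linarith)
  refine ⟨(r : 𝕜) + (s : 𝕜) * RCLike.I,
    A.K.add_mem (A.ofR r hr) (A.K.mul_mem (A.ofR s hs) A.memI), ?_⟩
  have e : a - ((r : 𝕜) + (s : 𝕜) * RCLike.I) =
      ((RCLike.re a - r : ℝ) : 𝕜) + ((RCLike.im a - s : ℝ) : 𝕜) * RCLike.I := by
    conv_lhs => rw [← RCLike.re_add_im a]
    push_cast
    ring
  rw [e]
  refine (norm_add_le _ _).trans_lt ?_
  rw [norm_mul, RCLike.norm_ofReal, RCLike.norm_ofReal, abs_of_pos (by linarith),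
    abs_of_pos (by linarith)]
  have := mul_le_of_le_one_right (show 0 ≤ RCLike.im a - s by linarith) (norm_I_le (𝕜 := 𝕜))
  linarith

theorem denseK : Dense (A.K : Set 𝕜) := by
  intro a
  rw [Metric.mem_closure_iff]
  intro ε hε
  obtain ⟨b, hb, h⟩ := A.exists_K_near a hε
  exact ⟨b, hb, by rwa [dist_eq_norm]⟩

theorem exists_D_near (x : E) {ε : ℝ} (hε : 0 < ε) : ∃ y ∈ A.D, ‖x - y‖ < ε := by
  obtain ⟨y, hy, h⟩ := Metric.mem_closure_iff.1 (A.denseD x) ε hε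
  exact ⟨y, hy, by rwa [dist_eq_norm] at h⟩

/-- A rotation with coefficient in `K`. -/
theorem exists_rot {a : 𝕜} (ha : a ∈ A.K) : ∃ c ∈ A.K, ‖c‖ = 1 ∧ c * a = ((‖a‖ : ℝ) : 𝕜) := by
  rcases eq_or_ne a 0 with h | h
  · exact ⟨1, A.K.one_mem, by simp, by rw [h]; simp⟩
  · have hn : ‖a‖ ≠ 0 := norm_ne_zero_iff.2 h
    refine ⟨(starRingEnd 𝕜) a * ((‖a‖⁻¹ : ℝ) : 𝕜),
      A.K.mul_mem (A.conjK ha) (A.ofR _ (A.R.inv_mem (A.normK a ha))), ?_, ?_⟩
    · rw [norm_mul, RCLike.norm_conj, RCLike.norm_ofReal, abs_of_nonneg (by positivity)]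
      exact mul_inv_cancel₀ hn
    · have h2 : (starRingEnd 𝕜) a * a = ((‖a‖ ^ 2 : ℝ) : 𝕜) := by
        rw [RCLike.conj_mul]
        push_cast
        rfl
      calc (starRingEnd 𝕜) a * ((‖a‖⁻¹ : ℝ) : 𝕜) * a
          = ((starRingEnd 𝕜) a * a) * ((‖a‖⁻¹ : ℝ) : 𝕜) := by ring
        _ = ((‖a‖ ^ 2 * ‖a‖⁻¹ : ℝ) : 𝕜) := by rw [h2]; push_cast; ring
        _ = ((‖a‖ : ℝ) : 𝕜) := by
            congr 1
            field_simp

/-- The closure of a `K`-subspace of a normed space is a subspace. -/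
def closureSub {F : Type*} [NormedAddCommGroup F] [NormedSpace 𝕜 F] (S : Set F) (h0 : (0 : F) ∈ S)
    (hadd : ∀ x ∈ S, ∀ y ∈ S, x + y ∈ S) (hsmul : ∀ a ∈ A.K, ∀ x ∈ S, a • x ∈ S) :
    Submodule 𝕜 F where
  carrier := closure S
  zero_mem' := subset_closure h0
  add_mem' := fun {x y} hx hy =>
    map_mem_closure₂ (f := fun x y : F => x + y) continuous_add hx hy hadd
  smul_mem' := fun a x hx =>
    map_mem_closure₂ (f := fun (a : 𝕜) (x : F) => a • x) continuous_smul (A.denseK a) hx hsmul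

theorem norm_le_of_D {u : E →L[𝕜] 𝕜} {r : ℝ} (hr : 0 ≤ r)
    (h : ∀ x ∈ A.D, ‖u x‖ ≤ r * ‖x‖) : ‖u‖ ≤ r := by
  refine ContinuousLinearMap.opNorm_le_bound _ hr fun x => ?_
  have hc : IsClosed {x : E | ‖u x‖ ≤ r * ‖x‖} := isClosed_le (by fun_prop) (by fun_prop)
  exact closure_minimal h hc (A.denseD x)

theorem exists_lt_apply {B : Set E} (hB : Dense B) (u : E →L[𝕜] 𝕜) {r : ℝ} (h : r < ‖u‖) :
    ∃ x ∈ B, ‖x‖ < 1 ∧ r < ‖u x‖ := by
  obtain ⟨y₀, hy₀, hy₀'⟩ := u.exists_lt_apply_of_lt_opNorm h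
  have hopen : IsOpen (Metric.ball (0 : E) 1 ∩ {y | r < ‖u y‖}) :=
    Metric.isOpen_ball.inter (isOpen_lt continuous_const (by fun_prop))
  obtain ⟨y, ⟨hy1, hy2⟩, hyL⟩ := hB.inter_open_nonempty _ hopen
    ⟨y₀, by simpa only [Metric.mem_ball, dist_zero_right] using hy₀, hy₀'⟩
  exact ⟨y, hyL, by simpa only [Metric.mem_ball, dist_zero_right] using hy1, hy2⟩

theorem eq_zero_of_D {u : E →L[𝕜] 𝕜} (h : ∀ x ∈ A.D, u x = 0) : u = 0 := by
  have := A.norm_le_of_D (u := u) le_rfl fun x hx => by rw [h x hx]; simp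
  exact norm_le_zero_iff.1 this

theorem sumD {ι : Type*} (s : Finset ι) {a : ι → 𝕜} {x : ι → E} (ha : ∀ i ∈ s, a i ∈ A.K)
    (hx : ∀ i ∈ s, x i ∈ A.D) : ∑ i ∈ s, a i • x i ∈ A.D :=
  A.D.sum_mem fun i hi => A.smulD _ (ha i hi) _ (hx i hi)

theorem sumΦ {ι : Type*} (s : Finset ι) {a : ι → 𝕜} {u : ι → E →L[𝕜] 𝕜}
    (ha : ∀ i ∈ s, a i ∈ A.K) (hu : ∀ i ∈ s, u i ∈ A.Φ) : ∑ i ∈ s, a i • u i ∈ A.Φ :=
  A.Φ.sum_mem fun i hi => A.smulΦ _ (ha i hi) _ (hu i hi)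

/-! ### Biorthogonal sequences -/

/-- The points of `D` at which the sequence `g` is bounded. -/
def Bd (g : ℕ → E →L[𝕜] 𝕜) (x : E) : Prop := x ∈ A.D ∧ ∃ c : ℕ, ∀ k, ‖g k x‖ ≤ c

theorem bd_of_real {g : ℕ → E →L[𝕜] 𝕜} {x : E} (hx : x ∈ A.D) {c : ℝ} (h : ∀ k, ‖g k x‖ ≤ c) :
    A.Bd g x := by
  obtain ⟨n, hn⟩ := exists_nat_ge c
  exact ⟨hx, n, fun k => (h k).trans hn⟩

theorem Bd.zero (g : ℕ → E →L[𝕜] 𝕜) : A.Bd g 0 := ⟨A.D.zero_mem, 0, fun k => by simp⟩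

variable {A} in
theorem Bd.add {g : ℕ → E →L[𝕜] 𝕜} {x y : E} (hx : A.Bd g x) (hy : A.Bd g y) :
    A.Bd g (x + y) := by
  obtain ⟨h1, c, hc⟩ := hx
  obtain ⟨h2, d, hd⟩ := hy
  refine A.bd_of_real (A.D.add_mem h1 h2) (c := c + d) fun k => ?_
  rw [map_add]
  exact (norm_add_le _ _).trans (add_le_add (hc k) (hd k))

variable {A} in
theorem Bd.smul {g : ℕ → E →L[𝕜] 𝕜} {x : E} {a : 𝕜} (ha : a ∈ A.K) (hx : A.Bd g x) :
    A.Bd g (a • x) := by
  obtain ⟨h1, c, hc⟩ := hx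
  refine A.bd_of_real (A.smulD a ha x h1) (c := ‖a‖ * c) fun k => ?_
  rw [map_smul, norm_smul]
  exact mul_le_mul_of_nonneg_left (hc k) (norm_nonneg _)

variable {A} in
theorem Bd.sum {g : ℕ → E →L[𝕜] 𝕜} {ι : Type*} (s : Finset ι) {x : ι → E}
    (hx : ∀ i ∈ s, A.Bd g (x i)) : A.Bd g (∑ i ∈ s, x i) := by
  classical
  induction s using Finset.induction_on with
  | empty => simpa using Bd.zero A g
  | insert i s hi ih =>
    rw [Finset.sum_insert hi]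
    exact (hx i (Finset.mem_insert_self _ _)).add
      (ih fun j hj => hx j (Finset.mem_insert_of_mem hj))

/-- One step of the construction of a biorthogonal sequence. -/
theorem bio_step (g : ℕ → E →L[𝕜] 𝕜) (hg : ∀ k, g k ∈ A.Φ) (hunb : ∀ R : ℝ, ∃ k, R < ‖g k‖)
    (hdense : Dense {x | A.Bd g x}) (n : ℕ) (a : ℕ → E) (b : ℕ → E →L[𝕜] 𝕜)
    (ha : ∀ i < n, A.Bd g (a i)) (hb : ∀ i < n, b i ∈ A.Φ)
    (hab : ∀ i < n, ∀ j < n, b i (a j) = if i = j then 1 else 0)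
    (hbU : ∀ i < n, ∃ c : ℝ, ∀ y ∈ A.D, (∀ j, ‖g j y‖ ≤ 1) → ‖b i y‖ ≤ c)
    {ε : ℝ} (hε : 0 < ε) :
    ∃ x, A.Bd g x ∧ ∃ h ∈ A.Φ, h x = 1 ∧ (∀ i < n, b i x = 0) ∧ (∀ i < n, h (a i) = 0) ∧
      ∀ y ∈ A.D, (∀ j, ‖g j y‖ ≤ 1) → ‖h y‖ * ‖x‖ ≤ ε := by
  classical
  choose! d hd using fun i (hi : i < n) => (ha i hi).2
  choose! c hc using hbU
  set c₂ : ℝ := ∑ i ∈ Finset.range n, (d i : ℝ) * ‖b i‖ with hc₂
  set c₃ : ℝ := ∑ i ∈ Finset.range n, (d i : ℝ) * |c i| with hc₃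
  set c₄ : ℝ := ∑ i ∈ Finset.range n, ‖b i‖ * ‖a i‖ with hc₄
  have hc₃' : 0 ≤ c₃ := Finset.sum_nonneg fun i _ => by positivity
  have hc₄' : 0 ≤ c₄ := Finset.sum_nonneg fun i _ => by positivity
  set R : ℝ := (1 + c₃) * (1 + c₄) / ε with hR
  have hRpos : 0 < R := by positivity
  obtain ⟨k, hk⟩ := hunb (R + c₂)
  set v : E →L[𝕜] 𝕜 := ∑ i ∈ Finset.range n, g k (a i) • b i with hv
  set u : E →L[𝕜] 𝕜 := g k - v with hu
  have hvy : ∀ y, v y = ∑ i ∈ Finset.range n, g k (a i) * b i y := by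
    intro y
    simp only [hv, _root_.sum_apply, smul_apply, smul_eq_mul]
  have hua : ∀ j < n, u (a j) = 0 := by
    intro j hj
    rw [hu, sub_apply, hvy, Finset.sum_eq_single j]
    · rw [hab j hj j hj, if_pos rfl, mul_one, sub_self]
    · intro i hi hij
      rw [hab i (Finset.mem_range.1 hi) j hj, if_neg hij, mul_zero]
    · intro h; exact absurd (Finset.mem_range.2 hj) h
  have hvn : ‖v‖ ≤ c₂ := by
    refine (norm_sum_le _ _).trans (Finset.sum_le_sum fun i hi => ?_)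
    rw [norm_smul]
    exact mul_le_mul_of_nonneg_right (hd i (Finset.mem_range.1 hi) k) (norm_nonneg _)
  have hnorm : R < ‖u‖ := by
    have h' : ‖g k‖ ≤ ‖u‖ + ‖v‖ := by
      have : g k = u + v := by rw [hu, sub_add_cancel]
      conv_lhs => rw [this]
      exact norm_add_le _ _
    linarith
  obtain ⟨y, hyB, hy1, hy2⟩ := exists_lt_apply hdense u hnorm
  have huy : u y ≠ 0 := by
    intro h0
    rw [h0, norm_zero] at hy2
    linarith
  have huΦ : u ∈ A.Φ := A.Φ.sub_mem (hg k) (A.sumΦ _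
    (fun i hi => A.app _ (hg k) _ (ha i (Finset.mem_range.1 hi)).1)
    (fun i hi => hb i (Finset.mem_range.1 hi)))
  set p : E := ∑ i ∈ Finset.range n, b i y • a i with hp
  have hpB : A.Bd g p := Bd.sum _ fun i hi =>
    (ha i (Finset.mem_range.1 hi)).smul (A.app _ (hb i (Finset.mem_range.1 hi)) _ hyB.1)
  have hup : u p = 0 := by
    rw [hp, map_sum]
    exact Finset.sum_eq_zero fun i hi => by rw [map_smul, hua i (Finset.mem_range.1 hi), smul_zero]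
  have hCb : ∀ z ∈ A.D, (∀ j, ‖g j z‖ ≤ 1) → ‖u z‖ ≤ 1 + c₃ := by
    intro z hzD hz
    rw [hu, sub_apply]
    refine (norm_sub_le _ _).trans (add_le_add (hz k) ?_)
    rw [hvy]
    refine (norm_sum_le _ _).trans (Finset.sum_le_sum fun i hi => ?_)
    rw [norm_mul]
    exact mul_le_mul (hd i (Finset.mem_range.1 hi) k)
      ((hc i (Finset.mem_range.1 hi) z hzD hz).trans (le_abs_self _)) (norm_nonneg _)
      (Nat.cast_nonneg _)
  refine ⟨y - p, ?_, (u y)⁻¹ • u, A.smulΦ _ (A.K.inv_mem (A.app _ huΦ _ hyB.1)) _ huΦ,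
    ?_, ?_, ?_, ?_⟩
  · have := hyB.add (hpB.smul (A.K.neg_mem A.K.one_mem))
    rwa [neg_one_smul, ← sub_eq_add_neg] at this
  · rw [smul_apply, map_sub, hup, sub_zero, smul_eq_mul, inv_mul_cancel₀ huy]
  · intro i hi
    rw [map_sub, hp, map_sum, Finset.sum_eq_single i]
    · rw [map_smul, hab i hi i hi, if_pos rfl, smul_eq_mul, mul_one, sub_self]
    · intro j hj hji
      rw [map_smul, hab i hi j (Finset.mem_range.1 hj), if_neg (Ne.symm hji), smul_zero]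
    · intro h; exact absurd (Finset.mem_range.2 hi) h
  · intro i hi
    rw [smul_apply, hua i hi, smul_zero]
  · intro z hzD hz
    have h4 : ‖y - p‖ ≤ 1 + c₄ := by
      refine (norm_sub_le _ _).trans (add_le_add hy1.le ?_)
      refine (norm_sum_le _ _).trans (Finset.sum_le_sum fun i _ => ?_)
      rw [norm_smul]
      refine mul_le_mul_of_nonneg_right ?_ (norm_nonneg _)
      exact ((b i).le_opNorm y).trans (mul_le_of_le_one_right (norm_nonneg _) hy1.le)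
    have hRi : 0 ≤ R⁻¹ := inv_nonneg.2 hRpos.le
    have h5 : ‖((u y)⁻¹ • u) z‖ ≤ R⁻¹ * (1 + c₃) := by
      rw [smul_apply, smul_eq_mul, norm_mul, norm_inv]
      exact mul_le_mul (inv_anti₀ hRpos hy2.le) (hCb z hzD hz) (norm_nonneg _) hRi
    have h6 : (R⁻¹ * (1 + c₃)) * (1 + c₄) = ε := by
      have e1 : (1 + c₃) ≠ 0 := by linarith only [hc₃']
      have e2 : (1 + c₄) ≠ 0 := by linarith only [hc₄']
      rw [hR]
      clear_value c₃ c₄
      clear * - e1 e2 hε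
      field_simp
    rw [← h6]
    exact mul_le_mul h5 h4 (norm_nonneg _) (mul_nonneg hRi (by linarith only [hc₃']))

/-- The expansion of a point at which `g` is bounded. -/
theorem bio_expand [CompleteSpace E] (g : ℕ → E →L[𝕜] 𝕜) (a : ℕ → E) (b : ℕ → E →L[𝕜] 𝕜)
    (hab : ∀ i j, b i (a j) = if i = j then 1 else 0)
    (hU : ∀ n, ∀ y ∈ A.D, (∀ j, ‖g j y‖ ≤ 1) → ‖b n y‖ * ‖a n‖ ≤ (1 / 2 : ℝ) ^ n)
    {y : E} (hy : A.Bd g y) :
    ∃ w, Tendsto (fun n => ∑ i ∈ Finset.range n, b i y • a i) atTop (𝓝 w) ∧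
      ∀ m, b m (y - w) = 0 := by
  obtain ⟨hyD, c, hc⟩ := hy
  have hc0 : (0 : ℝ) < c + 1 := by positivity
  have hsummable : Summable fun n => b n y • a n := by
    refine Summable.of_norm_bounded (g := fun n => (c + 1 : ℝ) * (1 / 2 : ℝ) ^ n)
      (summable_geometric_two.mul_left _) (fun n => ?_)
    have hz : ∀ j, ‖g j ((((c + 1 : ℝ) : 𝕜))⁻¹ • y)‖ ≤ 1 := by
      intro j
      rw [map_smul, norm_smul, norm_inv, RCLike.norm_ofReal, abs_of_pos hc0,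
        inv_mul_le_iff₀ hc0, mul_one]
      exact (hc j).trans (by linarith)
    have hK : (((c + 1 : ℝ) : 𝕜))⁻¹ ∈ A.K :=
      A.K.inv_mem (A.ofR _ (A.R.add_mem (natCast_mem A.R c) A.R.one_mem))
    have h4 := hU n _ (A.smulD _ hK _ hyD) hz
    rw [map_smul, norm_smul, norm_inv, RCLike.norm_ofReal, abs_of_pos hc0,
      mul_assoc, inv_mul_le_iff₀ hc0] at h4
    rw [norm_smul]
    exact h4
  obtain ⟨w, hw⟩ := hsummable
  refine ⟨w, hw.tendsto_sum_nat, fun m => ?_⟩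
  rw [map_sub, sub_eq_zero]
  have h1 : Tendsto (fun n => b m (∑ i ∈ Finset.range n, b i y • a i)) atTop (𝓝 (b m w)) :=
    ((b m).continuous.tendsto w).comp hw.tendsto_sum_nat
  have h2 : Tendsto (fun n => b m (∑ i ∈ Finset.range n, b i y • a i)) atTop (𝓝 (b m y)) := by
    refine tendsto_const_nhds.congr' ?_
    filter_upwards [eventually_gt_atTop m] with n hn
    rw [map_sum, Finset.sum_eq_single m]
    · rw [map_smul, hab, if_pos rfl, smul_eq_mul, mul_one]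
    · intro j _ hj
      rw [map_smul, hab, if_neg (Ne.symm hj), smul_zero]
    · intro h; exact absurd (Finset.mem_range.2 hn) h
  exact tendsto_nhds_unique h2 h1

end Ext

/-! ### Successive corrections -/

section

variable {𝕜 E : Type*} [RCLike 𝕜] [NormedAddCommGroup E] [NormedSpace 𝕜 E]

theorem corr_limit [CompleteSpace E] (f : ℕ → E →L[𝕜] 𝕜) (x : ℕ → E) (n : ℕ → ℕ) (C : ℝ)
    (hn : ∀ j, n j < n (j + 1)) (h1 : ∀ j, ‖x j - x (j + 1)‖ ≤ C * (1 / 2 : ℝ) ^ j)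
    (h2 : ∀ j, ∀ k < n (j + 1), (k : ℝ) * ‖f k (x (j + 1)) - if k < n j then f k (x j) else 0‖ ≤
      (1 / 2 : ℝ) ^ j) :
    ∃ w, Tendsto x atTop (𝓝 w) ∧ ‖x 0 - w‖ ≤ 2 * C ∧
      ∃ c : ℝ, ∀ k : ℕ, ‖(((k : ℝ) : 𝕜) • f k) w‖ ≤ c := by
  have hd : ∀ j, dist (x j) (x (j + 1)) ≤ C * (1 / 2 : ℝ) ^ j := fun j => by
    rw [dist_eq_norm]; exact h1 j
  obtain ⟨w, hw⟩ := cauchySeq_tendsto_of_complete
    (cauchySeq_of_le_geometric (1 / 2) C (by norm_num) hd)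
  have hmono : StrictMono n := strictMono_nat_of_lt_succ hn
  refine ⟨w, hw, ?_, 2 + ∑ k ∈ Finset.range (n 0), (k : ℝ) * ‖f k w‖, fun k => ?_⟩
  · have := dist_le_of_le_geometric_of_tendsto₀ (1 / 2) C (by norm_num) hd hw
    rw [dist_eq_norm] at this
    have e : C / (1 - 1 / 2) = 2 * C := by ring
    linarith
  · have e1 : ‖(((k : ℝ) : 𝕜) • f k) w‖ = (k : ℝ) * ‖f k w‖ := by
      rw [smul_apply, norm_smul, RCLike.norm_ofReal, abs_of_nonneg (Nat.cast_nonneg k)]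
    rw [e1]
    have h0 : 0 ≤ ∑ k ∈ Finset.range (n 0), (k : ℝ) * ‖f k w‖ :=
      Finset.sum_nonneg fun i _ => by positivity
    rcases lt_or_ge k (n 0) with hk | hk
    · have := Finset.single_le_sum (f := fun i : ℕ => (i : ℝ) * ‖f i w‖)
        (fun i _ => by positivity) (Finset.mem_range.2 hk)
      linarith
    · have key : ∀ l, k < n l → (k : ℝ) * ‖f k (x l)‖ ≤ 2 - 2 * (1 / 2 : ℝ) ^ l := by
        intro l
        induction l with
        | zero => intro h; omega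
        | succ l ih =>
          intro hl
          have h3 := h2 l k hl
          have hp : (0 : ℝ) < (1 / 2 : ℝ) ^ l := by positivity
          have hp1 : (1 / 2 : ℝ) ^ l ≤ 1 := pow_le_one₀ (by norm_num) (by norm_num)
          rw [pow_succ]
          by_cases hkl : k < n l
          · rw [if_pos hkl] at h3
            have h4 := ih hkl
            have h5 : ‖f k (x (l + 1))‖ ≤ ‖f k (x (l + 1)) - f k (x l)‖ + ‖f k (x l)‖ := by
              have := norm_add_le (f k (x (l + 1)) - f k (x l)) (f k (x l))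
              rwa [sub_add_cancel] at this
            have h6 := mul_le_mul_of_nonneg_left h5 (Nat.cast_nonneg (α := ℝ) k)
            linarith
          · rw [if_neg hkl, sub_zero] at h3
            linarith
      have hlim : Tendsto (fun l => (k : ℝ) * ‖f k (x l)‖) atTop (𝓝 ((k : ℝ) * ‖f k w‖)) :=
        ((((f k).continuous.tendsto w).comp hw).norm).const_mul _
      have : (k : ℝ) * ‖f k w‖ ≤ 2 := by
        refine le_of_tendsto hlim ?_
        filter_upwards [eventually_gt_atTop k] with l hl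
        have h7 := key l (lt_of_lt_of_le hl hmono.le_apply)
        have hp : (0 : ℝ) < (1 / 2 : ℝ) ^ l := by positivity
        linarith
      linarith

end

end Vale.Agent.P129Z
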