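import Vale.Agent.P129Z.An1

/-!
# P129: the analysis seen from outside, part 2

Sequences of functionals whose finite spans are normed by distinguished vectors annihilated by the
other members (`HasH`); the two alternatives for such a sequence.
-/

set_option linter.all false

open Filter Topology

namespace Vale.Agent.P129Z

open Vale.Agent.P129

section

variable {𝕜 E : Type*} [RCLike 𝕜] [NormedAddCommGroup E] [NormedSpace 𝕜 E]

theorem zsm (u : E →L[𝕜] 𝕜) : (0 : 𝕜) • u = 0 := zero_smul 𝕜 u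

/-- Approximate interpolation inside a subspace. -/
theorem approx_interp (F : Submodule 𝕜 E) (φ : ℕ → E →L[𝕜] 𝕜) (S : Finset ℕ)
    (H : ∀ (a : ℕ → 𝕜) (η : ℝ), 0 < η → ∃ x ∈ F, ‖x‖ ≤ 1 ∧
      ‖∑ i ∈ S, a i • φ i‖ - η ≤ ‖(∑ i ∈ S, a i • φ i) x‖)
    (t : ℝ) (ht : 0 ≤ t) (c : ℕ → 𝕜)
    (hc : ∀ a : ℕ → 𝕜, ‖∑ i ∈ S, a i * c i‖ ≤ t * ‖∑ i ∈ S, a i • φ i‖) (η : ℝ) (hη : 0 < η) :
    ∃ z ∈ F, ‖z‖ ≤ t ∧ ∀ i ∈ S, ‖φ i z - c i‖ ≤ η := by
  classical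
  let ψ : ℕ → F →L[𝕜] 𝕜 := fun i => if i ∈ S then (φ i).comp F.subtypeL else 0
  have hψ : ∀ (a : ℕ → 𝕜) (x : F), (∑ i ∈ S, a i • ψ i) x = (∑ i ∈ S, a i • φ i) (x : E) := by
    intro a x
    simp only [_root_.sum_apply, smul_apply]
    refine Finset.sum_congr rfl fun i hi => ?_
    simp only [ψ, if_pos hi]
    rfl
  have hle : ∀ a : ℕ → 𝕜, ‖∑ i ∈ S, a i • ψ i‖ ≤ ‖∑ i ∈ S, a i • φ i‖ := by
    intro a
    refine ContinuousLinearMap.opNorm_le_bound _ (norm_nonneg _) fun x => ?_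
    rw [hψ]
    exact ContinuousLinearMap.le_opNorm _ _
  have hge : ∀ a : ℕ → 𝕜, ‖∑ i ∈ S, a i • φ i‖ ≤ ‖∑ i ∈ S, a i • ψ i‖ := by
    intro a
    refine le_of_forall_pos_le_add fun ε hε => ?_
    obtain ⟨x, hx, hx1, hx2⟩ := H a ε hε
    have h1 := (∑ i ∈ S, a i • ψ i).le_opNorm ⟨x, hx⟩
    rw [hψ] at h1
    have h2 : ‖∑ i ∈ S, a i • ψ i‖ * ‖(⟨x, hx⟩ : F)‖ ≤ ‖∑ i ∈ S, a i • ψ i‖ :=
      mul_le_of_le_one_right (norm_nonneg _) hx1
    linarith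
  obtain ⟨z, hz1, -, hz3⟩ := exists_approx_interpolation ψ S (fun a ε hε => by
      obtain ⟨x, hx, hx1, hx2⟩ := H a ε hε
      refine ⟨⟨x, hx⟩, hx1, fun j hj => by simp only [ψ, if_neg hj]; rfl, ?_⟩
      rw [hψ]
      linarith [hle a]) t ht c
    (fun a => (hc a).trans (mul_le_mul_of_nonneg_left (hge a) ht)) η hη
  refine ⟨z, z.2, hz1, fun i hi => ?_⟩
  have := hz3 i hi
  simp only [ψ, if_pos hi] at this
  exact this

end

namespace Ext

variable {𝕜 E : Type*} [RCLike 𝕜] [NormedAddCommGroup E] [NormedSpace 𝕜 E] (A : Ext 𝕜 E)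

/-- The finite spans are normed by distinguished vectors annihilated by the other members. -/
def HasH (φ : ℕ → E →L[𝕜] 𝕜) : Prop :=
  ∀ (S : Finset ℕ) (a : ℕ → 𝕜) (η : ℝ), 0 < η → ∃ x ∈ A.D, ‖x‖ ≤ 1 ∧ (∀ j ∉ S, φ j x = 0) ∧
    ‖∑ i ∈ S, a i • φ i‖ - η ≤ ‖(∑ i ∈ S, a i • φ i) x‖

/-- The point `x` has norm at most `r` on the span of the `φ i`, `n ≤ i`. -/
def Ta (φ : ℕ → E →L[𝕜] 𝕜) (n : ℕ) (x : E) (r : ℝ) : Prop :=
  ∀ (m : ℕ) (a : ℕ → 𝕜), (∀ i, a i ∈ A.K) → (∀ i < n, a i = 0) →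
    ‖(∑ i ∈ Finset.range m, a i • φ i) x‖ ≤ r * ‖∑ i ∈ Finset.range m, a i • φ i‖

variable {A}

theorem Ta.mono {φ : ℕ → E →L[𝕜] 𝕜} {n n' : ℕ} {x : E} {r r' : ℝ} (h : A.Ta φ n x r)
    (hn : n ≤ n') (hr : r ≤ r') : A.Ta φ n' x r' := fun m a ha h0 =>
  (h m a ha fun i hi => h0 i (by omega)).trans (mul_le_mul_of_nonneg_right hr (norm_nonneg _))

/-- From coefficients in `K` to all coefficients. -/
theorem Ta.all {φ : ℕ → E →L[𝕜] 𝕜} {n : ℕ} {x : E} {r : ℝ} (h : A.Ta φ n x r) (m : ℕ)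
    (a : ℕ → 𝕜) : ‖∑ i ∈ Finset.Ico n m, a i * φ i x‖ ≤ r * ‖∑ i ∈ Finset.Ico n m, a i • φ i‖ := by
  classical
  have hc : IsClosed {a : ℕ → 𝕜 | ‖∑ i ∈ Finset.Ico n m, a i * φ i x‖ ≤
      r * ‖∑ i ∈ Finset.Ico n m, a i • φ i‖} := isClosed_le (by fun_prop) (by fun_prop)
  have hd : Dense (Set.pi Set.univ fun _ : ℕ => (A.K : Set 𝕜)) := dense_pi _ fun _ _ => A.denseK
  refine closure_minimal (fun b hb => ?_) hc (hd a)
  have h1 := h m (fun i => if n ≤ i then b i else 0) (fun i => by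
    split_ifs
    · exact hb i trivial
    · exact A.K.zero_mem) (fun i hi => by rw [if_neg (by omega)])
  have e1 : ∑ i ∈ Finset.range m, (if n ≤ i then b i else 0) • φ i =
      ∑ i ∈ Finset.Ico n m, b i • φ i := by
    rw [← Finset.sum_subset (s₁ := Finset.Ico n m) (fun i hi => by
      rw [Finset.mem_Ico] at hi; exact Finset.mem_range.2 hi.2) (fun i hi hi' => by
      rw [Finset.mem_range] at hi
      rw [Finset.mem_Ico] at hi'
      rw [if_neg (by omega), zsm])]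
    exact Finset.sum_congr rfl fun i hi => by rw [if_pos (Finset.mem_Ico.1 hi).1]
  rw [e1] at h1
  show ‖∑ i ∈ Finset.Ico n m, b i * φ i x‖ ≤ _
  simpa only [_root_.sum_apply, smul_apply, smul_eq_mul] using h1

/-- The correction in the first alternative. -/
theorem Ta.step {φ : ℕ → E →L[𝕜] 𝕜} (H : A.HasH φ) (hφ : ∀ i, ‖φ i‖ ≤ 1) {n m : ℕ} {x : E}
    {t : ℝ} (ht : 0 < t) (h : A.Ta φ n x t) {η : ℝ} (hη : 0 < η) :
    ∃ z ∈ A.D, ‖z‖ ≤ 2 * t ∧ (∀ k < m, ‖φ k z - if n ≤ k then φ k x else 0‖ ≤ η) ∧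
      ∀ s, η ≤ s → n ≤ m → A.Ta φ m x s → A.Ta φ m (x - z) (2 * s) := by
  classical
  let S : Set E := {z | z ∈ A.D ∧ ∀ j ∉ Finset.Ico n m, φ j z = 0}
  let F : Submodule 𝕜 E := A.closureSub S ⟨A.D.zero_mem, fun j _ => map_zero _⟩
    (fun x hx y hy => ⟨A.D.add_mem hx.1 hy.1, fun j hj => by
      rw [map_add, hx.2 j hj, hy.2 j hj, add_zero]⟩)
    (fun a ha x hx => ⟨A.smulD a ha x hx.1, fun j hj => by rw [map_smul, hx.2 j hj, smul_zero]⟩)
  obtain ⟨z, hz, hz1, hz2⟩ := approx_interp F φ (Finset.Ico n m) (fun a ε hε => by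
      obtain ⟨y, hy, hy1, hy2, hy3⟩ := H (Finset.Ico n m) a ε hε
      exact ⟨y, subset_closure ⟨hy, hy2⟩, hy1, hy3⟩) t ht.le (fun i => φ i x) (h.all m)
    (η / 2) (by positivity)
  obtain ⟨y, hy, hyz⟩ := Metric.mem_closure_iff.1 hz (min t (η / 2)) (by positivity)
  rw [dist_eq_norm] at hyz
  have h1 : ‖z - y‖ ≤ t := hyz.le.trans (min_le_left _ _)
  have h2 : ‖z - y‖ ≤ η / 2 := hyz.le.trans (min_le_right _ _)
  refine ⟨y, hy.1, ?_, fun k hk => ?_, fun s hs hnm hT M a ha h0 => ?_⟩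
  · have := norm_sub_norm_le y z
    rw [norm_sub_rev] at this
    linarith
  · split_ifs with hnk
    · have h3 := hz2 k (Finset.mem_Ico.2 ⟨hnk, hk⟩)
      have h4 : ‖φ k (z - y)‖ ≤ η / 2 :=
        ((φ k).le_opNorm _).trans ((mul_le_of_le_one_left (norm_nonneg _) (hφ k)).trans h2)
      have e : φ k y - φ k x = (φ k z - φ k x) - φ k (z - y) := by rw [map_sub]; ring
      rw [e]
      refine (norm_sub_le _ _).trans ?_
      linarith
    · rw [hy.2 k (by rw [Finset.mem_Ico]; omega), sub_zero, norm_zero]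
      exact hη.le
  · have e : (∑ i ∈ Finset.range M, a i • φ i) y = 0 := by
      rw [_root_.sum_apply]
      refine Finset.sum_eq_zero fun i _ => ?_
      rcases lt_or_ge i m with hi | hi
      · rw [h0 i hi, zsm]; rfl
      · rw [smul_apply, hy.2 i (by rw [Finset.mem_Ico]; omega), smul_zero]
    rw [map_sub, e, sub_zero]
    refine (hT M a ha h0).trans (mul_le_mul_of_nonneg_right (by linarith) (norm_nonneg _))

variable (A)

/-- `u` is a combination of `φ n, …, φ (m - 1)` with coefficients in `K`. -/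
def InSp (φ : ℕ → E →L[𝕜] 𝕜) (n m : ℕ) (u : E →L[𝕜] 𝕜) : Prop :=
  ∃ a : ℕ → 𝕜, (∀ i, a i ∈ A.K) ∧ (∀ i < n, a i = 0) ∧ (∀ i, m ≤ i → a i = 0) ∧
    u = ∑ i ∈ Finset.range m, a i • φ i

variable {A}

theorem mem_span_of_eq {φ : ℕ → E →L[𝕜] 𝕜} {n m : ℕ} {a : ℕ → 𝕜} (h0 : ∀ i < n, a i = 0) :
    ∑ i ∈ Finset.range m, a i • φ i ∈ Submodule.span 𝕜 (φ '' (Finset.Ico n m : Set ℕ)) := by
  refine Submodule.sum_mem _ fun i hi => ?_
  rcases lt_or_ge i n with h | h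
  · rw [h0 i h, zsm]; exact Submodule.zero_mem _
  · refine Submodule.smul_mem _ _ (Submodule.subset_span ⟨i, ?_, rfl⟩)
    exact Finset.mem_coe.2 (Finset.mem_Ico.2 ⟨h, Finset.mem_range.1 hi⟩)

theorem InSp.mem_span {φ : ℕ → E →L[𝕜] 𝕜} {n m : ℕ} {u : E →L[𝕜] 𝕜} (h : A.InSp φ n m u) :
    u ∈ Submodule.span 𝕜 (φ '' (Finset.Ico n m : Set ℕ)) := by
  obtain ⟨a, -, h0, -, rfl⟩ := h
  exact mem_span_of_eq h0

/-- A normalised block in the second alternative. -/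
theorem beta_step {φ : ℕ → E →L[𝕜] 𝕜} (hφ : ∀ i, φ i ∈ A.Φ) {x₀ : E} (hx₀ : x₀ ∈ A.D) {δ : ℝ}
    {n : ℕ} (h : ¬ A.Ta φ n x₀ δ) :
    ∃ m, n ≤ m ∧ ∃ u ∈ A.Φ, A.InSp φ n m u ∧ ‖u‖ ≤ 1 ∧ δ < RCLike.re (u x₀) ∧
      RCLike.im (u x₀) = 0 := by
  classical
  unfold Ta at h
  push Not at h
  obtain ⟨m, a, ha, h0, hw⟩ := h
  set w : E →L[𝕜] 𝕜 := ∑ i ∈ Finset.range m, a i • φ i with hwdef
  have hwΦ : w ∈ A.Φ := A.sumΦ _ (fun i _ => ha i) (fun i _ => hφ i)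
  have hw0 : 0 < ‖w‖ := by
    rcases eq_or_lt_of_le (norm_nonneg w) with h | h
    · exfalso
      have : w = 0 := norm_eq_zero.1 h.symm
      rw [this] at hw
      simp at hw
    · exact h
  obtain ⟨c, hcK, hc1, hc2⟩ := A.exists_rot (A.app w hwΦ x₀ hx₀)
  have hK : c * ((‖w‖⁻¹ : ℝ) : 𝕜) ∈ A.K :=
    A.K.mul_mem hcK (A.ofR _ (A.R.inv_mem (A.normΦ w hwΦ)))
  have e : ((c * ((‖w‖⁻¹ : ℝ) : 𝕜)) • w) x₀ = ((‖w‖⁻¹ * ‖w x₀‖ : ℝ) : 𝕜) := by
    rw [smul_apply, smul_eq_mul, mul_right_comm, hc2, RCLike.ofReal_mul, mul_comm]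
  refine ⟨max n m, le_max_left _ _, (c * ((‖w‖⁻¹ : ℝ) : 𝕜)) • w, A.smulΦ _ hK _ hwΦ,
    ⟨fun i => if i < m then c * ((‖w‖⁻¹ : ℝ) : 𝕜) * a i else 0, fun i => ?_, fun i hi => ?_,
      fun i hi => ?_, ?_⟩, ?_, ?_, ?_⟩
  · dsimp only
    split_ifs
    · exact A.K.mul_mem hK (ha i)
    · exact A.K.zero_mem
  · simp only [h0 i hi, mul_zero, ite_self]
  · exact if_neg (by have := le_max_right n m; omega)
  · generalize c * ((‖w‖⁻¹ : ℝ) : 𝕜) = c'
    dsimp only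
    rw [hwdef, Finset.smul_sum, ← Finset.sum_subset (s₁ := Finset.range m)
      (Finset.range_subset_range.2 (le_max_right n m)) (fun i _ hi => by
        rw [if_neg (by simpa using hi), zsm])]
    refine Finset.sum_congr rfl fun i hi => ?_
    rw [if_pos (Finset.mem_range.1 hi), smul_smul]
  · rw [norm_smul, norm_mul, hc1, one_mul, RCLike.norm_ofReal, abs_of_pos (by positivity),
      inv_mul_cancel₀ hw0.ne']
  · rw [e, RCLike.ofReal_re, lt_inv_mul_iff₀ hw0, mul_comm]; exact hw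
  · rw [e, RCLike.ofReal_im]

theorem ico_disj {N : ℕ → ℕ} (hmono : Monotone N) {k l i : ℕ} (hkl : k ≠ l)
    (hi : i ∈ Finset.Ico (N k) (N (k + 1))) : i ∉ Finset.Ico (N l) (N (l + 1)) := by
  intro hi'
  rw [Finset.mem_Ico] at hi hi'
  rcases lt_or_gt_of_ne hkl with h | h
  · have := hmono (show k + 1 ≤ l from h)
    omega
  · have := hmono (show l + 1 ≤ k from h)
    omega

/-- The property `HasH` passes to block sequences. -/
theorem HasH.block {φ u : ℕ → E →L[𝕜] 𝕜} (H : A.HasH φ) {N : ℕ → ℕ} (hmono : Monotone N)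
    (hu : ∀ k, u k ∈ Submodule.span 𝕜 (φ '' (Finset.Ico (N k) (N (k + 1)) : Set ℕ))) :
    A.HasH u := by
  classical
  intro T b η hη
  set S : Finset ℕ := T.biUnion fun k => Finset.Ico (N k) (N (k + 1)) with hS
  have hmem : ∑ k ∈ T, b k • u k ∈ Submodule.span 𝕜 (φ '' (S : Set ℕ)) := by
    refine Submodule.sum_mem _ fun k hk => Submodule.smul_mem _ _ ?_
    refine Submodule.span_mono (Set.image_mono ?_) (hu k)
    intro i hi
    exact Finset.mem_coe.2 (Finset.mem_biUnion.2 ⟨k, hk, Finset.mem_coe.1 hi⟩)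
  rw [Submodule.mem_span_image_finset_iff_exists_fun'] at hmem
  obtain ⟨a, ha⟩ := hmem
  obtain ⟨x, hxD, hx1, hx2, hx3⟩ := H S a η hη
  rw [ha] at hx3
  refine ⟨x, hxD, hx1, fun k hk => ?_, hx3⟩
  refine apply_eq_zero_of_mem_span (hu k) fun i hi => hx2 i fun hi' => ?_
  obtain ⟨l, hl, hl'⟩ := Finset.mem_biUnion.1 hi'
  exact ico_disj hmono (fun h : k = l => hk (h ▸ hl)) (Finset.mem_coe.1 hi) hl'

/-- Suppression. -/
theorem HasH.suppress {u : ℕ → E →L[𝕜] 𝕜} (H : A.HasH u) (b : ℕ → 𝕜) {T S : Finset ℕ}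
    (hT : T ⊆ S) : ‖∑ k ∈ T, b k • u k‖ ≤ ‖∑ k ∈ S, b k • u k‖ := by
  refine le_of_forall_pos_le_add fun η hη => ?_
  obtain ⟨x, -, hx1, hx2, hx3⟩ := H T b η hη
  have e1 : (∑ k ∈ S, b k • u k) x = (∑ k ∈ T, b k • u k) x := by
    rw [_root_.sum_apply, _root_.sum_apply]
    refine (Finset.sum_subset hT fun k _ hk => ?_).symm
    rw [smul_apply, hx2 k hk, smul_zero]
  calc ‖∑ k ∈ T, b k • u k‖ ≤ ‖(∑ k ∈ S, b k • u k) x‖ + η := by
        rw [e1]; linarith only [hx3]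
    _ ≤ ‖∑ k ∈ S, b k • u k‖ * 1 + η := by
        gcongr
        exact (ContinuousLinearMap.le_opNorm _ _).trans
          (mul_le_mul_of_nonneg_left hx1 (norm_nonneg _))
    _ = _ := by rw [mul_one]

/-- The lower `ℓ¹`-estimate in the second alternative. -/
theorem HasH.l1_lower {u : ℕ → E →L[𝕜] 𝕜} (H : A.HasH u) {x₀ : E} {δ : ℝ} (hδ : 0 < δ)
    (h1 : ∀ k, δ < RCLike.re (u k x₀)) (h2 : ∀ k, RCLike.im (u k x₀) = 0) (n : ℕ) (b : ℕ → 𝕜) :
    δ / (4 * (‖x₀‖ + 1)) * ∑ k ∈ Finset.range n, ‖b k‖ ≤ ‖∑ k ∈ Finset.range n, b k • u k‖ := by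
  classical
  have hx0 : (0 : ℝ) < ‖x₀‖ + 1 := by positivity
  have key := sum_norm_le_four n b ((‖x₀‖ + 1) / δ * ‖∑ k ∈ Finset.range n, b k • u k‖) ?_
  · have e1 : δ / (4 * (‖x₀‖ + 1)) * (4 * ((‖x₀‖ + 1) / δ *
        ‖∑ k ∈ Finset.range n, b k • u k‖)) = ‖∑ k ∈ Finset.range n, b k • u k‖ := by
      field_simp
    rw [← e1]
    exact mul_le_mul_of_nonneg_left key (by positivity)
  · intro σ hσ
    set T : Finset ℕ := (Finset.range n).filter fun k => 0 < RCLike.re (σ * b k) with hT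
    have e1 : ∑ k ∈ Finset.range n, max (RCLike.re (σ * b k)) 0 =
        ∑ k ∈ T, RCLike.re (σ * b k) := by
      rw [hT, Finset.sum_filter]
      refine Finset.sum_congr rfl fun k _ => ?_
      by_cases h : 0 < RCLike.re (σ * b k)
      · rw [if_pos h, max_eq_left h.le]
      · rw [if_neg h, max_eq_right (not_lt.1 h)]
    have e2 : δ * ∑ k ∈ T, RCLike.re (σ * b k) ≤
        RCLike.re (σ * (∑ k ∈ T, b k • u k) x₀) := by
      rw [_root_.sum_apply, Finset.mul_sum, Finset.mul_sum, map_sum]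
      refine Finset.sum_le_sum fun k hk => ?_
      have hk' : 0 < RCLike.re (σ * b k) := (Finset.mem_filter.1 hk).2
      have e0 : u k x₀ = ((RCLike.re (u k x₀) : ℝ) : 𝕜) := by
        apply RCLike.ext
        · rw [RCLike.ofReal_re]
        · rw [RCLike.ofReal_im, h2]
      have e3 : σ * (b k • u k) x₀ = ((RCLike.re (u k x₀) : ℝ) : 𝕜) * (σ * b k) := by
        rw [smul_apply, smul_eq_mul, ← e0]
        ring
      rw [e3, RCLike.re_ofReal_mul]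
      exact mul_le_mul_of_nonneg_right (h1 _).le hk'.le
    have e3 : RCLike.re (σ * (∑ k ∈ T, b k • u k) x₀) ≤
        ‖∑ k ∈ Finset.range n, b k • u k‖ * (‖x₀‖ + 1) := by
      refine (RCLike.re_le_norm _).trans ?_
      rw [norm_mul]
      calc ‖σ‖ * ‖(∑ k ∈ T, b k • u k) x₀‖ ≤ 1 * ‖(∑ k ∈ T, b k • u k) x₀‖ :=
            mul_le_mul_of_nonneg_right hσ (norm_nonneg _)
        _ ≤ ‖∑ k ∈ T, b k • u k‖ * ‖x₀‖ := by
            rw [one_mul]; exact ContinuousLinearMap.le_opNorm _ _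
        _ ≤ ‖∑ k ∈ Finset.range n, b k • u k‖ * (‖x₀‖ + 1) :=
            mul_le_mul (H.suppress b (Finset.filter_subset _ _)) (by linarith only [])
              (norm_nonneg _) (norm_nonneg _)
    rw [e1, div_mul_eq_mul_div, le_div_iff₀ hδ]
    linarith only [e2, e3]

/-- A pointwise null sequence with a lower `ℓ¹`-estimate is in the first alternative. -/
theorem Ta.of_null {v : ℕ → E →L[𝕜] 𝕜} {c : ℝ} (hc : 0 < c)
    (hlow : ∀ (n : ℕ) (a : ℕ → 𝕜), c * ∑ k ∈ Finset.range n, ‖a k‖ ≤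
      ‖∑ k ∈ Finset.range n, a k • v k‖) {x : E}
    (hx : Tendsto (fun k => v k x) atTop (𝓝 0)) {ε : ℝ} (hε : 0 < ε) : ∃ n, A.Ta v n x ε := by
  obtain ⟨n, hn⟩ := eventually_atTop.1 ((Metric.tendsto_nhds.1 hx) (ε * c) (by positivity))
  refine ⟨n, fun m a _ h0 => ?_⟩
  have h1 : ‖(∑ i ∈ Finset.range m, a i • v i) x‖ ≤ ∑ i ∈ Finset.range m, ‖a i‖ * (ε * c) := by
    rw [_root_.sum_apply]
    refine (norm_sum_le _ _).trans (Finset.sum_le_sum fun i _ => ?_)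
    rw [smul_apply, norm_smul]
    rcases lt_or_ge i n with hi | hi
    · rw [h0 i hi, norm_zero, zero_mul, zero_mul]
    · have := hn i hi
      rw [dist_zero_right] at this
      exact mul_le_mul_of_nonneg_left this.le (norm_nonneg _)
  rw [← Finset.sum_mul] at h1
  have h2 := mul_le_mul_of_nonneg_left (hlow m a) hε.le
  calc _ ≤ _ := h1
    _ = ε * (c * ∑ k ∈ Finset.range m, ‖a k‖) := by ring
    _ ≤ _ := h2

end Ext

end Vale.Agent.P129Z
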