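import Vale.Agent.P129Z.An2

/-!
# P129: the analysis seen from outside, part 3

The steps of the dichotomy of Hagler and Johnson, with distinguished coefficients and vectors.
-/

set_option linter.all false

open Filter Topology

namespace Vale.Agent.P129Z

open Vale.Agent.P129

namespace Ext

variable {𝕜 E : Type*} [RCLike 𝕜] [NormedAddCommGroup E] [NormedSpace 𝕜 E] (A : Ext 𝕜 E)

/-- `u` is a combination of `f N, …, f (M - 1)` with coefficients in `K` of total modulus `t`. -/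
def InK (f : ℕ → E →L[𝕜] 𝕜) (N M : ℕ) (t : ℝ) (u : E →L[𝕜] 𝕜) : Prop :=
  ∃ b : ℕ → 𝕜, (∀ i, b i ∈ A.K) ∧ (∀ i < N, b i = 0) ∧ (∀ i, M ≤ i → b i = 0) ∧
    ∑ i ∈ Finset.range M, ‖b i‖ = t ∧ u = ∑ i ∈ Finset.range M, b i • f i

/-- Sequences of normalised combinations moving to infinity. -/
def Ad (f g : ℕ → E →L[𝕜] 𝕜) : Prop :=
  ∀ N, ∃ n₀, ∀ n, n₀ ≤ n → ∃ M, N ≤ M ∧ A.InK f N M 1 (g n)

/-- `u` is dominated by the tail of `g` from `N` on. -/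
def Dm (g : ℕ → E →L[𝕜] 𝕜) (N : ℕ) (u : E →L[𝕜] 𝕜) : Prop :=
  ∀ x ∈ A.D, ∀ r ∈ A.R, (∀ j, N ≤ j → ‖g j x‖ ≤ r) → ‖u x‖ ≤ r

/-- Every tail of `g` dominates a tail of `h`. -/
def Do (g h : ℕ → E →L[𝕜] 𝕜) : Prop := ∀ N, ∃ n₀, ∀ n, n₀ ≤ n → A.Dm g N (h n)

/-- The asymptotic size of `g` on the unit ball is at most `r`. -/
def OscLe (g : ℕ → E →L[𝕜] 𝕜) (r : ℝ) : Prop :=
  ∀ x ∈ A.D, ‖x‖ ≤ 1 → ∃ n₀, ∀ n, n₀ ≤ n → ‖g n x‖ ≤ r

/-- The size of `g` is at most the size of `h` plus `ε`. -/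
def LeAdd (g h : ℕ → E →L[𝕜] 𝕜) (ε : ℝ) : Prop :=
  ∀ r ∈ A.R, ∀ s ∈ A.R, r + ε < s → A.OscLe h r → A.OscLe g s

variable {A}

theorem InK.inS {f : ℕ → E →L[𝕜] 𝕜} {N M : ℕ} {t : ℝ} {u : E →L[𝕜] 𝕜} (h : A.InK f N M t u) :
    InS f N M t u := by
  obtain ⟨b, -, h1, h2, h3, h4⟩ := h
  exact ⟨b, h1, h2, h3, h4⟩

theorem InK.mem_span {f : ℕ → E →L[𝕜] 𝕜} {N M : ℕ} {t : ℝ} {u : E →L[𝕜] 𝕜}
    (h : A.InK f N M t u) : u ∈ Submodule.span 𝕜 (f '' (Finset.Ico N M : Set ℕ)) := by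
  obtain ⟨b, -, h1, -, -, rfl⟩ := h
  exact mem_span_of_eq h1

theorem InK.mem {f : ℕ → E →L[𝕜] 𝕜} (hf : ∀ i, f i ∈ A.Φ) {N M : ℕ} {t : ℝ} {u : E →L[𝕜] 𝕜}
    (h : A.InK f N M t u) : u ∈ A.Φ := by
  obtain ⟨b, h0, -, -, -, rfl⟩ := h
  exact A.sumΦ _ (fun i _ => h0 i) (fun i _ => hf i)

theorem InK.mono {f : ℕ → E →L[𝕜] 𝕜} {N N' M M' : ℕ} {t : ℝ} {u : E →L[𝕜] 𝕜}
    (h : A.InK f N M t u) (hN : N' ≤ N) (hM : M ≤ M') : A.InK f N' M' t u := by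
  obtain ⟨b, h0, h1, h2, h3, h4⟩ := h
  refine ⟨b, h0, fun i hi => h1 i (by omega), fun i hi => h2 i (by omega), ?_, ?_⟩
  · rw [← h3]
    refine (Finset.sum_subset (Finset.range_subset_range.2 hM) fun i _ hi => ?_).symm
    rw [h2 i (by simpa using hi), norm_zero]
  · rw [h4]
    refine Finset.sum_subset (Finset.range_subset_range.2 hM) fun i _ hi => ?_
    rw [h2 i (by simpa using hi)]; exact zero_smul 𝕜 (f i)

theorem InK.smul {f : ℕ → E →L[𝕜] 𝕜} {N M : ℕ} {t : ℝ} {u : E →L[𝕜] 𝕜}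
    (h : A.InK f N M t u) {c : 𝕜} (hc : c ∈ A.K) : A.InK f N M (‖c‖ * t) (c • u) := by
  obtain ⟨b, h0, h1, h2, h3, h4⟩ := h
  refine ⟨fun i => c * b i, fun i => A.K.mul_mem hc (h0 i), fun i hi => by simp [h1 i hi],
    fun i hi => by simp [h2 i hi], ?_, ?_⟩
  · rw [← h3, Finset.mul_sum]
    exact Finset.sum_congr rfl fun i _ => norm_mul _ _
  · rw [h4, Finset.smul_sum]
    exact Finset.sum_congr rfl fun i _ => smul_smul _ _ _

theorem InK.add {f : ℕ → E →L[𝕜] 𝕜} {N M L : ℕ} {t s : ℝ} {u v : E →L[𝕜] 𝕜}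
    (h : A.InK f N M t u) (h' : A.InK f M L s v) (hN : N ≤ M) (hM : M ≤ L) :
    A.InK f N L (t + s) (u + v) := by
  obtain ⟨b, h0, h1, h2, h3, h4⟩ := h
  obtain ⟨b', h0', h1', h2', h3', h4'⟩ := h'
  have e3 : ∑ i ∈ Finset.range L, ‖b i‖ = t := by
    rw [← h3]
    refine (Finset.sum_subset (Finset.range_subset_range.2 hM) fun i _ hi => ?_).symm
    rw [h2 i (by simpa using hi), norm_zero]
  have e4 : u = ∑ i ∈ Finset.range L, b i • f i := by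
    rw [h4]
    refine Finset.sum_subset (Finset.range_subset_range.2 hM) fun i _ hi => ?_
    rw [h2 i (by simpa using hi)]; exact zero_smul 𝕜 (f i)
  refine ⟨fun i => b i + b' i, fun i => A.K.add_mem (h0 i) (h0' i), fun i hi => ?_,
    fun i hi => ?_, ?_, ?_⟩
  · show b i + b' i = 0
    rw [h1 i hi, h1' i (by omega), add_zero]
  · show b i + b' i = 0
    rw [h2 i (by omega), h2' i hi, add_zero]
  · rw [← e3, ← h3', ← Finset.sum_add_distrib]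
    refine Finset.sum_congr rfl fun i _ => ?_
    show ‖b i + b' i‖ = ‖b i‖ + ‖b' i‖
    rcases lt_or_ge i M with hi | hi
    · rw [h1' i hi, add_zero, norm_zero, add_zero]
    · rw [h2 i hi, zero_add, norm_zero, zero_add]
  · rw [e4, h4', ← Finset.sum_add_distrib]
    exact Finset.sum_congr rfl fun i _ => (add_smul _ _ _).symm

theorem InK.zero (f : ℕ → E →L[𝕜] 𝕜) (N : ℕ) : A.InK f N N 0 0 :=
  ⟨fun _ => 0, fun _ => A.K.zero_mem, fun _ _ => rfl, fun _ _ => rfl, by simp,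
    (Finset.sum_eq_zero fun i _ => zero_smul 𝕜 (f i)).symm⟩

theorem ad_self (f : ℕ → E →L[𝕜] 𝕜) : A.Ad f f := by
  classical
  intro N
  refine ⟨N, fun n hn => ⟨n + 1, by omega, Pi.single n 1, fun i => ?_, fun i hi => ?_,
    fun i hi => ?_, ?_, ?_⟩⟩
  · rcases eq_or_ne i n with rfl | h
    · rw [Pi.single_eq_same]; exact A.K.one_mem
    · rw [Pi.single_eq_of_ne h]; exact A.K.zero_mem
  · rw [Pi.single_eq_of_ne (by omega)]
  · rw [Pi.single_eq_of_ne (by omega)]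
  · rw [Finset.sum_eq_single n]
    · simp
    · intro i _ hi; rw [Pi.single_eq_of_ne hi, norm_zero]
    · intro h; exact absurd (Finset.self_mem_range_succ n) h
  · rw [Finset.sum_eq_single n]
    · simp only [Pi.single_eq_same, one_smul]
    · intro i _ hi; rw [Pi.single_eq_of_ne hi]; exact zero_smul 𝕜 (f i)
    · intro h; exact absurd (Finset.self_mem_range_succ n) h

theorem Dm.mono {g : ℕ → E →L[𝕜] 𝕜} {N N' : ℕ} {u : E →L[𝕜] 𝕜} (h : A.Dm g N u) (hN : N' ≤ N) :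
    A.Dm g N' u := fun x hx r hr H => h x hx r hr fun j hj => H j (hN.trans hj)

theorem Do.refl (g : ℕ → E →L[𝕜] 𝕜) : A.Do g g := fun N =>
  ⟨N, fun n hn x _ r _ h => h n hn⟩

theorem Do.trans {g h k : ℕ → E →L[𝕜] 𝕜} (h1 : A.Do g h) (h2 : A.Do h k) : A.Do g k := by
  intro N
  obtain ⟨M, hM⟩ := h1 N
  obtain ⟨n₀, hn₀⟩ := h2 M
  exact ⟨n₀, fun n hn x hx r hr h => hn₀ n hn x hx r hr fun j hj => hM j hj x hx r hr h⟩

theorem OscLe.mono {g : ℕ → E →L[𝕜] 𝕜} {r s : ℝ} (h : A.OscLe g r) (hrs : r ≤ s) :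
    A.OscLe g s := fun x hx h1 => by
  obtain ⟨n₀, hn₀⟩ := h x hx h1
  exact ⟨n₀, fun n hn => (hn₀ n hn).trans hrs⟩

theorem OscLe.nonneg {g : ℕ → E →L[𝕜] 𝕜} {r : ℝ} (h : A.OscLe g r) : 0 ≤ r := by
  obtain ⟨n₀, hn₀⟩ := h 0 A.D.zero_mem (by simp)
  exact (norm_nonneg _).trans (hn₀ n₀ le_rfl)

theorem OscLe.of_do {g h : ℕ → E →L[𝕜] 𝕜} {r : ℝ} (hr : r ∈ A.R) (hg : A.OscLe g r)
    (hd : A.Do g h) : A.OscLe h r := fun x hx h1 => by
  obtain ⟨N, hN⟩ := hg x hx h1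
  obtain ⟨n₀, hn₀⟩ := hd N
  exact ⟨n₀, fun n hn => hn₀ n hn x hx r hr hN⟩

theorem Ad.oscLe {f g : ℕ → E →L[𝕜] 𝕜} (hf : ∀ i, ‖f i‖ ≤ 1) (hg : A.Ad f g) : A.OscLe g 1 := by
  intro x _ hx
  obtain ⟨n₀, hn₀⟩ := hg 0
  refine ⟨n₀, fun n hn => ?_⟩
  obtain ⟨M, -, hM⟩ := hn₀ n hn
  calc ‖g n x‖ ≤ ‖g n‖ * ‖x‖ := (g n).le_opNorm x
    _ ≤ 1 * 1 := mul_le_mul (hM.inS.norm_le hf) hx (norm_nonneg _) zero_le_one
    _ = 1 := one_mul 1

/-- One step towards a stable sequence; `P` is the class of the permitted sequences. -/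
theorem stable_step (P : (ℕ → E →L[𝕜] 𝕜) → Prop) {f g : ℕ → E →L[𝕜] 𝕜} (hf : ∀ i, ‖f i‖ ≤ 1)
    (hP : P g) (hg : A.Ad f g) {ε : ℝ} (hε : 0 < ε) :
    ∃ t, P t ∧ A.Ad f t ∧ A.Do g t ∧ ∀ h, P h → A.Ad f h → A.Do g h → A.LeAdd t h ε := by
  let S : Set ℝ := {r | ∃ h, P h ∧ A.Ad f h ∧ A.Do g h ∧ A.OscLe h r}
  have hne : S.Nonempty := ⟨1, g, hP, hg, Do.refl g, hg.oscLe hf⟩
  have hbdd : BddBelow S := ⟨0, fun r ⟨h, _, _, _, hr⟩ => hr.nonneg⟩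
  obtain ⟨r₀, ⟨t, h1, h2, h3, h4⟩, h5⟩ := exists_lt_of_csInf_lt hne (lt_add_of_pos_right (sInf S) hε)
  refine ⟨t, h1, h2, h3, fun h k1 k2 k3 r _ s _ hrs hr => h4.mono ?_⟩
  have := csInf_le hbdd ⟨h, k1, k2, k3, hr⟩
  linarith

theorem diag_step {f : ℕ → E →L[𝕜] 𝕜} (G : ℕ → ℕ → E →L[𝕜] 𝕜) (hG : ∀ k, A.Ad f (G k))
    (hd : ∀ k, A.Do (G k) (G (k + 1))) (n : ℕ) :
    ∃ m, (∃ M, n ≤ M ∧ A.InK f n M 1 (G n m)) ∧ ∀ k, k ≤ n → A.Dm (G k) n (G n m) := by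
  have hd' : ∀ k l, k ≤ l → A.Do (G k) (G l) := by
    intro k l hkl
    induction l, hkl using Nat.le_induction with
    | base => exact Do.refl _
    | succ l _ ih => exact ih.trans (hd l)
  have e1 : ∀ᶠ m in atTop, ∀ k ∈ Finset.range (n + 1), A.Dm (G k) n (G n m) := by
    rw [Filter.eventually_all_finset]
    intro k hk
    exact eventually_atTop.2 (hd' k n (by simpa only [Finset.mem_range, Order.lt_add_one_iff]
      using hk) n)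
  obtain ⟨m, hm1, hm2⟩ := ((eventually_atTop.2 (hG n n)).and e1).exists
  exact ⟨m, hm1, fun k hk => hm2 k (by simpa only [Finset.mem_range, Order.lt_add_one_iff]
    using hk)⟩

theorem ad_of_forall {f h : ℕ → E →L[𝕜] 𝕜} (H : ∀ n, ∃ M, n ≤ M ∧ A.InK f n M 1 (h n)) :
    A.Ad f h := fun N => ⟨N, fun n hn => by
  obtain ⟨M, hM1, hM2⟩ := H n
  exact ⟨M, hn.trans hM1, hM2.mono hn le_rfl⟩⟩

theorem do_of_forall {g h : ℕ → E →L[𝕜] 𝕜} (k : ℕ) (H : ∀ n, k ≤ n → A.Dm g n (h n)) :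
    A.Do g h := fun N => ⟨max N k, fun n hn =>
  (H n ((le_max_right _ _).trans hn)).mono ((le_max_left _ _).trans hn)⟩

/-- The diagonal sequence is stable. -/
theorem stable_final (P : (ℕ → E →L[𝕜] 𝕜) → Prop) {f g : ℕ → E →L[𝕜] 𝕜}
    (G : ℕ → ℕ → E →L[𝕜] 𝕜)
    (hG : ∀ k h, P h → A.Ad f h → A.Do (G k) h → A.LeAdd (G (k + 1)) h (1 / ((k : ℝ) + 1)))
    (hg : ∀ k, A.Do (G k) g) {h : ℕ → E →L[𝕜] 𝕜} (h1 : P h) (h2 : A.Ad f h) (h3 : A.Do g h) :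
    A.LeAdd g h 0 := by
  intro r hr s hs hrs hh
  obtain ⟨k, hk⟩ := exists_nat_one_div_lt (show 0 < s - r by linarith)
  exact OscLe.of_do hs (hG k h h1 h2 ((hg k).trans h3) r hr s hs (by linarith) hh) (hg (k + 1))

theorem block_step {f g : ℕ → E →L[𝕜] 𝕜} (hg : A.Ad f g) (n N : ℕ) :
    ∃ n' N', n < n' ∧ N ≤ N' ∧ A.InK f N N' 1 (g n') := by
  obtain ⟨n₀, hn₀⟩ := hg N
  obtain ⟨M, h1, h2⟩ := hn₀ (max n₀ (n + 1)) (le_max_left _ _)
  exact ⟨_, M, lt_of_lt_of_le (Nat.lt_succ_self n) (le_max_right _ _), h1, h2⟩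

theorem tendsto_of_oscLe {g : ℕ → E →L[𝕜] 𝕜} (h : ∀ r ∈ A.R, 0 < r → A.OscLe g r) {x : E}
    (hx : x ∈ A.D) : Tendsto (fun n => g n x) atTop (𝓝 0) := by
  obtain ⟨c, hc⟩ := exists_nat_gt ‖x‖
  have hc0 : (0 : ℝ) < c := (norm_nonneg _).trans_lt hc
  have hK : (((c : ℝ)⁻¹ : ℝ) : 𝕜) ∈ A.K := A.ofR _ (A.R.inv_mem (natCast_mem A.R c))
  have hx1 : ‖(((c : ℝ)⁻¹ : ℝ) : 𝕜) • x‖ ≤ 1 := by
    rw [norm_smul, RCLike.norm_ofReal, abs_of_pos (by positivity), inv_mul_le_iff₀ hc0]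
    linarith
  rw [Metric.tendsto_nhds]
  intro ε hε
  obtain ⟨r, hr, h0, h1⟩ := A.exists_R_btwn (show 0 < ε / c by positivity)
  obtain ⟨n₀, hn₀⟩ := h r hr h0 _ (A.smulD _ hK _ hx) hx1
  filter_upwards [eventually_ge_atTop n₀] with n hn
  have h2 := hn₀ n hn
  rw [map_smul, norm_smul, RCLike.norm_ofReal, abs_of_pos (by positivity),
    inv_mul_le_iff₀ hc0] at h2
  rw [dist_zero_right]
  rw [lt_div_iff₀ hc0] at h1
  linarith

/-! ### The tree -/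

/-- Signed sums of far out members along prescribed unbounded sets. -/
theorem signed_sum {f g : ℕ → E →L[𝕜] 𝕜} (hg : A.Ad f g) {ι : Type*} (B : ι → ℕ → Prop)
    (s : ι → 𝕜) (hsK : ∀ l, s l ∈ A.K) (hs : ∀ l, ‖s l‖ = 1) (S : Finset ι)
    (hB : ∀ l ∈ S, ∀ N, ∃ n, N ≤ n ∧ B l n) (N : ℕ) :
    ∃ (a : ι → ℕ) (M : ℕ), N ≤ M ∧ (∀ l ∈ S, B l (a l) ∧ N ≤ a l) ∧
      A.InK f N M (S.card : ℝ) (∑ l ∈ S, s l • g (a l)) := by
  classical
  induction S using Finset.induction_on with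
  | empty => exact ⟨fun _ => 0, N, le_rfl, by simp, by simpa using InK.zero f N⟩
  | insert l₀ S hl ih =>
    obtain ⟨a, M, hNM, ha, hM⟩ := ih fun l hl => hB l (Finset.mem_insert_of_mem hl)
    obtain ⟨n₀, hn₀⟩ := hg M
    obtain ⟨n, hn1, hn⟩ := hB l₀ (Finset.mem_insert_self _ _) (max n₀ N)
    obtain ⟨L, hL1, hL2⟩ := hn₀ n ((le_max_left _ _).trans hn1)
    have hn2 : N ≤ n := (le_max_right _ _).trans hn1
    refine ⟨Function.update a l₀ n, L, hNM.trans hL1, fun l hl' => ?_, ?_⟩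
    · rcases Finset.mem_insert.1 hl' with rfl | h
      · simpa using ⟨hn, hn2⟩
      · have : l ≠ l₀ := fun h' => hl (h' ▸ h)
        rw [Function.update_of_ne this]; exact ha l h
    · have e1 : ∑ l ∈ insert l₀ S, s l • g (Function.update a l₀ n l) =
          (∑ l ∈ S, s l • g (a l)) + s l₀ • g n := by
        rw [Finset.sum_insert hl, add_comm, Function.update_self]
        congr 1
        refine Finset.sum_congr rfl fun l hl' => ?_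
        have : l ≠ l₀ := fun h' => hl (h' ▸ hl')
        rw [Function.update_of_ne this]
      rw [e1, Finset.card_insert_of_notMem hl]
      push_cast
      have e2 := hL2.smul (hsK l₀)
      rw [hs, one_mul] at e2
      exact hM.add e2 hNM hL1

/-- Sign patterns. -/
def Pat (ε : ℕ → ℝ) : Prop := ∀ i, ε i = 1 ∨ ε i = -1

/-- `u` reproduces the pattern `ε` at the first `k` points. -/
def Rep (δ : ℝ) (x : ℕ → E) (k : ℕ) (ε : ℕ → ℝ) (u : E →L[𝕜] 𝕜) : Prop :=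
  ∀ i < k, ‖u (x i) - ((δ * ε i : ℝ) : 𝕜)‖ ≤ δ / 16

/-- The first `k` levels of the tree. -/
def TQ (g : ℕ → E →L[𝕜] 𝕜) (δ : ℝ) (k : ℕ) (x : ℕ → E) : Prop :=
  (∀ i < k, ‖x i‖ ≤ 1) ∧ ∀ ε, Pat ε → ∀ N, ∃ n, N ≤ n ∧ Rep δ x k ε (g n)

variable (A) in
/-- A point at which `u` is large extends the tree. -/
def Tr (g : ℕ → E →L[𝕜] 𝕜) (δ p m : ℝ) (k : ℕ) (x : ℕ → E) (N : ℕ) (u : E →L[𝕜] 𝕜) : Prop :=
  ∀ y ∈ A.D, (∀ j, N ≤ j → ‖g j y‖ ≤ p) → m < RCLike.re (u y) → ∀ ε, Pat ε →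
    ∃ n, N ≤ n ∧ Rep δ x k ε (g n) ∧ ‖g n y - ((δ * ε k : ℝ) : 𝕜)‖ ≤ δ / 16

theorem tree_sum {f g : ℕ → E →L[𝕜] 𝕜} (hg : A.Ad f g) {δ p m : ℝ} (hδ : 0 < δ) (hp : 0 ≤ p)
    {k : ℕ} (h1 : |p - δ| ≤ δ / 32) (h2 : 2 * p * (2 ^ (k + 1) * (p - m)) ≤ (δ / 32) ^ 2)
    {x : ℕ → E} (hQ : TQ g δ k x) (N : ℕ) :
    ∃ u, (∃ M, N ≤ M ∧ A.InK f N M 1 u) ∧ A.Dm g N u ∧ A.Tr g δ p m k x N u := by
  classical
  let sg : Finset ℕ → ℕ → ℝ := fun T i => if i ∈ T then 1 else -1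
  have hsg : ∀ T, Pat (sg T) := by
    intro T i
    by_cases h : i ∈ T <;> simp [sg, h]
  set S : Finset (Finset ℕ) := (Finset.range (k + 1)).powerset with hS
  set r : ℝ := (S.card : ℝ) with hr
  have hr2 : r = 2 ^ (k + 1) := by
    rw [hr, hS, Finset.card_powerset, Finset.card_range]; push_cast; rfl
  have hr0 : 0 < r := by rw [hr2]; positivity
  have hs1 : ∀ T, ‖((sg T k : ℝ) : 𝕜)‖ = 1 := by
    intro T; rw [RCLike.norm_ofReal]; rcases hsg T k with h | h <;> simp [h]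
  have hsK : ∀ T, ((sg T k : ℝ) : 𝕜) ∈ A.K := by
    intro T
    refine A.ofR _ ?_
    rcases hsg T k with h | h <;> rw [h]
    · exact A.R.one_mem
    · exact A.R.neg_mem A.R.one_mem
  obtain ⟨a, M, hM1, ha, hM2⟩ := signed_sum hg (fun T n => Rep δ x k (sg T) (g n))
    (fun T => ((sg T k : ℝ) : 𝕜)) hsK hs1 S (fun T _ N => hQ.2 _ (hsg T) N) N
  have hrn : ‖((r⁻¹ : ℝ) : 𝕜)‖ = r⁻¹ := by
    rw [RCLike.norm_ofReal, abs_of_pos (by positivity)]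
  have hrK : ((r⁻¹ : ℝ) : 𝕜) ∈ A.K := A.ofR _ (A.R.inv_mem (natCast_mem A.R _))
  have hev : ∀ y, (((r⁻¹ : ℝ) : 𝕜) • ∑ l ∈ S, ((sg l k : ℝ) : 𝕜) • g (a l)) y =
      ((r⁻¹ : ℝ) : 𝕜) * ∑ l ∈ S, ((sg l k : ℝ) : 𝕜) * g (a l) y := by
    intro y
    simp only [smul_apply, _root_.sum_apply, smul_eq_mul]
  refine ⟨((r⁻¹ : ℝ) : 𝕜) • ∑ l ∈ S, ((sg l k : ℝ) : 𝕜) • g (a l), ⟨M, hM1, ?_⟩, ?_, ?_⟩
  · have e1 := hM2.smul hrK
    rwa [hrn, ← hr, inv_mul_cancel₀ hr0.ne'] at e1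
  · intro y _ t _ ht
    rw [hev, norm_mul, hrn, inv_mul_le_iff₀ hr0]
    refine (norm_sum_le _ _).trans ?_
    calc ∑ l ∈ S, ‖((sg l k : ℝ) : 𝕜) * g (a l) y‖ ≤ ∑ l ∈ S, t := by
          refine Finset.sum_le_sum fun l hl => ?_
          rw [norm_mul, hs1, one_mul]
          exact ht _ (ha l hl).2
      _ = r * t := by rw [Finset.sum_const, nsmul_eq_mul]
  · intro y _ hy hm ε hε
    set l₀ : Finset ℕ := (Finset.range (k + 1)).filter fun i => ε i = 1 with hl₀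
    have hl₀S : l₀ ∈ S := Finset.mem_powerset.2 (Finset.filter_subset _ _)
    have e0 : ∀ i < k + 1, sg l₀ i = ε i := by
      intro i hi
      simp only [sg, hl₀, Finset.mem_filter, Finset.mem_range, hi, true_and]
      rcases hε i with h | h
      · rw [if_pos h, h]
      · rw [if_neg (by rw [h]; norm_num), h]
    refine ⟨a l₀, (ha l₀ hl₀S).2, fun i hi => ?_, ?_⟩
    · rw [← e0 i (by omega)]
      exact (ha l₀ hl₀S).1 i hi
    · let z : Finset ℕ → 𝕜 := fun l => ((sg l k : ℝ) : 𝕜) * g (a l) y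
      have hz1 : ∀ l ∈ S, ‖z l‖ ≤ p := by
        intro l hl
        simp only [z, norm_mul, hs1, one_mul]
        exact hy _ (ha l hl).2
      have hz2 : ∀ l ∈ S, RCLike.re (z l) ≤ p := fun l hl =>
        (RCLike.re_le_norm _).trans (hz1 l hl)
      have hz3 : r * m < ∑ l ∈ S, RCLike.re (z l) := by
        rw [hev, RCLike.re_ofReal_mul, map_sum] at hm
        have e3 := mul_lt_mul_of_pos_left hm hr0
        rwa [mul_inv_cancel_left₀ hr0.ne'] at e3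
      have hz4 : p - r * (p - m) ≤ RCLike.re (z l₀) := by
        have e1 : ∑ l ∈ S, RCLike.re (z l) =
            RCLike.re (z l₀) + ∑ l ∈ S.erase l₀, RCLike.re (z l) :=
          (Finset.add_sum_erase S _ hl₀S).symm
        have e2 : ∑ l ∈ S.erase l₀, RCLike.re (z l) ≤ (r - 1) * p := by
          calc ∑ l ∈ S.erase l₀, RCLike.re (z l) ≤ ∑ l ∈ S.erase l₀, p :=
                Finset.sum_le_sum fun l hl => hz2 l (Finset.mem_of_mem_erase hl)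
            _ = (r - 1) * p := by
                rw [Finset.sum_const, nsmul_eq_mul, Finset.card_erase_of_mem hl₀S,
                  Nat.cast_sub (Finset.card_pos.2 ⟨l₀, hl₀S⟩), Nat.cast_one]
        nlinarith
      have hz5 : ‖z l₀ - (p : 𝕜)‖ ^ 2 ≤ (δ / 32) ^ 2 := by
        have e1 : ‖z l₀ - (p : 𝕜)‖ ^ 2 = ‖z l₀‖ ^ 2 - 2 * p * RCLike.re (z l₀) + p ^ 2 := by
          rw [← RCLike.normSq_eq_def', ← RCLike.normSq_eq_def', RCLike.normSq_apply,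
            RCLike.normSq_apply]
          simp only [map_sub, RCLike.ofReal_re, RCLike.ofReal_im]
          ring
        have e2 : ‖z l₀‖ ^ 2 ≤ p ^ 2 := pow_le_pow_left₀ (norm_nonneg _) (hz1 l₀ hl₀S) 2
        have e3 : 2 * p * (p - r * (p - m)) ≤ 2 * p * RCLike.re (z l₀) :=
          mul_le_mul_of_nonneg_left hz4 (by linarith)
        rw [← hr2] at h2
        nlinarith
      have hz6 : ‖z l₀ - (p : 𝕜)‖ ≤ δ / 32 := le_of_sq_le_sq hz5 (by positivity)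
      have hz7 : ‖z l₀ - (δ : 𝕜)‖ ≤ δ / 16 := by
        have e : z l₀ - (δ : 𝕜) = (z l₀ - (p : 𝕜)) + ((p - δ : ℝ) : 𝕜) := by push_cast; ring
        rw [e]
        refine (norm_add_le _ _).trans ?_
        rw [RCLike.norm_ofReal]
        linarith
      have hz8 : g (a l₀) y - ((δ * ε k : ℝ) : 𝕜) = ((sg l₀ k : ℝ) : 𝕜) * (z l₀ - (δ : 𝕜)) := by
        have e1 : ((sg l₀ k : ℝ) : 𝕜) * ((sg l₀ k : ℝ) : 𝕜) = 1 := by
          rw [← RCLike.ofReal_mul]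
          rcases hsg l₀ k with h | h <;> simp [h]
        simp only [z]
        rw [mul_sub, ← mul_assoc, e1, one_mul, ← e0 k (by omega), RCLike.ofReal_mul,
          mul_comm ((δ : ℝ) : 𝕜)]
      rw [hz8, norm_mul, hs1, one_mul]
      exact hz7

/-- The new level of the tree. -/
theorem tree_next {f g h : ℕ → E →L[𝕜] 𝕜} (hf : ∀ i, ‖f i‖ ≤ 1) {δ p m m' : ℝ} (hm : m < m')
    {k : ℕ} {x : ℕ → E} (hQ : TQ g δ k x) (hh : ∀ n, ∃ M, n ≤ M ∧ A.InK f n M 1 (h n))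
    (hT : ∀ N, A.Tr g δ p m k x N (h N)) (hp : A.OscLe g p) (hm' : ¬ A.OscLe h m') :
    ∃ y ∈ A.D, TQ g δ (k + 1) (Function.update x k y) := by
  classical
  unfold OscLe at hm'
  push Not at hm'
  obtain ⟨w, hw, hw1, hw2⟩ := hm'
  have hb : ∀ n, ‖h n w‖ ≤ 1 := by
    intro n
    obtain ⟨M, -, hM⟩ := hh n
    calc ‖h n w‖ ≤ ‖h n‖ * ‖w‖ := (h n).le_opNorm w
      _ ≤ 1 * 1 := mul_le_mul (hM.inS.norm_le hf) hw1 (norm_nonneg _) zero_le_one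
      _ = 1 := one_mul 1
  set e : ℝ := min 1 ((m' - m) / 4) with he
  have he0 : 0 < e := lt_min one_pos (by linarith)
  have he1 : e ≤ 1 := min_le_left _ _
  have he2 : e ≤ (m' - m) / 4 := min_le_right _ _
  obtain ⟨c, hc1, hc2⟩ := exists_rotate (fun n => h n w) 1 m' e hb he0
    (frequently_atTop.2 fun N => by
      obtain ⟨n, h1, h2⟩ := hw2 N
      exact ⟨n, h1, h2⟩)
  obtain ⟨b, hbK, hb1⟩ := A.exists_K_near (((1 - e : ℝ) : 𝕜) * c) he0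
  have hb2 : ‖b‖ ≤ 1 := by
    have h1 : ‖((1 - e : ℝ) : 𝕜) * c‖ = 1 - e := by
      rw [norm_mul, hc1, mul_one, RCLike.norm_ofReal, abs_of_nonneg (by linarith)]
    have h2 := norm_sub_norm_le b (((1 - e : ℝ) : 𝕜) * c)
    rw [norm_sub_rev] at h2
    linarith
  have hb3 : ‖c - b‖ ≤ 2 * e := by
    have h1 : c - b = (e : 𝕜) * c + (((1 - e : ℝ) : 𝕜) * c - b) := by push_cast; ring
    rw [h1]
    refine (norm_add_le _ _).trans ?_
    rw [norm_mul, hc1, mul_one, RCLike.norm_ofReal, abs_of_pos he0]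
    linarith
  have hy1 : ‖b • w‖ ≤ 1 := by
    rw [norm_smul]
    exact mul_le_one₀ hb2 (norm_nonneg _) hw1
  have hyD : b • w ∈ A.D := A.smulD b hbK w hw
  refine ⟨b • w, hyD, fun i hi => ?_, fun ε hε N => ?_⟩
  · rcases Nat.lt_succ_iff_lt_or_eq.1 hi with h | h
    · rw [Function.update_of_ne (by omega)]; exact hQ.1 i h
    · subst h; rw [Function.update_self]; exact hy1
  · obtain ⟨n₀, hn₀⟩ := hp _ hyD hy1
    obtain ⟨n, hn1, hn2⟩ := frequently_atTop.1 hc2 (max N n₀)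
    have h3 : m < RCLike.re (h n (b • w)) := by
      have e1 : h n (b • w) = c * h n w - (c - b) * h n w := by
        rw [map_smul, smul_eq_mul]; ring
      have e2 : RCLike.re ((c - b) * h n w) ≤ 2 * e := by
        refine (RCLike.re_le_norm _).trans ?_
        rw [norm_mul]
        exact (mul_le_of_le_one_right (norm_nonneg _) (hb n)).trans hb3
      rw [e1, map_sub]
      linarith
    obtain ⟨n', h4, h5, h6⟩ := hT n _ hyD
      (fun j hj => hn₀ j (((le_max_right _ _).trans hn1).trans hj)) h3 ε hε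
    refine ⟨n', ((le_max_left _ _).trans hn1).trans h4, fun i hi => ?_⟩
    rcases Nat.lt_succ_iff_lt_or_eq.1 hi with h | h
    · rw [Function.update_of_ne (by omega)]; exact h5 i h
    · subst h; rw [Function.update_self]; exact h6

/-- The choice of the parameters. -/
theorem tree_params {g : ℕ → E →L[𝕜] 𝕜} (h1 : A.OscLe g 1) {r₀ : ℝ} (hr₀ : 0 < r₀)
    (h0 : ¬ A.OscLe g r₀) :
    ∃ δ ∈ A.R, 0 < δ ∧ ∀ k : ℕ, ∃ p ∈ A.R, ∃ m ∈ A.R, ∃ m' ∈ A.R, ∃ s ∈ A.R, 0 ≤ p ∧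
      |p - δ| ≤ δ / 32 ∧ 2 * p * (2 ^ (k + 1) * (p - m)) ≤ (δ / 32) ^ 2 ∧ m < m' ∧ m' < s ∧
      A.OscLe g p ∧ ¬ A.OscLe g s := by
  let S : Set ℝ := {r | A.OscLe g r}
  have hne : S.Nonempty := ⟨1, h1⟩
  have hbdd : BddBelow S := ⟨0, fun r hr => OscLe.nonneg hr⟩
  set d := sInf S with hd
  have hd0 : 0 < d := by
    refine hr₀.trans_le (le_csInf hne fun r hr => ?_)
    by_contra hc
    exact h0 (OscLe.mono hr (not_le.1 hc).le)
  have hup : ∀ p, d < p → A.OscLe g p := by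
    intro p hp
    obtain ⟨r, hr, hrp⟩ := exists_lt_of_csInf_lt hne hp
    exact OscLe.mono hr hrp.le
  have hlo : ∀ s, s < d → ¬ A.OscLe g s := fun s hs h => absurd (csInf_le hbdd h) (not_le.2 hs)
  obtain ⟨δ, hδR, hδ1, hδ2⟩ := A.exists_R_btwn (show d < d + d / 64 by linarith)
  have hδ0 : 0 < δ := hd0.trans hδ1
  refine ⟨δ, hδR, hδ0, fun k => ?_⟩
  set e : ℝ := min (d / 64) ((δ / 32) ^ 2 / (2 * (2 * d) * (2 ^ (k + 1) * 2))) with he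
  have he0 : 0 < e := lt_min (by linarith) (by positivity)
  have he1 : e ≤ d / 64 := min_le_left _ _
  have he2 : e * (2 * (2 * d) * (2 ^ (k + 1) * 2)) ≤ (δ / 32) ^ 2 := by
    rw [← le_div_iff₀ (by positivity)]
    exact min_le_right _ _
  obtain ⟨p, hpR, hp1, hp2⟩ := A.exists_R_btwn (show d < d + e by linarith)
  obtain ⟨m, hmR, hm1, hm2⟩ := A.exists_R_btwn (show d - e < d by linarith)
  obtain ⟨m', hmR', hm3, hm4⟩ := A.exists_R_btwn hm2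
  obtain ⟨s, hsR, hs1, hs2⟩ := A.exists_R_btwn hm4
  refine ⟨p, hpR, m, hmR, m', hmR', s, hsR, by linarith, ?_, ?_, hm3, hs1, hup p hp1, hlo s hs2⟩
  · rw [abs_le]; constructor <;> linarith
  · refine le_trans ?_ he2
    have h3 : (0 : ℝ) < 2 ^ (k + 1) := by positivity
    have h4 : 2 ^ (k + 1) * (p - m) ≤ 2 ^ (k + 1) * (2 * e) :=
      mul_le_mul_of_nonneg_left (by linarith) h3.le
    calc 2 * p * (2 ^ (k + 1) * (p - m)) ≤ 2 * (2 * d) * (2 ^ (k + 1) * (2 * e)) :=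
          mul_le_mul (by linarith) h4 (mul_nonneg h3.le (by linarith)) (by linarith)
      _ = _ := by ring

theorem TQ.congr {g : ℕ → E →L[𝕜] 𝕜} {δ : ℝ} {k : ℕ} {x y : ℕ → E} (h : TQ g δ k x)
    (e : ∀ i < k, x i = y i) : TQ g δ k y := by
  refine ⟨fun i hi => e i hi ▸ h.1 i hi, fun ε hε N => ?_⟩
  obtain ⟨n, h1, h2⟩ := h.2 ε hε N
  exact ⟨n, h1, fun i hi => e i hi ▸ h2 i hi⟩

theorem TQ.zero (g : ℕ → E →L[𝕜] 𝕜) (δ : ℝ) (x : ℕ → E) : TQ g δ 0 x :=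
  ⟨fun i hi => absurd hi (Nat.not_lt_zero i), fun _ _ N =>
    ⟨N, le_rfl, fun i hi => absurd hi (Nat.not_lt_zero i)⟩⟩

end Ext

end Vale.Agent.P129Z
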