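import Vale.Agent.P129Z.An3

/-!
# P129: the analysis seen from outside, part 4

Sign functionals, generalised limits, the Hilbertian case and the step of the successive
corrections.
-/

set_option linter.all false

open Filter Topology

namespace Vale.Agent.P129Z

open Vale.Agent.P129

namespace Ext

variable {𝕜 E : Type*} [RCLike 𝕜] [NormedAddCommGroup E] [NormedSpace 𝕜 E] (A : Ext 𝕜 E)

/-- The finite stage of the construction of functionals equivalent to an orthonormal sequence. -/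
def Sg (δ : ℝ) (x : ℕ → E) (q : ℕ → ℕ → ℝ) (n : ℕ) (f : ℕ → E →L[𝕜] 𝕜) : Prop :=
  (∀ y ∈ A.D, ∑ k ∈ Finset.range n, ‖f k y‖ ^ 2 ≤ ‖y‖ ^ 2) ∧ ∀ i < n,
    0 ≤ ∑ k ∈ Finset.range n, q i k * RCLike.re (f k (x i)) ∧
    (45 / 88 * δ) ^ 2 * ∑ k ∈ Finset.range n, q i k ^ 2 ≤
      (∑ k ∈ Finset.range n, q i k * RCLike.re (f k (x i))) ^ 2 ∧
    ∑ k ∈ Finset.range n, RCLike.im (f k (x i)) ^ 2 ≤ (δ / 16) ^ 2

variable {A}

theorem signs_step {δ : ℝ} (hδ : 0 < δ) (x : ℕ → E) (q : ℕ → ℕ → ℝ) (n : ℕ)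
    (h : ∀ ε, Pat ε → ∃ ψ ∈ A.Φ, ‖ψ‖ ≤ 1 ∧ Rep δ x n ε ψ) :
    ∃ f : ℕ → E →L[𝕜] 𝕜, (∀ k, f k ∈ A.Φ) ∧ (∀ k, n ≤ k → f k = 0) ∧ A.Sg δ x q n f := by
  classical
  let q' : ℕ → Fin n → ℝ := fun i k => q i k
  let sgn : (Fin n → Bool) → ℕ → ℝ := fun ω i => if 0 ≤ rs (q' i) ω then 1 else -1
  have hsgn : ∀ ω, Pat (sgn ω) := by
    intro ω i
    simp only [sgn]
    split_ifs <;> simp
  have hsgn1 : ∀ ω i, |sgn ω i| = 1 := by
    intro ω i
    rcases hsgn ω i with h | h <;> rw [h] <;> norm_num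
  have hsgn2 : ∀ ω i, sgn ω i * rs (q' i) ω = |rs (q' i) ω| := by
    intro ω i
    simp only [sgn]
    split_ifs with h0
    · rw [one_mul, abs_of_nonneg h0]
    · rw [abs_of_neg (not_le.mp h0)]
      ring
  choose ψ hψ0 hψ1 hψ2 using fun ω => h (sgn ω) (hsgn ω)
  let f : ℕ → E →L[𝕜] 𝕜 := fun k => if hk : k < n then avgF ψ ⟨k, hk⟩ else 0
  have hfin : ∀ G : (E →L[𝕜] 𝕜) → ℕ → ℝ,
      ∑ k ∈ Finset.range n, G (f k) k = ∑ k : Fin n, G (avgF ψ k) k := by
    intro G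
    rw [Finset.sum_range]
    refine Finset.sum_congr rfl fun k _ => ?_
    simp only [f, dif_pos k.2]
  refine ⟨f, fun k => ?_, fun k hk => dif_neg (by omega), fun y _ => ?_, fun i hi => ?_⟩
  · simp only [f]
    split_ifs with hk
    · refine A.smulΦ _ ?_ _ (A.sumΦ _ (fun ω _ => A.ofR _ ?_) fun ω _ => hψ0 ω)
      · exact A.K.div_mem A.K.one_mem (A.K.pow_mem (ofNat_mem A.K 2) n)
      · unfold sg
        split_ifs
        · exact A.R.one_mem
        · exact A.R.neg_mem A.R.one_mem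
    · exact A.Φ.zero_mem
  · rw [hfin (fun F _ => ‖F y‖ ^ 2)]
    exact avgF_bessel hψ1 y
  · have h1 := avgF_lower hδ (fun ω => sgn ω i) (fun ω => hsgn1 ω i) (q' i)
      (fun ω => hsgn2 ω i) (x := x i) (ψ := ψ) (fun ω => hψ2 ω i hi) (fun k => ((q' i k : ℝ) : 𝕜))
    simp only [RCLike.ofReal_re, RCLike.ofReal_im, sub_self, abs_zero, Finset.sum_const_zero,
      mul_zero, sub_zero, ne_eq, OfNat.ofNat_ne_zero, not_false_eq_true, zero_pow,
      Real.sqrt_zero, map_sum, RCLike.re_ofReal_mul] at h1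
    have e1 : ∑ k ∈ Finset.range n, q i k * RCLike.re (f k (x i)) =
        ∑ k : Fin n, q' i k * RCLike.re (avgF ψ k (x i)) :=
      hfin (fun F k => q i k * RCLike.re (F (x i)))
    have e2 : ∑ k ∈ Finset.range n, q i k ^ 2 = ∑ k : Fin n, q' i k ^ 2 :=
      hfin (fun F k => q i k ^ 2)
    have h0 : 0 ≤ 45 / 88 * δ * Real.sqrt (∑ k : Fin n, q' i k ^ 2) := by positivity
    refine ⟨by rw [e1]; exact h0.trans h1, ?_, ?_⟩
    · rw [e1, e2]
      have h2 := pow_le_pow_left₀ h0 h1 2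
      rwa [mul_pow, Real.sq_sqrt (Finset.sum_nonneg fun k _ => sq_nonneg _)] at h2
    · rw [hfin (fun F k => RCLike.im (F (x i)) ^ 2)]
      have h2 := bessel (𝕜 := 𝕜) (fun ω => ((RCLike.im (ψ ω (x i)) : ℝ) : 𝕜))
      have e3 : ∀ k : Fin n, ‖(1 / 2 ^ n : 𝕜) * ∑ ω, ((sg (ω k) : ℝ) : 𝕜) *
          ((RCLike.im (ψ ω (x i)) : ℝ) : 𝕜)‖ ^ 2 = RCLike.im (avgF ψ k (x i)) ^ 2 := by
        intro k
        have e4 : (1 / 2 ^ n : 𝕜) = ((1 / 2 ^ n : ℝ) : 𝕜) := by push_cast; rfl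
        have e5 : (1 / 2 ^ n : 𝕜) * ∑ ω, ((sg (ω k) : ℝ) : 𝕜) *
            ((RCLike.im (ψ ω (x i)) : ℝ) : 𝕜) = ((RCLike.im (avgF ψ k (x i)) : ℝ) : 𝕜) := by
          rw [avgF_apply, e4, RCLike.im_ofReal_mul, map_sum]
          simp only [RCLike.im_ofReal_mul]
          push_cast
          rfl
        rw [e5, RCLike.norm_ofReal, sq_abs]
      simp only [e3] at h2
      refine h2.trans ?_
      have h3 : ∀ ω, ‖((RCLike.im (ψ ω (x i)) : ℝ) : 𝕜)‖ ^ 2 ≤ (δ / 16) ^ 2 := by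
        intro ω
        refine pow_le_pow_left₀ (norm_nonneg _) ?_ 2
        have := RCLike.abs_im_le_norm (ψ ω (x i) - ((δ * sgn ω i : ℝ) : 𝕜))
        rw [map_sub, RCLike.ofReal_im, sub_zero] at this
        rw [RCLike.norm_ofReal]
        exact this.trans (hψ2 ω i hi)
      calc 1 / 2 ^ n * ∑ ω, ‖((RCLike.im (ψ ω (x i)) : ℝ) : 𝕜)‖ ^ 2
          ≤ 1 / 2 ^ n * ∑ _ω : Fin n → Bool, (δ / 16) ^ 2 := by
            exact mul_le_mul_of_nonneg_left (Finset.sum_le_sum fun ω _ => h3 ω) (by positivity)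
        _ = (δ / 16) ^ 2 := by
            rw [Finset.sum_const, Finset.card_univ, Fintype.card_pi, Finset.prod_const,
              Fintype.card_bool, Finset.card_univ, Fintype.card_fin, nsmul_eq_mul]
            push_cast
            field_simp

theorem Sg.upper {δ : ℝ} {x : ℕ → E} {q : ℕ → ℕ → ℝ} {n : ℕ} {f : ℕ → E →L[𝕜] 𝕜}
    (h : A.Sg δ x q n f) {y : E} (hy : y ∈ A.D) {K : ℕ} (hK : K ≤ n) :
    ∑ k ∈ Finset.range K, ‖f k y‖ ^ 2 ≤ ‖y‖ ^ 2 :=
  (Finset.sum_le_sum_of_subset_of_nonneg (Finset.range_subset_range.2 hK)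
    fun _ _ _ => sq_nonneg _).trans (h.1 y hy)

theorem Sg.norm_le {δ : ℝ} {x : ℕ → E} {q : ℕ → ℕ → ℝ} {n : ℕ} {f : ℕ → E →L[𝕜] 𝕜}
    (h : A.Sg δ x q n f) (h0 : ∀ k, n ≤ k → f k = 0) {y : E} (hy : y ∈ A.D) (k : ℕ) :
    ‖f k y‖ ≤ ‖y‖ := by
  rcases lt_or_ge k n with hk | hk
  · refine le_of_sq_le_sq ?_ (norm_nonneg _)
    exact (Finset.single_le_sum (f := fun k => ‖f k y‖ ^ 2) (fun _ _ => sq_nonneg _)
      (Finset.mem_range.2 hk)).trans (h.1 y hy)
  · rw [h0 k hk]; simp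

variable (A)

/-- The finite combinations of the `φ k` are bounded by the upper limits of those of `f n k`. -/
def Star (f : ℕ → ℕ → E →L[𝕜] 𝕜) (φ : ℕ → E →L[𝕜] 𝕜) : Prop :=
  ∀ (K : ℕ) (a : ℕ → 𝕜), (∀ k, a k ∈ A.K) → ∀ y ∈ A.D, ∀ r ∈ A.R,
    (∀ᶠ n in atTop, RCLike.re (∑ k ∈ Finset.range K, a k * f n k y) ≤ r) →
      RCLike.re (∑ k ∈ Finset.range K, a k * φ k y) ≤ r

variable {A}

theorem Star.le {f : ℕ → ℕ → E →L[𝕜] 𝕜} {φ : ℕ → E →L[𝕜] 𝕜} (h : A.Star f φ) (K : ℕ)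
    (a : ℕ → 𝕜) (ha : ∀ k, a k ∈ A.K) {y : E} (hy : y ∈ A.D) (r : ℝ)
    (hr : ∀ᶠ n in atTop, RCLike.re (∑ k ∈ Finset.range K, a k * f n k y) ≤ r) :
    RCLike.re (∑ k ∈ Finset.range K, a k * φ k y) ≤ r := by
  refine le_of_forall_gt_imp_ge_of_dense fun s hs => ?_
  obtain ⟨t, ht, h1, h2⟩ := A.exists_R_btwn hs
  exact (h K a ha y hy t ht (hr.mono fun n hn => hn.trans h1.le)).trans h2.le

theorem re_sum_le (K : ℕ) (a b : ℕ → 𝕜) :
    RCLike.re (∑ k ∈ Finset.range K, a k * b k) ≤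
      Real.sqrt (∑ k ∈ Finset.range K, ‖a k‖ ^ 2) * Real.sqrt (∑ k ∈ Finset.range K, ‖b k‖ ^ 2) := by
  refine (RCLike.re_le_norm _).trans ((norm_sum_le _ _).trans ?_)
  simp only [norm_mul]
  exact Real.sum_mul_le_sqrt_mul_sqrt _ _ _

theorem Star.upper {δ : ℝ} {x : ℕ → E} {q : ℕ → ℕ → ℝ} {f : ℕ → ℕ → E →L[𝕜] 𝕜}
    {φ : ℕ → E →L[𝕜] 𝕜} (h : A.Star f φ) (hφ : ∀ k, φ k ∈ A.Φ) (hf : ∀ n, A.Sg δ x q n (f n))
    (y : E) (K : ℕ) : ∑ k ∈ Finset.range K, ‖φ k y‖ ^ 2 ≤ ‖y‖ ^ 2 := by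
  have hc : IsClosed {y : E | ∑ k ∈ Finset.range K, ‖φ k y‖ ^ 2 ≤ ‖y‖ ^ 2} :=
    isClosed_le (by fun_prop) (by fun_prop)
  refine closure_minimal (fun y hy => ?_) hc (A.denseD y)
  set S := ∑ k ∈ Finset.range K, ‖φ k y‖ ^ 2 with hS
  have hS0 : 0 ≤ S := Finset.sum_nonneg fun _ _ => sq_nonneg _
  have h1 := h.le K (fun k => (starRingEnd 𝕜) (φ k y))
    (fun k => A.conjK (A.app _ (hφ k) _ hy)) hy (Real.sqrt S * ‖y‖) (by
      filter_upwards [eventually_ge_atTop K] with n hn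
      refine (re_sum_le K _ _).trans ?_
      simp only [RCLike.norm_conj]
      refine mul_le_mul_of_nonneg_left ?_ (Real.sqrt_nonneg _)
      exact Real.sqrt_le_iff.2 ⟨norm_nonneg _, (hf n).upper hy hn⟩)
  have e : RCLike.re (∑ k ∈ Finset.range K, (starRingEnd 𝕜) (φ k y) * φ k y) = S := by
    rw [map_sum]
    refine Finset.sum_congr rfl fun k _ => ?_
    rw [RCLike.conj_mul, ← RCLike.ofReal_pow, RCLike.ofReal_re]
  rw [e] at h1
  show S ≤ ‖y‖ ^ 2
  have h2 := Real.sq_sqrt hS0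
  have h3 := Real.sqrt_nonneg S
  nlinarith [sq_nonneg (Real.sqrt S - ‖y‖)]

theorem Star.lower {δ : ℝ} (hδ : 0 < δ) {x : ℕ → E} (hxD : ∀ i, x i ∈ A.D) (hx : ∀ i, ‖x i‖ ≤ 1)
    {q : ℕ → ℕ → ℝ} (hq : ∀ (K : ℕ) (b : ℕ → ℝ) (η : ℝ), 0 < η →
      ∃ i, (∀ k < K, |b k - q i k| ≤ η) ∧ ∀ k, K ≤ k → q i k = 0)
    {f : ℕ → ℕ → E →L[𝕜] 𝕜} {φ : ℕ → E →L[𝕜] 𝕜} (h : A.Star f φ)
    (hf : ∀ n, A.Sg δ x q n (f n)) (K : ℕ) (a : ℕ → 𝕜) :
    (δ / 4) ^ 2 * ∑ k ∈ Finset.range K, ‖a k‖ ^ 2 ≤ ‖∑ k ∈ Finset.range K, a k • φ k‖ ^ 2 := by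
  have main : ∀ a : ℕ → 𝕜, (∀ k, a k ∈ A.K) →
      ∑ k ∈ Finset.range K, RCLike.im (a k) ^ 2 ≤ ∑ k ∈ Finset.range K, RCLike.re (a k) ^ 2 →
      2 / 5 * δ * Real.sqrt (∑ k ∈ Finset.range K, RCLike.re (a k) ^ 2)
        ≤ ‖∑ k ∈ Finset.range K, a k • φ k‖ := by
    intro a ha hdom
    set B := Real.sqrt (∑ k ∈ Finset.range K, RCLike.re (a k) ^ 2) with hB
    have hB0 : 0 ≤ B := Real.sqrt_nonneg _
    have hB' : Real.sqrt (∑ k ∈ Finset.range K, RCLike.im (a k) ^ 2) ≤ B := Real.sqrt_le_sqrt hdom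
    refine le_of_forall_pos_sub_le fun η hη => ?_
    set θ : ℝ := η / ((δ + 1) * (K + 1)) with hθ
    have hθ0 : 0 < θ := by positivity
    obtain ⟨i, hi1, hi2⟩ := hq K (fun k => RCLike.re (a k)) θ hθ0
    have hKθ : (δ + 1) * (K * θ) ≤ η := by
      have : (δ + 1) * (K * θ) = η * (K / (K + 1)) := by rw [hθ]; field_simp
      rw [this]
      have h2 : (K : ℝ) / (K + 1) ≤ 1 := by
        rw [div_le_one (by positivity)]
        linarith only []
      nlinarith only [hη, h2]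
    have hn : ∀ n, K ≤ n → i < n →
        RCLike.re (∑ k ∈ Finset.range K, -a k * f n k (x i)) ≤ -(2 / 5 * δ * B - η) := by
      intro n hKn hin
      obtain ⟨k1, k2, k3⟩ := (hf n).2 i hin
      have cut : ∀ G : ℕ → ℝ, (∀ k, q i k = 0 → G k = 0) →
          ∑ k ∈ Finset.range n, G k = ∑ k ∈ Finset.range K, G k := fun G hG =>
        (Finset.sum_subset (Finset.range_subset_range.2 hKn) fun k _ hk =>
          hG k (hi2 k (by simpa using hk))).symm
      rw [cut (fun k => q i k * RCLike.re (f n k (x i)))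
        (fun k hk => by simp only [hk, zero_mul])] at k1 k2
      rw [cut (fun k => q i k ^ 2) (fun k hk => by rw [hk]; simp)] at k2
      have k4 : ∑ k ∈ Finset.range K, RCLike.im (f n k (x i)) ^ 2 ≤ (δ / 16) ^ 2 :=
        (Finset.sum_le_sum_of_subset_of_nonneg (Finset.range_subset_range.2 hKn)
          fun _ _ _ => sq_nonneg _).trans k3
      set Q := Real.sqrt (∑ k ∈ Finset.range K, q i k ^ 2) with hQ
      have k5 : 45 / 88 * δ * Q ≤ ∑ k ∈ Finset.range K, q i k * RCLike.re (f n k (x i)) := by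
        refine le_of_sq_le_sq ?_ k1
        rwa [mul_pow, hQ, Real.sq_sqrt (Finset.sum_nonneg fun k _ => sq_nonneg _)]
      have k6 : B ≤ Q + K * θ := by
        have m1 : ∑ k ∈ Finset.range K, RCLike.re (a k) * q i k ≤ B * Q :=
          Real.sum_mul_le_sqrt_mul_sqrt _ _ _
        have m2 : ∀ k ∈ Finset.range K, |RCLike.re (a k)| ≤ B := fun k hk =>
          Real.abs_le_sqrt (Finset.single_le_sum (f := fun k => RCLike.re (a k) ^ 2)
            (fun _ _ => sq_nonneg _) hk)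
        have m3 : ∑ k ∈ Finset.range K, RCLike.re (a k) * (RCLike.re (a k) - q i k) ≤
            ∑ k ∈ Finset.range K, B * θ := by
          refine Finset.sum_le_sum fun k hk => (le_abs_self _).trans ?_
          rw [abs_mul]
          exact mul_le_mul (m2 k hk) (hi1 k (Finset.mem_range.1 hk)) (abs_nonneg _) hB0
        rw [Finset.sum_const, Finset.card_range, nsmul_eq_mul] at m3
        have m4 : B ^ 2 = ∑ k ∈ Finset.range K, RCLike.re (a k) * q i k +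
            ∑ k ∈ Finset.range K, RCLike.re (a k) * (RCLike.re (a k) - q i k) := by
          rw [hB, Real.sq_sqrt (Finset.sum_nonneg fun k _ => sq_nonneg _),
            ← Finset.sum_add_distrib]
          exact Finset.sum_congr rfl fun k _ => by ring
        rcases eq_or_lt_of_le hB0 with h0 | h0
        · rw [← h0]; positivity
        · refine le_of_mul_le_mul_left ?_ h0
          nlinarith only [m1, m3, m4]
      have k7 : ∑ k ∈ Finset.range K, RCLike.im (a k) * RCLike.im (f n k (x i)) ≤ B * (δ / 16) := by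
        refine (Real.sum_mul_le_sqrt_mul_sqrt _ _ _).trans ?_
        refine mul_le_mul hB' ?_ (Real.sqrt_nonneg _) hB0
        exact Real.sqrt_le_iff.2 ⟨by positivity, k4⟩
      have k8 : ∑ k ∈ Finset.range K, (q i k - RCLike.re (a k)) * RCLike.re (f n k (x i)) ≤
          K * θ := by
        have m3 : ∑ k ∈ Finset.range K, (q i k - RCLike.re (a k)) * RCLike.re (f n k (x i)) ≤
            ∑ k ∈ Finset.range K, θ := by
          refine Finset.sum_le_sum fun k hk => (le_abs_self _).trans ?_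
          rw [abs_mul, abs_sub_comm]
          have m4 : ‖f n k (x i)‖ ^ 2 ≤ ‖x i‖ ^ 2 :=
            (Finset.single_le_sum (f := fun k => ‖f n k (x i)‖ ^ 2) (fun _ _ => sq_nonneg _)
              hk).trans ((hf n).upper (hxD i) hKn)
          have m5 : |RCLike.re (f n k (x i))| ≤ 1 :=
            (RCLike.abs_re_le_norm _).trans ((le_of_sq_le_sq m4 (norm_nonneg _)).trans (hx i))
          exact (mul_le_of_le_one_right (abs_nonneg _) m5).trans (hi1 k (Finset.mem_range.1 hk))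
        rwa [Finset.sum_const, Finset.card_range, nsmul_eq_mul] at m3
      have e : RCLike.re (∑ k ∈ Finset.range K, -a k * f n k (x i)) =
          ∑ k ∈ Finset.range K, (q i k - RCLike.re (a k)) * RCLike.re (f n k (x i)) +
          ∑ k ∈ Finset.range K, RCLike.im (a k) * RCLike.im (f n k (x i)) -
          ∑ k ∈ Finset.range K, q i k * RCLike.re (f n k (x i)) := by
        rw [map_sum, ← Finset.sum_add_distrib, ← Finset.sum_sub_distrib]
        refine Finset.sum_congr rfl fun k _ => ?_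
        rw [RCLike.mul_re, map_neg, map_neg]
        ring
      rw [e]
      have k9 := mul_le_mul_of_nonneg_left k6 (show 0 ≤ 45 / 88 * δ by positivity)
      have k10 : 0 ≤ δ * B := by positivity
      have k11 : 0 ≤ δ * (K * θ) := by positivity
      nlinarith only [k5, k7, k8, k9, k10, k11, hKθ]
    have h2 := h.le K (fun k => -a k) (fun k => A.K.neg_mem (ha k)) (hxD i) _ (by
      filter_upwards [eventually_ge_atTop (max K (i + 1))] with n hn'
      exact hn n (le_trans (le_max_left _ _) hn')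
        (lt_of_lt_of_le (Nat.lt_succ_self i) (le_trans (le_max_right _ _) hn')))
    have h3 : ∑ k ∈ Finset.range K, -a k * φ k (x i) =
        -(∑ k ∈ Finset.range K, a k • φ k) (x i) := by
      simp only [_root_.sum_apply, smul_apply, smul_eq_mul, neg_mul, Finset.sum_neg_distrib]
    rw [h3, map_neg, neg_le_neg_iff] at h2
    calc 2 / 5 * δ * B - η ≤ RCLike.re ((∑ k ∈ Finset.range K, a k • φ k) (x i)) := h2
      _ ≤ ‖(∑ k ∈ Finset.range K, a k • φ k) (x i)‖ := RCLike.re_le_norm _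
      _ ≤ ‖∑ k ∈ Finset.range K, a k • φ k‖ * ‖x i‖ := ContinuousLinearMap.le_opNorm _ _
      _ ≤ ‖∑ k ∈ Finset.range K, a k • φ k‖ := mul_le_of_le_one_right (norm_nonneg _) (hx i)
  have concl : ∀ a : ℕ → 𝕜, (∀ k, a k ∈ A.K) →
      ∑ k ∈ Finset.range K, RCLike.im (a k) ^ 2 ≤ ∑ k ∈ Finset.range K, RCLike.re (a k) ^ 2 →
      (δ / 4) ^ 2 * (2 * ∑ k ∈ Finset.range K, RCLike.re (a k) ^ 2)
        ≤ ‖∑ k ∈ Finset.range K, a k • φ k‖ ^ 2 := by
    intro a ha hdom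
    have h1 := main a ha hdom
    have h2 : (2 / 5 * δ * Real.sqrt (∑ k ∈ Finset.range K, RCLike.re (a k) ^ 2)) ^ 2
        ≤ ‖∑ k ∈ Finset.range K, a k • φ k‖ ^ 2 := pow_le_pow_left₀ (by positivity) h1 2
    rw [mul_pow, Real.sq_sqrt (Finset.sum_nonneg fun k _ => sq_nonneg _)] at h2
    refine le_trans ?_ h2
    have h3 : 0 ≤ δ ^ 2 * ∑ k ∈ Finset.range K, RCLike.re (a k) ^ 2 :=
      mul_nonneg (sq_nonneg _) (Finset.sum_nonneg fun k _ => sq_nonneg _)
    nlinarith only [h3]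
  have hnorm : ∀ a : ℕ → 𝕜, ∑ k ∈ Finset.range K, ‖a k‖ ^ 2
      = ∑ k ∈ Finset.range K, RCLike.re (a k) ^ 2 + ∑ k ∈ Finset.range K, RCLike.im (a k) ^ 2 := by
    intro a
    rw [← Finset.sum_add_distrib]
    refine Finset.sum_congr rfl fun k _ => ?_
    rw [RCLike.norm_sq_eq_def]
    ring
  have hc : IsClosed {a : ℕ → 𝕜 | (δ / 4) ^ 2 * ∑ k ∈ Finset.range K, ‖a k‖ ^ 2 ≤
      ‖∑ k ∈ Finset.range K, a k • φ k‖ ^ 2} := isClosed_le (by fun_prop) (by fun_prop)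
  have hd : Dense (Set.pi Set.univ fun _ : ℕ => (A.K : Set 𝕜)) := dense_pi _ fun _ _ => A.denseK
  refine closure_minimal (fun a ha' => ?_) hc (hd a)
  have ha : ∀ k, a k ∈ A.K := fun k => ha' k trivial
  show (δ / 4) ^ 2 * ∑ k ∈ Finset.range K, ‖a k‖ ^ 2 ≤ ‖∑ k ∈ Finset.range K, a k • φ k‖ ^ 2
  by_cases hdom : ∑ k ∈ Finset.range K, RCLike.im (a k) ^ 2 ≤
      ∑ k ∈ Finset.range K, RCLike.re (a k) ^ 2
  · refine le_trans ?_ (concl a ha hdom)
    gcongr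
    rw [hnorm]
    linarith only [hdom]
  · push Not at hdom
    set a2 : ℕ → 𝕜 := fun k => -(RCLike.I * a k) with ha2
    have hre : ∀ k, RCLike.re (a2 k) = RCLike.im (a k) := by
      intro k
      simp only [ha2, map_neg, RCLike.mul_re, RCLike.I_re, zero_mul, RCLike.I_im', zero_sub,
        neg_neg]
    have him : ∀ k, RCLike.im (a2 k) ^ 2 ≤ RCLike.re (a k) ^ 2 := by
      intro k
      have h1 : RCLike.im (a2 k) = -(RCLike.im (RCLike.I : 𝕜) * RCLike.re (a k)) := by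
        simp only [ha2, map_neg, RCLike.mul_im, RCLike.I_re, zero_mul, zero_add]
      rw [h1, neg_sq, mul_pow]
      have h2 : RCLike.im (RCLike.I : 𝕜) ^ 2 ≤ 1 := by
        rw [← sq_abs]
        exact pow_le_one₀ (abs_nonneg _) ((RCLike.abs_im_le_norm _).trans norm_I_le)
      nlinarith only [h2, sq_nonneg (RCLike.re (a k))]
    have h1 := concl a2 (fun k => A.K.neg_mem (A.K.mul_mem A.memI (ha k))) (by
      simp_rw [hre]
      exact (Finset.sum_le_sum fun k _ => him k).trans hdom.le)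
    simp_rw [hre] at h1
    have h2 : ‖∑ k ∈ Finset.range K, a2 k • φ k‖ ≤ ‖∑ k ∈ Finset.range K, a k • φ k‖ := by
      have e1 : ∑ k ∈ Finset.range K, a2 k • φ k =
          -((RCLike.I : 𝕜) • ∑ k ∈ Finset.range K, a k • φ k) := by
        rw [Finset.smul_sum, ← Finset.sum_neg_distrib]
        refine Finset.sum_congr rfl fun k _ => ?_
        ext y
        simp only [ha2, smul_apply, smul_eq_mul, neg_mul, mul_assoc, neg_apply]
      rw [e1, norm_neg, norm_smul]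
      exact mul_le_of_le_one_left (norm_nonneg _) norm_I_le
    refine le_trans ?_ (h1.trans (pow_le_pow_left₀ (norm_nonneg _) h2 2))
    gcongr
    rw [hnorm]
    linarith only [hdom]

/-! ### Generalised limits -/

variable (A)

/-- A generalised limit `L` on a class `P` of bounded real sequences. -/
structure BLim (P : (ℕ → ℝ) → Prop) (L : (ℕ → ℝ) → ℝ) : Prop where
  zero : P 0
  add : ∀ s t, P s → P t → P (s + t)
  smul : ∀ r ∈ A.R, ∀ s, P s → P (r • s)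
  map_add : ∀ s t, P s → P t → L (s + t) = L s + L t
  map_smul : ∀ r ∈ A.R, ∀ s, P s → L (r • s) = r * L s
  le : ∀ s, P s → ∀ r ∈ A.R, (∀ᶠ n in atTop, s n ≤ r) → L s ≤ r

variable {A}

/-- The generalised limit of a sequence of scalars. -/
noncomputable def clim (L : (ℕ → ℝ) → ℝ) (s : ℕ → 𝕜) : 𝕜 :=
  ((L fun n => RCLike.re (s n) : ℝ) : 𝕜) + ((L fun n => RCLike.im (s n) : ℝ) : 𝕜) * RCLike.I

/-- Both parts of the sequence are permitted. -/
def PC (P : (ℕ → ℝ) → Prop) (s : ℕ → 𝕜) : Prop :=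
  P (fun n => RCLike.re (s n)) ∧ P (fun n => RCLike.im (s n))

namespace BLim

variable {P : (ℕ → ℝ) → Prop} {L : (ℕ → ℝ) → ℝ}

theorem map_zero' (h : A.BLim P L) : L 0 = 0 := by
  have := h.map_smul 0 A.R.zero_mem 0 h.zero
  rwa [zero_smul, zero_mul] at this

theorem comb (h : A.BLim P L) {r r' : ℝ} (hr : r ∈ A.R) (hr' : r' ∈ A.R) {s t : ℕ → ℝ}
    (hs : P s) (ht : P t) :
    P (fun n => r * s n + r' * t n) ∧ L (fun n => r * s n + r' * t n) = r * L s + r' * L t := by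
  have h1 := h.smul r hr s hs
  have h2 := h.smul r' hr' t ht
  refine ⟨h.add _ _ h1 h2, ?_⟩
  rw [← h.map_smul r hr s hs, ← h.map_smul r' hr' t ht, ← h.map_add _ _ h1 h2]
  rfl

theorem abs_le (h : A.BLim P L) {s : ℕ → ℝ} (hs : P s) {c : ℝ} (hc : ∀ n, |s n| ≤ c) :
    |L s| ≤ c := by
  refine le_of_forall_gt_imp_ge_of_dense fun d hd => ?_
  obtain ⟨t, ht, h1, h2⟩ := A.exists_R_btwn hd
  have h3 := h.le s hs t ht (Eventually.of_forall fun n => (le_abs_self _).trans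
    ((hc n).trans h1.le))
  have hm := A.R.neg_mem A.R.one_mem
  have h4 := h.le _ (h.smul _ hm s hs) t ht (Eventually.of_forall fun n => by
    have := neg_abs_le (s n)
    have := hc n
    show -1 * s n ≤ t
    linarith)
  rw [h.map_smul _ hm s hs] at h4
  rw [_root_.abs_le]
  constructor <;> linarith

theorem cadd (h : A.BLim P L) {s t : ℕ → 𝕜} (hs : PC P s) (ht : PC P t) :
    PC P (fun n => s n + t n) ∧ clim L (fun n => s n + t n) = clim L s + clim L t := by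
  have h1 := h.comb A.R.one_mem A.R.one_mem hs.1 ht.1
  have h2 := h.comb A.R.one_mem A.R.one_mem hs.2 ht.2
  simp only [one_mul] at h1 h2
  unfold PC clim
  simp only [_root_.map_add]
  refine ⟨⟨h1.1, h2.1⟩, ?_⟩
  rw [h1.2, h2.2]
  push_cast
  ring

theorem cmul (h : A.BLim P L) {a : 𝕜} (ha : a ∈ A.K) {s : ℕ → 𝕜} (hs : PC P s) :
    PC P (fun n => a * s n) ∧ clim L (fun n => a * s n) = a * clim L s := by
  have h1 := h.comb (A.reK a ha) (A.R.neg_mem (A.imK a ha)) hs.1 hs.2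
  have h2 := h.comb (A.reK a ha) (A.imK a ha) hs.2 hs.1
  unfold PC clim
  simp only [RCLike.mul_re, RCLike.mul_im, sub_eq_add_neg, ← neg_mul]
  refine ⟨⟨h1.1, h2.1⟩, ?_⟩
  rw [h1.2, h2.2]
  have e := RCLike.I_im a
  generalize (L fun n => RCLike.re (s n)) = u
  generalize (L fun n => RCLike.im (s n)) = v
  apply RCLike.ext
  · simp
    linear_combination v * e
  · simp
    linear_combination u * e

theorem czero (h : A.BLim P L) : PC P (fun _ => (0 : 𝕜)) ∧ clim L (fun _ => (0 : 𝕜)) = 0 := by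
  unfold PC clim
  simp only [map_zero]
  refine ⟨⟨h.zero, h.zero⟩, ?_⟩
  have := h.map_zero'
  rw [show (fun _ : ℕ => (0 : ℝ)) = 0 from rfl, this]
  simp

theorem csum (h : A.BLim P L) {a : ℕ → 𝕜} (ha : ∀ k, a k ∈ A.K) {s : ℕ → ℕ → 𝕜}
    (hs : ∀ k, PC P (s k)) (K : ℕ) :
    PC P (fun n => ∑ k ∈ Finset.range K, a k * s k n) ∧
      clim L (fun n => ∑ k ∈ Finset.range K, a k * s k n) =
        ∑ k ∈ Finset.range K, a k * clim L (s k) := by
  induction K with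
  | zero => simpa using h.czero
  | succ K ih =>
    simp only [Finset.sum_range_succ]
    have h1 := h.cmul (ha K) (hs K)
    have h2 := h.cadd ih.1 h1.1
    exact ⟨h2.1, by rw [h2.2, ih.2, h1.2]⟩

theorem re_clim (s : ℕ → 𝕜) : RCLike.re (clim L s) = L fun n => RCLike.re (s n) := by
  unfold clim
  simp

theorem norm_clim (h : A.BLim P L) {s : ℕ → 𝕜} (hs : PC P s) {c : ℝ} (hc : ∀ n, ‖s n‖ ≤ c) :
    ‖clim L s‖ ≤ 2 * c := by
  have h1 := h.abs_le hs.1 fun n => (RCLike.abs_re_le_norm _).trans (hc n)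
  have h2 := h.abs_le hs.2 fun n => (RCLike.abs_im_le_norm _).trans (hc n)
  unfold clim
  refine (norm_add_le _ _).trans ?_
  rw [norm_mul, RCLike.norm_ofReal, RCLike.norm_ofReal]
  have := mul_le_of_le_one_right (abs_nonneg (L fun n => RCLike.im (s n))) (norm_I_le (𝕜 := 𝕜))
  linarith

theorem star (h : A.BLim P L) {f : ℕ → ℕ → E →L[𝕜] 𝕜} {φ : ℕ → E →L[𝕜] 𝕜}
    (hP : ∀ k, ∀ y ∈ A.D, PC P fun n => f n k y)
    (hφ : ∀ k, ∀ y ∈ A.D, φ k y = clim L fun n => f n k y) : A.Star f φ := by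
  intro K a ha y hy r hr hev
  have h1 := h.csum ha (s := fun k n => f n k y) (fun k => hP k y hy) K
  simp only [hφ _ y hy]
  rw [← h1.2, re_clim]
  exact h.le _ h1.1.1 r hr hev

end BLim

/-! ### The Hilbertian case -/

theorem l2_preimage [CompleteSpace E] (f : ℕ → E →L[𝕜] 𝕜) {c : ℝ} (hc : 0 < c)
    (hup : ∀ (x : E) (n : ℕ), ∑ k ∈ Finset.range n, ‖f k x‖ ^ 2 ≤ ‖x‖ ^ 2)
    (hlow : ∀ (n : ℕ) (a : ℕ → 𝕜), c ^ 2 * ∑ k ∈ Finset.range n, ‖a k‖ ^ 2 ≤
      ‖∑ k ∈ Finset.range n, a k • f k‖ ^ 2) :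
    ∃ C : ℝ, 0 < C ∧ ∀ (m : ℕ) (b : ℕ → 𝕜) (t : ℝ), 0 ≤ t →
      ∑ k ∈ Finset.range m, ‖b k‖ ^ 2 ≤ t ^ 2 →
      ∃ z : E, ‖z‖ ≤ C * t ∧ ∀ k, f k z = if k < m then b k else 0 := by
  have hs : ∀ x, Summable (fun k => ‖f k x‖ ^ 2) := fun x =>
    summable_of_sum_range_le (fun k => sq_nonneg _) (hup x)
  have hmem : ∀ x, Memℓp (fun k => f k x) 2 := by
    intro x
    refine memℓp_gen ?_
    simpa only [ENNReal.toReal_ofNat, Real.rpow_ofNat] using hs x
  let T0 : E →ₗ[𝕜] lp (fun _ : ℕ => 𝕜) 2 :=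
    { toFun := fun x => ⟨fun k => f k x, hmem x⟩
      map_add' := fun x y => by
        ext k
        exact map_add (f k) x y
      map_smul' := fun a x => by
        ext k
        exact map_smul (f k) a x }
  have hT0 : ∀ x k, (T0 x) k = f k x := fun x k => rfl
  have hTn : ∀ x, ‖T0 x‖ ≤ 1 * ‖x‖ := by
    intro x
    rw [one_mul]
    have h1 := lp.norm_rpow_eq_tsum (p := 2) (by norm_num) (T0 x)
    have h2 : ‖T0 x‖ ^ 2 = ∑' k, ‖f k x‖ ^ 2 := by
      simpa only [ENNReal.toReal_ofNat, Real.rpow_ofNat, hT0] using h1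
    have h3 : ∑' k, ‖f k x‖ ^ 2 ≤ ‖x‖ ^ 2 :=
      Real.tsum_le_of_sum_range_le (fun k => sq_nonneg _) (hup x)
    rw [← h2] at h3
    exact (pow_le_pow_iff_left₀ (norm_nonneg _) (norm_nonneg _) two_ne_zero).mp h3
  let T : E →L[𝕜] lp (fun _ : ℕ => 𝕜) 2 := T0.mkContinuous 1 hTn
  let e : ℕ → lp (fun _ : ℕ => 𝕜) 2 := fun k => lp.single 2 k (1 : 𝕜)
  let ev : ℕ → lp (fun _ : ℕ => 𝕜) 2 →L[𝕜] 𝕜 := fun k => innerSL 𝕜 (e k)
  have hev : ∀ k y, ev k y = y k := by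
    intro k y
    show inner 𝕜 (lp.single 2 k (1 : 𝕜)) y = y k
    rw [lp.inner_single_left, RCLike.inner_apply]
    simp only [map_one, mul_one]
  have hsmul : ∀ (k : ℕ) (a : 𝕜), a • e k = lp.single 2 k a := by
    intro k a
    show a • lp.single (E := fun _ : ℕ => 𝕜) 2 k (1 : 𝕜) = _
    rw [← lp.single_smul, smul_eq_mul, mul_one]
  have hev2 : ∀ y, Tendsto (fun n => ∑ k ∈ Finset.range n, ev k y • e k) atTop (𝓝 y) := by
    intro y
    have h1 := (lp.hasSum_single (p := 2) (by norm_num) y).tendsto_sum_nat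
    refine h1.congr (fun n => ?_)
    refine Finset.sum_congr rfl (fun k _ => ?_)
    rw [hev, hsmul]
  have hnorm : ∀ (n : ℕ) (a : ℕ → 𝕜), ‖∑ k ∈ Finset.range n, a k • e k‖ ^ 2 =
      ∑ k ∈ Finset.range n, ‖a k‖ ^ 2 := by
    intro n a
    have h1 := lp.norm_sum_single (E := fun _ : ℕ => 𝕜) (p := 2) (by (clear * -; norm_num)) a
      (Finset.range n)
    simp only [hsmul]
    simpa only [ENNReal.toReal_ofNat, Real.rpow_ofNat] using h1
  have hev_norm : ∀ (n : ℕ) (a : ℕ → 𝕜), ‖∑ k ∈ Finset.range n, a k • ev k‖ =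
      ‖∑ k ∈ Finset.range n, (starRingEnd 𝕜 (a k)) • e k‖ := by
    intro n a
    have h1 : ∑ k ∈ Finset.range n, a k • ev k =
        innerSL 𝕜 (∑ k ∈ Finset.range n, (starRingEnd 𝕜 (a k)) • e k) := by
      ext y
      simp only [_root_.sum_apply, _root_.smul_apply, innerSL_apply_apply,
        sum_inner, inner_smul_left, ev, RCLike.conj_conj, smul_eq_mul]
    rw [h1, innerSL_apply_norm]
  have h3 : ∀ F : lp (fun _ : ℕ => 𝕜) 2 →L[𝕜] 𝕜,
      Tendsto (fun n => ∑ k ∈ Finset.range n, F (e k) • ev k) atTop (𝓝 F) := by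
    intro F
    set b := (InnerProductSpace.toDual 𝕜 (lp (fun _ : ℕ => 𝕜) 2)).symm F with hb
    have hF : F = innerSL 𝕜 b := by
      ext y
      rw [innerSL_apply_apply, hb, InnerProductSpace.toDual_symm_apply]
    have h1 : ∀ n, ∑ k ∈ Finset.range n, F (e k) • ev k =
        innerSL 𝕜 (∑ k ∈ Finset.range n, ev k b • e k) := by
      intro n
      ext y
      simp only [hF, innerSL_apply_apply, _root_.sum_apply, smul_apply, smul_eq_mul, sum_inner,
        inner_smul_left]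
      refine Finset.sum_congr rfl (fun k _ => ?_)
      congr 1
      simp only [ev, innerSL_apply_apply]
      rw [inner_conj_symm]
    simp only [h1]
    rw [hF]
    exact ((innerSL 𝕜).continuous.tendsto b).comp (hev2 b)
  have h4 : ∀ (n : ℕ) (a : ℕ → 𝕜), c * ‖∑ k ∈ Finset.range n, a k • ev k‖ ≤
      ‖∑ k ∈ Finset.range n, a k • (ev k).comp T‖ := by
    intro n a
    have h1 : ∀ k, (ev k).comp T = f k := by
      intro k
      ext x
      exact hev k (T0 x)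
    simp only [h1]
    have h2 := hlow n a
    have h3 : ‖∑ k ∈ Finset.range n, a k • ev k‖ ^ 2 = ∑ k ∈ Finset.range n, ‖a k‖ ^ 2 := by
      rw [hev_norm, hnorm]
      refine Finset.sum_congr rfl (fun k _ => ?_)
      rw [RCLike.norm_conj]
    rw [← h3, ← mul_pow] at h2
    exact (pow_le_pow_iff_left₀ (by positivity) (norm_nonneg _) two_ne_zero).mp h2
  have hsurj : Function.Surjective T := by
    refine surjective_of_adjoint_bounded_below T c hc (fun F => ?_)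
    have h5 : Tendsto (fun n => c * ‖∑ k ∈ Finset.range n, F (e k) • ev k‖) atTop
        (𝓝 (c * ‖F‖)) := ((h3 F).norm).const_mul c
    have h6 : Tendsto (fun n => ‖(∑ k ∈ Finset.range n, F (e k) • ev k).comp T‖) atTop
        (𝓝 ‖F.comp T‖) := by
      have h7 : Continuous (fun G : lp (fun _ : ℕ => 𝕜) 2 →L[𝕜] 𝕜 => G.comp T) := by fun_prop
      exact ((h7.tendsto F).comp (h3 F)).norm
    refine le_of_tendsto_of_tendsto' h5 h6 (fun n => ?_)
    refine le_trans (h4 n (fun k => F (e k))) (le_of_eq ?_)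
    congr 1
    ext x
    simp only [_root_.sum_apply, smul_apply, ContinuousLinearMap.comp_apply, smul_eq_mul]
  obtain ⟨C, hC, hC'⟩ := T.exists_preimage_norm_le hsurj
  refine ⟨C, hC, fun m b t ht hb => ?_⟩
  obtain ⟨z, hz1, hz2⟩ := hC' (∑ k ∈ Finset.range m, b k • e k)
  refine ⟨z, hz2.trans (mul_le_mul_of_nonneg_left ?_ hC.le), fun k => ?_⟩
  · rw [← hnorm] at hb
    exact le_of_sq_le_sq hb ht
  · have h5 : f k z = ev k (T z) := (hev k (T0 z)).symm
    have h6 : ∀ j, ev k (e j) = if k = j then 1 else 0 := by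
      intro j
      rw [hev]
      show (lp.single 2 j (1 : 𝕜) : lp (fun _ : ℕ => 𝕜) 2) k = _
      rw [lp.single_apply]
      simp [Pi.single_apply]
    rw [h5, hz1, map_sum]
    simp only [map_smul, h6, smul_eq_mul, mul_ite, mul_one, mul_zero, Finset.sum_ite_eq,
      Finset.mem_range]

/-- The tail from `n` on has Euclidean norm at most `r`. -/
def T2 (φ : ℕ → E →L[𝕜] 𝕜) (n : ℕ) (x : E) (r : ℝ) : Prop :=
  0 ≤ r ∧ ∀ m, ∑ k ∈ Finset.range m, (if n ≤ k then ‖φ k x‖ ^ 2 else 0) ≤ r ^ 2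

theorem T2.mono {φ : ℕ → E →L[𝕜] 𝕜} {n n' : ℕ} {x : E} {r r' : ℝ} (h : T2 φ n x r)
    (hn : n ≤ n') (hr : r ≤ r') : T2 φ n' x r' := by
  refine ⟨h.1.trans hr, fun m => ?_⟩
  refine le_trans (Finset.sum_le_sum fun k _ => ?_) ((h.2 m).trans (pow_le_pow_left₀ h.1 hr 2))
  split_ifs with h1 h2
  · exact le_rfl
  · omega
  · positivity
  · exact le_rfl

theorem T2.exists {φ : ℕ → E →L[𝕜] 𝕜}
    (hup : ∀ (x : E) (n : ℕ), ∑ k ∈ Finset.range n, ‖φ k x‖ ^ 2 ≤ ‖x‖ ^ 2) (x : E) {ε : ℝ}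
    (hε : 0 < ε) : ∃ n, T2 φ n x ε := by
  have hs : Summable (fun k => ‖φ k x‖ ^ 2) :=
    summable_of_sum_range_le (fun k => sq_nonneg _) (hup x)
  obtain ⟨s, hs'⟩ := summable_iff_vanishing_norm.1 hs (ε ^ 2) (by positivity)
  refine ⟨s.sup id + 1, hε.le, fun m => ?_⟩
  rw [← Finset.sum_filter]
  refine (le_abs_self _).trans (hs' _ ?_).le
  rw [Finset.disjoint_left]
  intro k hk hk'
  have h1 := (Finset.mem_filter.1 hk).2
  have h2 : k ≤ s.sup id := Finset.le_sup (f := id) hk'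
  omega

theorem T2.step [CompleteSpace E] {φ : ℕ → E →L[𝕜] 𝕜} {c : ℝ} (hc : 0 < c)
    (hup : ∀ (x : E) (n : ℕ), ∑ k ∈ Finset.range n, ‖φ k x‖ ^ 2 ≤ ‖x‖ ^ 2)
    (hlow : ∀ (n : ℕ) (a : ℕ → 𝕜), c ^ 2 * ∑ k ∈ Finset.range n, ‖a k‖ ^ 2 ≤
      ‖∑ k ∈ Finset.range n, a k • φ k‖ ^ 2) :
    ∃ C : ℕ, ∀ (n m : ℕ) (x : E) (t η : ℝ), 0 < t → 0 < η → T2 φ n x t →
      ∃ z ∈ A.D, ‖z‖ ≤ C * t ∧ (∀ k < m, ‖φ k z - if n ≤ k then φ k x else 0‖ ≤ η) ∧
        ∀ s, η ≤ s → n ≤ m → T2 φ m x s → T2 φ m (x - z) (2 * s) := by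
  obtain ⟨C, hC, H⟩ := l2_preimage φ hc hup hlow
  obtain ⟨C', hC'⟩ := exists_nat_ge (C + 1)
  refine ⟨C', fun n m x t η ht hη hT => ?_⟩
  obtain ⟨z, hz1, hz2⟩ := H m (fun k => if n ≤ k then φ k x else 0) t ht.le (by
    refine le_trans (le_of_eq (Finset.sum_congr rfl fun k _ => ?_)) (hT.2 m)
    split_ifs <;> simp)
  obtain ⟨y, hy, hyz⟩ := A.exists_D_near z (show 0 < min t η by positivity)
  have h1 : ‖z - y‖ ≤ t := hyz.le.trans (min_le_left _ _)
  have h2 : ‖z - y‖ ≤ η := hyz.le.trans (min_le_right _ _)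
  have h3 : ∀ k, ‖φ k (z - y)‖ ≤ ‖z - y‖ := fun k =>
    le_of_sq_le_sq ((Finset.single_le_sum (f := fun j => ‖φ j (z - y)‖ ^ 2)
      (fun _ _ => sq_nonneg _) (Finset.self_mem_range_succ k)).trans (hup _ _)) (norm_nonneg _)
  refine ⟨y, hy, ?_, fun k hk => ?_, fun s hs hnm hS => ⟨by linarith [hS.1], fun M => ?_⟩⟩
  · have := norm_sub_norm_le y z
    rw [norm_sub_rev] at this
    have := mul_le_mul_of_nonneg_right hC' ht.le
    linarith
  · have e := hz2 k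
    rw [if_pos hk] at e
    rw [← e, ← map_sub, ← neg_sub, map_neg, norm_neg]
    exact (h3 k).trans h2
  · have h4 : ∑ k ∈ Finset.range M, ‖φ k (z - y)‖ ^ 2 ≤ s ^ 2 :=
      (hup _ M).trans (pow_le_pow_left₀ (norm_nonneg _) (h2.trans hs) 2)
    have h5 := hS.2 M
    calc ∑ k ∈ Finset.range M, (if m ≤ k then ‖φ k (x - y)‖ ^ 2 else 0)
        ≤ ∑ k ∈ Finset.range M,
          (2 * (if m ≤ k then ‖φ k x‖ ^ 2 else 0) + 2 * ‖φ k (z - y)‖ ^ 2) := by
          refine Finset.sum_le_sum fun k _ => ?_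
          split_ifs with hk
          · have e := hz2 k
            rw [if_neg (by omega)] at e
            have e2 : φ k (x - y) = φ k x + φ k (z - y) := by
              rw [map_sub, map_sub, e]; ring
            have h6 := norm_add_le (φ k x) (φ k (z - y))
            rw [← e2] at h6
            have h7 := pow_le_pow_left₀ (norm_nonneg _) h6 2
            nlinarith [sq_nonneg (‖φ k x‖ - ‖φ k (z - y)‖)]
          · positivity
      _ ≤ (2 * s) ^ 2 := by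
          rw [Finset.sum_add_distrib, ← Finset.mul_sum, ← Finset.mul_sum]
          nlinarith

/-! ### The step of the successive corrections -/

theorem corr_step (φ : ℕ → E →L[𝕜] 𝕜) (T : ℕ → E → ℝ → Prop) (C : ℝ)
    (h1 : ∀ x ∈ A.D, ∀ ε : ℝ, 0 < ε → ∃ n, T n x ε)
    (h2 : ∀ n n' x r, T n x r → n ≤ n' → T n' x r)
    (h3 : ∀ (n m : ℕ) (x : E) (t η : ℝ), 0 < t → 0 < η → T n x t →
      ∃ z ∈ A.D, ‖z‖ ≤ C * t ∧ (∀ k < m, ‖φ k z - if n ≤ k then φ k x else 0‖ ≤ η) ∧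
        ∀ s, η ≤ s → n ≤ m → T m x s → T m (x - z) (2 * s))
    {ε : ℝ} (hε : 0 < ε) (j n : ℕ) {x : E} (hx : x ∈ A.D) (hT : T n x (ε * (1 / 2) ^ j)) :
    ∃ y ∈ A.D, ∃ m, n < m ∧ T m y (ε * (1 / 2) ^ (j + 1)) ∧ ‖x - y‖ ≤ C * ε * (1 / 2) ^ j ∧
      ∀ k < m, (k : ℝ) * ‖φ k y - if k < n then φ k x else 0‖ ≤ (1 / 2 : ℝ) ^ j := by
  set s : ℝ := ε * (1 / 2) ^ (j + 1) / 2 with hs
  have hs0 : 0 < s := by positivity
  obtain ⟨m₀, hm₀⟩ := h1 x hx s hs0
  set m := max m₀ (n + 1) with hm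
  have hp : (0 : ℝ) < (1 / 2) ^ j := by positivity
  obtain ⟨z, hz, k1, k2, k3⟩ := h3 n m x _ (min s ((1 / 2) ^ j / (m + 1))) (by positivity)
    (by positivity) hT
  have hnm : n < m := lt_of_lt_of_le (Nat.lt_succ_self n) (le_max_right _ _)
  refine ⟨x - z, A.D.sub_mem hx hz, m, hnm, ?_, ?_, fun k hk => ?_⟩
  · have := k3 s (min_le_left _ _) hnm.le (h2 _ _ _ _ hm₀ (le_max_left _ _))
    rwa [show 2 * s = ε * (1 / 2) ^ (j + 1) by rw [hs]; ring] at this
  · rw [sub_sub_cancel, mul_assoc]; exact k1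
  · have e : (φ k (x - z) - if k < n then φ k x else 0) =
        -(φ k z - if n ≤ k then φ k x else 0) := by
      rw [map_sub]
      by_cases h : k < n
      · rw [if_pos h, if_neg (by omega)]; ring
      · rw [if_neg h, if_pos (by omega)]; ring
    rw [e, norm_neg]
    have h4 := (k2 k hk).trans (min_le_right _ _)
    have h5 : (k : ℝ) ≤ m + 1 := by exact_mod_cast (by omega : k ≤ m + 1)
    calc (k : ℝ) * ‖φ k z - if n ≤ k then φ k x else 0‖ ≤ (m + 1) * ((1 / 2) ^ j / (m + 1)) :=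
          mul_le_mul h5 h4 (norm_nonneg _) (by positivity)
      _ = (1 / 2) ^ j := by field_simp

end Ext

end Vale.Agent.P129Z
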