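import Vale.Agent.P129Z.An4
import Mathlib.Logic.Godel.GodelBetaFunction
import Mathlib.LinearAlgebra.Matrix.Rank

/-!
# P129: the analysis seen from outside, part 5

Many functionals with an upper Euclidean estimate, finite norming sets, counting of the bad
indices, and an enumeration of the finite rational sequences.
-/

set_option linter.all false

open Filter Topology

namespace Vale.Agent.P129Z

open Vale.Agent.P129

/-- An enumeration of finite sequences of rational numbers. -/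
noncomputable def qq (i k : ℕ) : ℝ :=
  if k < i.unpair.1 then
    (((Nat.beta i.unpair.2.unpair.1 k : ℕ) : ℝ) - ((i.unpair.2.unpair.2.unpair.1 : ℕ) : ℝ)) /
      (((i.unpair.2.unpair.2.unpair.2 : ℕ) : ℝ) + 1)
  else 0

theorem qq_dense (K : ℕ) (b : ℕ → ℝ) (η : ℝ) (hη : 0 < η) :
    ∃ i, (∀ k < K, |b k - qq i k| ≤ η) ∧ ∀ k, K ≤ k → qq i k = 0 := by
  obtain ⟨L, hL⟩ := exists_nat_one_div_lt hη
  have hL0 : (0 : ℝ) < L + 1 := by positivity
  obtain ⟨M, hM⟩ := exists_nat_ge (∑ k ∈ Finset.range K, |b k| * (L + 1))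
  let l : List ℕ := List.ofFn fun k : Fin K => ⌊b k * (L + 1) + M⌋₊
  refine ⟨Nat.pair K (Nat.pair (Nat.unbeta l) (Nat.pair M L)), fun k hk => ?_, fun k hk => ?_⟩
  · have h1 : Nat.beta (Nat.unbeta l) k = ⌊b k * (L + 1) + M⌋₊ := by
      have := Nat.beta_unbeta_coe l ⟨k, by simpa [l] using hk⟩
      simpa [l] using this
    simp only [qq, Nat.unpair_pair, if_pos hk, h1]
    have h2 : |b k| * (L + 1) ≤ M := (Finset.single_le_sum (f := fun k => |b k| * ((L : ℝ) + 1))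
      (fun _ _ => by positivity) (Finset.mem_range.2 hk)).trans hM
    have h3 : 0 ≤ b k * (L + 1) + M := by
      have := mul_le_mul_of_nonneg_right (neg_abs_le (b k)) hL0.le
      linarith
    have h4 := Nat.floor_le h3
    have h5 := Nat.lt_floor_add_one (b k * (L + 1) + M)
    have e : b k - ((⌊b k * (L + 1) + M⌋₊ : ℝ) - M) / (L + 1) =
        (b k * (L + 1) + M - ⌊b k * (L + 1) + M⌋₊) / (L + 1) := by
      field_simp
      ring
    rw [e, abs_of_nonneg (div_nonneg (by linarith) hL0.le)]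
    refine le_trans (div_le_div_of_nonneg_right (by linarith) hL0.le) hL.le
  · simp only [qq, Nat.unpair_pair, if_neg (not_lt.2 hk)]

/-- The identity matrix does not factor through a smaller dimension. -/
theorem not_factor {𝕜 : Type*} [Field 𝕜] (n : ℕ) (c w : ℕ → ℕ → 𝕜)
    (h : ∀ m j, ∑ i ∈ Finset.range n, c j i * w m i = if m = j then 1 else 0) : False := by
  let W : Matrix (Fin (n + 1)) (Fin n) 𝕜 := Matrix.of fun m i => w m i
  let C : Matrix (Fin n) (Fin (n + 1)) 𝕜 := Matrix.of fun i j => c j i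
  have h1 : W * C = 1 := by
    ext m j
    have := h m j
    rw [Finset.sum_range] at this
    rw [Matrix.mul_apply, Matrix.one_apply]
    simp only [W, C, Matrix.of_apply, Fin.ext_iff, ← this, mul_comm]
  have h2 : (W * C).rank ≤ n := (Matrix.rank_mul_le_left W C).trans (Matrix.rank_le_width W)
  rw [h1, Matrix.rank_one, Fintype.card_fin] at h2
  omega

section

variable {𝕜 E : Type*} [RCLike 𝕜] [NormedAddCommGroup E] [NormedSpace 𝕜 E]

/-- An enumeration of the rational combinations of a sequence. -/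
noncomputable def comb (𝕜 : Type*) {E : Type*} [RCLike 𝕜] [NormedAddCommGroup E] [NormedSpace 𝕜 E]
    (a : ℕ → E) (n : ℕ) : E :=
  ∑ k ∈ Finset.range n.unpair.1,
    (((qq n.unpair.2.unpair.1 k : ℝ) : 𝕜) + ((qq n.unpair.2.unpair.2 k : ℝ) : 𝕜) * RCLike.I) • a k

theorem comb_near (a : ℕ → E) (K : ℕ) (b : ℕ → 𝕜) {ε : ℝ} (hε : 0 < ε) :
    ∃ n, ‖∑ k ∈ Finset.range K, b k • a k - comb 𝕜 a n‖ < ε := by
  set S : ℝ := ∑ k ∈ Finset.range K, ‖a k‖ with hS
  have hS0 : 0 ≤ S := Finset.sum_nonneg fun _ _ => norm_nonneg _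
  set η : ℝ := ε / (2 * (S + 1)) with hη
  have hη0 : 0 < η := by positivity
  obtain ⟨i, hi, -⟩ := qq_dense K (fun k => RCLike.re (b k)) η hη0
  obtain ⟨j, hj, -⟩ := qq_dense K (fun k => RCLike.im (b k)) η hη0
  refine ⟨Nat.pair K (Nat.pair i j), ?_⟩
  simp only [comb, Nat.unpair_pair]
  rw [← Finset.sum_sub_distrib]
  refine (norm_sum_le _ _).trans_lt ?_
  calc ∑ k ∈ Finset.range K, ‖b k • a k - (((qq i k : ℝ) : 𝕜) + ((qq j k : ℝ) : 𝕜) * RCLike.I) • a k‖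
      ≤ ∑ k ∈ Finset.range K, 2 * η * ‖a k‖ := by
        refine Finset.sum_le_sum fun k hk => ?_
        rw [← sub_smul, norm_smul]
        refine mul_le_mul_of_nonneg_right ?_ (norm_nonneg _)
        have e : b k - (((qq i k : ℝ) : 𝕜) + ((qq j k : ℝ) : 𝕜) * RCLike.I) =
            ((RCLike.re (b k) - qq i k : ℝ) : 𝕜) +
              ((RCLike.im (b k) - qq j k : ℝ) : 𝕜) * RCLike.I := by
          conv_lhs => rw [← RCLike.re_add_im (b k)]
          push_cast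
          ring
        rw [e]
        refine (norm_add_le _ _).trans ?_
        rw [norm_mul, RCLike.norm_ofReal, RCLike.norm_ofReal]
        have h1 := hi k (Finset.mem_range.1 hk)
        have h2 := hj k (Finset.mem_range.1 hk)
        have := mul_le_of_le_one_right (abs_nonneg (RCLike.im (b k) - qq j k))
          (Ext.norm_I_le (𝕜 := 𝕜))
        linarith
    _ = ε * (S / (S + 1)) := by
        rw [← Finset.mul_sum, ← hS, hη]
        field_simp
    _ < ε := mul_lt_of_lt_one_right hε ((div_lt_one (by positivity)).2 (by linarith))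

/-- Counting the indices at which a family with an upper Euclidean estimate is large. -/
theorem card_bad (F : ℕ → ℕ → E →L[𝕜] 𝕜) (X : Finset E) (hX : ∀ x ∈ X, ‖x‖ ≤ 1)
    (hF : ∀ k, ∀ x ∈ X, ∑ j ∈ Finset.range (32 ^ k), ‖F k j x‖ ^ 2 ≤ 5 * ‖x‖ ^ 2) :
    ∀ᶠ k in atTop, ∀ s : Finset ℕ,
      (∀ j ∈ s, j < 32 ^ k ∧ ∃ x ∈ X, (1 / 2 : ℝ) ^ k < ‖F k j x‖) → s.card ≤ 16 ^ k := by
  classical
  have h0 : Tendsto (fun k : ℕ => (4 : ℝ) ^ k) atTop atTop :=
    tendsto_pow_atTop_atTop_of_one_lt (by norm_num)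
  filter_upwards [h0.eventually_ge_atTop (X.card * 5)] with k hk s hs
  have h1 : (s.card : ℝ) * ((1 / 2 : ℝ) ^ k) ^ 2 ≤ ∑ j ∈ s, ∑ x ∈ X, ‖F k j x‖ ^ 2 := by
    rw [← nsmul_eq_mul]
    refine Finset.card_nsmul_le_sum _ _ _ fun j hj => ?_
    obtain ⟨x, hx, h⟩ := (hs j hj).2
    exact (pow_le_pow_left₀ (by positivity) h.le 2).trans
      (Finset.single_le_sum (f := fun x => ‖F k j x‖ ^ 2) (fun _ _ => sq_nonneg _) hx)
  have h2 : ∑ j ∈ s, ∑ x ∈ X, ‖F k j x‖ ^ 2 ≤ X.card * 5 := by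
    rw [Finset.sum_comm, ← nsmul_eq_mul]
    refine Finset.sum_le_card_nsmul _ _ _ fun x hx => ?_
    have h3 : ∑ j ∈ s, ‖F k j x‖ ^ 2 ≤ ∑ j ∈ Finset.range (32 ^ k), ‖F k j x‖ ^ 2 :=
      Finset.sum_le_sum_of_subset_of_nonneg (fun j hj => Finset.mem_range.2 (hs j hj).1)
        fun _ _ _ => sq_nonneg _
    have h4 : ‖x‖ ^ 2 ≤ 1 := pow_le_one₀ (norm_nonneg _) (hX x hx)
    have h5 := hF k x hx
    linarith
  have h5 : (s.card : ℝ) ≤ 16 ^ k := by
    have e1 : ((1 / 2 : ℝ) ^ k) ^ 2 * 4 ^ k = 1 := by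
      rw [← pow_mul, mul_comm k 2, pow_mul, ← mul_pow]; norm_num
    have e2 : (4 : ℝ) ^ k * 4 ^ k = 16 ^ k := by
      rw [← mul_pow]; norm_num
    calc (s.card : ℝ) = (s.card : ℝ) * (((1 / 2 : ℝ) ^ k) ^ 2 * 4 ^ k) := by rw [e1, mul_one]
      _ = ((s.card : ℝ) * ((1 / 2 : ℝ) ^ k) ^ 2) * 4 ^ k := by ring
      _ ≤ 4 ^ k * 4 ^ k := mul_le_mul_of_nonneg_right (by linarith) (by positivity)
      _ = 16 ^ k := e2
  exact_mod_cast h5

theorem bound_of_fast (g : ℕ → E →L[𝕜] 𝕜) (x : E)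
    (h : ∀ᶠ k in atTop, ‖g k x‖ ≤ (1 / 2 : ℝ) ^ k) :
    ∃ c : ℝ, ∀ k : ℕ, ‖(((k : ℝ) : 𝕜) • g k) x‖ ≤ c := by
  obtain ⟨K, hK⟩ := eventually_atTop.1 h
  refine ⟨1 + ∑ k ∈ Finset.range K, ‖(((k : ℝ) : 𝕜) • g k) x‖, fun k => ?_⟩
  have h0 : 0 ≤ ∑ k ∈ Finset.range K, ‖(((k : ℝ) : 𝕜) • g k) x‖ :=
    Finset.sum_nonneg fun _ _ => norm_nonneg _
  by_cases hk : k < K
  · have := Finset.single_le_sum (f := fun k : ℕ => ‖(((k : ℝ) : 𝕜) • g k) x‖)
      (fun _ _ => norm_nonneg _) (Finset.mem_range.2 hk)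
    linarith
  · have h2 := hK k (not_lt.1 hk)
    have h3 : (k : ℝ) ≤ 2 ^ k := by exact_mod_cast Nat.lt_two_pow_self.le
    have h4 : (2 : ℝ) ^ k * (1 / 2) ^ k = 1 := by rw [← mul_pow]; norm_num
    have h5 : ‖(((k : ℝ) : 𝕜) • g k) x‖ ≤ 2 ^ k * (1 / 2) ^ k := by
      rw [smul_apply, norm_smul, RCLike.norm_ofReal, abs_of_nonneg (Nat.cast_nonneg k)]
      exact mul_le_mul h3 h2 (norm_nonneg _) (by positivity)
    linarith

theorem unbounded_of_le (g : ℕ → E →L[𝕜] 𝕜) {c : ℝ} (hc : 0 < c) (h : ∀ k, c ≤ ‖g k‖) (R : ℝ) :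
    ∃ k : ℕ, R < ‖((k : ℝ) : 𝕜) • g k‖ := by
  obtain ⟨k, hk⟩ := exists_nat_gt (R / c)
  refine ⟨k, ?_⟩
  rw [norm_smul, RCLike.norm_ofReal, abs_of_nonneg (Nat.cast_nonneg k)]
  rw [div_lt_iff₀ hc] at hk
  exact hk.trans_le (mul_le_mul_of_nonneg_left (h k) (Nat.cast_nonneg k))

end

namespace Ext

variable {𝕜 E : Type*} [RCLike 𝕜] [NormedAddCommGroup E] [NormedSpace 𝕜 E] (A : Ext 𝕜 E)

/-- Many distinguished functionals with an upper Euclidean estimate. -/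
theorem two_estimate (hinf : ¬ FiniteDimensional 𝕜 E)
    (hnorm : ∀ x ∈ A.D, ∃ φ ∈ A.Φ, ‖φ‖ ≤ 1 ∧ φ x = ((‖x‖ : ℝ) : 𝕜)) (N : ℕ) :
    ∃ F : ℕ → E →L[𝕜] 𝕜, (∀ j, F j ∈ A.Φ) ∧ (∀ j, N ≤ j → F j = 0) ∧
      (∀ j < N, 1 / 4 ≤ ‖F j‖) ∧ ∀ x, ∑ j ∈ Finset.range N, ‖F j x‖ ^ 2 ≤ 5 * ‖x‖ ^ 2 := by
  let Y : Submodule 𝕜 (E →L[𝕜] 𝕜) := A.closureSub (A.Φ : Set (E →L[𝕜] 𝕜)) A.Φ.zero_mem
    (fun x hx y hy => A.Φ.add_mem hx hy) (fun a ha x hx => A.smulΦ a ha x hx)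
  have hY : ¬ FiniteDimensional 𝕜 Y := by
    intro hfin
    apply hinf
    let J : E →ₗ[𝕜] (Y →ₗ[𝕜] 𝕜) :=
      { toFun := fun x =>
          { toFun := fun u => (u : E →L[𝕜] 𝕜) x
            map_add' := fun u v => rfl
            map_smul' := fun c u => rfl }
        map_add' := fun x y => by ext u; exact map_add (u : E →L[𝕜] 𝕜) x y
        map_smul' := fun c x => by ext u; exact map_smul (u : E →L[𝕜] 𝕜) c x }
    have hJ : Function.Injective J := by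
      rw [← LinearMap.ker_eq_bot, LinearMap.ker_eq_bot']
      intro x hx
      rw [← norm_le_zero_iff]
      refine le_of_forall_pos_le_add fun ε hε => ?_
      obtain ⟨y, hy, hxy⟩ := A.exists_D_near x (half_pos hε)
      obtain ⟨φ, hφ, h1, h2⟩ := hnorm y hy
      have h3 : φ x = 0 := congrArg (fun L : Y →ₗ[𝕜] 𝕜 => L ⟨φ, subset_closure hφ⟩) hx
      have h4 : ‖y‖ ≤ ‖x - y‖ := by
        have e : φ (x - y) = -((‖y‖ : ℝ) : 𝕜) := by rw [map_sub, h3, h2, zero_sub]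
        have h5 := (φ.le_opNorm (x - y)).trans (mul_le_of_le_one_left (norm_nonneg _) h1)
        rwa [e, norm_neg, RCLike.norm_ofReal, abs_norm] at h5
      have h6 := norm_sub_norm_le x y
      linarith
    exact Module.Finite.of_injective J hJ
  have hY' : ¬ FiniteDimensional ℝ Y := fun hf =>
    hY (Module.Finite.of_restrictScalars_finite ℝ 𝕜 Y)
  obtain ⟨T, hT1, hT2⟩ := exists_ellipsoid hY' (2 * N)
  let W : Ell Y (2 * N) := ⟨T, hT1, hT2⟩
  obtain ⟨v, hv1, hv2⟩ := W.exists_orthonormal N le_rfl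
  have horth : Orthonormal ℝ (fun k : Fin N => v k) := by
    constructor
    · intro k; exact (hv1 k k.2).1
    · intro i j hij
      rcases lt_or_gt_of_ne (fun h => hij (Fin.ext h) : (i : ℕ) ≠ j) with h | h
      · exact hv2 i j h j.2
      · show inner ℝ (v i) (v j) = 0
        rw [real_inner_comm]; exact hv2 j i h i.2
  have hbes : ∀ (x : E) (ρ : 𝕜 →L[ℝ] ℝ), (∀ a, |ρ a| ≤ ‖a‖) →
      ∑ j ∈ Finset.range N, ρ ((T (v j) : E →L[𝕜] 𝕜) x) ^ 2 ≤ ‖x‖ ^ 2 := by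
    intro x ρ hρ
    let l : EuclideanSpace ℝ (Fin (2 * N)) →ₗ[ℝ] ℝ :=
      { toFun := fun w => ρ ((T w : E →L[𝕜] 𝕜) x)
        map_add' := fun a b => by rw [map_add]; exact map_add ρ _ _
        map_smul' := fun c a => by rw [map_smul]; exact map_smul ρ c _ }
    let r := (InnerProductSpace.toDual ℝ (EuclideanSpace ℝ (Fin (2 * N)))).symm
      (LinearMap.toContinuousLinearMap l)
    have hr : ∀ w, inner ℝ r w = ρ ((T w : E →L[𝕜] 𝕜) x) := fun w => by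
      rw [InnerProductSpace.toDual_symm_apply]; rfl
    have hr2 : ‖r‖ ≤ ‖x‖ := by
      have h1 := hr r
      rw [real_inner_self_eq_norm_sq] at h1
      have h2 : ‖(T r : E →L[𝕜] 𝕜) x‖ ≤ ‖r‖ * ‖x‖ :=
        (ContinuousLinearMap.le_opNorm _ _).trans
          (mul_le_mul_of_nonneg_right (hT1 r) (norm_nonneg _))
      have h3 := (le_abs_self _).trans ((hρ _).trans h2)
      rw [← h1] at h3
      rcases eq_or_lt_of_le (norm_nonneg r) with h | h
      · rw [← h]; exact norm_nonneg _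
      · nlinarith
    have h2 : ∑ j ∈ Finset.range N, ρ ((T (v j) : E →L[𝕜] 𝕜) x) ^ 2 =
        ∑ k : Fin N, ‖inner ℝ (v k) r‖ ^ 2 := by
      rw [Finset.sum_range]
      refine Finset.sum_congr rfl fun k _ => ?_
      rw [Real.norm_eq_abs, sq_abs, real_inner_comm, hr]
    rw [h2]
    exact (horth.sum_inner_products_le r (s := Finset.univ)).trans
      (pow_le_pow_left₀ (norm_nonneg _) hr2 2)
  set η : ℝ := 1 / (4 * (N + 1)) with hη
  have hη0 : 0 < η := by positivity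
  have hap : ∀ j, ∃ u ∈ A.Φ, ‖(T (v j) : E →L[𝕜] 𝕜) - u‖ < η := fun j => by
    obtain ⟨u, hu, h⟩ := Metric.mem_closure_iff.1 (T (v j)).2 η hη0
    exact ⟨u, hu, by rwa [dist_eq_norm] at h⟩
  choose u hu1 hu2 using hap
  have hη1 : η ≤ 1 / 4 := by
    rw [hη]
    exact one_div_le_one_div_of_le (by norm_num) (by
      have : (0 : ℝ) ≤ N := Nat.cast_nonneg N
      linarith)
  refine ⟨fun j => if j < N then u j else 0, fun j => ?_, fun j hj => if_neg (by omega),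
    fun j hj => ?_, fun x => ?_⟩
  · dsimp only
    split_ifs
    · exact hu1 j
    · exact A.Φ.zero_mem
  · dsimp only
    rw [if_pos hj]
    have h1 : 1 / 2 ≤ ‖(T (v j) : E →L[𝕜] 𝕜)‖ := (hv1 j hj).2
    have h2 := norm_sub_norm_le (T (v j) : E →L[𝕜] 𝕜) (u j)
    have h3 := hu2 j
    linarith
  · have h1 := hbes x RCLike.reCLM fun a => RCLike.abs_re_le_norm a
    have h2 := hbes x RCLike.imCLM fun a => RCLike.abs_im_le_norm a
    calc ∑ j ∈ Finset.range N, ‖(if j < N then u j else 0) x‖ ^ 2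
        ≤ ∑ j ∈ Finset.range N, (2 * (RCLike.reCLM ((T (v j) : E →L[𝕜] 𝕜) x) ^ 2) +
          2 * (RCLike.imCLM ((T (v j) : E →L[𝕜] 𝕜) x) ^ 2) + 2 * (η * ‖x‖) ^ 2) := by
          refine Finset.sum_le_sum fun j hj => ?_
          rw [if_pos (Finset.mem_range.1 hj)]
          have h3 : ‖((T (v j) : E →L[𝕜] 𝕜) - u j) x‖ ≤ η * ‖x‖ :=
            (ContinuousLinearMap.le_opNorm _ _).trans
              (mul_le_mul_of_nonneg_right (hu2 j).le (norm_nonneg _))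
          have h4 : ‖u j x‖ ≤ ‖(T (v j) : E →L[𝕜] 𝕜) x‖ + η * ‖x‖ := by
            have h5 := norm_sub_norm_le (u j x) ((T (v j) : E →L[𝕜] 𝕜) x)
            rw [norm_sub_rev] at h5
            rw [sub_apply] at h3
            linarith
          have h5 := pow_le_pow_left₀ (norm_nonneg _) h4 2
          have h6 := RCLike.norm_sq_eq_def (z := (T (v j) : E →L[𝕜] 𝕜) x)
          simp only [RCLike.reCLM_apply, RCLike.imCLM_apply]
          nlinarith [sq_nonneg (‖(T (v j) : E →L[𝕜] 𝕜) x‖ - η * ‖x‖)]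
      _ ≤ 5 * ‖x‖ ^ 2 := by
          rw [Finset.sum_add_distrib, Finset.sum_add_distrib, ← Finset.mul_sum, ← Finset.mul_sum,
            Finset.sum_const, Finset.card_range, nsmul_eq_mul]
          have h3 : (N : ℝ) * η ≤ 1 := by
            rw [hη, mul_one_div, div_le_one (by positivity)]
            have : (0 : ℝ) ≤ N := Nat.cast_nonneg N
            linarith
          have h4 : (N : ℝ) * (2 * (η * ‖x‖) ^ 2) = (N * η) * (2 * η) * ‖x‖ ^ 2 := by ring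
          have h5 : (N * η) * (2 * η) ≤ 1 := mul_le_one₀ h3 (by positivity) (by linarith)
          have h6 := mul_le_of_le_one_left (sq_nonneg ‖x‖) h5
          linarith

/-- `X` norms the combinations of the `φ b`, `b ∈ T`, up to `δ`. -/
def Net {I : Type*} (φ : I → E →L[𝕜] 𝕜) (T : Finset I) (δ : ℝ) (X : Finset E) : Prop :=
  (∀ x ∈ X, ‖x‖ ≤ 1) ∧ ∀ a : I → 𝕜, (∀ b, a b ∈ A.K) →
    ∃ x ∈ X, (1 - δ) * ‖∑ b ∈ T, a b • φ b‖ ≤ ‖(∑ b ∈ T, a b • φ b) x‖

theorem exists_net {I : Type*} (φ : I → E →L[𝕜] 𝕜) (T : Finset I) {δ : ℝ} (hδ : 0 < δ) :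
    ∃ X : Finset E, (∀ x ∈ X, x ∈ A.D) ∧ A.Net φ T δ X := by
  classical
  let V := Submodule.span 𝕜 (φ '' (T : Set I))
  have : FiniteDimensional 𝕜 V := FiniteDimensional.span_of_finite 𝕜 (T.finite_toSet.image φ)
  have : ProperSpace V := FiniteDimensional.proper 𝕜 V
  have hc : IsCompact (Metric.sphere (0 : V) 1) := isCompact_sphere 0 1
  obtain ⟨t, ht⟩ := hc.elim_finite_subcover
    (fun x : {x : E // x ∈ A.D ∧ ‖x‖ ≤ 1} => {u : V | 1 - δ < ‖(u : E →L[𝕜] 𝕜) x‖})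
    (fun x => isOpen_lt continuous_const (by fun_prop)) (by
      intro u hu
      have h1 : ‖(u : E →L[𝕜] 𝕜)‖ = 1 := by
        have h0 : dist (u : E →L[𝕜] 𝕜) 0 = 1 := hu
        rwa [dist_zero_right] at h0
      obtain ⟨x, hx, h2, h3⟩ := exists_lt_apply A.denseD (u : E →L[𝕜] 𝕜) (r := 1 - δ)
        (by linarith)
      exact Set.mem_iUnion.2 ⟨⟨x, hx, h2.le⟩, h3⟩)
  refine ⟨insert 0 (t.image Subtype.val), fun x hx => ?_, fun x hx => ?_, fun a _ => ?_⟩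
  · rcases Finset.mem_insert.1 hx with rfl | h
    · exact A.D.zero_mem
    · obtain ⟨y, -, rfl⟩ := Finset.mem_image.1 h
      exact y.2.1
  · rcases Finset.mem_insert.1 hx with rfl | h
    · simp
    · obtain ⟨y, -, rfl⟩ := Finset.mem_image.1 h
      exact y.2.2
  · set w : E →L[𝕜] 𝕜 := ∑ b ∈ T, a b • φ b with hw
    have hwV : w ∈ V := Submodule.sum_mem _ fun b hb =>
      Submodule.smul_mem _ _ (Submodule.subset_span ⟨b, hb, rfl⟩)
    rcases eq_or_lt_of_le (norm_nonneg w) with h0 | h0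
    · exact ⟨0, Finset.mem_insert_self _ _, by rw [← h0, mul_zero]; exact norm_nonneg _⟩
    · have h1 : (((‖w‖⁻¹ : ℝ) : 𝕜) • (⟨w, hwV⟩ : V)) ∈ Metric.sphere (0 : V) 1 := by
        show dist (((‖w‖⁻¹ : ℝ) : 𝕜) • w) 0 = 1
        rw [dist_zero_right, norm_smul, RCLike.norm_ofReal, abs_of_pos (by positivity)]
        exact inv_mul_cancel₀ h0.ne'
      obtain ⟨x, hx, h2⟩ := Set.mem_iUnion₂.1 (ht h1)
      refine ⟨x, Finset.mem_insert_of_mem (Finset.mem_image_of_mem _ hx), ?_⟩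
      have h3 : 1 - δ < ‖(((‖w‖⁻¹ : ℝ) : 𝕜) • w) x‖ := h2
      rw [smul_apply, norm_smul, RCLike.norm_ofReal, abs_of_pos (by positivity),
        lt_inv_mul_iff₀ h0, mul_comm] at h3
      exact h3.le

variable {A}

theorem Net.all {I : Type*} {φ : I → E →L[𝕜] 𝕜} {T : Finset I} {δ : ℝ} {X : Finset E}
    (h : A.Net φ T δ X) (a : I → 𝕜) :
    ∃ x ∈ X, (1 - δ) * ‖∑ b ∈ T, a b • φ b‖ ≤ ‖(∑ b ∈ T, a b • φ b) x‖ := by
  have hc : IsClosed (⋃ x ∈ X, {a : I → 𝕜 | (1 - δ) * ‖∑ b ∈ T, a b • φ b‖ ≤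
      ‖(∑ b ∈ T, a b • φ b) x‖}) :=
    X.finite_toSet.isClosed_biUnion fun x _ => isClosed_le (by fun_prop) (by fun_prop)
  have hd : Dense (Set.pi Set.univ fun _ : I => (A.K : Set 𝕜)) := dense_pi _ fun _ _ => A.denseK
  have := closure_minimal (fun b hb => by
    obtain ⟨x, hx, h1⟩ := h.2 b fun i => hb i trivial
    exact Set.mem_iUnion₂.2 ⟨x, hx, h1⟩) hc (hd a)
  obtain ⟨x, hx, h1⟩ := Set.mem_iUnion₂.1 this
  exact ⟨x, hx, h1⟩

/-- The property `HasH` along a free sequence. -/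
theorem hasH_of_net {I : Type*} [DecidableEq I] (φ : I → E →L[𝕜] 𝕜) (X : Finset I → ℕ → Finset E)
    (hD : ∀ T m, ∀ x ∈ X T m, x ∈ A.D) (hX : ∀ T (m : ℕ), A.Net φ T (1 / ((m : ℝ) + 1)) (X T m))
    (g : ℕ → I) (hg : ∀ (S : Finset ℕ) (j : ℕ), j ∉ S → ∀ m, ∀ x ∈ X (S.image g) m, φ (g j) x = 0) :
    A.HasH fun j => φ (g j) := by
  intro S a η hη
  have hmem : ∑ i ∈ S, a i • φ (g i) ∈ Submodule.span 𝕜 (φ '' (S.image g : Set I)) := by
    refine Submodule.sum_mem _ fun i hi => Submodule.smul_mem _ _ (Submodule.subset_span ?_)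
    exact ⟨g i, Finset.mem_coe.2 (Finset.mem_image_of_mem _ hi), rfl⟩
  rw [Submodule.mem_span_image_finset_iff_exists_fun'] at hmem
  obtain ⟨c, hc⟩ := hmem
  set w := ∑ i ∈ S, a i • φ (g i) with hw
  obtain ⟨m, hm⟩ := exists_nat_one_div_lt (show 0 < η / (‖w‖ + 1) by positivity)
  obtain ⟨x, hx, h1⟩ := (hX (S.image g) m).all c
  rw [hc] at h1
  refine ⟨x, hD _ _ x hx, (hX _ m).1 x hx, fun j hj => hg S j hj m x hx, le_trans ?_ h1⟩
  rw [lt_div_iff₀ (by positivity)] at hm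
  have h2 : (0 : ℝ) < 1 / ((m : ℝ) + 1) := by positivity
  nlinarith [norm_nonneg w]

end Ext

end Vale.Agent.P129Z
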