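import Vale.Agent.P129Z.An5
import Vale.Agent.P129Z.Setting

/-!
# P129: the analysis inside the model, part 1

The internal scalars, vectors and functionals; definability of the predicates of the outer
analysis.
-/

set_option linter.all false

open Filter Topology

namespace Vale.Agent.P129Z

universe v

variable {N : Type v} [ZM N] {α β : Type*} [Coded N α] [Coded N β]

/-- Dependent choice in the course-of-values form. -/
theorem exists_intl_cov [Bdd N β] (b₀ : β) [Intl N b₀] {R : ℕ → (ℕ → β) → β → Prop}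
    (hR : DefF N (fun p : ℕ × (ℕ → β) × β => R p.1 p.2.1 p.2.2))
    (hloc : ∀ n s t c, (∀ i < n, s i = t i) → R n s c → R n t c)
    (hstep : ∀ n s, Intl N s → (∀ i < n, R i s (s i)) → ∃ c, Intl N c ∧ R n s c) :
    ∃ s : ℕ → β, Intl N s ∧ ∀ n, R n s (s n) := by
  have h1 : DefF N (fun p : ℕ × (ℕ → β) × (ℕ → β) =>
      ∃ c, Intl N c ∧ R p.1 p.2.1 c ∧ p.2.2 = Function.update p.2.1 p.1 c) := by
    refine DefF.ex (P := fun (p : ℕ × (ℕ → β) × (ℕ → β)) (c : β) =>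
      R p.1 p.2.1 c ∧ p.2.2 = Function.update p.2.1 p.1 c) (DefF.and ?_ (by fun_prop))
    exact DefF.comp (f := fun p : ℕ × (ℕ → β) × β => R p.1 p.2.1 p.2.2)
      (g := fun q : (ℕ × (ℕ → β) × (ℕ → β)) × β => (q.1.1, q.1.2.1, q.2)) hR (by fun_prop)
  obtain ⟨S, hS, -, hS'⟩ := exists_intl_seq (N := N)
    (R := fun n (s t : ℕ → β) => ∃ c, Intl N c ∧ R n s c ∧ t = Function.update s n c) h1
    (fun n s => ∀ i < n, R i s (s i)) (fun _ => b₀) (fun i hi => absurd hi (Nat.not_lt_zero i))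
    (fun n s hs h => by
      obtain ⟨c, hc, hc'⟩ := hstep n s hs h
      exact ⟨_, inferInstance, c, hc, hc', rfl⟩)
    (by
      rintro n s t - - h ⟨c, -, hc, rfl⟩ i hi
      rcases Nat.lt_succ_iff_lt_or_eq.1 hi with h1 | rfl
      · rw [Function.update_of_ne h1.ne]
        exact hloc _ _ _ _ (fun j hj => (Function.update_of_ne (by omega) _ _).symm) (h i h1)
      · rw [Function.update_self]
        exact hloc _ _ _ _ (fun j hj => (Function.update_of_ne (by omega) _ _).symm) hc)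
  have h2 : ∀ m i, i < m → S m i = S (i + 1) i := by
    intro m
    induction m with
    | zero => intro i hi; omega
    | succ m ih =>
      intro i hi
      rcases Nat.lt_succ_iff_lt_or_eq.1 hi with h1 | rfl
      · obtain ⟨c, -, -, hc⟩ := (hS' m).2
        rw [hc, Function.update_of_ne h1.ne, ih i h1]
      · rfl
  have h3 := DefF.ofIntl2 (N := N) S
  refine ⟨fun i => S (i + 1) i, DefF.toIntl (by fun_prop), fun n => ?_⟩
  exact hloc n (S (n + 1)) _ _ (fun i hi => h2 _ i (by omega)) ((hS' (n + 1)).1 n (by omega))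

/-- Functions with internal values and finite support are internal. -/
theorem intl_finsupp [Tot N α] [DecidableEq α] [Zero β] [DefZero N β] (T : Finset α) (a : α → β)
    (h : ∀ b ∈ T, Intl N (a b)) : Intl N (fun b => if b ∈ T then a b else 0) := by
  induction T using Finset.induction_on with
  | empty => simp only [Finset.notMem_empty, if_false]; infer_instance
  | insert c T hc ih =>
    have h1 := ih fun b hb => h b (Finset.mem_insert_of_mem hb)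
    have h2 := h c (Finset.mem_insert_self _ _)
    have : (fun b => if b ∈ insert c T then a b else 0) =
        Function.update (fun b => if b ∈ T then a b else 0) c (a c) := by
      funext b
      rw [Function.update_apply]
      by_cases hb : b = c
      · simp [hb]
      · simp [hb]
    rw [this]
    infer_instance

variable [Coded N ℝ] [RSet N] {𝕜 : Type*} [RCLike 𝕜] [Coded N 𝕜] [KSet N 𝕜]
  {E : Type*} [Coded N E] [NormedAddCommGroup E] [NormedSpace 𝕜 E] [Setting N 𝕜 E]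

instance defSMulDual : DefSMul N 𝕜 (E →L[𝕜] 𝕜) := (preSetDual (N := N) (𝕜 := 𝕜) (E := E)).smul

variable (N 𝕜 E) in
/-- The internal scalars, vectors and functionals. -/
noncomputable def ix : Ext 𝕜 E where
  R :=
    { carrier := {r | Intl N r}
      mul_mem' := fun {a b} (ha : Intl N a) (hb : Intl N b) => (inferInstance : Intl N (a * b))
      one_mem' := (inferInstance : Intl N (1 : ℝ))
      add_mem' := fun {a b} (ha : Intl N a) (hb : Intl N b) => (inferInstance : Intl N (a + b))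
      zero_mem' := (inferInstance : Intl N (0 : ℝ))
      neg_mem' := fun {a} (ha : Intl N a) => (inferInstance : Intl N (-a))
      inv_mem' := fun a (ha : Intl N a) => (inferInstance : Intl N a⁻¹) }
  K :=
    { carrier := {r | Intl N r}
      mul_mem' := fun {a b} (ha : Intl N a) (hb : Intl N b) => (inferInstance : Intl N (a * b))
      one_mem' := (inferInstance : Intl N (1 : 𝕜))
      add_mem' := fun {a b} (ha : Intl N a) (hb : Intl N b) => (inferInstance : Intl N (a + b))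
      zero_mem' := (inferInstance : Intl N (0 : 𝕜))
      neg_mem' := fun {a} (ha : Intl N a) => (inferInstance : Intl N (-a))
      inv_mem' := fun a (ha : Intl N a) => (inferInstance : Intl N a⁻¹) }
  D :=
    { carrier := {r | Intl N r}
      add_mem' := fun {a b} (ha : Intl N a) (hb : Intl N b) => (inferInstance : Intl N (a + b))
      zero_mem' := (inferInstance : Intl N (0 : E))
      neg_mem' := fun {a} (ha : Intl N a) => (inferInstance : Intl N (-a)) }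
  Φ :=
    { carrier := {r | Intl N r}
      add_mem' := fun {a b} (ha : Intl N a) (hb : Intl N b) => (inferInstance : Intl N (a + b))
      zero_mem' := (inferInstance : Intl N (0 : E →L[𝕜] 𝕜))
      neg_mem' := fun {a} (ha : Intl N a) => (inferInstance : Intl N (-a)) }
  denseD := dense_intl 𝕜
  ofR := fun r (hr : Intl N r) => (inferInstance : Intl N (r : 𝕜))
  memI := (inferInstance : Intl N (RCLike.I : 𝕜))
  reK := fun a (ha : Intl N a) => (inferInstance : Intl N (RCLike.re a))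
  imK := fun a (ha : Intl N a) => (inferInstance : Intl N (RCLike.im a))
  normK := fun a (ha : Intl N a) => (inferInstance : Intl N ‖a‖)
  smulD := fun a (ha : Intl N a) x (hx : Intl N x) => (inferInstance : Intl N (a • x))
  smulΦ := fun a (ha : Intl N a) x (hx : Intl N x) => (inferInstance : Intl N (a • x))
  app := fun u (hu : Intl N u) x (hx : Intl N x) => (inferInstance : Intl N (u x))
  normΦ := fun u (hu : Intl N u) => (inferInstance : Intl N ‖u‖)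

theorem ix_R {r : ℝ} : r ∈ (ix N 𝕜 E).R ↔ Intl N r := Iff.rfl
theorem ix_K {r : 𝕜} : r ∈ (ix N 𝕜 E).K ↔ Intl N r := Iff.rfl
theorem ix_D {r : E} : r ∈ (ix N 𝕜 E).D ↔ Intl N r := Iff.rfl
theorem ix_Φ {r : E →L[𝕜] 𝕜} : r ∈ (ix N 𝕜 E).Φ ↔ Intl N r := Iff.rfl

@[fun_prop] theorem DefF.qq {f g : α → ℕ} (hf : DefF N f) (hg : DefF N g) :
    DefF N (fun a => qq (f a) (g a)) := by
  unfold P129Z.qq Nat.beta
  fun_prop

theorem intl_comb (a : ℕ → E) [Intl N a] : Intl N (comb 𝕜 a) := by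
  refine DefF.toIntl ?_
  unfold comb
  fun_prop

@[fun_prop] theorem DefF.bd {g : α → ℕ → E →L[𝕜] 𝕜} {x : α → E}
    (hg : DefF N (fun p : α × ℕ => g p.1 p.2)) (hx : DefF N x) :
    DefF N (fun a => (ix N 𝕜 E).Bd (g a) (x a)) := by
  have : DefF N (fun a => ∃ c : ℕ, ∀ k, ‖g a k (x a)‖ ≤ c) := by fun_prop
  exact this.congrP fun a ha => ⟨fun h => ⟨hx.1 a ha, h⟩, fun h => h.2⟩

theorem ta_iff {φ : ℕ → E →L[𝕜] 𝕜} {n : ℕ} {x : E} {r : ℝ} : (ix N 𝕜 E).Ta φ n x r ↔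
    ∀ (m : ℕ) (a : ℕ → 𝕜), Intl N a → (∀ i, i < n → a i = 0) →
      ‖(∑ i ∈ Finset.range m, a i • φ i) x‖ ≤ r * ‖∑ i ∈ Finset.range m, a i • φ i‖ := by
  refine ⟨fun h m a ha h0 => h m a (fun i => (inferInstance : Intl N (a i))) h0,
    fun h m a ha h0 => ?_⟩
  have h1 := h m (fun i => if i < m then a i else 0) (intl_trunc _ _ (fun i _ => ha i) _)
    (fun i hi => by simp [h0 i hi])
  have e : ∑ i ∈ Finset.range m, (if i < m then a i else 0) • φ i =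
      ∑ i ∈ Finset.range m, a i • φ i :=
    Finset.sum_congr rfl fun i hi => by rw [if_pos (Finset.mem_range.1 hi)]
  rwa [e] at h1

@[fun_prop] theorem DefF.ta {φ : α → ℕ → E →L[𝕜] 𝕜} {n : α → ℕ} {x : α → E} {r : α → ℝ}
    (hφ : DefF N (fun p : α × ℕ => φ p.1 p.2)) (hn : DefF N n) (hx : DefF N x) (hr : DefF N r) :
    DefF N (fun a => (ix N 𝕜 E).Ta (φ a) (n a) (x a) (r a)) := by
  simp only [ta_iff]
  fun_prop

theorem inSp_iff {φ : ℕ → E →L[𝕜] 𝕜} {n m : ℕ} {u : E →L[𝕜] 𝕜} : (ix N 𝕜 E).InSp φ n m u ↔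
    ∃ a : ℕ → 𝕜, Intl N a ∧ (∀ i, i < n → a i = 0) ∧ (∀ i, m ≤ i → a i = 0) ∧
      u = ∑ i ∈ Finset.range m, a i • φ i :=
  ⟨fun ⟨a, h1, h2, h3, h4⟩ => ⟨a, intl_of_eventually_const a h1 m
      (fun i hi => by rw [h3 i hi, h3 m le_rfl]), h2, h3, h4⟩,
    fun ⟨a, h1, h2, h3, h4⟩ => ⟨a, fun i => (inferInstance : Intl N (a i)), h2, h3, h4⟩⟩

@[fun_prop] theorem DefF.inSp {φ : α → ℕ → E →L[𝕜] 𝕜} {n m : α → ℕ} {u : α → E →L[𝕜] 𝕜}
    (hφ : DefF N (fun p : α × ℕ => φ p.1 p.2)) (hn : DefF N n) (hm : DefF N m) (hu : DefF N u) :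
    DefF N (fun a => (ix N 𝕜 E).InSp (φ a) (n a) (m a) (u a)) := by
  simp only [inSp_iff]
  fun_prop

theorem inK_iff {φ : ℕ → E →L[𝕜] 𝕜} {n m : ℕ} {t : ℝ} {u : E →L[𝕜] 𝕜} :
    (ix N 𝕜 E).InK φ n m t u ↔
    ∃ a : ℕ → 𝕜, Intl N a ∧ (∀ i, i < n → a i = 0) ∧ (∀ i, m ≤ i → a i = 0) ∧
      ∑ i ∈ Finset.range m, ‖a i‖ = t ∧ u = ∑ i ∈ Finset.range m, a i • φ i :=
  ⟨fun ⟨a, h1, h2, h3, h4⟩ => ⟨a, intl_of_eventually_const a h1 m
      (fun i hi => by rw [h3 i hi, h3 m le_rfl]), h2, h3, h4⟩,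
    fun ⟨a, h1, h2, h3, h4⟩ => ⟨a, fun i => (inferInstance : Intl N (a i)), h2, h3, h4⟩⟩

@[fun_prop] theorem DefF.inK {φ : α → ℕ → E →L[𝕜] 𝕜} {n m : α → ℕ} {t : α → ℝ}
    {u : α → E →L[𝕜] 𝕜} (hφ : DefF N (fun p : α × ℕ => φ p.1 p.2)) (hn : DefF N n)
    (hm : DefF N m) (ht : DefF N t) (hu : DefF N u) :
    DefF N (fun a => (ix N 𝕜 E).InK (φ a) (n a) (m a) (t a) (u a)) := by
  simp only [inK_iff]
  fun_prop

@[fun_prop] theorem DefF.ad {f g : α → ℕ → E →L[𝕜] 𝕜}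
    (hf : DefF N (fun p : α × ℕ => f p.1 p.2)) (hg : DefF N (fun p : α × ℕ => g p.1 p.2)) :
    DefF N (fun a => (ix N 𝕜 E).Ad (f a) (g a)) := by
  unfold Ext.Ad
  fun_prop

@[fun_prop] theorem DefF.dm {g : α → ℕ → E →L[𝕜] 𝕜} {n : α → ℕ} {u : α → E →L[𝕜] 𝕜}
    (hg : DefF N (fun p : α × ℕ => g p.1 p.2)) (hn : DefF N n) (hu : DefF N u) :
    DefF N (fun a => (ix N 𝕜 E).Dm (g a) (n a) (u a)) := by
  simp only [Ext.Dm, ix_D, ix_R]
  fun_prop

@[fun_prop] theorem DefF.dom' {f g : α → ℕ → E →L[𝕜] 𝕜}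
    (hf : DefF N (fun p : α × ℕ => f p.1 p.2)) (hg : DefF N (fun p : α × ℕ => g p.1 p.2)) :
    DefF N (fun a => (ix N 𝕜 E).Do (f a) (g a)) := by
  unfold Ext.Do
  fun_prop

@[fun_prop] theorem DefF.oscLe {g : α → ℕ → E →L[𝕜] 𝕜} {r : α → ℝ}
    (hg : DefF N (fun p : α × ℕ => g p.1 p.2)) (hr : DefF N r) :
    DefF N (fun a => (ix N 𝕜 E).OscLe (g a) (r a)) := by
  simp only [Ext.OscLe, ix_D]
  fun_prop

@[fun_prop] theorem DefF.leAdd {f g : α → ℕ → E →L[𝕜] 𝕜} {r : α → ℝ}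
    (hf : DefF N (fun p : α × ℕ => f p.1 p.2)) (hg : DefF N (fun p : α × ℕ => g p.1 p.2))
    (hr : DefF N r) : DefF N (fun a => (ix N 𝕜 E).LeAdd (f a) (g a) (r a)) := by
  simp only [Ext.LeAdd, ix_R]
  fun_prop

@[fun_prop] theorem DefF.pat {ε : α → ℕ → ℝ} (hε : DefF N (fun p : α × ℕ => ε p.1 p.2)) :
    DefF N (fun a => Ext.Pat (ε a)) := by
  unfold Ext.Pat
  fun_prop

@[fun_prop] theorem DefF.rep {δ : α → ℝ} {x : α → ℕ → E} {k : α → ℕ} {ε : α → ℕ → ℝ}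
    {u : α → E →L[𝕜] 𝕜} (hδ : DefF N δ) (hx : DefF N (fun p : α × ℕ => x p.1 p.2))
    (hk : DefF N k) (hε : DefF N (fun p : α × ℕ => ε p.1 p.2)) (hu : DefF N u) :
    DefF N (fun a => Ext.Rep (δ a) (x a) (k a) (ε a) (u a)) := by
  unfold Ext.Rep
  fun_prop

/-- Properties of the initial parts of sign patterns need only be checked on internal ones. -/
theorem forall_pat_iff {P : (ℕ → ℝ) → Prop} (k : ℕ)
    (h : ∀ ε ε', (∀ i < k, ε i = ε' i) → P ε → P ε') :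
    (∀ ε, Ext.Pat ε → P ε) ↔ ∀ ε, Intl N ε → Ext.Pat ε → P ε := by
  refine ⟨fun H ε _ hε => H ε hε, fun H ε hε => ?_⟩
  refine h _ _ (fun i hi => ?_) (H (fun i => if i < k then ε i else 1)
    (intl_trunc _ _ (fun i _ => ?_) _) fun i => ?_)
  · simp [hi]
  · rcases hε i with h | h <;> rw [h] <;> infer_instance
  · by_cases hi : i < k
    · simpa [hi] using hε i
    · simp [hi]

omit [Setting N 𝕜 E] [KSet N 𝕜] [Coded N 𝕜] [Coded N E] in
theorem tq_iff {g : ℕ → E →L[𝕜] 𝕜} {δ : ℝ} {k : ℕ} {x : ℕ → E} : Ext.TQ g δ k x ↔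
    (∀ i, i < k → ‖x i‖ ≤ 1) ∧ ∀ ε : ℕ → ℝ, Intl N ε → Ext.Pat ε →
      ∀ M, ∃ n, M ≤ n ∧ Ext.Rep δ x k ε (g n) :=
  and_congr Iff.rfl (forall_pat_iff k fun ε ε' e h M => by
    obtain ⟨n, h1, h2⟩ := h M
    exact ⟨n, h1, fun i hi => e i hi ▸ h2 i hi⟩)

@[fun_prop] theorem DefF.tq {g : α → ℕ → E →L[𝕜] 𝕜} {δ : α → ℝ} {k : α → ℕ} {x : α → ℕ → E}
    (hg : DefF N (fun p : α × ℕ => g p.1 p.2)) (hδ : DefF N δ) (hk : DefF N k)
    (hx : DefF N (fun p : α × ℕ => x p.1 p.2)) :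
    DefF N (fun a => Ext.TQ (g a) (δ a) (k a) (x a)) := by
  simp only [tq_iff (N := N)]
  fun_prop

theorem tr_iff {g : ℕ → E →L[𝕜] 𝕜} {δ p m : ℝ} {k : ℕ} {x : ℕ → E} {M : ℕ} {u : E →L[𝕜] 𝕜} :
    (ix N 𝕜 E).Tr g δ p m k x M u ↔
    ∀ y : E, Intl N y → (∀ j, M ≤ j → ‖g j y‖ ≤ p) → m < RCLike.re (u y) →
      ∀ ε : ℕ → ℝ, Intl N ε → Ext.Pat ε → ∃ n, M ≤ n ∧ Ext.Rep δ x k ε (g n) ∧
        ‖g n y - ((δ * ε k : ℝ) : 𝕜)‖ ≤ δ / 16 :=
  forall_congr' fun y => forall_congr' fun _ => forall_congr' fun _ => forall_congr' fun _ =>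
    forall_pat_iff (k + 1) fun ε ε' e h => by
      obtain ⟨n, h1, h2, h3⟩ := h
      exact ⟨n, h1, fun i hi => e i (by omega) ▸ h2 i hi, e k (by omega) ▸ h3⟩

theorem defF_tr (g : ℕ → E →L[𝕜] 𝕜) [Intl N g] (δ p m : ℝ) [Intl N δ] [Intl N p] [Intl N m]
    (k : ℕ) (x : ℕ → E) [Intl N x] :
    DefF N (fun q : ℕ × (E →L[𝕜] 𝕜) => (ix N 𝕜 E).Tr g δ p m k x q.1 q.2) := by
  simp only [tr_iff]
  fun_prop

theorem defF_sg (δ : ℝ) [Intl N δ] (x : ℕ → E) [Intl N x] :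
    DefF N (fun p : ℕ × (ℕ → E →L[𝕜] 𝕜) => (ix N 𝕜 E).Sg δ x qq p.1 p.2) := by
  simp only [Ext.Sg, ix_D]
  fun_prop

theorem defF_t2 (φ : ℕ → E →L[𝕜] 𝕜) [Intl N φ] :
    DefF N (fun p : ℕ × E × ℝ => Ext.T2 φ p.1 p.2.1 p.2.2) := by
  unfold Ext.T2
  fun_prop

theorem net_iff {I : Type*} [Coded N I] [Tot N I] {φ : I → E →L[𝕜] 𝕜} {T : Finset I} {δ : ℝ}
    {X : Finset E} : (ix N 𝕜 E).Net φ T δ X ↔ (∀ x ∈ X, ‖x‖ ≤ 1) ∧ ∀ a : I → 𝕜, Intl N a →
      ∃ x ∈ X, (1 - δ) * ‖∑ b ∈ T, a b • φ b‖ ≤ ‖(∑ b ∈ T, a b • φ b) x‖ := by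
  classical
  refine and_congr Iff.rfl ⟨fun h a ha => h a fun b => (inferInstance : Intl N (a b)),
    fun h a ha => ?_⟩
  have h1 := h _ (intl_finsupp T a fun b _ => ha b)
  have e : ∑ b ∈ T, (if b ∈ T then a b else 0) • φ b = ∑ b ∈ T, a b • φ b :=
    Finset.sum_congr rfl fun b hb => by rw [if_pos hb]
  rwa [e] at h1

theorem defF_net {I : Type*} [Coded N I] [Tot N I] (φ : I → E →L[𝕜] 𝕜) [Intl N φ] :
    DefF N (fun p : (Finset I × ℕ) × Finset E =>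
      (ix N 𝕜 E).Net φ p.1.1 (1 / ((p.1.2 : ℝ) + 1)) p.2) := by
  simp only [net_iff]
  fun_prop

end Vale.Agent.P129Z
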