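import Vale.Agent.P129Z.An6

/-!
# P129: the analysis inside the model, part 2

Separable quotients from unbounded sequences of functionals which are bounded on a dense set.
-/

set_option linter.all false

open Filter Topology

namespace Vale.Agent.P129Z

universe v

variable {N : Type v} [ZM N] [Coded N ℝ] [RSet N] {𝕜 : Type*} [RCLike 𝕜] [Coded N 𝕜] [KSet N 𝕜]
  {E : Type*} [Coded N E] [NormedAddCommGroup E] [NormedSpace 𝕜 E] [Setting N 𝕜 E]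

/-- An internal biorthogonal sequence. -/
theorem exists_bio (g : ℕ → E →L[𝕜] 𝕜) [Intl N g] (hunb : ∀ R : ℝ, ∃ k, R < ‖g k‖)
    (hdense : Dense {x | (ix N 𝕜 E).Bd g x}) :
    ∃ (a : ℕ → E) (b : ℕ → E →L[𝕜] 𝕜), Intl N a ∧ Intl N b ∧
      (∀ i j, b i (a j) = if i = j then 1 else 0) ∧
      ∀ n, ∀ y ∈ (ix N 𝕜 E).D, (∀ j, ‖g j y‖ ≤ 1) → ‖b n y‖ * ‖a n‖ ≤ (1 / 2 : ℝ) ^ n := by
  let R : ℕ → (ℕ → E × (E →L[𝕜] 𝕜)) → E × (E →L[𝕜] 𝕜) → Prop := fun n s c =>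
    (ix N 𝕜 E).Bd g c.1 ∧ c.2 c.1 = 1 ∧ (∀ i, i < n → (s i).2 c.1 = 0) ∧
      (∀ i, i < n → c.2 (s i).1 = 0) ∧
      ∀ y : E, Intl N y → (∀ j, ‖g j y‖ ≤ 1) → ‖c.2 y‖ * ‖c.1‖ ≤ (1 / 2 : ℝ) ^ n
  have key : ∀ (s : ℕ → E × (E →L[𝕜] 𝕜)) (i j : ℕ), R i s (s i) → R j s (s j) →
      (s i).2 (s j).1 = if i = j then 1 else 0 := by
    intro s i j hi hj
    rcases lt_trichotomy i j with h | rfl | h
    · rw [if_neg h.ne]; exact hj.2.2.1 i h
    · rw [if_pos rfl]; exact hi.2.1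
    · rw [if_neg h.ne']; exact hi.2.2.2.1 j h
  obtain ⟨s, hs, H⟩ := exists_intl_cov (N := N) ((0 : E), (0 : E →L[𝕜] 𝕜)) (R := R)
    (by simp only [R]; fun_prop)
    (fun n s t c e h => ⟨h.1, h.2.1, fun i hi => e i hi ▸ h.2.2.1 i hi,
      fun i hi => e i hi ▸ h.2.2.2.1 i hi, h.2.2.2.2⟩)
    (fun n s hs h => by
      obtain ⟨x, hx, u, hu, k1, k2, k3, k4⟩ := (ix N 𝕜 E).bio_step g
        (fun k => (inferInstance : Intl N (g k))) hunb hdense n (fun i => (s i).1)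
        (fun i => (s i).2) (fun i hi => (h i hi).1) (fun i _ => (inferInstance : Intl N (s i).2))
        (fun i hi j hj => key s i j (h i hi) (h j hj)) (fun i hi => by
          have h0 : 0 < ‖(s i).1‖ := by
            refine norm_pos_iff.2 fun h0 => ?_
            have := (h i hi).2.1
            rw [h0, map_zero] at this
            exact zero_ne_one this
          exact ⟨(1 / 2 : ℝ) ^ i / ‖(s i).1‖, fun y hy hy' => by
            rw [le_div_iff₀ h0]; exact (h i hi).2.2.2.2 y hy hy'⟩)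
        (show (0 : ℝ) < (1 / 2) ^ n by positivity)
      exact ⟨(x, u), intl_prod.2 ⟨hx.1, hu⟩, hx, k1, k2, k3, k4⟩)
  exact ⟨fun i => (s i).1, fun i => (s i).2, DefF.toIntl (by fun_prop), DefF.toIntl (by fun_prop),
    fun i j => key s i j (H i) (H j), fun n => (H n).2.2.2.2⟩

/-- An unbounded internal sequence of functionals which is bounded at a dense set of internal
points gives a separable quotient. -/
theorem absSQ_of_unbounded [CompleteSpace E] (g : ℕ → E →L[𝕜] 𝕜) [Intl N g]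
    (hunb : ∀ R : ℝ, ∃ k, R < ‖g k‖) (hdense : Dense {x | (ix N 𝕜 E).Bd g x}) :
    AbsSQ N 𝕜 E := by
  obtain ⟨a, b, ha, hb, hab, hU⟩ := exists_bio g hunb hdense
  refine ⟨{x | Intl N x ∧ ∀ n, b n x = 0}, ⟨intl_setOf (by fun_prop),
    ⟨inferInstance, fun n => map_zero _⟩, fun x hx y hy => ?_, fun c hc x hx => ?_⟩,
    fun x hx hx' => ⟨hx, fun n => ?_⟩, ?_, comb 𝕜 a, intl_comb a, fun x hx ε hε => ?_⟩
  · have := hx.1
    have := hy.1
    exact ⟨inferInstance, fun n => by rw [map_add, hx.2, hy.2, add_zero]⟩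
  · have := hx.1
    exact ⟨inferInstance, fun n => by rw [map_smul, hx.2, smul_zero]⟩
  · have hc : IsClosed {x : E | b n x = 0} := isClosed_eq (b n).continuous continuous_const
    exact closure_minimal (fun y hy => hy.2 n) hc hx'
  · rintro ⟨n, w, -, hw⟩
    choose c hc1 hc2 using fun j => hw (a j) inferInstance
    refine not_factor n c (fun m i => b m (w i)) fun m j => ?_
    have := (hc2 j).2 m
    rw [map_sub, sub_eq_zero, hab, map_sum] at this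
    rw [this]
    exact Finset.sum_congr rfl fun i _ => by rw [map_smul, smul_eq_mul]
  · obtain ⟨y, hy, hxy⟩ := Metric.mem_closure_iff.1 (hdense x) (ε / 3) (by positivity)
    rw [dist_eq_norm] at hxy
    obtain ⟨w, hw1, hw2⟩ := (ix N 𝕜 E).bio_expand g a b hab hU hy
    have hyI : Intl N y := hy.1
    have hwI : Intl N w := intl_of_tendsto (DefF.toIntl (by fun_prop)) hw1
    obtain ⟨K, hK⟩ := (Metric.tendsto_nhds.1 hw1 (ε / 3) (by positivity)).exists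
    rw [dist_eq_norm, norm_sub_rev] at hK
    obtain ⟨n, hn⟩ := comb_near a K (fun i => b i y) (show 0 < ε / 3 by positivity)
    refine ⟨n, y - w, ⟨inferInstance, hw2⟩, ?_⟩
    have e : x - comb 𝕜 a n - (y - w) = (x - y) + (w - ∑ i ∈ Finset.range K, b i y • a i) +
        (∑ i ∈ Finset.range K, b i y • a i - comb 𝕜 a n) := by abel
    rw [e]
    have := norm_add₃_le (a := x - y) (b := w - ∑ i ∈ Finset.range K, b i y • a i)
      (c := ∑ i ∈ Finset.range K, b i y • a i - comb 𝕜 a n)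
    linarith

/-- Successive corrections inside the model. -/
theorem absSQ_of_corr [CompleteSpace E] (φ : ℕ → E →L[𝕜] 𝕜) [Intl N φ] {c : ℝ} (hc : 0 < c)
    (hφ : ∀ k, c ≤ ‖φ k‖) (T : ℕ → E → ℝ → Prop)
    (hT : DefF N (fun p : ℕ × E × ℝ => T p.1 p.2.1 p.2.2)) (C : ℕ)
    (h1 : ∀ x ∈ (ix N 𝕜 E).D, ∀ ε : ℝ, 0 < ε → ∃ n, T n x ε)
    (h2 : ∀ n n' x r, T n x r → n ≤ n' → T n' x r)
    (h3 : ∀ (n m : ℕ) (x : E) (t η : ℝ), 0 < t → 0 < η → T n x t →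
      ∃ z ∈ (ix N 𝕜 E).D, ‖z‖ ≤ C * t ∧ (∀ k < m, ‖φ k z - if n ≤ k then φ k x else 0‖ ≤ η) ∧
        ∀ s, η ≤ s → n ≤ m → T m x s → T m (x - z) (2 * s)) : AbsSQ N 𝕜 E := by
  have hg : Intl N (fun k : ℕ => ((k : ℝ) : 𝕜) • φ k) := DefF.toIntl (by fun_prop)
  refine absSQ_of_unbounded (fun k : ℕ => ((k : ℝ) : 𝕜) • φ k) (unbounded_of_le φ hc hφ) ?_
  refine fun x₁ => Metric.mem_closure_iff.2 fun ε hε => ?_
  obtain ⟨x, hx, hx₁⟩ := (ix N 𝕜 E).exists_D_near x₁ (half_pos hε)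
  obtain ⟨e, he, he0, he1⟩ := exists_intl_btwn (N := N) (show 0 < ε / (4 * (C + 1)) by positivity)
  obtain ⟨n₀, hn₀⟩ := h1 x hx e he0
  have hxI : Intl N x := hx
  have hR : DefF N (fun p : ℕ × (E × ℕ) × (E × ℕ) => p.2.1.2 < p.2.2.2 ∧
      T p.2.2.2 p.2.2.1 (e * (1 / 2) ^ (p.1 + 1)) ∧
      ‖p.2.1.1 - p.2.2.1‖ ≤ C * e * (1 / 2) ^ p.1 ∧ ∀ k, k < p.2.2.2 →
        (k : ℝ) * ‖φ k p.2.2.1 - if k < p.2.1.2 then φ k p.2.1.1 else 0‖ ≤ (1 / 2 : ℝ) ^ p.1) := by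
    refine DefF.and (by fun_prop) (DefF.and ?_ (by fun_prop))
    exact DefF.comp (f := fun p : ℕ × E × ℝ => T p.1 p.2.1 p.2.2)
      (g := fun p : ℕ × (E × ℕ) × (E × ℕ) => (p.2.2.2, p.2.2.1, e * (1 / 2) ^ (p.1 + 1))) hT
      (by fun_prop)
  obtain ⟨s, hs, hs0, H⟩ := exists_intl_seq (N := N) (R := fun j (s t : E × ℕ) => s.2 < t.2 ∧
      T t.2 t.1 (e * (1 / 2) ^ (j + 1)) ∧ ‖s.1 - t.1‖ ≤ C * e * (1 / 2) ^ j ∧ ∀ k, k < t.2 →
        (k : ℝ) * ‖φ k t.1 - if k < s.2 then φ k s.1 else 0‖ ≤ (1 / 2 : ℝ) ^ j) hR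
    (fun j s => T s.2 s.1 (e * (1 / 2) ^ j)) (x, n₀) (by simpa using hn₀)
    (fun j s hs h => by
      obtain ⟨y, hy, m, k1, k2, k3, k4⟩ := Ext.corr_step φ T C h1 h2 h3 he0 j s.2
        (show s.1 ∈ (ix N 𝕜 E).D from (inferInstance : Intl N s.1)) h
      exact ⟨(y, m), intl_prod.2 ⟨hy, inferInstance⟩, k1, k2, k3, k4⟩)
    (fun j s t _ _ _ h => h.2.1)
  obtain ⟨w, hw1, hw2, d, hd⟩ := corr_limit φ (fun j => (s j).1) (fun j => (s j).2) (C * e)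
    (fun j => (H j).2.1) (fun j => (H j).2.2.2.1) (fun j => (H j).2.2.2.2)
  have hwI : Intl N w := intl_of_tendsto (DefF.toIntl (by fun_prop)) hw1
  refine ⟨w, (ix N 𝕜 E).bd_of_real hwI hd, ?_⟩
  simp only [hs0] at hw2
  rw [lt_div_iff₀ (by positivity)] at he1
  have h4 := norm_sub_le_norm_sub_add_norm_sub x₁ x w
  rw [dist_eq_norm]
  nlinarith

/-- The first alternative. -/
theorem absSQ_of_alpha [CompleteSpace E] (φ : ℕ → E →L[𝕜] 𝕜) [Intl N φ] {c : ℝ} (hc : 0 < c)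
    (hφ : ∀ k, c ≤ ‖φ k‖) (hφ' : ∀ k, ‖φ k‖ ≤ 1) (H : (ix N 𝕜 E).HasH φ)
    (h : ∀ x ∈ (ix N 𝕜 E).D, ∀ ε : ℝ, 0 < ε → ∃ n, (ix N 𝕜 E).Ta φ n x ε) : AbsSQ N 𝕜 E :=
  absSQ_of_corr φ hc hφ ((ix N 𝕜 E).Ta φ) (by fun_prop) 2 h
    (fun n n' x r h hn => h.mono hn le_rfl) fun n m x t η ht hη hT => by
      simpa only [Nat.cast_ofNat] using hT.step H hφ' ht hη

/-- The Hilbertian case. -/
theorem absSQ_of_l2 [CompleteSpace E] (φ : ℕ → E →L[𝕜] 𝕜) [Intl N φ] {c : ℝ} (hc : 0 < c)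
    (hup : ∀ (x : E) (n : ℕ), ∑ k ∈ Finset.range n, ‖φ k x‖ ^ 2 ≤ ‖x‖ ^ 2)
    (hlow : ∀ (n : ℕ) (a : ℕ → 𝕜), c ^ 2 * ∑ k ∈ Finset.range n, ‖a k‖ ^ 2 ≤
      ‖∑ k ∈ Finset.range n, a k • φ k‖ ^ 2) : AbsSQ N 𝕜 E := by
  classical
  obtain ⟨C, hC⟩ := Ext.T2.step (A := ix N 𝕜 E) hc hup hlow
  refine absSQ_of_corr φ hc (fun k => ?_) (Ext.T2 φ) (defF_t2 φ) C
    (fun x _ ε hε => Ext.T2.exists hup x hε) (fun n n' x r h hn => h.mono hn le_rfl) hC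
  have h1 := hlow (k + 1) (Pi.single k 1)
  rw [Finset.sum_eq_single k (fun i _ hi => by simp [Pi.single_eq_of_ne hi]) (by simp),
    Finset.sum_eq_single k (fun i _ hi => by rw [Pi.single_eq_of_ne hi, zsm]) (by simp)] at h1
  simp only [Pi.single_eq_same, norm_one, one_pow, mul_one, one_smul] at h1
  exact le_of_sq_le_sq h1 (norm_nonneg _)

/-- Sign functionals. -/
theorem absSQ_of_signs [CompleteSpace E] {δ : ℝ} [Intl N δ] (hδ : 0 < δ) (x : ℕ → E) [Intl N x]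
    (hx : ∀ i, ‖x i‖ ≤ 1)
    (h : ∀ n ε, Ext.Pat ε → ∃ ψ ∈ (ix N 𝕜 E).Φ, ‖ψ‖ ≤ 1 ∧ Ext.Rep δ x n ε ψ) : AbsSQ N 𝕜 E := by
  have h0 := defF_sg (N := N) (𝕜 := 𝕜) δ x
  obtain ⟨f, hf, hf'⟩ := exists_intl_choice (N := N)
    (R := fun (n : ℕ) (f : ℕ → E →L[𝕜] 𝕜) => (∀ k, n ≤ k → f k = 0) ∧ (ix N 𝕜 E).Sg δ x qq n f)
    (DefF.and (by fun_prop) h0) fun n => by
      obtain ⟨f, h1, h2, h3⟩ := Ext.signs_step hδ x qq n (h n)
      exact ⟨f, intl_of_eventually_const f h1 n (fun i hi => by rw [h2 i hi, h2 n le_rfl]), h2, h3⟩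
  obtain ⟨L, hL, hL1, hL2, hL3⟩ := exists_intl_limit (N := N)
  let P : (ℕ → ℝ) → Prop := fun u => Intl N u ∧ ∃ C, ∀ n, |u n| ≤ C
  have hB : (ix N 𝕜 E).BLim P L :=
    { zero := ⟨(inferInstance : Intl N fun _ : ℕ => (0 : ℝ)), 0, fun n => by simp⟩
      add := fun s t ⟨h1, c, hc⟩ ⟨h2, d, hd⟩ =>
        ⟨DefF.toIntl (f := fun n => s n + t n) (by fun_prop), c + d, fun n =>
          (abs_add_le _ _).trans (add_le_add (hc n) (hd n))⟩
      smul := fun r (hr : Intl N r) s ⟨h1, c, hc⟩ =>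
        ⟨DefF.toIntl (f := fun n => r * s n) (by fun_prop), |r| * c, fun n => by
          show |r * s n| ≤ _
          rw [abs_mul]
          exact mul_le_mul_of_nonneg_left (hc n) (abs_nonneg _)⟩
      map_add := fun s t hs ht => hL1 s t hs.1 ht.1 hs.2 ht.2
      map_smul := fun r hr s hs => hL2 r s hr hs.1 hs.2
      le := fun s hs r _ h => (hL3 s hs.1 hs.2).1 r h }
  have h2 := DefF.ofIntl2 (N := N) f
  have hb : ∀ n k, ∀ y : E, Intl N y → ‖f n k y‖ ≤ ‖y‖ := fun n k y hy =>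
    (hf' n).2.norm_le (hf' n).1 hy k
  have hP : ∀ k, ∀ y ∈ (ix N 𝕜 E).D, Ext.PC P fun n => f n k y := fun k y (hy : Intl N y) =>
    ⟨⟨DefF.toIntl (by fun_prop), ‖y‖, fun n => (RCLike.abs_re_le_norm _).trans (hb n k y hy)⟩,
      ⟨DefF.toIntl (by fun_prop), ‖y‖, fun n => (RCLike.abs_im_le_norm _).trans (hb n k y hy)⟩⟩
  have hex : ∀ k, ∃ φ : E →L[𝕜] 𝕜, ∀ y, Intl N y → φ y = Ext.clim L fun n => f n k y := by
    intro k
    refine exists_clm_extend _ (fun y z hy hz => ?_) (fun c y hc hy => ?_) 2 fun y hy => ?_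
    · simp only [map_add]
      exact (hB.cadd (hP k y hy) (hP k z hz)).2
    · simp only [map_smul, smul_eq_mul]
      exact (hB.cmul hc (hP k y hy)).2
    · exact hB.norm_clim (hP k y hy) fun n => hb n k y hy
  choose φ hφ using hex
  have h3 : DefF N (fun p : ℕ × E => Ext.clim L fun n => f n p.1 p.2) := by
    unfold Ext.clim
    fun_prop
  have hφI : Intl N φ := (defF_clm (h3.congr fun p hp => (hφ p.1 p.2 inferInstance).symm)).toIntl
  have hS : (ix N 𝕜 E).Star f φ := hB.star hP hφ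
  exact absSQ_of_l2 φ (show 0 < δ / 4 by positivity)
    (hS.upper (fun k => (inferInstance : Intl N (φ k))) fun n => (hf' n).2)
    (hS.lower hδ (fun i => (inferInstance : Intl N (x i))) hx qq_dense fun n => (hf' n).2)

end Vale.Agent.P129Z
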