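import Vale.Agent.P129Z.DE

/-!
# Types coded in a model; definable functions

`Coded N α`: some elements of `α` (the internal ones, `Intl N a`) are coded by elements of the
model `N`. `DefF N f`: `f` maps internal elements to internal elements and its graph on them is
definable in `N`. Predicates are functions to `Prop`. `fun_prop` proves `DefF` goals.
-/

namespace Vale.Agent.P129Z

universe v

/-- Types with a definable class of codes. -/
class Coded (N : Type v) [ZM N] (α : Type*) where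
  Int : α → Prop
  code : α → N
  inj : ∀ {a b : α}, Int a → Int b → code a = code b → a = b
  dom : D1 (fun x : N => ∃ a, Int a ∧ code a = x)

variable {N : Type v} [ZM N]

/-- internal elements -/
class Intl (N : Type v) [ZM N] {α : Type*} [Coded N α] (a : α) : Prop where
  out : Coded.Int N a

/-- the code of an element -/
def code (N : Type v) [ZM N] {α : Type*} [Coded N α] (a : α) : N := Coded.code a

/-- The codes form a set of the model. -/
class Bdd (N : Type v) [ZM N] (α : Type*) [Coded N α] : Prop where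
  car : ∃ A : N, ∀ x, x ∈ A ↔ ∃ a : α, Intl N a ∧ code N a = x

/-- All elements are internal and the codes form a set of the model. -/
class Tot (N : Type v) [ZM N] (α : Type*) [Coded N α] : Prop extends Bdd N α where
  all : ∀ a : α, Intl N a

variable {α β γ δ : Type*} [Coded N α] [Coded N β] [Coded N γ] [Coded N δ]

instance (priority := low) Tot.intl [Tot N α] (a : α) : Intl N a := Tot.all a

theorem intl_iff {a : α} : Intl N a ↔ Coded.Int N a := ⟨fun h => h.out, fun h => ⟨h⟩⟩

theorem code_inj {a b : α} (ha : Intl N a) (hb : Intl N b) (h : code N a = code N b) : a = b :=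
  Coded.inj ha.out hb.out h

variable (N α) in
/-- the class of codes -/
def Dom (x : N) : Prop := ∃ a : α, Intl N a ∧ code N a = x

theorem d1_dom : D1 (Dom N α) := (Coded.dom (N := N) (α := α)).congr fun _ =>
  exists_congr fun _ => and_congr intl_iff.symm Iff.rfl

/-- the graph of a function on codes -/
def Gr (N : Type v) [ZM N] {α β : Type*} [Coded N α] [Coded N β] (f : α → β) (x y : N) : Prop :=
  ∃ a, Intl N a ∧ code N a = x ∧ code N (f a) = y

/-- definable functions -/
@[fun_prop] def DefF (N : Type v) [ZM N] {α β : Type*} [Coded N α] [Coded N β] (f : α → β) :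
    Prop :=
  (∀ a, Intl N a → Intl N (f a)) ∧ D2 (Gr N f)

theorem DefF.intl {f : α → β} (h : DefF N f) (a : α) [ha : Intl N a] : Intl N (f a) := h.1 a ha

theorem DefF.congr {f g : α → β} (h : DefF N f) (e : ∀ a, Intl N a → f a = g a) : DefF N g :=
  ⟨fun a ha => e a ha ▸ h.1 a ha, h.2.congr fun x y => exists_congr fun a =>
    and_congr_right fun ha => by rw [e a ha]⟩

/-! ### Basic instances -/

instance codedSelf : Coded N N where
  Int _ := True
  code x := x
  inj _ _ h := h
  dom := (DE.eq 0 0).congr fun v => by simp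

instance intlSelf (x : N) : Intl N x := ⟨trivial⟩

@[simp] theorem code_self (x : N) : code N x = x := rfl

open Classical in
noncomputable instance codedProp : Coded N Prop where
  Int _ := True
  code p := if p then num 1 else num 0
  inj {a b} _ _ h := by
    by_cases ha : a <;> by_cases hb : b <;> simp_all [num_inj]
  dom := ((DE.const 0 (num 1)).or (DE.const 0 (num 0))).congr fun v => by
    constructor
    · rintro (h | h)
      · exact ⟨True, trivial, by simp [h]⟩
      · exact ⟨False, trivial, by simp [h]⟩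
    · rintro ⟨p, -, h⟩
      by_cases hp : p
      · left; rw [← h, if_pos hp]
      · right; rw [← h, if_neg hp]

open Classical in
theorem code_prop (p : Prop) : code N p = if p then num 1 else num 0 := rfl

instance : Tot N Prop where
  car := ⟨upair (num 1) (num 0), fun x => by
    rw [mem_upair]
    constructor
    · rintro (h | h)
      · exact ⟨True, ⟨trivial⟩, by simp [code_prop, h]⟩
      · exact ⟨False, ⟨trivial⟩, by simp [code_prop, h]⟩
    · rintro ⟨p, -, h⟩
      by_cases hp : p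
      · left; rw [← h, code_prop, if_pos hp]
      · right; rw [← h, code_prop, if_neg hp]⟩
  all _ := ⟨trivial⟩

noncomputable instance codedNat : Coded N ℕ where
  Int _ := True
  code := num
  inj _ _ h := num_inj.1 h
  dom := (((DE.const 0 (omega N)).imp (DE.mem 1 0)).all).congr fun v => by
    simp [mem_omega, eq_comm]

theorem code_nat (n : ℕ) : code N n = num n := rfl

instance : Tot N ℕ where
  car := ⟨omega N, fun x => by
    rw [mem_omega]
    exact ⟨fun ⟨n, h⟩ => ⟨n, ⟨trivial⟩, h.symm⟩, fun ⟨n, _, h⟩ => ⟨n, h.symm⟩⟩⟩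
  all _ := ⟨trivial⟩

noncomputable instance codedProd : Coded N (α × β) where
  Int p := Intl N p.1 ∧ Intl N p.2
  code p := op (code N p.1) (code N p.2)
  inj ha hb h := Prod.ext (code_inj ha.1 hb.1 (op_inj.1 h).1) (code_inj ha.2 hb.2 (op_inj.1 h).2)
  dom := ((((d1_dom (N := N) (α := α)).at 1).and (((d1_dom (N := N) (α := β)).at 0).and
      (DE.op 2 1 0))).ex.ex).congr fun v => by
    simp only [cons_zero, cons_one, cons_two, Dom]
    constructor
    · rintro ⟨_, _, ⟨a, ha, rfl⟩, ⟨b, hb, rfl⟩, h⟩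
      exact ⟨(a, b), ⟨ha, hb⟩, h.symm⟩
    · rintro ⟨⟨a, b⟩, ⟨ha, hb⟩, h⟩
      exact ⟨_, _, ⟨a, ha, rfl⟩, ⟨b, hb, rfl⟩, h.symm⟩

theorem code_prod (p : α × β) : code N p = op (code N p.1) (code N p.2) := rfl

theorem intl_prod {p : α × β} : Intl N p ↔ Intl N p.1 ∧ Intl N p.2 := intl_iff

instance intl_mk (a : α) (b : β) [ha : Intl N a] [hb : Intl N b] : Intl N (a, b) :=
  intl_prod.2 ⟨ha, hb⟩

instance intl_fst (p : α × β) [h : Intl N p] : Intl N p.1 := (intl_prod.1 h).1
instance intl_snd (p : α × β) [h : Intl N p] : Intl N p.2 := (intl_prod.1 h).2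

instance [Bdd N α] [Bdd N β] : Bdd N (α × β) where
  car := by
    obtain ⟨A, hA⟩ := Bdd.car (N := N) (α := α)
    obtain ⟨B, hB⟩ := Bdd.car (N := N) (α := β)
    obtain ⟨P, hP⟩ := exists_prod A B
    refine ⟨P, fun x => (hP x).trans ?_⟩
    simp only [hA, hB]
    constructor
    · rintro ⟨_, _, ⟨a, ha, rfl⟩, ⟨b, hb, rfl⟩, h⟩
      exact ⟨(a, b), inferInstance, h.symm⟩
    · rintro ⟨p, hp, h⟩
      exact ⟨_, _, ⟨p.1, inferInstance, rfl⟩, ⟨p.2, inferInstance, rfl⟩, h.symm⟩

instance [Tot N α] [Tot N β] : Tot N (α × β) where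
  all p := intl_prod.2 ⟨inferInstance, inferInstance⟩

/-! ### The basic rules -/

@[fun_prop] theorem DefF.id : DefF N (fun a : α => a) :=
  ⟨fun _ h => h, (((d1_dom (N := N) (α := α)).at 0).and (DE.eq 0 1)).congr fun v => by
    simp only [Dom, Gr]
    constructor
    · rintro ⟨⟨a, ha, h⟩, h'⟩; exact ⟨a, ha, h, h.trans h'⟩
    · rintro ⟨a, ha, h, h'⟩; exact ⟨⟨a, ha, h⟩, h.symm.trans h'⟩⟩

@[fun_prop] theorem DefF.const (c : β) [hc : Intl N c] : DefF N (fun _ : α => c) :=
  ⟨fun _ _ => hc, (((d1_dom (N := N) (α := α)).at 0).and (DE.const 1 (code N c))).congr fun v => by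
    simp only [Dom, Gr]
    constructor
    · rintro ⟨⟨a, ha, h⟩, h'⟩; exact ⟨a, ha, h, h'.symm⟩
    · rintro ⟨a, ha, h, h'⟩; exact ⟨⟨a, ha, h⟩, h'.symm⟩⟩

@[fun_prop] theorem DefF.comp {f : β → γ} {g : α → β} (hf : DefF N f) (hg : DefF N g) :
    DefF N (fun a => f (g a)) :=
  ⟨fun a ha => hf.1 _ (hg.1 a ha), (((hg.2.at 1 0).and (hf.2.at 0 2)).ex).congr fun v => by
    simp only [cons_zero, cons_one, cons_two, Gr]
    constructor
    · rintro ⟨_, ⟨a, ha, h1, rfl⟩, ⟨b, hb, h2, h3⟩⟩
      rw [code_inj hb (hg.1 a ha) h2] at h3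
      exact ⟨a, ha, h1, h3⟩
    · rintro ⟨a, ha, h1, h2⟩
      exact ⟨_, ⟨a, ha, h1, rfl⟩, ⟨g a, hg.1 a ha, rfl, h2⟩⟩⟩

@[fun_prop] theorem DefF.pair {f : α → β} {g : α → γ} (hf : DefF N f) (hg : DefF N g) :
    DefF N (fun a => (f a, g a)) :=
  ⟨fun a ha => intl_prod.2 ⟨hf.1 a ha, hg.1 a ha⟩,
    (((hf.2.at 2 1).and ((hg.2.at 2 0).and (DE.op 3 1 0))).ex.ex).congr fun v => by
    simp only [cons_zero, cons_one, cons_two, cons_three, Gr]
    constructor
    · rintro ⟨_, _, ⟨a, ha, h1, rfl⟩, ⟨b, hb, h2, rfl⟩, h3⟩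
      rw [code_inj hb ha (h2.trans h1.symm)] at h3
      exact ⟨a, ha, h1, h3.symm⟩
    · rintro ⟨a, ha, h1, h2⟩
      exact ⟨_, _, ⟨a, ha, h1, rfl⟩, ⟨a, ha, h1, rfl⟩, h2.symm⟩⟩

theorem defF_fst : DefF N (fun p : α × β => p.1) :=
  ⟨fun _ _ => inferInstance, (((d1_dom (N := N) (α := α)).at 1).and
      ((((d1_dom (N := N) (α := β)).at 0).and (DE.op 1 2 0)).ex)).congr fun v => by
    simp only [cons_zero, cons_one, cons_two, Gr, Dom]
    constructor
    · rintro ⟨⟨a, ha, h1⟩, _, ⟨b, hb, rfl⟩, h2⟩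
      exact ⟨(a, b), inferInstance, by rw [code_prod, h2, h1], h1⟩
    · rintro ⟨p, hp, h1, h2⟩
      exact ⟨⟨p.1, inferInstance, h2⟩, _, ⟨p.2, inferInstance, rfl⟩, by rw [← h1, ← h2]; rfl⟩⟩

theorem defF_snd : DefF N (fun p : α × β => p.2) :=
  ⟨fun _ _ => inferInstance, (((d1_dom (N := N) (α := β)).at 1).and
      ((((d1_dom (N := N) (α := α)).at 0).and (DE.op 1 0 2)).ex)).congr fun v => by
    simp only [cons_zero, cons_one, cons_two, Gr, Dom]
    constructor
    · rintro ⟨⟨b, hb, h1⟩, _, ⟨a, ha, rfl⟩, h2⟩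
      exact ⟨(a, b), inferInstance, by rw [code_prod, h2, h1], h1⟩
    · rintro ⟨p, hp, h1, h2⟩
      exact ⟨⟨p.2, inferInstance, h2⟩, _, ⟨p.1, inferInstance, rfl⟩, by rw [← h1, ← h2]; rfl⟩⟩

@[fun_prop] theorem DefF.fst {f : α → β × γ} (h : DefF N f) : DefF N (fun a => (f a).1) :=
  DefF.comp (f := fun p : β × γ => p.1) defF_fst h

@[fun_prop] theorem DefF.snd {f : α → β × γ} (h : DefF N f) : DefF N (fun a => (f a).2) :=
  DefF.comp (f := fun p : β × γ => p.2) defF_snd h

/-- Composition with a function of two arguments. -/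
theorem DefF.comp2 {F : β → γ → δ} (hF : DefF N (fun p : β × γ => F p.1 p.2)) {f : α → β}
    {g : α → γ} (hf : DefF N f) (hg : DefF N g) : DefF N (fun a => F (f a) (g a)) :=
  DefF.comp (f := fun p : β × γ => F p.1 p.2) hF (hf.pair hg)

theorem defF_code : DefF N (code N : α → N) :=
  ⟨fun _ _ => inferInstance, (DefF.id (N := N) (α := α)).2⟩

@[fun_prop] theorem DefF.code {f : α → β} (h : DefF N f) : DefF N (fun a => code N (f a)) :=
  DefF.comp defF_code h

/-! ### Predicates -/

/-- the class of codes of the internal elements with a property -/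
def Cl (N : Type v) [ZM N] {α : Type*} [Coded N α] (P : α → Prop) (x : N) : Prop :=
  ∃ a, Intl N a ∧ code N a = x ∧ P a

theorem defP_iff {P : α → Prop} : DefF N P ↔ D1 (Cl N P) := by
  constructor
  · intro h
    refine (((DE.const 0 (num 1)).imp (h.2.at 1 0)).all).congr fun v => ?_
    simp only [cons_zero, cons_one, Gr, Cl, forall_eq, code_prop]
    refine exists_congr fun a => and_congr_right fun _ => and_congr_right fun _ => ?_
    by_cases hp : P a <;> simp [hp, num_inj]
  · intro h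
    refine ⟨fun _ _ => inferInstance, (((h.at 0).and (DE.const 1 (num 1))).or
      ((((d1_dom (N := N) (α := α)).at 0).and (h.at 0).not).and (DE.const 1 (num 0)))).congr
      fun v => ?_⟩
    simp only [Gr, Cl, Dom, code_prop]
    constructor
    · rintro (⟨⟨a, ha, h1, hp⟩, h2⟩ | ⟨⟨⟨a, ha, h1⟩, hn⟩, h2⟩)
      · exact ⟨a, ha, h1, by rw [if_pos hp, h2]⟩
      · exact ⟨a, ha, h1, by rw [if_neg (fun hp => hn ⟨a, ha, h1, hp⟩), h2]⟩
    · rintro ⟨a, ha, h1, h2⟩
      by_cases hp : P a
      · exact Or.inl ⟨⟨a, ha, h1, hp⟩, by rw [← h2, if_pos hp]⟩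
      · refine Or.inr ⟨⟨⟨a, ha, h1⟩, ?_⟩, by rw [← h2, if_neg hp]⟩
        rintro ⟨b, hb, h3, hq⟩
        exact hp (code_inj hb ha (h3.trans h1.symm) ▸ hq)

theorem defP_of_d1 {P : α → Prop} {Q : N → Prop} (hQ : D1 Q)
    (h : ∀ a, Intl N a → (P a ↔ Q (code N a))) : DefF N P := by
  refine defP_iff.2 ((((d1_dom (N := N) (α := α)).at 0).and (hQ.at 0)).congr fun v => ?_)
  simp only [Dom, Cl]
  constructor
  · rintro ⟨⟨a, ha, h1⟩, h2⟩
    exact ⟨a, ha, h1, (h a ha).2 (h1 ▸ h2)⟩
  · rintro ⟨a, ha, h1, h2⟩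
    exact ⟨⟨a, ha, h1⟩, h1 ▸ (h a ha).1 h2⟩

theorem cl_code {P : α → Prop} {a : α} (ha : Intl N a) : Cl N P (code N a) ↔ P a :=
  ⟨fun ⟨_, hb, h, hp⟩ => code_inj hb ha h ▸ hp, fun hp => ⟨a, ha, rfl, hp⟩⟩

/-- A definable predicate on the model itself is a definable class. -/
theorem DefF.d1 {Q : N → Prop} (h : DefF N Q) : D1 Q :=
  (defP_iff.1 h).congr fun x => cl_code (a := x) inferInstance

theorem DefF.congrP {P Q : α → Prop} (h : DefF N P) (e : ∀ a, Intl N a → (P a ↔ Q a)) :
    DefF N Q := h.congr fun a ha => propext (e a ha)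

@[fun_prop] theorem DefF.imp {P Q : α → Prop} (hP : DefF N P) (hQ : DefF N Q) :
    DefF N (fun a => P a → Q a) :=
  defP_of_d1 (Q := fun x => Cl N P x → Cl N Q x)
    (((defP_iff.1 hP).at 0).imp ((defP_iff.1 hQ).at 0)) fun a ha => by
    rw [cl_code ha, cl_code ha]

@[fun_prop] theorem DefF.not {P : α → Prop} (hP : DefF N P) : DefF N (fun a => ¬ P a) :=
  hP.imp (DefF.const False)

@[fun_prop] theorem DefF.and {P Q : α → Prop} (hP : DefF N P) (hQ : DefF N Q) :
    DefF N (fun a => P a ∧ Q a) := (hP.imp hQ.not).not.congrP fun a _ => by tauto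

@[fun_prop] theorem DefF.or {P Q : α → Prop} (hP : DefF N P) (hQ : DefF N Q) :
    DefF N (fun a => P a ∨ Q a) := (hP.not.imp hQ).congrP fun a _ => by tauto

@[fun_prop] theorem DefF.iff {P Q : α → Prop} (hP : DefF N P) (hQ : DefF N Q) :
    DefF N (fun a => P a ↔ Q a) := ((hP.imp hQ).and (hQ.imp hP)).congrP fun a _ => by tauto

@[fun_prop] theorem DefF.all {P : α → β → Prop} (h : DefF N (fun p : α × β => P p.1 p.2)) :
    DefF N (fun a => ∀ b, Intl N b → P a b) := by
  refine defP_of_d1 (Q := fun x => ∀ y, Dom N β y → ∀ z, z = op x y →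
    Cl N (fun p : α × β => P p.1 p.2) z)
    ((((d1_dom (N := N) (α := β)).at 0).imp
      (((DE.op 0 2 1).imp ((defP_iff.1 h).at 0)).all)).all) fun a ha => ?_
  constructor
  · rintro H _ ⟨b, hb, rfl⟩ _ rfl
    exact ⟨(a, b), inferInstance, rfl, H b hb⟩
  · intro H b hb
    exact (cl_code (P := fun p : α × β => P p.1 p.2) (a := (a, b)) inferInstance).1
      (H _ ⟨b, hb, rfl⟩ _ rfl)

@[fun_prop] theorem DefF.ex {P : α → β → Prop} (h : DefF N (fun p : α × β => P p.1 p.2)) :
    DefF N (fun a => ∃ b, Intl N b ∧ P a b) :=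
  (DefF.all (P := fun a b => ¬ P a b) h.not).not.congrP fun a _ => by simp

@[fun_prop] theorem DefF.allT [Tot N β] {P : α → β → Prop}
    (h : DefF N (fun p : α × β => P p.1 p.2)) : DefF N (fun a => ∀ b, P a b) :=
  h.all.congrP fun _ _ => forall_congr' fun b => ⟨fun H => H inferInstance, fun H _ => H⟩

@[fun_prop] theorem DefF.exT [Tot N β] {P : α → β → Prop}
    (h : DefF N (fun p : α × β => P p.1 p.2)) : DefF N (fun a => ∃ b, P a b) :=
  h.ex.congrP fun _ _ => exists_congr fun b => ⟨fun H => H.2, fun H => ⟨inferInstance, H⟩⟩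

@[fun_prop] theorem DefF.allN {P : α → N → Prop}
    (h : DefF N (fun p : α × N => P p.1 p.2)) : DefF N (fun a => ∀ b, P a b) :=
  h.all.congrP fun _ _ => forall_congr' fun b => ⟨fun H => H inferInstance, fun H _ => H⟩

@[fun_prop] theorem DefF.exN {P : α → N → Prop}
    (h : DefF N (fun p : α × N => P p.1 p.2)) : DefF N (fun a => ∃ b, P a b) :=
  h.ex.congrP fun _ _ => exists_congr fun b => ⟨fun H => H.2, fun H => ⟨inferInstance, H⟩⟩

theorem defP_of_d2 {P : α → β → Prop} {Q : N → N → Prop} (hQ : D2 Q)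
    (h : ∀ a b, Intl N a → Intl N b → (P a b ↔ Q (code N a) (code N b))) :
    DefF N (fun p : α × β => P p.1 p.2) := by
  refine defP_of_d1 (Q := fun z => ∃ x y, z = op x y ∧ Q x y)
    (((DE.op 2 1 0).and (hQ.at 1 0)).ex.ex) fun p hp => ?_
  rw [h p.1 p.2 inferInstance inferInstance, code_prod]
  constructor
  · intro H; exact ⟨_, _, rfl, H⟩
  · rintro ⟨x, y, h1, H⟩
    obtain ⟨rfl, rfl⟩ := op_inj.1 h1
    exact H

@[fun_prop] theorem DefF.eq {f g : α → β} (hf : DefF N f) (hg : DefF N g) :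
    DefF N (fun a => f a = g a) :=
  DefF.comp2 (F := fun x y : β => x = y) (defP_of_d2 (Q := fun x y => x = y) (DE.eq 0 1)
    fun _ _ ha hb => ⟨fun h => h ▸ rfl, code_inj ha hb⟩) hf hg

@[fun_prop] theorem DefF.ne {f g : α → β} (hf : DefF N f) (hg : DefF N g) :
    DefF N (fun a => f a ≠ g a) := (hf.eq hg).not

@[fun_prop] theorem DefF.memN {f g : α → N} (hf : DefF N f) (hg : DefF N g) :
    DefF N (fun a => f a ∈ g a) :=
  DefF.comp2 (F := fun x y : N => x ∈ y) (defP_of_d2 (Q := fun x y => x ∈ y) (DE.mem 0 1)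
    fun _ _ _ _ => Iff.rfl) hf hg

/-- A function with internal values and a definable graph is definable. -/
theorem defF_of_graph {f : α → β} (h1 : ∀ a, Intl N a → Intl N (f a))
    (h2 : DefF N (fun p : α × β => f p.1 = p.2)) : DefF N f := by
  refine ⟨h1, (((DE.op 0 1 2).and ((defP_iff.1 h2).at 0)).ex).congr fun v => ?_⟩
  simp only [cons_zero, cons_one, cons_two, Gr, Cl]
  constructor
  · rintro ⟨_, rfl, p, hp, h3, h4⟩
    obtain ⟨h5, h6⟩ := op_inj.1 h3
    exact ⟨p.1, inferInstance, h5, h4 ▸ h6⟩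
  · rintro ⟨a, ha, h3, h4⟩
    have := h1 a ha
    exact ⟨_, rfl, (a, f a), inferInstance, by rw [code_prod, h3, h4], rfl⟩

/-- The same with any definable description of the graph. -/
theorem defF_of_rel {f : α → β} {R : α → β → Prop} (h1 : ∀ a, Intl N a → Intl N (f a))
    (h2 : DefF N (fun p : α × β => R p.1 p.2))
    (h3 : ∀ a b, Intl N a → Intl N b → (R a b ↔ f a = b)) : DefF N f :=
  defF_of_graph h1 (h2.congrP fun p _ => h3 p.1 p.2 inferInstance inferInstance)

@[fun_prop] theorem DefF.op {f g : α → N} (hf : DefF N f) (hg : DefF N g) :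
    DefF N (fun a => op (f a) (g a)) := (hf.pair hg).code

@[fun_prop] theorem DefF.ite {P : α → Prop} {dec : ∀ a, Decidable (P a)} {f g : α → β}
    (hP : DefF N P) (hf : DefF N f) (hg : DefF N g) :
    DefF N (fun a => @ite β (P a) (dec a) (f a) (g a)) := by
  refine defF_of_rel (R := fun a b => (P a ∧ f a = b) ∨ (¬ P a ∧ g a = b)) (fun a ha => ?_)
    (by fun_prop) fun a b _ _ => ?_
  · split_ifs
    · exact hf.1 a ha
    · exact hg.1 a ha
  · by_cases h : P a <;> simp [h]

@[fun_prop] theorem DefF.exUnique {P : α → N → Prop}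
    (h : DefF N (fun p : α × N => P p.1 p.2)) : DefF N (fun a => ∃! b, P a b) := by
  have : DefF N (fun a => ∃ b : N, P a b ∧ ∀ c : N, P a c → c = b) := by fun_prop
  exact this

/-- Being internal is definable along the codes. -/
@[fun_prop] theorem DefF.dom (β : Type*) [Coded N β] {f : α → N} (hf : DefF N f) :
    DefF N (fun a => Dom N β (f a)) :=
  DefF.comp (f := Dom N β) (defP_of_d1 d1_dom fun _ _ => Iff.rfl) hf

/-- Separation. -/
theorem DefF.sep {Q : N → Prop} (h : DefF N Q) (a : N) : ∃ b : N, ∀ x, x ∈ b ↔ x ∈ a ∧ Q x :=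
  h.d1.sep a

end Vale.Agent.P129Z
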