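import Vale.Agent.P129Z.Coded

/-!
# Coded sets, functions, finite sets and subtypes
-/

namespace Vale.Agent.P129Z

open Vale.Agent.P323.Z

universe v

variable {N : Type v} [ZM N]

/-- Replacement for definable relations. -/
theorem D2.repl {Q : N → N → Prop} (h : D2 Q) (a : N) (H : ∀ x, x ∈ a → ∃! y, Q x y) :
    ∃ b : N, ∀ y, y ∈ b ↔ ∃ x, x ∈ a ∧ Q x y := by
  obtain ⟨n, φ, σ, h₁⟩ := DE.exists_fml (h.at 1 0)
  obtain ⟨ψ, σ', h₂⟩ := exists_bind φ σ
  -- bind the second variable as well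
  classical
  let ρ : Fin (n + 1) → Fin (n + 2) := Fin.snoc (α := fun _ => Fin (n + 2))
    (fun i => if σ' i = Sum.inr 0 then (Fin.last n).castSucc else i.castSucc.castSucc)
    (Fin.last (n + 1))
  let w : Fin n → N := fun i => ((σ' i).map id (· - 1)).elim id (fun _ => a)
  have key : ∀ x y : N, Sat ZM.E (toBF (ψ.rename ρ))
      (Fin.snoc (Fin.snoc w x : Fin (n + 1) → N) y) ↔ Q x y := by
    intro x y
    rw [sat_toBF, Fml.sat_rename]
    have h3 := (h₁ (cons y (cons x fun _ => a))).trans (h₂ (cons x fun _ => a) y)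
    refine Iff.trans (iff_of_eq (congrArg _ (funext fun i => ?_))) h3.symm
    refine Fin.lastCases ?_ (fun j => ?_) i
    · simp [ρ]
    · simp only [Function.comp_apply, ρ, Fin.snoc_castSucc]
      split_ifs with h4
      · rw [h4, Fin.snoc_castSucc, Fin.snoc_last]; rfl
      · rw [Fin.snoc_castSucc, Fin.snoc_castSucc]
        simp only [w]
        rcases hs : σ' j with c | k
        · rfl
        · cases k with
          | zero => exact absurd hs h4
          | succ k => rfl
  obtain ⟨b, hb⟩ := (ZM.zf (N := N)).replacement n (toBF (ψ.rename ρ)) w a fun x hx => by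
    simpa only [key] using H x hx
  exact ⟨b, fun y => (hb y).trans (by simp only [key]; rfl)⟩

open Classical in
/-- the set of the model with the given members, if there is one -/
noncomputable def setOfN (Q : N → Prop) : N :=
  if h : ∃ A : N, ∀ x, x ∈ A ↔ Q x then h.choose else emp N

theorem mem_setOfN {Q : N → Prop} (h : ∃ A : N, ∀ x, x ∈ A ↔ Q x) {x : N} :
    x ∈ setOfN Q ↔ Q x := by
  rw [setOfN, dif_pos h]; exact h.choose_spec x

variable {α β γ δ ε : Type*} [Coded N α] [Coded N β] [Coded N γ] [Coded N δ] [Coded N ε]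

/-! ### Sets -/

noncomputable instance codedSet : Coded N (Set α) where
  Int s := (∀ a ∈ s, Intl N a) ∧ ∃ A : N, ∀ x, x ∈ A ↔ ∃ a ∈ s, code N a = x
  code s := setOfN (fun x => ∃ a ∈ s, code N a = x)
  inj {s t} hs ht h := by
    ext a
    have h1 : ∀ x : N, (∃ a ∈ s, code N a = x) ↔ ∃ a ∈ t, code N a = x := fun x => by
      rw [← mem_setOfN hs.2, ← mem_setOfN ht.2, h]
    constructor
    · intro ha
      obtain ⟨b, hb, hab⟩ := (h1 _).1 ⟨a, ha, rfl⟩
      exact code_inj (ht.1 b hb) (hs.1 a ha) hab ▸ hb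
    · intro ha
      obtain ⟨b, hb, hab⟩ := (h1 _).2 ⟨a, ha, rfl⟩
      exact code_inj (hs.1 b hb) (ht.1 a ha) hab ▸ hb
  dom := (((DE.mem 0 1).imp ((d1_dom (N := N) (α := α)).at 0)).all).congr fun v => by
    simp only [cons_zero, cons_one]
    constructor
    · intro h
      have h1 : ∀ x, x ∈ v 0 ↔ ∃ a ∈ {a : α | Intl N a ∧ code N a ∈ v 0}, code N a = x := by
        intro x
        constructor
        · intro hx
          obtain ⟨a, ha, rfl⟩ := h x hx
          exact ⟨a, ⟨ha, hx⟩, rfl⟩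
        · rintro ⟨a, ha, rfl⟩; exact ha.2
      exact ⟨{a | Intl N a ∧ code N a ∈ v 0}, ⟨fun a ha => ha.1, v 0, h1⟩,
        ext fun x => by rw [mem_setOfN ⟨v 0, h1⟩, h1]⟩
    · rintro ⟨s, hs, h⟩ x hx
      rw [← h, mem_setOfN hs.2] at hx
      obtain ⟨a, ha, rfl⟩ := hx
      exact ⟨a, hs.1 a ha, rfl⟩

theorem intl_set {s : Set α} :
    Intl N s ↔ (∀ a ∈ s, Intl N a) ∧ ∃ A : N, ∀ x, x ∈ A ↔ ∃ a ∈ s, code N a = x := intl_iff

theorem Intl.of_mem {s : Set α} (hs : Intl N s) {a : α} (ha : a ∈ s) : Intl N a :=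
  (intl_set.1 hs).1 a ha

theorem mem_code_set {s : Set α} (hs : Intl N s) {x : N} :
    x ∈ code N s ↔ ∃ a ∈ s, code N a = x := mem_setOfN (intl_set.1 hs).2

theorem code_mem_code {s : Set α} (hs : Intl N s) {a : α} (ha : Intl N a) :
    code N a ∈ code N s ↔ a ∈ s := by
  rw [mem_code_set hs]
  exact ⟨fun ⟨b, hb, h⟩ => code_inj (hs.of_mem hb) ha h ▸ hb, fun h => ⟨a, h, rfl⟩⟩

/-- A set of the model all of whose members are codes is the code of an internal set. -/
theorem exists_set_of_sub {A : N} (h : ∀ x, x ∈ A → Dom N α x) :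
    ∃ s : Set α, Intl N s ∧ code N s = A := by
  have h1 : ∀ x, x ∈ A ↔ ∃ a ∈ {a : α | Intl N a ∧ code N a ∈ A}, code N a = x := by
    intro x
    constructor
    · intro hx
      obtain ⟨a, ha, rfl⟩ := h x hx
      exact ⟨a, ⟨ha, hx⟩, rfl⟩
    · rintro ⟨a, ha, rfl⟩; exact ha.2
  have h2 : Intl N {a : α | Intl N a ∧ code N a ∈ A} := intl_set.2 ⟨fun a ha => ha.1, A, h1⟩
  exact ⟨_, h2, ext fun x => by rw [mem_code_set h2, h1]⟩

instance [Bdd N α] : Bdd N (Set α) where
  car := by
    obtain ⟨A, hA⟩ := Bdd.car (N := N) (α := α)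
    refine ⟨pow A, fun x => ?_⟩
    rw [mem_pow]
    constructor
    · intro h
      exact exists_set_of_sub fun y hy => (hA y).1 (h y hy)
    · rintro ⟨s, hs, rfl⟩ y hy
      obtain ⟨a, ha, rfl⟩ := (mem_code_set hs).1 hy
      exact (hA _).2 ⟨a, hs.of_mem ha, rfl⟩

@[fun_prop] theorem DefF.mem {f : α → β} {s : α → Set β} (hf : DefF N f) (hs : DefF N s) :
    DefF N (fun a => f a ∈ s a) :=
  DefF.comp2 (F := fun (x : β) (t : Set β) => x ∈ t) (defP_of_d2 (Q := fun x y => x ∈ y)
    (DE.mem 0 1) fun _ _ ha hb => (code_mem_code hb ha).symm) hf hs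

/-- Separation for internal sets. -/
theorem intl_sep {P : α → Prop} (hP : DefF N P) (s : Set α) [hs : Intl N s] :
    Intl N {a | a ∈ s ∧ P a} := by
  obtain ⟨B, hB⟩ := (defP_iff.1 hP).sep (code N s)
  refine intl_set.2 ⟨fun a ha => hs.of_mem ha.1, B, fun x => (hB x).trans ?_⟩
  rw [mem_code_set hs]
  constructor
  · rintro ⟨⟨a, ha, rfl⟩, h⟩
    exact ⟨a, ⟨ha, (cl_code (hs.of_mem ha)).1 h⟩, rfl⟩
  · rintro ⟨a, ha, rfl⟩
    exact ⟨⟨a, ha.1, rfl⟩, (cl_code (hs.of_mem ha.1)).2 ha.2⟩

instance intl_univI [Bdd N α] : Intl N {a : α | Intl N a} := by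
  obtain ⟨A, hA⟩ := Bdd.car (N := N) (α := α)
  exact intl_set.2 ⟨fun a ha => ha, A, hA⟩

/-- Comprehension. -/
theorem intl_setOf [Bdd N α] {P : α → Prop} (hP : DefF N P) : Intl N {a | Intl N a ∧ P a} :=
  intl_sep hP {a : α | Intl N a}

theorem intl_setOfT [Tot N α] {P : α → Prop} (hP : DefF N P) : Intl N {a | P a} := by
  have := intl_setOf hP
  simpa only [show ∀ a : α, Intl N a ↔ True from fun a => iff_true_intro inferInstance,
    true_and] using this

/-- Replacement. -/
theorem intl_image {f : α → β} (hf : DefF N f) (s : Set α) [hs : Intl N s] : Intl N (f '' s) := by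
  obtain ⟨B, hB⟩ := hf.2.repl (code N s) fun x hx => by
    obtain ⟨a, ha, rfl⟩ := (mem_code_set hs).1 hx
    refine ⟨_, ⟨a, hs.of_mem ha, rfl, rfl⟩, ?_⟩
    rintro y ⟨b, hb, h1, rfl⟩
    rw [code_inj hb (hs.of_mem ha) h1]
  refine intl_set.2 ⟨?_, B, fun y => (hB y).trans ?_⟩
  · rintro _ ⟨a, ha, rfl⟩
    exact hf.1 a (hs.of_mem ha)
  · constructor
    · rintro ⟨x, hx, a, ha, rfl, rfl⟩
      exact ⟨f a, ⟨a, (code_mem_code hs ha).1 hx, rfl⟩, rfl⟩
    · rintro ⟨_, ⟨a, ha, rfl⟩, rfl⟩
      exact ⟨_, (code_mem_code hs (hs.of_mem ha)).2 ha, a, hs.of_mem ha, rfl, rfl⟩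

theorem intl_of_finite {s : Set α} (hs : s.Finite) (h : ∀ a ∈ s, Intl N a) : Intl N s := by
  obtain ⟨A, hA⟩ := exists_of_finite (hs.image (code N))
  exact intl_set.2 ⟨h, A, hA⟩

instance intl_empty : Intl N (∅ : Set α) := intl_of_finite Set.finite_empty fun _ h => h.elim

instance intl_univ [Tot N α] : Intl N (Set.univ : Set α) :=
  intl_setOfT (P := fun _ => True) (DefF.const True)

/-- A set-valued function with internal values and a definable membership relation. -/
theorem defF_set {s : α → Set β} (h1 : ∀ a, Intl N a → Intl N (s a))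
    (h2 : DefF N (fun p : α × β => p.2 ∈ s p.1)) : DefF N s := by
  refine defF_of_rel (R := fun a (t : Set β) => ∀ b, Intl N b → (b ∈ s a ↔ b ∈ t)) h1 ?_
    fun a t ha ht => ?_
  · have h3 : DefF N (fun p : (α × Set β) × β => p.2 ∈ s p.1.1) :=
      DefF.comp2 (F := fun (a : α) (b : β) => b ∈ s a) h2 (by fun_prop) (by fun_prop)
    refine DefF.all (P := fun (p : α × Set β) (b : β) => (b ∈ s p.1 ↔ b ∈ p.2)) (h3.iff ?_)
    fun_prop
  · constructor
    · intro H
      ext b
      exact ⟨fun hb => (H b ((h1 a ha).of_mem hb)).1 hb, fun hb => (H b (ht.of_mem hb)).2 hb⟩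
    · rintro rfl b _; rfl

@[fun_prop] theorem DefF.setOf [Bdd N β] {P : α → β → Prop}
    (h : DefF N (fun p : α × β => P p.1 p.2)) : DefF N (fun a => {b | Intl N b ∧ P a b}) :=
  defF_set (fun a _ => intl_setOf (h.comp2 (DefF.const a) DefF.id))
    (h.congrP fun p _ => ⟨fun H => ⟨inferInstance, H⟩, fun H => H.2⟩)

theorem DefF.setOfT [Tot N β] {P : α → β → Prop}
    (h : DefF N (fun p : α × β => P p.1 p.2)) : DefF N (fun a => {b | P a b}) :=
  defF_set (fun a _ => intl_setOfT (h.comp2 (DefF.const a) DefF.id)) h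

/-- bounded quantifiers over internal sets -/
@[fun_prop] theorem DefF.ball {s : α → Set β} {P : α → β → Prop} (hs : DefF N s)
    (h : DefF N (fun p : α × β => P p.1 p.2)) : DefF N (fun a => ∀ b ∈ s a, P a b) := by
  have : DefF N (fun a => ∀ b, Intl N b → b ∈ s a → P a b) := by fun_prop
  exact this.congrP fun a ha => forall_congr' fun b =>
    ⟨fun H hb => H ((hs.1 a ha).of_mem hb) hb, fun H _ => H⟩

@[fun_prop] theorem DefF.bex {s : α → Set β} {P : α → β → Prop} (hs : DefF N s)
    (h : DefF N (fun p : α × β => P p.1 p.2)) : DefF N (fun a => ∃ b ∈ s a, P a b) := by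
  have : DefF N (fun a => ∃ b, Intl N b ∧ b ∈ s a ∧ P a b) := by fun_prop
  exact this.congrP fun a ha => exists_congr fun b =>
    ⟨fun H => H.2, fun H => ⟨(hs.1 a ha).of_mem H.1, H⟩⟩

@[fun_prop] theorem DefF.subset {s t : α → Set β} (hs : DefF N s) (ht : DefF N t) :
    DefF N (fun a => s a ⊆ t a) := by
  have : DefF N (fun a => ∀ b ∈ s a, b ∈ t a) := by fun_prop
  exact this

/-! ### Codings along an injection -/

/-- A coding of `σ` from an injection into a coded type whose image is definable. -/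
@[reducible] noncomputable def Coded.pull {σ : Type*} (e : σ → α)
    (inj : ∀ s t, Intl N (e s) → Intl N (e t) → e s = e t → s = t)
    (hdef : DefF N (fun a : α => ∃ s, e s = a)) : Coded N σ where
  Int s := Intl N (e s)
  code s := P129Z.code N (e s)
  inj hs ht h := inj _ _ hs ht (code_inj hs ht h)
  dom := (defP_iff.1 hdef).congr fun x => by
    constructor
    · rintro ⟨_, ha, h, s, rfl⟩; exact ⟨s, ha, h⟩
    · rintro ⟨s, hs, h⟩; exact ⟨_, hs, h, s, rfl⟩

/-! ### Functions -/

/-- the graph of a function -/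
def graph {α β : Type*} (f : α → β) : Set (α × β) := {p | f p.1 = p.2}

noncomputable instance codedFun [Tot N α] : Coded N (α → β) :=
  Coded.pull (α := Set (α × β)) graph
    (fun f g _ _ h => funext fun a => by
      have : (a, f a) ∈ graph g := h ▸ (rfl : f a = f a)
      exact this.symm)
    (by
      have : DefF N (fun s : Set (α × β) => ∀ a : α, ∃ b : β, Intl N b ∧ (a, b) ∈ s ∧
          ∀ c : β, Intl N c → (a, c) ∈ s → c = b) := by fun_prop
      refine this.congrP fun s hs => ⟨fun H => ?_, ?_⟩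
      · choose f h1 h2 h3 using H
        refine ⟨f, Set.ext fun p => ⟨fun hp => ?_, fun hp => ?_⟩⟩
        · have : p = (p.1, f p.1) := Prod.ext rfl (Eq.symm hp)
          rw [this]; exact h2 _
        · have := hs.of_mem hp
          exact (h3 p.1 p.2 inferInstance hp).symm
      · rintro ⟨f, rfl⟩ a
        have := hs.of_mem (a := (a, f a)) rfl
        exact ⟨f a, (intl_prod.1 this).2, rfl, fun c _ hc => Eq.symm hc⟩)

section Fun

variable [Tot N α] [Tot N β]

omit [Tot N β] in
theorem intl_fun_graph {f : α → γ} : Intl N f ↔ Intl N (graph f) := intl_iff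

omit [Tot N β] in
theorem code_fun (f : α → γ) : code N f = code N (graph f) := rfl

omit [Tot N β] in
instance intl_apply (f : α → γ) [hf : Intl N f] (a : α) : Intl N (f a) :=
  (intl_prod.1 ((intl_fun_graph.1 hf).of_mem (a := (a, f a)) rfl)).2

omit [Tot N β] in
theorem defF_graph : DefF N (graph : (α → γ) → Set (α × γ)) :=
  ⟨fun _ h => intl_fun_graph.1 h, (DefF.id (N := N) (α := α → γ)).2⟩

omit [Tot N β] in
theorem defF_eval : DefF N (fun p : (α → γ) × α => p.1 p.2) := by
  refine defF_of_rel (R := fun (p : (α → γ) × α) (c : γ) => (p.2, c) ∈ graph p.1)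
    (fun p _ => inferInstance) ?_ fun _ _ _ _ => Iff.rfl
  have := defF_graph (N := N) (α := α) (γ := γ)
  fun_prop

omit [Tot N β] in
/-- Definable functions on a set of the model are internal. -/
theorem DefF.toIntl {f : α → γ} (hf : DefF N f) : Intl N f := by
  have h1 := intl_image (N := N) (f := fun a => (a, f a)) (by fun_prop) (Set.univ : Set α)
  rw [intl_fun_graph]
  convert h1 using 1
  ext p
  constructor
  · intro hp; exact ⟨p.1, trivial, Prod.ext rfl hp⟩
  · rintro ⟨a, -, rfl⟩; rfl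

omit [Tot N β] in
@[fun_prop] theorem DefF.ofIntl (s : α → γ) [Intl N s] : DefF N s :=
  DefF.comp2 (F := fun (f : α → γ) (a : α) => f a) defF_eval (DefF.const s) DefF.id

omit [Tot N β] in
theorem intl_fun {f : α → γ} : Intl N f ↔ DefF N f := ⟨fun _ => DefF.ofIntl f, DefF.toIntl⟩

end Fun

@[fun_prop] theorem DefF.lam [Tot N β] (f : α → β → γ)
    (h : DefF N (fun p : α × β => f p.1 p.2)) : DefF N (fun a b => f a b) := by
  refine defF_of_rel (R := fun a (g : β → γ) => ∀ b, f a b = g b)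
    (fun a _ => (h.comp2 (DefF.const a) DefF.id).toIntl) ?_ fun a g _ _ => funext_iff.symm
  refine DefF.allT (P := fun (p : α × (β → γ)) (b : β) => f p.1 b = p.2 b) (DefF.eq ?_ ?_)
  · exact h.comp2 (DefF.id.fst.fst) DefF.id.snd
  · exact DefF.comp2 (F := fun (g : β → γ) (b : β) => g b) defF_eval DefF.id.fst.snd DefF.id.snd

/-- application, as a function -/
def app {β γ : Type*} (s : β → γ) (b : β) : γ := s b

@[fun_prop] theorem DefF.app [Tot N β] {s : α → β → γ} {n : α → β} (hs : DefF N s)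
    (hn : DefF N n) : DefF N (fun a => app (s a) (n a)) :=
  DefF.comp2 (F := fun (g : β → γ) (b : β) => g b) defF_eval hs hn

/-- application -/
theorem DefF.ap [Tot N β] {s : α → β → γ} {n : α → β} (hs : DefF N s)
    (hn : DefF N n) : DefF N (fun a => s a (n a)) := hs.app hn

@[fun_prop] theorem DefF.apply [Tot N β] (c : β) : DefF N (fun f : β → γ => f c) :=
  DefF.id.ap (DefF.const c)

@[fun_prop] theorem DefF.snd_app [Tot N γ] {f : α → β × (γ → δ)} {g : α → γ} (hf : DefF N f)
    (hg : DefF N g) : DefF N (fun a => (f a).2 (g a)) := hf.snd.ap hg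

@[fun_prop] theorem DefF.fst_app [Tot N γ] {f : α → (γ → δ) × β} {g : α → γ} (hf : DefF N f)
    (hg : DefF N g) : DefF N (fun a => (f a).1 (g a)) := hf.fst.ap hg

@[fun_prop] theorem DefF.snd_app2 [Tot N γ] [Tot N ε] {f : α → β × (γ → ε → δ)} {g : α → γ}
    {h : α → ε} (hf : DefF N f) (hg : DefF N g) (hh : DefF N h) :
    DefF N (fun a => (f a).2 (g a) (h a)) := (hf.snd.ap hg).ap hh

@[fun_prop] theorem DefF.fst_app2 [Tot N γ] [Tot N ε] {f : α → (γ → ε → δ) × β} {g : α → γ}
    {h : α → ε} (hf : DefF N f) (hg : DefF N g) (hh : DefF N h) :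
    DefF N (fun a => (f a).1 (g a) (h a)) := (hf.fst.ap hg).ap hh

/-- An internal function of two arguments, uncurried. -/
theorem DefF.ofIntl2 [Tot N α] [Tot N β] (s : α → β → γ) [Intl N s] :
    DefF N (fun p : α × β => s p.1 p.2) := ((DefF.ofIntl s).comp DefF.id.fst).ap DefF.id.snd

/-- A definable function with values in a function type, uncurried. -/
theorem DefF.uncurry [Tot N β] {s : α → β → γ} (h : DefF N s) :
    DefF N (fun p : α × β => s p.1 p.2) := (h.comp DefF.id.fst).ap DefF.id.snd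

instance [Tot N α] [Bdd N β] : Bdd N (α → β) where
  car := by
    have h1 : Intl N {s : Set (α × β) | Intl N s ∧ Dom N (α → β) (code N s)} :=
      intl_setOf (by fun_prop)
    refine ⟨code N _, fun x => (mem_code_set h1).trans ?_⟩
    constructor
    · rintro ⟨s, ⟨-, f, hf, h⟩, rfl⟩; exact ⟨f, hf, h⟩
    · rintro ⟨f, hf, rfl⟩; exact ⟨graph f, ⟨intl_fun_graph.1 hf, f, hf, rfl⟩, rfl⟩

instance intl_const [Tot N α] (c : β) [Intl N c] : Intl N (fun _ : α => c) :=
  (DefF.const c).toIntl

@[fun_prop] theorem DefF.update [Tot N β] [DecidableEq β] {f : α → β → γ} {i : α → β}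
    {c : α → γ} (hf : DefF N f) (hi : DefF N i) (hc : DefF N c) :
    DefF N (fun a => Function.update (f a) (i a) (c a)) := by
  have h1 := hf.uncurry
  have : DefF N (fun a => fun j => if j = i a then c a else f a j) := by fun_prop
  exact this.congr fun a _ => funext fun j => by rw [Function.update_apply]

instance intl_update [Tot N β] [DecidableEq β] (f : β → γ) (i : β) (c : γ) [Intl N f]
    [Intl N c] : Intl N (Function.update f i c) :=
  (DefF.update (f := fun _ : ℕ => f) (i := fun _ => i) (c := fun _ => c) (DefF.const f)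
    (DefF.const i) (DefF.const c)).intl 0

theorem intl_range [Tot N α] (f : α → β) [Intl N f] : Intl N (Set.range f) := by
  rw [← Set.image_univ]; exact intl_image (DefF.ofIntl f) _

/-! ### Elements of a set of the model -/

/-- the elements of a set of the model -/
def El (A : N) : Type v := {x : N // x ∈ A}

noncomputable instance codedEl (A : N) : Coded N (El A) :=
  Coded.pull (α := N) Subtype.val (fun _ _ _ _ h => Subtype.ext h)
    ((DefF.memN DefF.id (DefF.const A)).congrP fun a _ =>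
      ⟨fun h => ⟨⟨a, h⟩, rfl⟩, fun ⟨s, h⟩ => h ▸ s.2⟩)

theorem code_el {A : N} (x : El A) : code N x = x.1 := rfl

instance (A : N) : Tot N (El A) where
  car := ⟨A, fun x => ⟨fun h => ⟨⟨x, h⟩, ⟨intlSelf x⟩, rfl⟩, fun ⟨s, _, h⟩ => h ▸ s.2⟩⟩
  all x := ⟨intlSelf x.1⟩

end Vale.Agent.P129Z
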