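import Vale.Agent.P129Z.Coded2

/-!
# Definable operations, recursion, arithmetic, finite sets, choice
-/

namespace Vale.Agent.P129Z

open Filter

universe v

variable {N : Type v} [ZM N]
variable {α β γ δ : Type*} [Coded N α] [Coded N β] [Coded N γ] [Coded N δ]

/-! ### Classes of definable operations -/

/-- addition is definable -/
class DefAdd (N : Type v) [ZM N] (β : Type*) [Coded N β] [Add β] : Prop where
  out : DefF N (fun p : β × β => p.1 + p.2)
/-- subtraction is definable -/
class DefSub (N : Type v) [ZM N] (β : Type*) [Coded N β] [Sub β] : Prop where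
  out : DefF N (fun p : β × β => p.1 - p.2)
/-- negation is definable -/
class DefNeg (N : Type v) [ZM N] (β : Type*) [Coded N β] [Neg β] : Prop where
  out : DefF N (fun p : β => -p)
/-- multiplication is definable -/
class DefMul (N : Type v) [ZM N] (β : Type*) [Coded N β] [Mul β] : Prop where
  out : DefF N (fun p : β × β => p.1 * p.2)
/-- division is definable -/
class DefDiv (N : Type v) [ZM N] (β : Type*) [Coded N β] [Div β] : Prop where
  out : DefF N (fun p : β × β => p.1 / p.2)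
/-- inversion is definable -/
class DefInv (N : Type v) [ZM N] (β : Type*) [Coded N β] [Inv β] : Prop where
  out : DefF N (fun p : β => p⁻¹)
/-- the order is definable -/
class DefLE (N : Type v) [ZM N] (β : Type*) [Coded N β] [LE β] : Prop where
  out : DefF N (fun p : β × β => p.1 ≤ p.2)
/-- the strict order is definable -/
class DefLT (N : Type v) [ZM N] (β : Type*) [Coded N β] [LT β] : Prop where
  out : DefF N (fun p : β × β => p.1 < p.2)
/-- scalar multiplication is definable -/
class DefSMul (N : Type v) [ZM N] (β γ : Type*) [Coded N β] [Coded N γ] [SMul β γ] : Prop where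
  out : DefF N (fun p : β × γ => p.1 • p.2)
/-- powers are definable -/
class DefPow (N : Type v) [ZM N] (β : Type*) [Coded N β] [Pow β ℕ] : Prop where
  out : DefF N (fun p : β × ℕ => p.1 ^ p.2)
/-- zero is internal -/
class DefZero (N : Type v) [ZM N] (β : Type*) [Coded N β] [Zero β] : Prop where
  out : Intl N (0 : β)
/-- one is internal -/
class DefOne (N : Type v) [ZM N] (β : Type*) [Coded N β] [One β] : Prop where
  out : Intl N (1 : β)

@[fun_prop] theorem DefF.add [Add β] [h : DefAdd N β] {f g : α → β} (hf : DefF N f)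
    (hg : DefF N g) : DefF N (fun a => f a + g a) := h.out.comp2 hf hg
@[fun_prop] theorem DefF.sub [Sub β] [h : DefSub N β] {f g : α → β} (hf : DefF N f)
    (hg : DefF N g) : DefF N (fun a => f a - g a) := h.out.comp2 hf hg
@[fun_prop] theorem DefF.neg [Neg β] [h : DefNeg N β] {f : α → β} (hf : DefF N f) :
    DefF N (fun a => -f a) := h.out.comp hf
@[fun_prop] theorem DefF.mul [Mul β] [h : DefMul N β] {f g : α → β} (hf : DefF N f)
    (hg : DefF N g) : DefF N (fun a => f a * g a) := h.out.comp2 hf hg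
@[fun_prop] theorem DefF.div [Div β] [h : DefDiv N β] {f g : α → β} (hf : DefF N f)
    (hg : DefF N g) : DefF N (fun a => f a / g a) := h.out.comp2 hf hg
@[fun_prop] theorem DefF.inv [Inv β] [h : DefInv N β] {f : α → β} (hf : DefF N f) :
    DefF N (fun a => (f a)⁻¹) := h.out.comp hf
@[fun_prop] theorem DefF.le [LE β] [h : DefLE N β] {f g : α → β} (hf : DefF N f)
    (hg : DefF N g) : DefF N (fun a => f a ≤ g a) := h.out.comp2 hf hg
@[fun_prop] theorem DefF.lt [LT β] [h : DefLT N β] {f g : α → β} (hf : DefF N f)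
    (hg : DefF N g) : DefF N (fun a => f a < g a) := h.out.comp2 hf hg
@[fun_prop] theorem DefF.ge [LE β] [h : DefLE N β] {f g : α → β} (hf : DefF N f)
    (hg : DefF N g) : DefF N (fun a => f a ≥ g a) := hg.le hf
@[fun_prop] theorem DefF.gt [LT β] [h : DefLT N β] {f g : α → β} (hf : DefF N f)
    (hg : DefF N g) : DefF N (fun a => f a > g a) := hg.lt hf
@[fun_prop] theorem DefF.smul [SMul β γ] [h : DefSMul N β γ] {f : α → β} {g : α → γ}
    (hf : DefF N f) (hg : DefF N g) : DefF N (fun a => f a • g a) := h.out.comp2 hf hg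
@[fun_prop] theorem DefF.pow [Pow β ℕ] [h : DefPow N β] {f : α → β} {g : α → ℕ} (hf : DefF N f)
    (hg : DefF N g) : DefF N (fun a => f a ^ g a) := h.out.comp2 hf hg

instance intl_zero [Zero β] [h : DefZero N β] : Intl N (0 : β) := h.out
instance intl_one [One β] [h : DefOne N β] : Intl N (1 : β) := h.out
instance intl_add [Add β] [h : DefAdd N β] (a b : β) [Intl N a] [Intl N b] : Intl N (a + b) :=
  h.out.intl (a, b)
instance intl_sub [Sub β] [h : DefSub N β] (a b : β) [Intl N a] [Intl N b] : Intl N (a - b) :=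
  h.out.intl (a, b)
instance intl_neg [Neg β] [h : DefNeg N β] (a : β) [Intl N a] : Intl N (-a) := h.out.intl a
instance intl_mul [Mul β] [h : DefMul N β] (a b : β) [Intl N a] [Intl N b] : Intl N (a * b) :=
  h.out.intl (a, b)
instance intl_div [Div β] [h : DefDiv N β] (a b : β) [Intl N a] [Intl N b] : Intl N (a / b) :=
  h.out.intl (a, b)
instance intl_inv [Inv β] [h : DefInv N β] (a : β) [Intl N a] : Intl N (a⁻¹) := h.out.intl a
instance intl_smul [SMul β γ] [h : DefSMul N β γ] (a : β) (b : γ) [Intl N a] [Intl N b] :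
    Intl N (a • b) := h.out.intl (a, b)
instance intl_pow [Pow β ℕ] [h : DefPow N β] (a : β) (n : ℕ) [Intl N a] : Intl N (a ^ n) :=
  h.out.intl (a, n)

@[fun_prop] theorem DefF.max [LinearOrder β] [DefLE N β] {f g : α → β} (hf : DefF N f)
    (hg : DefF N g) : DefF N (fun a => max (f a) (g a)) := by
  have : DefF N (fun a => if f a ≤ g a then g a else f a) := by fun_prop
  exact this.congr fun a _ => (max_def _ _).symm

@[fun_prop] theorem DefF.min [LinearOrder β] [DefLE N β] {f g : α → β} (hf : DefF N f)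
    (hg : DefF N g) : DefF N (fun a => min (f a) (g a)) := by
  have : DefF N (fun a => if f a ≤ g a then f a else g a) := by fun_prop
  exact this.congr fun a _ => (min_def _ _).symm

instance intl_max [LinearOrder β] [DefLE N β] (a b : β) [Intl N a] [Intl N b] :
    Intl N (max a b) := (DefF.max DefF.id (DefF.const b)).intl a
instance intl_min [LinearOrder β] [DefLE N β] (a b : β) [Intl N a] [Intl N b] :
    Intl N (min a b) := (DefF.min DefF.id (DefF.const b)).intl a

/-! ### Natural numbers and recursion -/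

instance : DefLT N ℕ :=
  ⟨defP_of_d2 (Q := fun x y => x ∈ y) (DE.mem 0 1) fun _ _ _ _ => num_mem_num.symm⟩

instance : DefLE N ℕ := ⟨by
  have : DefF N (fun p : ℕ × ℕ => ¬ p.2 < p.1) := by fun_prop
  exact this.congrP fun p _ => not_lt⟩

instance : DefZero N ℕ := ⟨inferInstance⟩
instance : DefOne N ℕ := ⟨inferInstance⟩

theorem defF_succ : DefF N (fun n : ℕ => n + 1) := by
  refine defF_of_rel (R := fun m n : ℕ => m < n ∧ ∀ k, m < k → n ≤ k) (fun _ _ => inferInstance)
    (by fun_prop) fun m n _ _ => ⟨fun h => ?_, ?_⟩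
  · have := h.2 (m + 1) (Nat.lt_succ_self m)
    omega
  · rintro rfl
    exact ⟨Nat.lt_succ_self m, fun k hk => hk⟩

/-- Eventually constant sequences of internal elements are internal. -/
theorem intl_of_eventually_const (t : ℕ → β) (h : ∀ i, Intl N (t i)) (n : ℕ)
    (hn : ∀ i, n ≤ i → t i = t n) : Intl N t := by
  have key : ∀ m, Intl N (fun i => if i < m then t i else t n) := by
    intro m
    induction m with
    | zero => simp only [Nat.not_lt_zero, if_false]; infer_instance
    | succ m ih =>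
      have : (fun i => if i < m + 1 then t i else t n) =
          Function.update (fun i => if i < m then t i else t n) m (t m) := by
        funext i
        rw [Function.update_apply]
        split_ifs <;> first | rfl | omega | simp_all
      rw [this]
      infer_instance
  have : t = fun i => if i < n then t i else t n := by
    funext i
    split_ifs with h1
    · rfl
    · exact hn i (not_lt.1 h1)
  rw [this]
  exact key n

theorem intl_trunc (t : ℕ → β) (n : ℕ) (h : ∀ i < n, Intl N (t i)) (c : β) [Intl N c] :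
    Intl N (fun i => if i < n then t i else c) :=
  intl_of_eventually_const _ (fun i => by split_ifs with h1; exacts [h i h1, inferInstance]) n
    fun i hi => by simp [not_lt.2 hi]

/-- Recursion, uniformly in a parameter. -/
theorem DefF.natRec {z : α → β} {s : α → ℕ → β → β} (hz : DefF N z)
    (hs : DefF N (fun p : α × ℕ × β => s p.1 p.2.1 p.2.2)) :
    DefF N (fun p : α × ℕ => (Nat.rec (z p.1) (s p.1) p.2 : β)) := by
  have hI : ∀ a, Intl N a → ∀ n : ℕ, Intl N (Nat.rec (z a) (s a) n : β) := by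
    intro a ha n
    induction n with
    | zero => exact hz.1 a ha
    | succ n ih => exact hs.intl (a, n, _)
  have h1 := defF_succ (N := N)
  refine defF_of_rel (R := fun (p : α × ℕ) (b : β) => ∃ t : ℕ → β, Intl N t ∧ t 0 = z p.1 ∧
    (∀ i, i < p.2 → t (i + 1) = s p.1 i (t i)) ∧ t p.2 = b)
    (fun p _ => hI p.1 inferInstance p.2) ?_ fun p b hp hb => ⟨?_, ?_⟩
  · have h2 : DefF N (fun q : (((α × ℕ) × β) × (ℕ → β)) × ℕ => s q.1.1.1.1 q.2 (q.1.2 q.2)) :=
      DefF.comp (f := fun p : α × ℕ × β => s p.1 p.2.1 p.2.2)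
        (g := fun q : (((α × ℕ) × β) × (ℕ → β)) × ℕ => (q.1.1.1.1, q.2, q.1.2 q.2)) hs
        (by fun_prop)
    have h3 : DefF N (fun q : (((α × ℕ) × β) × (ℕ → β)) × ℕ => q.1.2 (q.2 + 1)) :=
      DefF.id.fst.snd.ap (h1.comp DefF.id.snd)
    refine DefF.ex (P := fun (q : (α × ℕ) × β) (t : ℕ → β) => t 0 = z q.1.1 ∧
      (∀ i, i < q.1.2 → t (i + 1) = s q.1.1 i (t i)) ∧ t q.1.2 = q.2) (DefF.and ?_ (DefF.and ?_ ?_))
    · fun_prop
    · exact DefF.allT (P := fun (q : ((α × ℕ) × β) × (ℕ → β)) (i : ℕ) =>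
        i < q.1.1.2 → q.2 (i + 1) = s q.1.1.1 i (q.2 i)) (DefF.imp (by fun_prop) (h3.eq h2))
    · fun_prop
  · rintro ⟨t, -, h2, h3, rfl⟩
    have : ∀ i ≤ p.2, (Nat.rec (z p.1) (s p.1) i : β) = t i := by
      intro i hi
      induction i with
      | zero => exact h2.symm
      | succ i ih => rw [h3 i hi, ← ih (Nat.le_of_succ_le hi)]
    exact this _ le_rfl
  · rintro rfl
    have h4 := hz.intl p.1
    refine ⟨fun i => if i < p.2 + 1 then Nat.rec (z p.1) (s p.1) i else z p.1,
      intl_trunc _ _ (fun i _ => hI p.1 inferInstance i) _, by simp,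
      fun i hi => ?_, by simp⟩
    beta_reduce
    rw [if_pos (by omega), if_pos (by omega)]

/-- A function defined by recursion equations is definable. -/
theorem defF_of_rec {F : α → ℕ → β} {s : α → ℕ → β → β} (hz : DefF N (fun a => F a 0))
    (hs : DefF N (fun p : α × ℕ × β => s p.1 p.2.1 p.2.2))
    (h : ∀ a, Intl N a → ∀ n, F a (n + 1) = s a n (F a n)) :
    DefF N (fun p : α × ℕ => F p.1 p.2) :=
  (hz.natRec hs).congr fun p _ => by
    obtain ⟨a, n⟩ := p
    have ha : Intl N a := (intl_prod.1 ‹_›).1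
    induction n with
    | zero => rfl
    | succ n ih => rw [h a ha, ← ih inferInstance]

/-- A sequence defined by recursion equations is internal. -/
theorem intl_of_rec {F : ℕ → β} {s : ℕ → β → β} (hz : Intl N (F 0))
    (hs : DefF N (fun p : ℕ × β => s p.1 p.2)) (h : ∀ n, F (n + 1) = s n (F n)) : Intl N F := by
  have := defF_of_rec (N := N) (α := ℕ) (F := fun _ => F) (s := fun _ => s) (DefF.const _)
    (hs.comp2 (by fun_prop) (by fun_prop)) fun _ _ => h
  exact (this.comp2 (F := fun _ n => F n) (DefF.const 0) DefF.id).toIntl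

instance : DefAdd N ℕ :=
  ⟨defF_of_rec (F := fun a n => a + n) (s := fun _ _ b => b + 1) DefF.id
    (defF_succ.comp DefF.id.snd.snd) fun _ _ _ => rfl⟩

instance : DefMul N ℕ :=
  ⟨defF_of_rec (F := fun a n => a * n) (s := fun a _ b => b + a) (DefF.const 0)
    (by fun_prop) fun _ _ _ => rfl⟩

/-- Powers in a monoid. -/
theorem defPow_of_mul [Monoid β] [DefMul N β] [DefOne N β] : DefPow N β :=
  ⟨defF_of_rec (F := fun (a : β) n => a ^ n) (s := fun a _ b => b * a)
    ((DefF.const 1).congr fun a _ => (pow_zero a).symm) (by fun_prop) fun a _ n => pow_succ a n⟩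

instance : DefPow N ℕ := defPow_of_mul

instance : DefSub N ℕ := ⟨defF_of_rel (R := fun (p : ℕ × ℕ) (c : ℕ) =>
    (p.1 ≤ p.2 ∧ c = 0) ∨ p.1 = p.2 + c) (fun _ _ => inferInstance) (by fun_prop)
    fun p c _ _ => by omega⟩

instance : DefDiv N ℕ := ⟨defF_of_rel (R := fun (p : ℕ × ℕ) (c : ℕ) =>
    (p.2 = 0 ∧ c = 0) ∨ (p.2 * c ≤ p.1 ∧ p.1 < p.2 * (c + 1))) (fun _ _ => inferInstance)
    (by fun_prop) fun p c _ _ => by
      constructor
      · rintro (⟨h1, h2⟩ | ⟨h1, h2⟩)
        · simp [h1, h2]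
        · exact Nat.div_eq_of_lt_le (by rwa [mul_comm]) (by rwa [mul_comm])
      · rintro rfl
        rcases Nat.eq_zero_or_pos p.2 with h | h
        · exact Or.inl ⟨h, by simp [h]⟩
        · exact Or.inr ⟨Nat.mul_div_le _ _, Nat.lt_mul_div_succ _ h⟩⟩

@[fun_prop] theorem DefF.natMod {f g : α → ℕ} (hf : DefF N f) (hg : DefF N g) :
    DefF N (fun a => f a % g a) := by
  have : DefF N (fun a => f a - g a * (f a / g a)) := by fun_prop
  exact this.congr fun a _ => (Nat.mod_def _ _).symm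

@[fun_prop] theorem DefF.natSucc {f : α → ℕ} (hf : DefF N f) : DefF N (fun a => (f a).succ) :=
  defF_succ.comp hf

@[fun_prop] theorem DefF.natPair {f g : α → ℕ} (hf : DefF N f) (hg : DefF N g) :
    DefF N (fun a => Nat.pair (f a) (g a)) := by
  unfold Nat.pair
  fun_prop

@[fun_prop] theorem DefF.unpair {f : α → ℕ} (hf : DefF N f) :
    DefF N (fun a => Nat.unpair (f a)) := by
  refine DefF.comp (f := Nat.unpair) (defF_of_rel (R := fun n (p : ℕ × ℕ) => Nat.pair p.1 p.2 = n)
    (fun _ _ => inferInstance) (by fun_prop) fun n p _ _ => ⟨?_, ?_⟩) hf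
  · rintro rfl; simp
  · rintro rfl; simp

@[fun_prop] theorem DefF.eventually {P : α → ℕ → Prop} (h : DefF N (fun p : α × ℕ => P p.1 p.2)) :
    DefF N (fun a => ∀ᶠ n in atTop, P a n) := by
  have : DefF N (fun a => ∃ m : ℕ, ∀ n, m ≤ n → P a n) := by fun_prop
  exact this.congrP fun a _ => eventually_atTop.symm

@[fun_prop] theorem DefF.frequently {P : α → ℕ → Prop} (h : DefF N (fun p : α × ℕ => P p.1 p.2)) :
    DefF N (fun a => ∃ᶠ n in atTop, P a n) := by
  have : DefF N (fun a => ∀ m : ℕ, ∃ n, m ≤ n ∧ P a n) := by fun_prop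
  exact this.congrP fun a _ => frequently_atTop.symm

/-- the least natural number with a property -/
@[fun_prop] theorem DefF.natSInf {s : α → Set ℕ} (h : DefF N (fun p : α × ℕ => p.2 ∈ s p.1)) :
    DefF N (fun a => sInf (s a)) := by
  have h1 : DefF N s := defF_set (fun a _ => intl_setOfT (h.comp2 (F := fun a n => n ∈ s a)
    (DefF.const a) DefF.id)) h
  refine defF_of_rel (R := fun a (n : ℕ) => (n ∈ s a ∧ ∀ m, m ∈ s a → n ≤ m) ∨
    ((∀ m, ¬ m ∈ s a) ∧ n = 0)) (fun _ _ => inferInstance) (by fun_prop) fun a n _ _ => ?_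
  rcases (s a).eq_empty_or_nonempty with h2 | h2
  · simp [h2, eq_comm]
  · constructor
    · rintro (⟨h3, h4⟩ | ⟨h3, -⟩)
      · exact le_antisymm (Nat.sInf_le h3) (h4 _ (Nat.sInf_mem h2))
      · obtain ⟨m, hm⟩ := h2; exact absurd hm (h3 m)
    · rintro rfl
      exact Or.inl ⟨Nat.sInf_mem h2, fun m hm => Nat.sInf_le hm⟩

theorem DefF.sum_range [AddCommMonoid β] [DefAdd N β] [DefZero N β] {f : α → ℕ → β}
    {g : α → ℕ} (hf : DefF N (fun p : α × ℕ => f p.1 p.2)) (hg : DefF N g) :
    DefF N (fun a => ∑ i ∈ Finset.range (g a), f a i) := by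
  have := defF_of_rec (N := N) (F := fun a n => ∑ i ∈ Finset.range n, f a i)
    (s := fun a n b => b + f a n) ((DefF.const 0).congr fun a _ => by simp) (by fun_prop)
    fun a _ n => Finset.sum_range_succ _ _
  exact this.comp2 (F := fun a n => ∑ i ∈ Finset.range n, f a i) DefF.id hg

/-! ### Choice -/

/-- A definable choice of witnesses from an internal set. -/
theorem exists_defF_choice_of_set [Nonempty β] (B : Set β) [hB : Intl N B] {R : α → β → Prop}
    (hR : DefF N (fun p : α × β => R p.1 p.2)) (h : ∀ a, Intl N a → ∃ b ∈ B, R a b) :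
    ∃ f : α → β, DefF N f ∧ ∀ a, Intl N a → f a ∈ B ∧ R a (f a) := by
  classical
  obtain ⟨r, hr1, hr2⟩ := ZM.wo (code N B)
  simp only [pairMem_iff] at hr1 hr2
  have key : ∀ a, Intl N a → ∃ b, (b ∈ B ∧ R a b) ∧
      ∀ c ∈ B, R a c → op (code N c) (code N b) ∉ r := by
    intro a ha
    obtain ⟨b, hb, hb'⟩ := h a ha
    obtain ⟨x, ⟨c, hc, rfl⟩, hx⟩ := hr2.has_min {x | ∃ c, (c ∈ B ∧ R a c) ∧ code N c = x}
      ⟨_, b, ⟨hb, hb'⟩, rfl⟩
    exact ⟨c, hc, fun d hd hd' => hx _ ⟨d, ⟨hd, hd'⟩, rfl⟩⟩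
  choose! f hf1 hf2 using key
  refine ⟨f, defF_of_rel (R := fun a b => (b ∈ B ∧ R a b) ∧
    ∀ c ∈ B, R a c → ¬ op (code N c) (code N b) ∈ r) (fun a ha => hB.of_mem (hf1 a ha).1)
    (by fun_prop) fun a b ha hb => ⟨fun H => ?_, ?_⟩, hf1⟩
  · by_contra hne
    have h1 := hB.of_mem (hf1 a ha).1
    rcases hr1 _ _ ((code_mem_code hB h1).2 (hf1 a ha).1) ((code_mem_code hB hb).2 H.1.1)
      (fun e => hne (code_inj h1 hb e)) with h2 | h2
    · exact H.2 _ (hf1 a ha).1 (hf1 a ha).2 h2
    · exact hf2 a ha _ H.1.1 H.1.2 h2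
  · rintro rfl
    exact ⟨hf1 a ha, hf2 a ha⟩

/-- A definable choice of witnesses. -/
theorem exists_defF_choice [Nonempty β] [Bdd N β] {R : α → β → Prop}
    (hR : DefF N (fun p : α × β => R p.1 p.2)) (h : ∀ a, Intl N a → ∃ b, Intl N b ∧ R a b) :
    ∃ f : α → β, DefF N f ∧ ∀ a, Intl N a → R a (f a) := by
  obtain ⟨f, h1, h2⟩ := exists_defF_choice_of_set {b : β | Intl N b} hR h
  exact ⟨f, h1, fun a ha => (h2 a ha).2⟩

/-- The axiom of choice. -/
theorem exists_intl_choice [Tot N α] [Bdd N β] {R : α → β → Prop}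
    (hR : DefF N (fun p : α × β => R p.1 p.2)) (h : ∀ a, ∃ b, Intl N b ∧ R a b) :
    ∃ f : α → β, Intl N f ∧ ∀ a, R a (f a) := by
  rcases isEmpty_or_nonempty α with hα | hα
  · refine ⟨fun a => isEmptyElim a, intl_fun_graph.2 ?_, fun a => isEmptyElim a⟩
    have : graph (fun a : α => (isEmptyElim a : β)) = ∅ := by
      ext p; exact isEmptyElim p.1
    rw [this]; infer_instance
  · obtain ⟨a⟩ := hα
    obtain ⟨b, -⟩ := h a
    have : Nonempty β := ⟨b⟩
    obtain ⟨f, h1, h2⟩ := exists_defF_choice hR fun a _ => h a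
    exact ⟨f, h1.toIntl, fun a => h2 a inferInstance⟩

/-- Dependent choice. The invariant need not be definable. -/
theorem exists_intl_seq [Bdd N β] {R : ℕ → β → β → Prop}
    (hR : DefF N (fun p : ℕ × β × β => R p.1 p.2.1 p.2.2)) (Inv : ℕ → β → Prop) (b₀ : β)
    [Intl N b₀] (h0 : Inv 0 b₀)
    (hstep : ∀ n b, Intl N b → Inv n b → ∃ c, Intl N c ∧ R n b c)
    (hInv : ∀ n b c, Intl N b → Intl N c → Inv n b → R n b c → Inv (n + 1) c) :
    ∃ s : ℕ → β, Intl N s ∧ s 0 = b₀ ∧ ∀ n, Inv n (s n) ∧ R n (s n) (s (n + 1)) := by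
  have : Nonempty β := ⟨b₀⟩
  have hR' : DefF N (fun p : (ℕ × β) × β => R p.1.1 p.1.2 p.2) :=
    DefF.comp (f := fun p : ℕ × β × β => R p.1 p.2.1 p.2.2)
      (g := fun p : (ℕ × β) × β => (p.1.1, p.1.2, p.2)) hR (by fun_prop)
  have hR'' : DefF N (fun p : ((ℕ × β) × β) × β => R p.1.1.1 p.1.1.2 p.2) :=
    DefF.comp (f := fun p : ℕ × β × β => R p.1 p.2.1 p.2.2)
      (g := fun p : ((ℕ × β) × β) × β => (p.1.1.1, p.1.1.2, p.2)) hR (by fun_prop)
  obtain ⟨f, hf1, hf2⟩ := exists_defF_choice (N := N) (α := ℕ × β) (β := β)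
    (R := fun p c => (∃ d, Intl N d ∧ R p.1 p.2 d) → R p.1 p.2 c)
    (DefF.imp (DefF.ex (P := fun (p : (ℕ × β) × β) (d : β) => R p.1.1 p.1.2 d) hR'') hR')
    fun p _ => by
      by_cases h : ∃ d, Intl N d ∧ R p.1 p.2 d
      · obtain ⟨d, hd, hd'⟩ := h
        exact ⟨d, hd, fun _ => hd'⟩
      · exact ⟨b₀, inferInstance, fun h' => absurd h' h⟩
  let s : ℕ → β := fun n => Nat.rec b₀ (fun n b => f (n, b)) n
  have hs : Intl N s := intl_of_rec (s := fun n b => f (n, b)) ‹_› hf1 fun _ => rfl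
  have hsn : ∀ n, Intl N (s n) := fun n => @intl_apply N _ ℕ β _ _ _ s hs n
  have h1 : ∀ n, Inv n (s n) → R n (s n) (s (n + 1)) := fun n h =>
    hf2 (n, s n) (intl_prod.2 ⟨inferInstance, hsn n⟩) (hstep n (s n) (hsn n) h)
  have h2 : ∀ n, Inv n (s n) := by
    intro n
    induction n with
    | zero => exact h0
    | succ n ih => exact hInv n _ _ (hsn n) (hsn (n + 1)) ih (h1 n ih)
  exact ⟨s, hs, rfl, fun n => ⟨h2 n, h1 n (h2 n)⟩⟩

end Vale.Agent.P129Z
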