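import Vale.Agent.P129Z.Coded3

/-!
# Coded finite sets
-/

namespace Vale.Agent.P129Z

open Filter

universe v

variable {N : Type v} [ZM N]
variable {α β γ δ : Type*} [Coded N α] [Coded N β] [Coded N γ] [Coded N δ]

theorem defF_finite : DefF N (fun s : Set α => s.Finite) := by
  have : DefF N (fun s : Set α => ∃ n : ℕ, ∃ R : Set (ℕ × α), Intl N R ∧
      (∀ a ∈ s, ∃ i, i < n ∧ (i, a) ∈ R) ∧
      ∀ i : ℕ, ∀ a : α, Intl N a → ∀ b : α, Intl N b → (i, a) ∈ R → (i, b) ∈ R → a = b) := by
    fun_prop
  refine this.congrP fun s hs => ⟨?_, fun h => ?_⟩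
  · rintro ⟨n, R, -, h1, h2⟩
    choose! f hf1 hf2 using h1
    refine Set.Finite.of_finite_image (f := f) ((Set.finite_Iio n).subset ?_) ?_
    · rintro _ ⟨a, ha, rfl⟩; exact hf1 a ha
    · intro a ha b hb hab
      exact h2 (f a) a (hs.of_mem ha) b (hs.of_mem hb) (hf2 a ha) (hab ▸ hf2 b hb)
  · obtain ⟨n, e, he⟩ := h.fin_param
    refine ⟨n, Set.range (fun i : Fin n => (i.1, e i)), intl_of_finite (Set.finite_range _) ?_,
      fun a ha => ?_, ?_⟩
    · rintro _ ⟨i, rfl⟩
      have : Intl N (e i) := hs.of_mem (he.2 ▸ Set.mem_range_self i)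
      infer_instance
    · obtain ⟨i, rfl⟩ : a ∈ Set.range e := he.2 ▸ ha
      exact ⟨i, i.2, i, rfl⟩
    · rintro i a - b - ⟨j, hj⟩ ⟨k, hk⟩
      obtain ⟨h1, h2⟩ := Prod.ext_iff.1 hj
      obtain ⟨h3, h4⟩ := Prod.ext_iff.1 hk
      have : j = k := Fin.ext (h1.trans h3.symm)
      exact h2.symm.trans (this ▸ h4)

@[fun_prop] theorem DefF.finite {s : α → Set β} (h : DefF N s) : DefF N (fun a => (s a).Finite) :=
  defF_finite.comp h

noncomputable instance codedFinset : Coded N (Finset α) :=
  Coded.pull (α := Set α) (fun t => (t : Set α)) (fun _ _ _ _ h => Finset.coe_injective h)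
    (defF_finite.congrP fun s _ => ⟨fun h => ⟨h.toFinset, h.coe_toFinset⟩,
      fun ⟨t, h⟩ => h ▸ t.finite_toSet⟩)

theorem intl_finset_coe {t : Finset α} : Intl N t ↔ Intl N (t : Set α) := intl_iff

theorem code_finset (t : Finset α) : code N t = code N (t : Set α) := rfl

theorem intl_finset {t : Finset α} : Intl N t ↔ ∀ a ∈ t, Intl N a :=
  intl_finset_coe.trans ⟨fun h _ ha => h.of_mem ha, fun h => intl_of_finite t.finite_toSet h⟩

theorem Intl.of_mem_finset {t : Finset α} (ht : Intl N t) {a : α} (ha : a ∈ t) : Intl N a :=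
  intl_finset.1 ht a ha

instance intl_finset_coe' (t : Finset α) [h : Intl N t] : Intl N (t : Set α) := intl_finset_coe.1 h

@[fun_prop] theorem DefF.finsetCoe {t : α → Finset β} (h : DefF N t) :
    DefF N (fun a => (t a : Set β)) :=
  DefF.comp (f := fun t : Finset β => (t : Set β))
    ⟨fun _ h => intl_finset_coe.1 h, (DefF.id (N := N) (α := Finset β)).2⟩ h

@[fun_prop] theorem DefF.memFinset {f : α → β} {t : α → Finset β} (hf : DefF N f)
    (ht : DefF N t) : DefF N (fun a => f a ∈ t a) := hf.mem ht.finsetCoe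

instance [Bdd N α] : Bdd N (Finset α) where
  car := by
    have h1 : Intl N {s : Set α | Intl N s ∧ Dom N (Finset α) (code N s)} :=
      intl_setOf (by fun_prop)
    refine ⟨code N _, fun x => (mem_code_set h1).trans ?_⟩
    constructor
    · rintro ⟨s, ⟨-, f, hf, h⟩, rfl⟩; exact ⟨f, hf, h⟩
    · rintro ⟨f, hf, rfl⟩; exact ⟨(f : Set α), ⟨intl_finset_coe.1 hf, f, hf, rfl⟩, rfl⟩

instance [Tot N α] : Tot N (Finset α) where
  all _ := intl_finset.2 fun _ _ => inferInstance

@[fun_prop] theorem DefF.ballF {s : α → Finset β} {P : α → β → Prop} (hs : DefF N s)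
    (h : DefF N (fun p : α × β => P p.1 p.2)) : DefF N (fun a => ∀ b ∈ s a, P a b) :=
  DefF.ball hs.finsetCoe h

@[fun_prop] theorem DefF.bexF {s : α → Finset β} {P : α → β → Prop} (hs : DefF N s)
    (h : DefF N (fun p : α × β => P p.1 p.2)) : DefF N (fun a => ∃ b ∈ s a, P a b) :=
  DefF.bex hs.finsetCoe h

/-- A function to finite sets with internal members and a definable membership relation. -/
theorem defF_finset {t : α → Finset β} (h1 : ∀ a, Intl N a → ∀ b ∈ t a, Intl N b)
    (h2 : DefF N (fun p : α × β => p.2 ∈ t p.1)) : DefF N t := by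
  have h3 : DefF N (fun a => (t a : Set β)) :=
    defF_set (fun a ha => intl_of_finite (t a).finite_toSet (h1 a ha)) h2
  exact ⟨fun a ha => intl_finset.2 (h1 a ha), h3.2⟩

instance intl_finset_empty : Intl N (∅ : Finset α) := intl_finset.2 fun _ h => by simp at h

@[fun_prop] theorem DefF.range {g : α → ℕ} (hg : DefF N g) :
    DefF N (fun a => Finset.range (g a)) :=
  defF_finset (fun _ _ _ _ => inferInstance) (by simp only [Finset.mem_range]; fun_prop)

@[fun_prop] theorem DefF.Ico {f g : α → ℕ} (hf : DefF N f) (hg : DefF N g) :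
    DefF N (fun a => Finset.Ico (f a) (g a)) :=
  defF_finset (fun _ _ _ _ => inferInstance) (by simp only [Finset.mem_Ico]; fun_prop)

@[fun_prop] theorem DefF.Icc {f g : α → ℕ} (hf : DefF N f) (hg : DefF N g) :
    DefF N (fun a => Finset.Icc (f a) (g a)) :=
  defF_finset (fun _ _ _ _ => inferInstance) (by simp only [Finset.mem_Icc]; fun_prop)

@[fun_prop] theorem DefF.singleton {f : α → β} (hf : DefF N f) :
    DefF N (fun a => ({f a} : Finset β)) :=
  defF_finset (fun a ha b hb => by rw [Finset.mem_singleton.1 hb]; exact hf.1 a ha)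
    (by simp only [Finset.mem_singleton]; fun_prop)

@[fun_prop] theorem DefF.insert [DecidableEq β] {f : α → β} {t : α → Finset β} (hf : DefF N f)
    (ht : DefF N t) : DefF N (fun a => insert (f a) (t a)) :=
  defF_finset (fun a ha b hb => by
      rcases Finset.mem_insert.1 hb with rfl | hb
      exacts [hf.1 a ha, (ht.1 a ha).of_mem_finset hb])
    (by simp only [Finset.mem_insert]; fun_prop)

@[fun_prop] theorem DefF.unionF [DecidableEq β] {s t : α → Finset β} (hs : DefF N s)
    (ht : DefF N t) : DefF N (fun a => s a ∪ t a) :=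
  defF_finset (fun a ha b hb => by
      rcases Finset.mem_union.1 hb with hb | hb
      exacts [(hs.1 a ha).of_mem_finset hb, (ht.1 a ha).of_mem_finset hb])
    (by simp only [Finset.mem_union]; fun_prop)

@[fun_prop] theorem DefF.erase [DecidableEq β] {f : α → β} {t : α → Finset β} (ht : DefF N t)
    (hf : DefF N f) : DefF N (fun a => (t a).erase (f a)) :=
  defF_finset (fun a ha b hb => (ht.1 a ha).of_mem_finset (Finset.mem_of_mem_erase hb))
    (by simp only [Finset.mem_erase]; fun_prop)

@[fun_prop] theorem DefF.filter {t : α → Finset β} {P : α → β → Prop}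
    {dec : ∀ a, DecidablePred (P a)} (ht : DefF N t)
    (h : DefF N (fun p : α × β => P p.1 p.2)) :
    DefF N (fun a => @Finset.filter β (P a) (dec a) (t a)) :=
  defF_finset (fun a ha b hb => (ht.1 a ha).of_mem_finset (Finset.mem_of_mem_filter _ hb))
    (by simp only [Finset.mem_filter]; fun_prop)

@[fun_prop] theorem DefF.image [DecidableEq γ] {t : α → Finset β} {f : α → β → γ}
    (hf : DefF N (fun p : α × β => f p.1 p.2)) (ht : DefF N t) :
    DefF N (fun a => (t a).image (f a)) :=
  defF_finset (fun a ha c hc => by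
      obtain ⟨b, hb, rfl⟩ := Finset.mem_image.1 hc
      have := (ht.1 a ha).of_mem_finset hb
      exact hf.intl (a, b))
    (by simp only [Finset.mem_image]; fun_prop)

@[fun_prop] theorem DefF.subsetF {s t : α → Finset β} (hs : DefF N s) (ht : DefF N t) :
    DefF N (fun a => s a ⊆ t a) := by
  have : DefF N (fun a => ∀ b ∈ s a, b ∈ t a) := by fun_prop
  exact this

theorem intl_sum [AddCommMonoid β] [DefAdd N β] [DefZero N β] {ι : Type*} (s : Finset ι)
    (f : ι → β) (h : ∀ i ∈ s, Intl N (f i)) : Intl N (∑ i ∈ s, f i) :=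
  Finset.sum_induction f (fun b => Intl N b) (fun _ _ _ _ => inferInstance) inferInstance h

instance intl_sum' [AddCommMonoid β] [DefAdd N β] [DefZero N β] {ι : Type*} (s : Finset ι)
    (f : ι → β) [∀ i, Intl N (f i)] : Intl N (∑ i ∈ s, f i) :=
  intl_sum s f fun _ _ => inferInstance

/-- Finite sums. -/
@[fun_prop] theorem DefF.sum [AddCommMonoid γ] [DefAdd N γ] [DefZero N γ] {t : α → Finset β}
    {f : α → β → γ} (hf : DefF N (fun p : α × β => f p.1 p.2)) (ht : DefF N t) :
    DefF N (fun a => ∑ b ∈ t a, f a b) := by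
  classical
  -- the graph: partial sums along an enumeration
  refine defF_of_rel (R := fun a (c : γ) => (t a = ∅ ∧ c = 0) ∨ ∃ n : ℕ, ∃ e : ℕ → β, Intl N e ∧
    (∀ i, i < n → ∀ j, j < n → e i = e j → i = j) ∧ (Finset.range n).image e = t a ∧
      ∑ i ∈ Finset.range n, f a (e i) = c)
    (fun a ha => intl_sum _ _ fun b hb => by
      have := (ht.1 a ha).of_mem_finset hb
      exact hf.intl (a, b)) ?_ fun a c ha hc => ⟨?_, ?_⟩
  · have h1 : DefF N (fun q : ((α × γ) × ℕ) × (ℕ → β) =>
        ∑ i ∈ Finset.range q.1.2, f q.1.1.1 (q.2 i)) :=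
      DefF.sum_range (f := fun (q : ((α × γ) × ℕ) × (ℕ → β)) i => f q.1.1.1 (q.2 i))
        (hf.comp2 (by fun_prop) (by fun_prop)) (by fun_prop)
    refine DefF.or (by fun_prop) (DefF.exT (DefF.ex (DefF.and (by fun_prop)
      (DefF.and (by fun_prop) (h1.eq (by fun_prop))))))
  · rintro (⟨h1, rfl⟩ | ⟨n, e, -, h1, h2, rfl⟩)
    · rw [h1, Finset.sum_empty]
    · rw [← h2, Finset.sum_image fun i hi j hj => h1 i (Finset.mem_range.1 hi) j
        (Finset.mem_range.1 hj)]
  · rintro rfl
    rcases (t a).eq_empty_or_nonempty with h | ⟨b₀, hb₀⟩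
    · exact Or.inl ⟨h, by rw [h, Finset.sum_empty]⟩
    · have h0 := (ht.1 a ha).of_mem_finset hb₀
      let e' : ℕ → β := fun i => if h : i < (t a).card then ((t a).equivFin.symm ⟨i, h⟩ : β) else b₀
      have he' : ∀ i (h : i < (t a).card), e' i = ((t a).equivFin.symm ⟨i, h⟩ : β) :=
        fun i h => dif_pos h
      have hinj : ∀ i, i < (t a).card → ∀ j, j < (t a).card → e' i = e' j → i = j := by
        intro i hi j hj h
        rw [he' i hi, he' j hj] at h
        simpa using (t a).equivFin.symm.injective (Subtype.ext h)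
      have him : (Finset.range (t a).card).image e' = t a := by
        ext b
        rw [Finset.mem_image]
        constructor
        · rintro ⟨i, hi, rfl⟩
          rw [he' i (Finset.mem_range.1 hi)]
          exact Subtype.prop _
        · intro hb
          refine ⟨((t a).equivFin ⟨b, hb⟩ : ℕ), Finset.mem_range.2 (Fin.prop _), ?_⟩
          rw [he' _ (Fin.prop _)]
          simp
      refine Or.inr ⟨(t a).card, e', intl_of_eventually_const e' (fun i => ?_) (t a).card
        (fun i hi => ?_), hinj, him, ?_⟩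
      · by_cases h : i < (t a).card
        · rw [he' i h]; exact (ht.1 a ha).of_mem_finset (Subtype.prop _)
        · simp only [e', dif_neg h]; exact h0
      · simp only [e', dif_neg (not_lt.2 hi), dif_neg (lt_irrefl _)]
      · conv_rhs => rw [← him]
        rw [Finset.sum_image fun i hi j hj => hinj i (Finset.mem_range.1 hi) j
          (Finset.mem_range.1 hj)]

@[fun_prop] theorem DefF.card {t : α → Finset β} (ht : DefF N t) :
    DefF N (fun a => (t a).card) := by
  have : DefF N (fun a => ∑ _b ∈ t a, 1) := by fun_prop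
  exact this.congr fun a _ => (Finset.card_eq_sum_ones _).symm

end Vale.Agent.P129Z
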