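import Vale.Agent.P323.Z.Fml
import Mathlib.Tactic

/-!
# Well-founded models of set theory with well-orders; definable predicates

`ZM N`: `N` carries a well-founded model of ZF in which every set has a well-order that is well
founded from the outside. `DE Q`: the predicate `Q` of an environment is first-order definable with
parameters.
-/

namespace Vale.Agent.P129Z

open Vale.Agent.P323.Z FirstOrder FirstOrder.Language

universe v

/-- A well-founded model of ZF with well-orders. -/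
class ZM (N : Type v) where
  E : N → N → Prop
  zf : IsZFModel E
  wf : WellFounded E
  wo : ∀ a : N, ∃ r : N, (∀ x y, E x a → E y a → x ≠ y → PairMem E x y r ∨ PairMem E y x r) ∧
    WellFounded (fun x y => PairMem E x y r)

variable {N : Type v} [ZM N]

scoped instance (priority := low) zmMem : Membership N N := ⟨fun a x => ZM.E x a⟩

theorem mem_def {x a : N} : x ∈ a ↔ ZM.E x a := Iff.rfl

/-! ### Definable predicates of environments -/

/-- a new value for the variable `0` -/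
def cons (x : N) (v : ℕ → N) : ℕ → N
  | 0 => x
  | n + 1 => v n

omit [ZM N] in
@[simp] theorem cons_zero (x : N) (v : ℕ → N) : cons x v 0 = x := rfl
omit [ZM N] in
@[simp] theorem cons_succ (x : N) (v : ℕ → N) (n : ℕ) : cons x v (n + 1) = v n := rfl
omit [ZM N] in
@[simp] theorem cons_one (x : N) (v : ℕ → N) : cons x v 1 = v 0 := rfl
omit [ZM N] in
@[simp] theorem cons_two (x : N) (v : ℕ → N) : cons x v 2 = v 1 := rfl
omit [ZM N] in
@[simp] theorem cons_three (x : N) (v : ℕ → N) : cons x v 3 = v 2 := rfl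
omit [ZM N] in
@[simp] theorem cons_four (x : N) (v : ℕ → N) : cons x v 4 = v 3 := rfl

/-- First-order definable (with parameters) predicates of environments. -/
inductive DE : ((ℕ → N) → Prop) → Prop
  | mem (i j : ℕ) : DE (fun v => v i ∈ v j)
  | eq (i j : ℕ) : DE (fun v => v i = v j)
  | const (i : ℕ) (c : N) : DE (fun v => v i = c)
  | bot : DE (fun _ => False)
  | imp {P Q : (ℕ → N) → Prop} : DE P → DE Q → DE (fun v => P v → Q v)
  | all {Q : (ℕ → N) → Prop} : DE Q → DE (fun v => ∀ x, Q (cons x v))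

namespace DE

theorem congr {P Q : (ℕ → N) → Prop} (h : DE P) (e : ∀ v, P v ↔ Q v) : DE Q := by
  have : P = Q := funext fun v => propext (e v)
  exact this ▸ h

theorem not {P : (ℕ → N) → Prop} (h : DE P) : DE (fun v => ¬ P v) := h.imp bot

theorem and {P Q : (ℕ → N) → Prop} (h : DE P) (k : DE Q) : DE (fun v => P v ∧ Q v) :=
  (h.imp k.not).not.congr fun v => by tauto

theorem or {P Q : (ℕ → N) → Prop} (h : DE P) (k : DE Q) : DE (fun v => P v ∨ Q v) :=
  (h.not.imp k).congr fun v => by tauto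

theorem iff {P Q : (ℕ → N) → Prop} (h : DE P) (k : DE Q) : DE (fun v => P v ↔ Q v) :=
  ((h.imp k).and (k.imp h)).congr fun v => by tauto

theorem ex {Q : (ℕ → N) → Prop} (h : DE Q) : DE (fun v => ∃ x, Q (cons x v)) :=
  h.not.all.not.congr fun v => by simp

theorem rename {Q : (ℕ → N) → Prop} (h : DE Q) : ∀ r : ℕ → ℕ, DE (fun v => Q (v ∘ r)) := by
  induction h with
  | mem i j => exact fun r => mem (r i) (r j)
  | eq i j => exact fun r => eq (r i) (r j)
  | const i c => exact fun r => const (r i) c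
  | bot => exact fun _ => bot
  | imp _ _ ih₁ ih₂ => exact fun r => (ih₁ r).imp (ih₂ r)
  | all _ ih =>
    intro r
    refine (ih (fun n => Nat.casesOn n 0 (fun m => r m + 1))).all.congr fun v => ?_
    refine forall_congr' fun x => ?_
    have : (cons x v ∘ fun n => Nat.casesOn n 0 (fun m => r m + 1)) = cons x (v ∘ r) := by
      funext n
      cases n <;> rfl
    rw [this]

end DE

/-! ### From definable predicates to formulas -/

/-- Translation to Mathlib formulas. -/
def toBF : ∀ {n : ℕ}, Fml n → LSet.BoundedFormula Empty n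
  | _, .bot => .falsum
  | _, .eq i j => .equal (.var (.inr i)) (.var (.inr j))
  | _, .mem i j => .rel MemSymb.mem ![.var (.inr i), .var (.inr j)]
  | _, .imp φ ψ => .imp (toBF φ) (toBF ψ)
  | _, .all φ => .all (toBF φ)

theorem ofBF_toBF : ∀ {n : ℕ} (φ : Fml n), Fml.ofBF (toBF φ) = φ
  | _, .bot => rfl
  | _, .eq _ _ => rfl
  | _, .mem _ _ => rfl
  | _, .imp φ ψ => by simp only [toBF, Fml.ofBF, ofBF_toBF φ, ofBF_toBF ψ]
  | _, .all φ => by simp only [toBF, Fml.ofBF, ofBF_toBF φ]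

theorem sat_toBF {M : Type*} (E : M → M → Prop) {n : ℕ} (φ : Fml n) (v : Fin n → M) :
    Sat E (toBF φ) v ↔ φ.Sat E v := by
  rw [← Fml.sat_ofBF, ofBF_toBF]

/-- binding the variable `0` -/
theorem exists_bind {n : ℕ} (φ : Fml n) (σ : Fin n → N ⊕ ℕ) :
    ∃ (ψ : Fml (n + 1)) (σ' : Fin n → N ⊕ ℕ), ∀ (v : ℕ → N) (x : N),
      φ.Sat ZM.E (fun i => (σ i).elim id (cons x v)) ↔
        ψ.Sat ZM.E (Fin.snoc (fun i => (σ' i).elim id v) x) := by
  classical
  refine ⟨φ.rename (fun i => if σ i = Sum.inr 0 then Fin.last n else i.castSucc),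
    fun i => (σ i).map id (· - 1), fun v x => ?_⟩
  rw [Fml.sat_rename]
  refine iff_of_eq (congrArg _ (funext fun i => ?_))
  simp only [Function.comp_apply]
  split_ifs with h
  · rw [h, Fin.snoc_last]; rfl
  · rw [Fin.snoc_castSucc]
    rcases hs : σ i with c | k
    · rfl
    · cases k with
      | zero => exact absurd hs h
      | succ k => rfl

theorem DE.exists_fml {Q : (ℕ → N) → Prop} (h : DE Q) :
    ∃ (n : ℕ) (φ : Fml n) (σ : Fin n → N ⊕ ℕ),
      ∀ v, Q v ↔ φ.Sat ZM.E (fun i => (σ i).elim id v) := by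
  induction h with
  | mem i j => exact ⟨2, .mem 0 1, ![.inr i, .inr j], fun v => Iff.rfl⟩
  | eq i j => exact ⟨2, .eq 0 1, ![.inr i, .inr j], fun v => Iff.rfl⟩
  | const i c => exact ⟨2, .eq 0 1, ![.inr i, .inl c], fun v => Iff.rfl⟩
  | bot => exact ⟨0, .bot, Fin.elim0, fun v => Iff.rfl⟩
  | imp _ _ ih₁ ih₂ =>
    obtain ⟨n, φ, σ, h₁⟩ := ih₁
    obtain ⟨m, ψ, τ, h₂⟩ := ih₂
    refine ⟨n + m, .imp (φ.rename (Fin.castAdd m)) (ψ.rename (Fin.natAdd n)), Fin.append σ τ,
      fun v => ?_⟩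
    rw [Fml.sat_imp, Fml.sat_rename, Fml.sat_rename]
    refine imp_congr ((h₁ v).trans (iff_of_eq (congrArg _ (funext fun i => ?_))))
      ((h₂ v).trans (iff_of_eq (congrArg _ (funext fun i => ?_))))
    · simp
    · simp
  | all _ ih =>
    obtain ⟨n, φ, σ, h₁⟩ := ih
    obtain ⟨ψ, σ', h₂⟩ := exists_bind φ σ
    refine ⟨n, .all ψ, σ', fun v => ?_⟩
    rw [Fml.sat_all]
    exact forall_congr' fun x => (h₁ _).trans (h₂ v x)

/-- definable classes -/
def D1 (Q : N → Prop) : Prop := DE (fun v : ℕ → N => Q (v 0))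
/-- definable binary relations -/
def D2 (Q : N → N → Prop) : Prop := DE (fun v : ℕ → N => Q (v 0) (v 1))

theorem D1.at {Q : N → Prop} (h : D1 Q) (i : ℕ) : DE (fun v : ℕ → N => Q (v i)) :=
  DE.rename h (fun _ => i)

theorem D2.at {Q : N → N → Prop} (h : D2 Q) (i j : ℕ) : DE (fun v : ℕ → N => Q (v i) (v j)) :=
  (DE.rename h (fun n => if n = 0 then i else j)).congr fun _ => Iff.rfl

theorem D1.congr {P Q : N → Prop} (h : D1 P) (e : ∀ x, P x ↔ Q x) : D1 Q :=
  DE.congr h fun v => e (v 0)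

theorem D2.congr {P Q : N → N → Prop} (h : D2 P) (e : ∀ x y, P x y ↔ Q x y) : D2 Q :=
  DE.congr h fun v => e (v 0) (v 1)

/-- Separation for definable classes. -/
theorem D1.sep {Q : N → Prop} (h : D1 Q) (a : N) : ∃ b : N, ∀ x, x ∈ b ↔ x ∈ a ∧ Q x := by
  obtain ⟨n, φ, σ, h₁⟩ := DE.exists_fml h
  obtain ⟨ψ, σ', h₂⟩ := exists_bind φ σ
  obtain ⟨b, hb⟩ := (ZM.zf (N := N)).separation n (toBF ψ) (fun i => (σ' i).elim id (fun _ => a)) a
  refine ⟨b, fun x => (hb x).trans (and_congr Iff.rfl ?_)⟩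
  rw [sat_toBF, ← h₂, ← h₁]
  rfl

/-! ### Basic sets -/

theorem ext {a b : N} (h : ∀ z, z ∈ a ↔ z ∈ b) : a = b := (ZM.zf (N := N)).extensionality a b h

/-- unordered pair -/
noncomputable def upair (x y : N) : N := ((ZM.zf (N := N)).pairing x y).choose

theorem mem_upair {x y z : N} : z ∈ upair x y ↔ z = x ∨ z = y :=
  ((ZM.zf (N := N)).pairing x y).choose_spec z

/-- union -/
noncomputable def sUnion (x : N) : N := ((ZM.zf (N := N)).union x).choose

theorem mem_sUnion {x z : N} : z ∈ sUnion x ↔ ∃ y, y ∈ x ∧ z ∈ y :=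
  ((ZM.zf (N := N)).union x).choose_spec z

/-- power set -/
noncomputable def pow (x : N) : N := ((ZM.zf (N := N)).powerSet x).choose

theorem mem_pow {x z : N} : z ∈ pow x ↔ ∀ w, w ∈ z → w ∈ x :=
  ((ZM.zf (N := N)).powerSet x).choose_spec z

/-- binary union -/
noncomputable def un (x y : N) : N := sUnion (upair x y)

theorem mem_un {x y z : N} : z ∈ un x y ↔ z ∈ x ∨ z ∈ y := by
  simp only [un, mem_sUnion, mem_upair]
  constructor
  · rintro ⟨w, rfl | rfl, h⟩
    · exact Or.inl h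
    · exact Or.inr h
  · rintro (h | h)
    · exact ⟨x, Or.inl rfl, h⟩
    · exact ⟨y, Or.inr rfl, h⟩

/-- `x ∪ {y}` -/
noncomputable def ins (y x : N) : N := un x (upair y y)

theorem mem_ins {x y z : N} : z ∈ ins y x ↔ z ∈ x ∨ z = y := by
  simp only [ins, mem_un, mem_upair, or_self]

theorem exists_empty : ∃ e : N, ∀ z, z ∉ e := by
  obtain ⟨w, ⟨e, -, he⟩, -⟩ := (ZM.zf (N := N)).infinity
  exact ⟨e, he⟩

variable (N) in
/-- the empty set -/
noncomputable def emp : N := (exists_empty (N := N)).choose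

theorem not_mem_emp (z : N) : z ∉ emp N := (exists_empty (N := N)).choose_spec z

theorem eq_emp {e : N} (h : ∀ z, z ∉ e) : e = emp N :=
  ext fun z => iff_of_false (h z) (not_mem_emp z)

theorem mem_irrefl (x : N) : x ∉ x := (ZM.wf (N := N)).irrefl.irrefl x

theorem mem_asymm {x y : N} (h : x ∈ y) : y ∉ x := (ZM.wf (N := N)).asymm.asymm x y h

/-- ordered pair -/
noncomputable def op (x y : N) : N := upair (upair x x) (upair x y)

theorem isUPair_iff {p x y : N} : IsUPair ZM.E p x y ↔ p = upair x y :=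
  ⟨fun h => ext fun z => (h z).trans mem_upair.symm, fun h z => h ▸ mem_upair⟩

theorem isOPair_iff {p x y : N} : IsOPair ZM.E p x y ↔ p = op x y := by
  simp only [IsOPair, isUPair_iff]
  constructor
  · rintro ⟨s, t, rfl, rfl, rfl⟩; rfl
  · rintro rfl; exact ⟨_, _, rfl, rfl, rfl⟩

theorem pairMem_iff {x y f : N} : PairMem ZM.E x y f ↔ op x y ∈ f := by
  simp only [PairMem, isOPair_iff]
  exact ⟨fun ⟨_, h, h'⟩ => h ▸ h', fun h => ⟨_, rfl, h⟩⟩

theorem upair_eq {x y z w : N} (h : upair x y = upair z w) :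
    (x = z ∨ x = w) ∧ (y = z ∨ y = w) ∧ (z = x ∨ z = y) ∧ (w = x ∨ w = y) := by
  refine ⟨?_, ?_, ?_, ?_⟩
  · rw [← mem_upair, ← h, mem_upair]; exact Or.inl rfl
  · rw [← mem_upair, ← h, mem_upair]; exact Or.inr rfl
  · rw [← mem_upair, h, mem_upair]; exact Or.inl rfl
  · rw [← mem_upair, h, mem_upair]; exact Or.inr rfl

theorem op_inj {x y z w : N} : op x y = op z w ↔ x = z ∧ y = w := by
  refine ⟨fun h => ?_, fun h => by rw [h.1, h.2]⟩
  obtain ⟨h1, h2, h3, h4⟩ := upair_eq h
  have hxz : x = z := by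
    rcases h1 with h1 | h1
    · exact (upair_eq h1).1.elim id id
    · exact ((upair_eq h1).2.2.1.elim id id).symm
  subst hxz
  refine ⟨rfl, ?_⟩
  rcases h2 with h2 | h2
  · have hy : y = x := (upair_eq h2).2.1.elim id id
    subst hy
    rcases h4 with h4 | h4
    · exact ((upair_eq h4).2.1.elim id id).symm
    · exact ((upair_eq h4).2.1.elim id id).symm
  · rcases (upair_eq h2).2.1 with h5 | h5
    · subst h5
      exact ((upair_eq h2).2.2.2.elim id id).symm
    · exact h5

theorem DE.upair (i j k : ℕ) : DE (fun v : ℕ → N => v i = upair (v j) (v k)) := by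
  refine (((DE.mem 0 (i + 1)).iff ((DE.eq 0 (j + 1)).or (DE.eq 0 (k + 1)))).all).congr fun v => ?_
  simp only [cons_zero, cons_succ]
  exact ⟨fun h => ext fun z => (h z).trans mem_upair.symm, fun h z => h ▸ mem_upair⟩

theorem DE.op (i j k : ℕ) : DE (fun v : ℕ → N => v i = op (v j) (v k)) := by
  refine (((DE.upair 1 (j + 2) (j + 2)).and ((DE.upair 0 (j + 2) (k + 2)).and
    (DE.upair (i + 2) 1 0))).ex.ex).congr fun v => ?_
  simp only [cons_zero, cons_succ, cons_one]
  constructor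
  · rintro ⟨s, t, rfl, rfl, h⟩; exact h
  · intro h; exact ⟨_, _, rfl, rfl, h⟩

theorem exists_prod (A B : N) : ∃ P : N, ∀ p, p ∈ P ↔ ∃ x y, x ∈ A ∧ y ∈ B ∧ p = op x y := by
  have h : D1 (fun p : N => ∃ x y, x ∈ A ∧ y ∈ B ∧ p = op x y) := by
    refine ((((DE.const 1 A).and (DE.const 0 B)).and
      (((DE.mem 1 3).and ((DE.mem 0 2).and (DE.op 4 1 0))).ex.ex)).ex.ex).congr fun v => ?_
    simp
  obtain ⟨P, hP⟩ := h.sep (pow (pow (un A B)))
  refine ⟨P, fun p => (hP p).trans ⟨fun h => h.2, fun h => ⟨?_, h⟩⟩⟩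
  obtain ⟨x, y, hx, hy, rfl⟩ := h
  simp only [mem_pow, op, mem_upair, mem_un]
  rintro w (rfl | rfl) z hz
  · rw [mem_upair, or_self] at hz; exact Or.inl (hz ▸ hx)
  · rcases mem_upair.1 hz with rfl | rfl
    · exact Or.inl hx
    · exact Or.inr hy

/-- A finite family of sets has a set which consists of its members. -/
theorem exists_of_finite {S : Set N} (hS : S.Finite) : ∃ A : N, ∀ x, x ∈ A ↔ x ∈ S := by
  induction S, hS using Set.Finite.induction_on with
  | empty => exact ⟨emp N, fun x => iff_of_false (not_mem_emp x) (Set.notMem_empty x)⟩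
  | @insert a s _ _ ih =>
    obtain ⟨A, hA⟩ := ih
    exact ⟨ins a A, fun x => by rw [mem_ins, hA, Set.mem_insert_iff, or_comm]⟩

/-! ### The natural numbers -/

/-- von Neumann numerals -/
noncomputable def num : ℕ → N
  | 0 => emp N
  | n + 1 => ins (num n) (num n)

theorem mem_num {x : N} {n : ℕ} : x ∈ (num n : N) ↔ ∃ m, m < n ∧ x = num m := by
  induction n with
  | zero => simp [num, not_mem_emp]
  | succ n ih =>
    rw [num, mem_ins, ih]
    constructor
    · rintro (⟨m, hm, rfl⟩ | rfl)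
      · exact ⟨m, by omega, rfl⟩
      · exact ⟨n, by omega, rfl⟩
    · rintro ⟨m, hm, rfl⟩
      rcases Nat.lt_succ_iff_lt_or_eq.1 hm with h | h
      · exact Or.inl ⟨m, h, rfl⟩
      · exact Or.inr (by rw [h])

theorem num_inj {m n : ℕ} : (num m : N) = num n ↔ m = n := by
  refine ⟨fun h => ?_, fun h => by rw [h]⟩
  rcases lt_trichotomy m n with h1 | h1 | h1
  · have h2 : (num m : N) ∈ (num n : N) := mem_num.2 ⟨m, h1, rfl⟩
    rw [h] at h2
    exact absurd h2 (mem_irrefl _)
  · exact h1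
  · have h2 : (num n : N) ∈ (num m : N) := mem_num.2 ⟨n, h1, rfl⟩
    rw [h] at h2
    exact absurd h2 (mem_irrefl _)

theorem num_mem_num {m n : ℕ} : (num m : N) ∈ (num n : N) ↔ m < n := by
  rw [mem_num]
  exact ⟨fun ⟨k, hk, h⟩ => num_inj.1 h ▸ hk, fun h => ⟨m, h, rfl⟩⟩

/-- inductive sets -/
def Ind (w : N) : Prop := emp N ∈ w ∧ ∀ x, x ∈ w → ins x x ∈ w

theorem Ind.num_mem {w : N} (h : Ind w) (n : ℕ) : num n ∈ w := by
  induction n with
  | zero => exact h.1
  | succ n ih => exact h.2 _ ih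

theorem DE.ins (i j : ℕ) : DE (fun v : ℕ → N => v i = ins (v j) (v j)) := by
  refine (((DE.mem 0 (i + 1)).iff ((DE.mem 0 (j + 1)).or (DE.eq 0 (j + 1)))).all).congr fun v => ?_
  simp only [cons_zero, cons_succ]
  exact ⟨fun h => ext fun z => (h z).trans mem_ins.symm, fun h z => h ▸ mem_ins⟩

/-- The standard numerals form a set. -/
theorem exists_omega : ∃ w : N, ∀ x, x ∈ w ↔ ∃ n, x = num n := by
  obtain ⟨w, ⟨e, he, he'⟩, hw⟩ := (ZM.zf (N := N)).infinity
  have hw0 : Ind w := by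
    refine ⟨eq_emp he' ▸ he, fun x hx => ?_⟩
    obtain ⟨s, hs, hs'⟩ := hw x hx
    have : s = ins x x := ext fun z => (hs' z).trans mem_ins.symm
    exact this ▸ hs
  -- the sets all of whose members (and itself) are zero or successors
  have hD : D1 (fun x : N => (x = emp N ∨ ∃ y, x = ins y y) ∧
      (∀ z, z ∈ x → (z = emp N ∨ ∃ y, z = ins y y)) ∧ (∀ z, z ∈ x → ∀ u, u ∈ z → u ∈ x)) := by
    refine (((DE.const 0 (emp N)).or (DE.ins 1 0).ex).and
      ((((DE.mem 0 1).imp ((DE.const 0 (emp N)).or (DE.ins 1 0).ex)).all).and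
        (((DE.mem 0 1).imp (((DE.mem 0 1).imp (DE.mem 0 2)).all)).all))).congr fun v => ?_
    simp
  obtain ⟨b, hb⟩ := hD.sep w
  refine ⟨b, fun x => (hb x).trans ⟨?_, ?_⟩⟩
  · rintro ⟨-, hx⟩
    induction x using (ZM.wf (N := N)).induction with
    | _ x ih =>
      obtain ⟨h1, h2, h3⟩ := hx
      rcases h1 with rfl | ⟨y, rfl⟩
      · exact ⟨0, rfl⟩
      · have hy : y ∈ ins y y := mem_ins.2 (Or.inr rfl)
        obtain ⟨n, hn⟩ := ih y hy ⟨h2 y hy, fun z hz => h2 z (mem_ins.2 (Or.inl hz)),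
          fun z hz u hu => by
            rcases mem_ins.1 (h3 z (mem_ins.2 (Or.inl hz)) u hu) with h | h
            · exact h
            · subst h
              exact absurd hz (mem_asymm hu)⟩
        exact ⟨n + 1, by rw [hn]; rfl⟩
  · rintro ⟨n, rfl⟩
    have key : ∀ m : ℕ, (num m : N) = emp N ∨ ∃ y, (num m : N) = ins y y := by
      intro m
      cases m with
      | zero => exact Or.inl rfl
      | succ m => exact Or.inr ⟨_, rfl⟩
    refine ⟨hw0.num_mem n, key n, fun z hz => ?_, fun z hz u hu => ?_⟩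
    · obtain ⟨m, -, rfl⟩ := mem_num.1 hz
      exact key m
    · obtain ⟨m, hm, rfl⟩ := mem_num.1 hz
      obtain ⟨k, hk, rfl⟩ := mem_num.1 hu
      exact num_mem_num.2 (hk.trans hm)

variable (N) in
/-- the set of natural numbers -/
noncomputable def omega : N := (exists_omega (N := N)).choose

theorem mem_omega {x : N} : x ∈ omega N ↔ ∃ n, x = num n := (exists_omega (N := N)).choose_spec x

end Vale.Agent.P129Z
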