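import Vale.Agent.P129Z.RFree
import Mathlib.Data.Finset.Sort
import Mathlib.Order.WellQuasiOrder
import Mathlib.Logic.Equiv.Finset

/-!
# Infinite free sets from a partition relation
-/

namespace Vale.Agent.P129Z

open Function

universe u

/-- Every map from finite sets to countable sets has an infinite free set. -/
def HasFree (K : Type u) : Prop :=
  ∀ (_ : DecidableEq K) (F : Finset K → Set K), (∀ s, (F s).Countable) →
    ∃ g : ℕ → K, Injective g ∧ ∀ (T : Finset ℕ) (j : ℕ), j ∉ T → g j ∉ F (T.image g)

theorem hasFree_of_arrow {K : Type u} (h : ∀ c : Finset K → Bool, ∃ H : Set K, H.Infinite ∧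
    ∀ s t : Finset K, (s : Set K) ⊆ H → (t : Set K) ⊆ H → s.card = t.card → c s = c t) :
    HasFree K := by
  intro inst F hF
  classical
  obtain ⟨H₀, hH₀, -⟩ := h fun _ => true
  obtain ⟨a₀, -⟩ := hH₀.nonempty
  have : Nonempty K := ⟨a₀⟩
  obtain ⟨_, _⟩ := exists_wellFoundedLT K
  choose e he using fun s => Set.countable_iff_exists_subset_range.1 (hF s)
  let nth : Finset K → ℕ → K := fun s i =>
    if h : i < s.card then s.orderEmbOfFin rfl ⟨i, h⟩ else a₀
  have hnth : ∀ (f : ℕ → K) (n : ℕ), StrictMono f →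
      (@Finset.image _ _ inst f (Finset.range n)).card = n ∧
        ∀ i < n, nth (@Finset.image _ _ inst f (Finset.range n)) i = f i := by
    intro f n hf
    have h1 : (@Finset.image _ _ inst f (Finset.range n)).card = n := by
      rw [@Finset.card_image_of_injective _ _ _ inst _ hf.injective, Finset.card_range]
    refine ⟨h1, fun i hi => ?_⟩
    have h2 := Finset.orderEmbOfFin_unique (s := @Finset.image _ _ inst f (Finset.range n)) rfl
      (f := fun j => f j) (fun j => (@Finset.mem_image _ _ inst _ _ _).2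
        ⟨j, Finset.mem_range.2 (j.2.trans_eq h1), rfl⟩) fun _ _ hjk => hf hjk
    simp only [nth, dif_pos (hi.trans_eq h1.symm)]
    exact (congrFun h2 ⟨i, hi.trans_eq h1.symm⟩).symm
  obtain ⟨d, hd⟩ := exists_surjective_nat (Finset ℕ × ℕ × ℕ)
  obtain ⟨H, hH, hc⟩ := h fun s => decide (nth s (d (Nat.unpair s.card).1).2.1 =
    e (@Finset.image _ _ inst (nth s) (d (Nat.unpair s.card).1).1) (d (Nat.unpair s.card).1).2.2)
  obtain ⟨φ, hφ⟩ := (wellQuasiOrdered_le (α := K)).exists_monotone_subseq
    fun n => (hH.natEmbedding H n : K)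
  let g : ℕ → K := fun n => hH.natEmbedding H (φ n)
  have hg : StrictMono g := Monotone.strictMono_of_injective (fun m n hmn => hφ m n hmn)
    fun m n hmn => φ.injective ((hH.natEmbedding H).injective (Subtype.ext hmn))
  have hgH : ∀ n, g n ∈ H := fun n => (hH.natEmbedding H (φ n)).2
  have hg2 : StrictMono fun i => g (2 * i) := fun m n hmn => hg (by omega)
  refine ⟨fun i => g (2 * i), hg2.injective, fun T j hj hmem => ?_⟩
  obtain ⟨k, hk⟩ := he _ hmem
  obtain ⟨m, hm⟩ := hd (T, j, k)
  let n := Nat.pair m (T.sup id + j + 1)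
  have hn : T.sup id + j + 1 ≤ n := Nat.right_le_pair _ _
  have hT : ∀ i ∈ T, i < n := fun i hi => by
    have : i ≤ T.sup id := Finset.le_sup (f := id) hi
    omega
  let f : ℕ → K := fun i => g (if i = j then 2 * i + 1 else 2 * i)
  have hf : StrictMono f := fun a b hab => hg (by split_ifs <;> omega)
  obtain ⟨h1, h2⟩ := hnth _ n hg2
  obtain ⟨h3, h4⟩ := hnth _ n hf
  have h5 := hc (@Finset.image _ _ inst (fun i => g (2 * i)) (Finset.range n))
    (@Finset.image _ _ inst f (Finset.range n))
    (fun x hx => by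
      obtain ⟨i, -, rfl⟩ := (@Finset.mem_image _ _ inst _ _ _).1 hx
      exact hgH _)
    (fun x hx => by
      obtain ⟨i, -, rfl⟩ := (@Finset.mem_image _ _ inst _ _ _).1 hx
      exact hgH _) (h1.trans h3.symm)
  have h6 : (Nat.unpair n).1 = m := by simp [n]
  have h7 : @Finset.image _ _ inst (nth (@Finset.image _ _ inst (fun i => g (2 * i))
      (Finset.range n))) T = @Finset.image _ _ inst (fun i => g (2 * i)) T :=
    @Finset.image_congr _ _ inst _ _ _ fun i hi => h2 i (hT i hi)
  have h8 : @Finset.image _ _ inst (nth (@Finset.image _ _ inst f (Finset.range n))) T =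
      @Finset.image _ _ inst (fun i => g (2 * i)) T :=
    @Finset.image_congr _ _ inst _ _ _ fun i hi => by
      rw [h4 i (hT i hi)]
      simp only [f, if_neg (show i ≠ j from fun h => hj (h ▸ hi))]
  simp only [h1, h3, h6, hm, h7, h8, hk, h2 j (by omega), h4 j (by omega), decide_eq_decide,
    true_iff, f, if_true] at h5
  have := hg.injective h5
  omega

end Vale.Agent.P129Z
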