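import Vale.Agent.P323.Z.Model
import Mathlib.Order.Filter.CardinalInter
import Mathlib.Order.Filter.Ultrafilter.Defs
import Mathlib.Analysis.Normed.Module.FiniteDimension
import Mathlib.Analysis.RCLike.Basic

/-!
# The separable quotient problem in a model of set theory

`(M, E)` is a set `M` with a binary relation `E`; read `E x y` as `x ∈ y`. This file defines what it
means that, in `(M, E)`, every infinite-dimensional real (complex) Banach space has a separable
infinite-dimensional quotient. All quantifiers range over `M`.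
-/

namespace Vale.Agent.P129Z.S

open Vale.Agent.P323.Z

universe u

/-- `X` has a separable infinite-dimensional quotient: there is a closed subspace `Y` such that
`X ⧸ Y` is separable and infinite-dimensional. -/
def HasSeparableQuotient (𝕜 : Type) [RCLike 𝕜] (X : Type u) [NormedAddCommGroup X]
    [NormedSpace 𝕜 X] : Prop :=
  ∃ Y : Submodule 𝕜 X, IsClosed (Y : Set X) ∧ TopologicalSpace.SeparableSpace (X ⧸ Y) ∧
    ¬ FiniteDimensional 𝕜 (X ⧸ Y)

/-- `κ` is a measurable cardinal: it is uncountable and carries a `κ`-complete nonprincipal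
ultrafilter. -/
def IsMeasurableCardinal (κ : Cardinal.{u}) : Prop :=
  Cardinal.aleph0 < κ ∧ ∃ U : Ultrafilter κ.out,
    CardinalInterFilter (U : Filter κ.out) κ ∧ ∀ a : κ.out, {a} ∉ U

/-- The partition relation `κ → (ω)^{<ω}_2`: for every colouring of the finite subsets of `κ` with
two colours there is an infinite set `H` such that finite subsets of `H` of the same size have the
same colour. (The least such `κ` is the `ω`-Erdős cardinal.) -/
def ErdosArrow (κ : Cardinal.{u}) : Prop :=
  ∀ c : Finset κ.out → Bool, ∃ H : Set κ.out, H.Infinite ∧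
    ∀ s t : Finset κ.out, (s : Set κ.out) ⊆ H → (t : Set κ.out) ⊆ H → s.card = t.card → c s = c t

variable {M : Type*} (E : M → M → Prop)

/-- `(M, E)` is a model of ZFC. -/
def IsZFCModel : Prop := IsZFModel E ∧ AC E

/-! ## Sets and functions -/

/-- `A ⊆ B` -/
def Sub (A B : M) : Prop := ∀ x, E x A → E x B

open Classical in
/-- the ordered pair `(x, y)` -/
noncomputable def opair (x y : M) : M := if h : ∃! p, IsOPair E p x y then h.choose else x

open Classical in
/-- the value `f(x)`: the unique `y` with `(x, y) ∈ f` -/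
noncomputable def ap (f x : M) : M := if h : ∃! y, PairMem E x y f then h.choose else x

/-- the value `f(x, y)` -/
noncomputable def ap2 (f x y : M) : M := ap E f (opair E x y)

/-- `P = A × B` -/
def IsProd (P A B : M) : Prop := ∀ p, E p P ↔ ∃ a b, E a A ∧ E b B ∧ IsOPair E p a b

/-- `f` is a function from `A × B` to `C`. -/
def IsOp2 (f A B C : M) : Prop := ∃ P, IsProd E P A B ∧ IsFunction E f P C

/-- `w` contains `∅` and is closed under `x ↦ x ∪ {x}`. -/
def IsInductive (w : M) : Prop :=
  (∃ e, E e w ∧ ∀ z, ¬ E z e) ∧ ∀ x, E x w → ∃ s, E s w ∧ ∀ z, E z s ↔ E z x ∨ z = x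

/-- `w = ω`, the least inductive set. For `m, n ∈ ω`, `m ∈ n` means `m < n`. -/
def IsOmega (w : M) : Prop := IsInductive E w ∧ ∀ u, IsInductive E u → Sub E w u

/-- `F` is finite: it is the image of a natural number. -/
def IsFinite (F : M) : Prop := ∃ w n f, IsOmega E w ∧ E n w ∧ IsSurjection E f n F

/-! ## The real numbers -/

/-- The data of an ordered field: underlying set, operations, constants, strict order. -/
structure Reals (M : Type*) where
  car : M
  add : M
  mul : M
  zero : M
  one : M
  lt : M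

namespace Reals

variable (R : Reals M)

/-- `x < y` -/
def Lt (x y : M) : Prop := PairMem E x y R.lt

/-- `x ≤ y` -/
def Le (x y : M) : Prop := R.Lt E x y ∨ x = y

/-- `ε` is a positive real number. -/
def Pos (ε : M) : Prop := E ε R.car ∧ R.Lt E R.zero ε

end Reals

/-- `R` is a complete ordered field, that is, the field of real numbers. -/
structure IsReals (R : Reals M) : Prop where
  add_op : IsOp2 E R.add R.car R.car R.car
  mul_op : IsOp2 E R.mul R.car R.car R.car
  zero_mem : E R.zero R.car
  one_mem : E R.one R.car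
  add_assoc : ∀ x y z, E x R.car → E y R.car → E z R.car →
    ap2 E R.add (ap2 E R.add x y) z = ap2 E R.add x (ap2 E R.add y z)
  add_comm : ∀ x y, E x R.car → E y R.car → ap2 E R.add x y = ap2 E R.add y x
  add_zero : ∀ x, E x R.car → ap2 E R.add x R.zero = x
  add_neg : ∀ x, E x R.car → ∃ y, E y R.car ∧ ap2 E R.add x y = R.zero
  mul_assoc : ∀ x y z, E x R.car → E y R.car → E z R.car →
    ap2 E R.mul (ap2 E R.mul x y) z = ap2 E R.mul x (ap2 E R.mul y z)
  mul_comm : ∀ x y, E x R.car → E y R.car → ap2 E R.mul x y = ap2 E R.mul y x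
  mul_one : ∀ x, E x R.car → ap2 E R.mul x R.one = x
  mul_inv : ∀ x, E x R.car → x ≠ R.zero → ∃ y, E y R.car ∧ ap2 E R.mul x y = R.one
  mul_add : ∀ x y z, E x R.car → E y R.car → E z R.car →
    ap2 E R.mul x (ap2 E R.add y z) = ap2 E R.add (ap2 E R.mul x y) (ap2 E R.mul x z)
  zero_ne_one : R.zero ≠ R.one
  lt_irrefl : ∀ x, E x R.car → ¬ R.Lt E x x
  lt_trans : ∀ x y z, E x R.car → E y R.car → E z R.car → R.Lt E x y → R.Lt E y z → R.Lt E x z
  lt_total : ∀ x y, E x R.car → E y R.car → R.Lt E x y ∨ x = y ∨ R.Lt E y x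
  add_lt_add : ∀ x y z, E x R.car → E y R.car → E z R.car → R.Lt E x y →
    R.Lt E (ap2 E R.add x z) (ap2 E R.add y z)
  mul_pos : ∀ x y, R.Pos E x → R.Pos E y → R.Pos E (ap2 E R.mul x y)
  lub : ∀ A, Sub E A R.car → (∃ x, E x A) → (∃ b, E b R.car ∧ ∀ x, E x A → R.Le E x b) →
    ∃ s, E s R.car ∧ (∀ x, E x A → R.Le E x s) ∧
      ∀ b, E b R.car → (∀ x, E x A → R.Le E x b) → R.Le E s b

/-! ## The scalars -/

/-- The data of a field of scalars: underlying set, operations, unit, absolute value. -/
structure Scalars (M : Type*) where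
  car : M
  add : M
  mul : M
  one : M
  abs : M

/-- `K` is the field `R` with its absolute value. -/
structure IsRealScalars (R : Reals M) (K : Scalars M) : Prop where
  car : K.car = R.car
  add : K.add = R.add
  mul : K.mul = R.mul
  one : K.one = R.one
  abs_fun : IsFunction E K.abs K.car R.car
  abs_nonneg : ∀ x, E x R.car → R.Le E R.zero (ap E K.abs x)
  abs_sq : ∀ x, E x R.car → ap2 E R.mul (ap E K.abs x) (ap E K.abs x) = ap2 E R.mul x x

/-- `K = R × R` is the field of complex numbers over `R`: `(a, b) + (c, d) = (a + c, b + d)`,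
`(a, b) (c, d) = (a c - b d, a d + b c)`, `1 = (1, 0)`, `|(a, b)| ≥ 0`, `|(a, b)|² = a² + b²`. -/
structure IsComplexScalars (R : Reals M) (K : Scalars M) : Prop where
  car : IsProd E K.car R.car R.car
  add_op : IsOp2 E K.add K.car K.car K.car
  mul_op : IsOp2 E K.mul K.car K.car K.car
  add : ∀ a b c d, E a R.car → E b R.car → E c R.car → E d R.car →
    ap2 E K.add (opair E a b) (opair E c d) = opair E (ap2 E R.add a c) (ap2 E R.add b d)
  mul : ∀ a b c d u, E a R.car → E b R.car → E c R.car → E d R.car → E u R.car →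
    ap2 E R.add u (ap2 E R.mul b d) = ap2 E R.mul a c →
    ap2 E K.mul (opair E a b) (opair E c d) =
      opair E u (ap2 E R.add (ap2 E R.mul a d) (ap2 E R.mul b c))
  one : K.one = opair E R.one R.zero
  abs_fun : IsFunction E K.abs K.car R.car
  abs_nonneg : ∀ z, E z K.car → R.Le E R.zero (ap E K.abs z)
  abs_sq : ∀ a b, E a R.car → E b R.car →
    ap2 E R.mul (ap E K.abs (opair E a b)) (ap E K.abs (opair E a b)) =
      ap2 E R.add (ap2 E R.mul a a) (ap2 E R.mul b b)

/-! ## Banach spaces -/

/-- The data of a normed space: underlying set, addition, zero, scalar multiplication, norm. -/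
structure Space (M : Type*) where
  car : M
  add : M
  zero : M
  smul : M
  norm : M

variable (R : Reals M) (K : Scalars M) (X : Space M)

/-- `‖x - y‖ < ε`: there is `z ∈ X` with `x = y + z` and `‖z‖ < ε`. -/
def Close (ε x y : M) : Prop := ∃ z, E z X.car ∧ x = ap2 E X.add y z ∧ R.Lt E (ap E X.norm z) ε

/-- `X` is a Banach space over the scalars `K`, with norm values in `R`. -/
structure IsBanach : Prop where
  add_op : IsOp2 E X.add X.car X.car X.car
  smul_op : IsOp2 E X.smul K.car X.car X.car
  norm_fun : IsFunction E X.norm X.car R.car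
  zero_mem : E X.zero X.car
  add_assoc : ∀ x y z, E x X.car → E y X.car → E z X.car →
    ap2 E X.add (ap2 E X.add x y) z = ap2 E X.add x (ap2 E X.add y z)
  add_comm : ∀ x y, E x X.car → E y X.car → ap2 E X.add x y = ap2 E X.add y x
  add_zero : ∀ x, E x X.car → ap2 E X.add x X.zero = x
  add_neg : ∀ x, E x X.car → ∃ y, E y X.car ∧ ap2 E X.add x y = X.zero
  one_smul : ∀ x, E x X.car → ap2 E X.smul K.one x = x
  mul_smul : ∀ a b x, E a K.car → E b K.car → E x X.car →
    ap2 E X.smul (ap2 E K.mul a b) x = ap2 E X.smul a (ap2 E X.smul b x)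
  add_smul : ∀ a b x, E a K.car → E b K.car → E x X.car →
    ap2 E X.smul (ap2 E K.add a b) x = ap2 E X.add (ap2 E X.smul a x) (ap2 E X.smul b x)
  smul_add : ∀ a x y, E a K.car → E x X.car → E y X.car →
    ap2 E X.smul a (ap2 E X.add x y) = ap2 E X.add (ap2 E X.smul a x) (ap2 E X.smul a y)
  eq_zero_of_norm : ∀ x, E x X.car → ap E X.norm x = R.zero → x = X.zero
  norm_smul : ∀ a x, E a K.car → E x X.car →
    ap E X.norm (ap2 E X.smul a x) = ap2 E R.mul (ap E K.abs a) (ap E X.norm x)
  norm_add : ∀ x y, E x X.car → E y X.car →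
    R.Le E (ap E X.norm (ap2 E X.add x y)) (ap2 E R.add (ap E X.norm x) (ap E X.norm y))
  complete : ∀ w s, IsOmega E w → IsFunction E s w X.car →
    (∀ ε, R.Pos E ε → ∃ n, E n w ∧ ∀ k l, E k w → E l w → E n k → E n l →
      Close E R X ε (ap E s k) (ap E s l)) →
    ∃ x, E x X.car ∧ ∀ ε, R.Pos E ε → ∃ n, E n w ∧ ∀ k, E k w → E n k →
      Close E R X ε (ap E s k) x

/-- `Y` is a linear subspace of `X`. -/
def IsSubspace (Y : M) : Prop :=
  Sub E Y X.car ∧ E X.zero Y ∧ (∀ x y, E x Y → E y Y → E (ap2 E X.add x y) Y) ∧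
    ∀ a x, E a K.car → E x Y → E (ap2 E X.smul a x) Y

/-- `Y` is closed in `X`. -/
def IsClosedIn (Y : M) : Prop :=
  ∀ x, E x X.car → (∀ ε, R.Pos E ε → ∃ y, E y Y ∧ Close E R X ε x y) → E x Y

/-- `X` is finite-dimensional: some finite subset of `X` lies in no proper subspace. -/
def FiniteDim : Prop :=
  ∃ F, IsFinite E F ∧ Sub E F X.car ∧ ∀ Z, IsSubspace E K X Z → Sub E F Z → Sub E X.car Z

/-- `X / Y` is finite-dimensional: `Y` and some finite subset of `X` lie together in no proper
subspace. -/
def FiniteCodim (Y : M) : Prop :=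
  ∃ F, IsFinite E F ∧ Sub E F X.car ∧
    ∀ Z, IsSubspace E K X Z → Sub E Y Z → Sub E F Z → Sub E X.car Z

/-- `X / Y` is separable: for some sequence `d` in `X` the cosets `d(n) + Y` are dense for the
quotient norm. -/
def SeparableQuot (Y : M) : Prop :=
  ∃ w d, IsOmega E w ∧ IsFunction E d w X.car ∧ ∀ x ε, E x X.car → R.Pos E ε →
    ∃ n y, E n w ∧ E y Y ∧ Close E R X ε x (ap2 E X.add (ap E d n) y)

/-- `X` has a separable infinite-dimensional quotient by a closed subspace. -/
def HasSQ : Prop :=
  ∃ Y, IsSubspace E K X Y ∧ IsClosedIn E R X Y ∧ SeparableQuot E R X Y ∧ ¬ FiniteCodim E K X Y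

/-- In `(M, E)`, every infinite-dimensional real Banach space has a separable infinite-dimensional
quotient. -/
def SQReal : Prop :=
  ∀ (R : Reals M) (K : Scalars M) (X : Space M), IsReals E R → IsRealScalars E R K →
    IsBanach E R K X → ¬ FiniteDim E K X → HasSQ E R K X

/-- In `(M, E)`, every infinite-dimensional complex Banach space has a separable
infinite-dimensional quotient. -/
def SQComplex : Prop :=
  ∀ (R : Reals M) (K : Scalars M) (X : Space M), IsReals E R → IsComplexScalars E R K →
    IsBanach E R K X → ¬ FiniteDim E K X → HasSQ E R K X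

end Vale.Agent.P129Z.S
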