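import Vale.Agent.P129Z.DE
import Vale.Agent.P129Z.Stmt

/-!
# The statements `SQReal` and `SQComplex` are expressed by first-order sentences
-/

namespace Vale.Agent.P129Z.FO

open Vale.Agent.P323.Z Vale.Agent.P129Z.S

universe v

/-- predicates of a structure and an environment -/
abbrev Pd := (M : Type v) → (M → M → Prop) → (ℕ → M) → Prop

/-- terms -/
abbrev Tm := (M : Type v) → (M → M → Prop) → (ℕ → M) → M

/-- Predicates defined by one formula in all structures. -/
inductive UD : Pd.{v} → Prop
  | mem' (i j : ℕ) : UD (fun _ E w => E (w i) (w j))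
  | eq' (i j : ℕ) : UD (fun _ _ w => w i = w j)
  | bot : UD (fun _ _ _ => False)
  | imp {P Q : Pd} : UD P → UD Q → UD (fun M E w => P M E w → Q M E w)
  | all' {Q : Pd} : UD Q → UD (fun M E w => ∀ x, Q M E (cons x w))

namespace UD

theorem congr {P Q : Pd.{v}} (h : UD P) (e : ∀ M E w, P M E w ↔ Q M E w) : UD Q := by
  have : P = Q := funext fun M => funext fun E => funext fun w => propext (e M E w)
  exact this ▸ h

theorem not {P : Pd.{v}} (h : UD P) : UD (fun M E w => ¬ P M E w) := h.imp bot

theorem and {P Q : Pd.{v}} (h : UD P) (k : UD Q) : UD (fun M E w => P M E w ∧ Q M E w) :=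
  (h.imp k.not).not.congr fun _ _ _ => by tauto

theorem or {P Q : Pd.{v}} (h : UD P) (k : UD Q) : UD (fun M E w => P M E w ∨ Q M E w) :=
  (h.not.imp k).congr fun _ _ _ => by tauto

theorem iff {P Q : Pd.{v}} (h : UD P) (k : UD Q) : UD (fun M E w => P M E w ↔ Q M E w) :=
  ((h.imp k).and (k.imp h)).congr fun _ _ _ => by tauto

theorem all {Q : (M : Type v) → (M → M → Prop) → (ℕ → M) → M → Prop}
    (h : UD fun M E w => Q M E (fun n => w (n + 1)) (w 0)) :
    UD (fun M E w => ∀ x, Q M E w x) := h.all'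

theorem ex {Q : (M : Type v) → (M → M → Prop) → (ℕ → M) → M → Prop}
    (h : UD fun M E w => Q M E (fun n => w (n + 1)) (w 0)) :
    UD (fun M E w => ∃ x, Q M E w x) :=
  (all (Q := fun M E w x => ¬ Q M E w x) h.not).not.congr fun _ _ _ => by simp

theorem rename {Q : Pd.{v}} (h : UD Q) : ∀ r : ℕ → ℕ, UD (fun M E w => Q M E (w ∘ r)) := by
  induction h with
  | mem' i j => exact fun r => mem' (r i) (r j)
  | eq' i j => exact fun r => eq' (r i) (r j)
  | bot => exact fun _ => bot
  | imp _ _ ih₁ ih₂ => exact fun r => (ih₁ r).imp (ih₂ r)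
  | all' _ ih =>
    intro r
    refine (ih (fun n => Nat.casesOn n 0 (fun m => r m + 1))).all'.congr fun M E w => ?_
    refine forall_congr' fun x => ?_
    have : (cons x w ∘ fun n => Nat.casesOn n 0 (fun m => r m + 1)) = cons x (w ∘ r) := by
      funext n
      cases n <;> rfl
    rw [this]

theorem exists_fml {Q : Pd.{v}} (h : UD Q) : ∃ (n : ℕ) (φ : Fml n) (σ : Fin n → ℕ),
    ∀ M E w, Q M E w ↔ φ.Sat E (fun i => w (σ i)) := by
  induction h with
  | mem' i j => exact ⟨2, .mem 0 1, ![i, j], fun _ _ _ => Iff.rfl⟩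
  | eq' i j => exact ⟨2, .eq 0 1, ![i, j], fun _ _ _ => Iff.rfl⟩
  | bot => exact ⟨0, .bot, Fin.elim0, fun _ _ _ => Iff.rfl⟩
  | imp _ _ ih₁ ih₂ =>
    obtain ⟨n, φ, σ, h₁⟩ := ih₁
    obtain ⟨m, ψ, τ, h₂⟩ := ih₂
    refine ⟨n + m, .imp (φ.rename (Fin.castAdd m)) (ψ.rename (Fin.natAdd n)), Fin.append σ τ,
      fun M E w => ?_⟩
    rw [Fml.sat_imp, Fml.sat_rename, Fml.sat_rename]
    refine imp_congr ((h₁ M E w).trans (iff_of_eq (congrArg _ (funext fun i => ?_))))
      ((h₂ M E w).trans (iff_of_eq (congrArg _ (funext fun i => ?_))))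
    · simp
    · simp
  | all' _ ih =>
    obtain ⟨n, φ, σ, h₁⟩ := ih
    refine ⟨n, .all (φ.rename (fun i => if σ i = 0 then Fin.last n else i.castSucc)),
      fun i => σ i - 1, fun M E w => ?_⟩
    rw [Fml.sat_all]
    refine forall_congr' fun x => (h₁ M E _).trans ?_
    rw [Fml.sat_rename]
    refine iff_of_eq (congrArg _ (funext fun i => ?_))
    simp only [Function.comp_apply]
    split_ifs with h
    · rw [h, Fin.snoc_last]; rfl
    · rw [Fin.snoc_castSucc]
      obtain ⟨k, hk⟩ := Nat.exists_eq_succ_of_ne_zero h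
      rw [hk]; rfl

end UD

/-- Terms whose graph is defined by one formula in all structures. -/
def UT (t : Tm.{v}) : Prop := UD fun M E w => w 0 = t M E fun n => w (n + 1)

theorem UT.var (i : ℕ) : UT.{v} (fun _ _ w => w i) := UD.eq' 0 (i + 1)

theorem UT.rename {t : Tm.{v}} (h : UT t) (r : ℕ → ℕ) : UT (fun M E w => t M E (w ∘ r)) :=
  (UD.rename h (fun n => Nat.casesOn n 0 (fun m => r m + 1))).congr fun _ _ _ => Iff.rfl

theorem UD.mem {s t : Tm.{v}} (hs : UT s) (ht : UT t) :
    UD (fun M E w => E (s M E w) (t M E w)) :=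
  (UD.all (Q := fun M E w x => x = s M E w → ∀ y, y = t M E w → E x y) (UD.imp hs
    (UD.all (Q := fun M E w y => y = t M E (fun n => w (n + 1)) → E (w 0) y)
      (UD.imp (ht.rename (· + 1)) (UD.mem' 1 0))))).congr fun _ _ _ => by simp

theorem UD.eq {s t : Tm.{v}} (hs : UT s) (ht : UT t) :
    UD (fun M E w => s M E w = t M E w) :=
  (UD.all (Q := fun M E w x => x = s M E w → x = t M E w) (UD.imp hs ht)).congr
    fun _ _ _ => by simp

/-- Substitution of terms. -/
theorem UD.subst {Q : Pd.{v}} (h : UD Q) : ∀ t : ℕ → Tm.{v}, (∀ i, UT (t i)) →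
    UD (fun M E w => Q M E fun i => t i M E w) := by
  induction h with
  | mem' i j => exact fun t ht => UD.mem (ht i) (ht j)
  | eq' i j => exact fun t ht => UD.eq (ht i) (ht j)
  | bot => exact fun _ _ => UD.bot
  | imp _ _ ih₁ ih₂ => exact fun t ht => (ih₁ t ht).imp (ih₂ t ht)
  | all' _ ih =>
    intro t ht
    refine (ih (fun n => Nat.casesOn n (fun _ _ w => w 0)
      (fun m M E w => t m M E (w ∘ (· + 1)))) fun n => ?_).all'.congr fun M E w => ?_
    · cases n with
      | zero => exact UT.var 0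
      | succ n => exact (ht n).rename _
    · refine forall_congr' fun x => iff_of_eq (congrArg _ (funext fun n => ?_))
      cases n <;> rfl

theorem UD.subst3 {P : (M : Type v) → (M → M → Prop) → M → M → M → Prop}
    (h : UD fun M E w => P M E (w 0) (w 1) (w 2)) {a b c : Tm.{v}} (ha : UT a) (hb : UT b)
    (hc : UT c) : UD fun M E w => P M E (a M E w) (b M E w) (c M E w) :=
  h.subst (fun n => match n with | 0 => a | 1 => b | _ => c) fun n => by
    rcases n with _ | _ | n
    exacts [ha, hb, hc]

theorem UT.subst2 {F : (M : Type v) → (M → M → Prop) → M → M → M}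
    (h : UD fun M E w => w 0 = F M E (w 1) (w 2)) {a b : Tm.{v}} (ha : UT a) (hb : UT b) :
    UT fun M E w => F M E (a M E w) (b M E w) :=
  UD.subst3 (P := fun M E x y z => x = F M E y z) h (UT.var 0) (ha.rename (· + 1))
    (hb.rename (· + 1))

theorem UD.isOPair {a b c : Tm.{v}} (ha : UT a) (hb : UT b) (hc : UT c) :
    UD fun M E w => IsOPair E (a M E w) (b M E w) (c M E w) := by
  refine UD.subst3 (P := fun _ E x y z => IsOPair E x y z) ?_ ha hb hc
  unfold IsOPair IsUPair
  repeat' with_reducible first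
    | exact UD.mem' _ _ | exact UD.eq' _ _ | apply UD.ex | apply UD.all | apply UD.and
    | apply UD.iff | apply UD.or

theorem UD.pairMem {a b c : Tm.{v}} (ha : UT a) (hb : UT b) (hc : UT c) :
    UD fun M E w => PairMem E (a M E w) (b M E w) (c M E w) := by
  refine UD.subst3 (P := fun _ E x y z => PairMem E x y z) ?_ ha hb hc
  unfold PairMem
  exact UD.ex (UD.and (UD.isOPair (UT.var _) (UT.var _) (UT.var _)) (UD.mem' _ _))

open Classical in
theorem eq_desc {M : Type*} {P : M → Prop} {d y : M} :
    (y = if h : ∃! p, P p then h.choose else d) ↔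
      ((P y ∧ ∀ z, P z → z = y) ∨ (¬ (∃ p, P p ∧ ∀ z, P z → z = p) ∧ y = d)) := by
  by_cases h : ∃! p, P p
  · rw [dif_pos h]
    refine ⟨fun e => Or.inl (e ▸ h.choose_spec), ?_⟩
    rintro (h1 | h1)
    · exact h.choose_spec.2 y h1.1
    · exact absurd h h1.1
  · rw [dif_neg h]
    refine ⟨fun e => Or.inr ⟨h, e⟩, ?_⟩
    rintro (h1 | h1)
    · exact absurd ⟨y, h1⟩ h
    · exact h1.2

theorem UT.opair {a b : Tm.{v}} (ha : UT a) (hb : UT b) :
    UT fun M E w => opair E (a M E w) (b M E w) := by
  refine UT.subst2 (F := fun _ E x y => S.opair E x y) ?_ ha hb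
  simp only [S.opair, eq_desc]
  repeat' with_reducible first
    | exact UT.var _ | exact UD.eq' _ _ | apply UD.isOPair | apply UD.ex | apply UD.all
    | apply UD.and | apply UD.or | apply UD.not | apply UD.imp

theorem UT.ap {a b : Tm.{v}} (ha : UT a) (hb : UT b) :
    UT fun M E w => ap E (a M E w) (b M E w) := by
  refine UT.subst2 (F := fun _ E x y => S.ap E x y) ?_ ha hb
  simp only [S.ap, eq_desc]
  repeat' with_reducible first
    | exact UT.var _ | exact UD.eq' _ _ | apply UD.pairMem | apply UD.ex | apply UD.all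
    | apply UD.and | apply UD.or | apply UD.not | apply UD.imp

theorem UT.ap2 {a b c : Tm.{v}} (ha : UT a) (hb : UT b) (hc : UT c) :
    UT fun M E w => ap2 E (a M E w) (b M E w) (c M E w) := UT.ap ha (UT.opair hb hc)

theorem UD.isFunction {a b c : Tm.{v}} (ha : UT a) (hb : UT b) (hc : UT c) :
    UD fun M E w => IsFunction E (a M E w) (b M E w) (c M E w) := by
  refine UD.subst3 (P := fun _ E x y z => IsFunction E x y z) (UD.congr ?_ fun M E w =>
    ⟨fun h => ⟨h.1, h.2⟩, fun h => And.intro h.1 h.2⟩) ha hb hc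
  unfold ExistsUnique
  repeat' with_reducible first
    | exact UT.var _ | exact UD.eq' _ _ | exact UD.mem' _ _ | apply UD.pairMem | apply UD.isOPair
    | apply UD.ex | apply UD.all | apply UD.and | apply UD.imp

theorem UD.isOmega {a : Tm.{v}} (ha : UT a) : UD fun M E w => IsOmega E (a M E w) := by
  refine UD.subst3 (P := fun _ E x _ _ => IsOmega E x) ?_ ha ha ha
  unfold IsOmega IsInductive S.Sub
  repeat' with_reducible first
    | exact UD.eq' _ _ | exact UD.mem' _ _ | apply UD.ex | apply UD.all | apply UD.and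
    | apply UD.imp | exact UD.bot | apply UD.iff | apply UD.or

theorem UD.isProd {a b c : Tm.{v}} (ha : UT a) (hb : UT b) (hc : UT c) :
    UD fun M E w => IsProd E (a M E w) (b M E w) (c M E w) := by
  refine UD.subst3 (P := fun _ E x y z => IsProd E x y z) ?_ ha hb hc
  unfold IsProd
  repeat' with_reducible first
    | exact UT.var _ | exact UD.mem' _ _ | apply UD.isOPair | apply UD.ex | apply UD.all
    | apply UD.and | apply UD.iff

theorem UD.isFinite {a : Tm.{v}} (ha : UT a) : UD fun M E w => IsFinite E (a M E w) := by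
  refine UD.subst3 (P := fun _ E x _ _ => IsFinite E x) ?_ ha ha ha
  unfold IsFinite IsSurjection
  repeat' with_reducible first
    | exact UT.var _ | exact UD.mem' _ _ | apply UD.isOmega | apply UD.isFunction
    | apply UD.pairMem | apply UD.ex | apply UD.all | apply UD.and | apply UD.imp

/-- the ordered field read off from the environment -/
abbrev rR {M : Type v} (w : ℕ → M) : Reals M := ⟨w 0, w 1, w 2, w 3, w 4, w 5⟩

/-- the scalars read off from the environment -/
abbrev rK {M : Type v} (w : ℕ → M) : Scalars M := ⟨w 6, w 7, w 8, w 9, w 10⟩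

/-- the space read off from the environment -/
abbrev rX {M : Type v} (w : ℕ → M) : Space M := ⟨w 11, w 12, w 13, w 14, w 15⟩

theorem ud_isReals : UD.{v} fun _ E w => IsReals E (rR w) := by
  refine UD.congr ?_ fun M E w => ⟨fun ⟨h1, h2, h3, h4, h5, h6, h7, h8, h9, h10, h11, h12, h13,
    h14, h15, h16, h17, h18, h19, h20⟩ => ⟨h1, h2, h3, h4, h5, h6, h7, h8, h9, h10, h11, h12, h13,
    h14, h15, h16, h17, h18, h19, h20⟩, fun h => And.intro h.1 (And.intro h.2 (And.intro h.3
    (And.intro h.4 (And.intro h.5 (And.intro h.6 (And.intro h.7 (And.intro h.8 (And.intro h.9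
    (And.intro h.10 (And.intro h.11 (And.intro h.12 (And.intro h.13 (And.intro h.14
    (And.intro h.15 (And.intro h.16 (And.intro h.17 (And.intro h.18
    (And.intro h.19 h.20))))))))))))))))))⟩
  simp only [IsOp2, Reals.Pos, Reals.Le, Reals.Lt, S.Sub]
  repeat' with_reducible first
    | exact UT.var _ | apply UT.ap2 | apply UD.mem | apply UD.eq | apply UD.pairMem
    | apply UD.isProd | apply UD.isFunction | apply UD.ex | apply UD.all | apply UD.and
    | apply UD.imp | exact UD.bot | apply UD.or

theorem ud_isRealScalars : UD.{v} fun _ E w => IsRealScalars E (rR w) (rK w) := by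
  refine UD.congr ?_ fun M E w => ⟨fun ⟨h1, h2, h3, h4, h5, h6, h7⟩ =>
    ⟨h1, h2, h3, h4, h5, h6, h7⟩, fun h => And.intro h.1 (And.intro h.2 (And.intro h.3
    (And.intro h.4 (And.intro h.5 (And.intro h.6 h.7)))))⟩
  simp only [Reals.Le, Reals.Lt]
  repeat' with_reducible first
    | exact UT.var _ | apply UT.ap2 | apply UT.ap | apply UD.mem | apply UD.eq | apply UD.pairMem
    | apply UD.isFunction | apply UD.all | apply UD.and | apply UD.imp | apply UD.or

theorem ud_isComplexScalars : UD.{v} fun _ E w => IsComplexScalars E (rR w) (rK w) := by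
  refine UD.congr ?_ fun M E w => ⟨fun ⟨h1, h2, h3, h4, h5, h6, h7, h8, h9⟩ =>
    ⟨h1, h2, h3, h4, h5, h6, h7, h8, h9⟩, fun h => And.intro h.1 (And.intro h.2 (And.intro h.3
    (And.intro h.4 (And.intro h.5 (And.intro h.6 (And.intro h.7 (And.intro h.8 h.9)))))))⟩
  simp only [IsOp2, Reals.Le, Reals.Lt]
  repeat' with_reducible first
    | exact UT.var _ | apply UT.ap2 | apply UT.ap | apply UT.opair | apply UD.mem | apply UD.eq
    | apply UD.pairMem | apply UD.isProd | apply UD.isFunction | apply UD.ex | apply UD.all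
    | apply UD.and | apply UD.imp | apply UD.or

theorem ud_isBanach : UD.{v} fun _ E w => IsBanach E (rR w) (rK w) (rX w) := by
  refine UD.congr ?_ fun M E w => ⟨fun ⟨h1, h2, h3, h4, h5, h6, h7, h8, h9, h10, h11, h12, h13,
    h14, h15, h16⟩ => ⟨h1, h2, h3, h4, h5, h6, h7, h8, h9, h10, h11, h12, h13,
    h14, h15, h16⟩, fun h => And.intro h.1 (And.intro h.2 (And.intro h.3
    (And.intro h.4 (And.intro h.5 (And.intro h.6 (And.intro h.7 (And.intro h.8 (And.intro h.9
    (And.intro h.10 (And.intro h.11 (And.intro h.12 (And.intro h.13 (And.intro h.14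
    (And.intro h.15 h.16))))))))))))))⟩
  simp only [IsOp2, Close, Reals.Pos, Reals.Le, Reals.Lt]
  repeat' with_reducible first
    | exact UT.var _ | apply UT.ap2 | apply UT.ap | apply UD.mem | apply UD.eq | apply UD.pairMem
    | apply UD.isProd | apply UD.isFunction | apply UD.isOmega | apply UD.ex | apply UD.all
    | apply UD.and | apply UD.imp | apply UD.or

theorem ud_finiteDim : UD.{v} fun _ E w => FiniteDim E (rK w) (rX w) := by
  simp only [FiniteDim, IsSubspace, S.Sub]
  repeat' with_reducible first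
    | exact UT.var _ | apply UT.ap2 | apply UD.mem | apply UD.isFinite | apply UD.ex | apply UD.all
    | apply UD.and | apply UD.imp

theorem ud_hasSQ : UD.{v} fun _ E w => HasSQ E (rR w) (rK w) (rX w) := by
  simp only [HasSQ, IsSubspace, IsClosedIn, SeparableQuot, FiniteCodim, S.Sub, Close, Reals.Pos,
    Reals.Lt]
  repeat' with_reducible first
    | exact UT.var _ | apply UT.ap2 | apply UT.ap | apply UD.mem | apply UD.eq | apply UD.pairMem
    | apply UD.isFinite | apply UD.isFunction | apply UD.isOmega | apply UD.ex | apply UD.all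
    | apply UD.and | apply UD.imp | exact UD.bot

/-- The universal closure over the data is expressed by a sentence. -/
theorem exists_sentence {Q : (M : Type v) → (M → M → Prop) → Reals M → Scalars M → Space M → Prop}
    (h : UD fun M E w => Q M E (rR w) (rK w) (rX w)) :
    ∃ φ : LSet.BoundedFormula Empty 0, ∀ (M : Type v) (E : M → M → Prop),
      Sat E φ Fin.elim0 ↔ ∀ R K X, Q M E R K X := by
  have h1 : UD fun M E _ => ∀ R K X, Q M E R K X :=
    h.all'.all'.all'.all'.all'.all'.all'.all'.all'.all'.all'.all'.all'.all'.all'.all'.congr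
      fun M E w => ⟨fun H R K X => H X.norm X.smul X.zero X.add X.car K.abs K.one K.mul K.add K.car
        R.lt R.one R.zero R.mul R.add R.car, fun H _ _ _ _ _ _ _ _ _ _ _ _ _ _ _ _ => H _ _ _⟩
  obtain ⟨n, φ, σ, h2⟩ := h1.exists_fml
  refine ⟨toBF (.all (φ.rename fun _ => Fin.last 0)), fun M E => ?_⟩
  rw [sat_toBF, Fml.sat_all]
  have h3 : ∀ x : M, (φ.rename fun _ => Fin.last 0).Sat E (Fin.snoc Fin.elim0 x) ↔
      ∀ R K X, Q M E R K X := fun x => by
    rw [Fml.sat_rename, h2 M E fun _ => x]
    exact iff_of_eq (congrArg _ (funext fun i => Fin.snoc_last _ _))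
  exact ⟨fun H R K X => (h3 R.car).1 (H _) R K X, fun H x => (h3 x).2 H⟩

/-- `SQReal` is expressed by a sentence of the language of set theory. -/
theorem exists_sentence_real : ∃ φ : LSet.BoundedFormula Empty 0,
    ∀ (M : Type v) (E : M → M → Prop), Sat E φ Fin.elim0 ↔ SQReal E :=
  exists_sentence (Q := fun _ E R K X => IsReals E R → IsRealScalars E R K →
    IsBanach E R K X → ¬ FiniteDim E K X → HasSQ E R K X)
    (ud_isReals.imp (ud_isRealScalars.imp (ud_isBanach.imp (ud_finiteDim.not.imp ud_hasSQ))))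

/-- `SQComplex` is expressed by a sentence of the language of set theory. -/
theorem exists_sentence_complex : ∃ φ : LSet.BoundedFormula Empty 0,
    ∀ (M : Type v) (E : M → M → Prop), Sat E φ Fin.elim0 ↔ SQComplex E :=
  exists_sentence (Q := fun _ E R K X => IsReals E R → IsComplexScalars E R K →
    IsBanach E R K X → ¬ FiniteDim E K X → HasSQ E R K X)
    (ud_isReals.imp (ud_isComplexScalars.imp (ud_isBanach.imp (ud_finiteDim.not.imp ud_hasSQ))))

end Vale.Agent.P129Z.FO
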