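import Vale.Agent.P129Z.Rep2a
import Mathlib.Analysis.Normed.Module.Completion
import Mathlib.Algebra.Group.MinimalAxioms
import Mathlib.Algebra.Module.MinimalAxioms

/-!
# From structures of the model to coded structures
-/

namespace Vale.Agent.P129Z

open Vale.Agent.P323.Z S R0 Filter Topology UniformSpace

universe v

/-- Scalar multiplication on a complete space extends from a dense subfield. -/
theorem exists_normedSpace_extend {F 𝕜 E : Type*} [NormedField F] [NormedField 𝕜] (φ : F →+* 𝕜)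
    (hφ : Isometry φ) (hd : DenseRange φ) [NormedAddCommGroup E] [NormedSpace F E]
    [CompleteSpace E] : ∃ _ : NormedSpace 𝕜 E, ∀ (c : F) (x : E), φ c • x = c • x := by
  have hu : ∀ x : E, UniformContinuous (fun c : F => c • x) := fun x =>
    (LipschitzWith.of_dist_le_mul (K := ‖x‖₊) fun c d => by
      rw [dist_eq_norm, dist_eq_norm, ← sub_smul, norm_smul, mul_comm, coe_nnnorm]).uniformContinuous
  let sm : 𝕜 → E → E := fun c x => (hφ.isUniformInducing.isDenseInducing hd).extend
    (fun c : F => c • x) c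
  have h1 : ∀ (c : F) (x : E), sm (φ c) x = c • x := fun c x =>
    uniformly_extend_of_ind hφ.isUniformInducing hd (hu x) c
  have h2 : ∀ x : E, Continuous fun c => sm c x := fun x =>
    (uniformContinuous_uniformly_extend hφ.isUniformInducing hd (hu x)).continuous
  let _ : SMul 𝕜 E := ⟨sm⟩
  have h3 : ∀ (c : F) (x : E), φ c • x = c • x := h1
  have h4 : ∀ x : E, Continuous fun c : 𝕜 => c • x := h2
  let _ : Module 𝕜 E := Module.ofMinimalAxioms
    (fun a x y => hd.induction_on a (isClosed_eq (h4 _) ((h4 _).add (h4 _))) fun a => by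
      rw [h3, h3, h3, smul_add])
    (fun a b x => hd.induction_on a
      (isClosed_eq ((h4 _).comp (continuous_add_const b)) ((h4 _).add continuous_const))
      fun a => hd.induction_on b
        (isClosed_eq ((h4 _).comp (continuous_const_add _)) (continuous_const.add (h4 _)))
        fun b => by rw [← map_add, h3, h3, h3, add_smul])
    (fun a b x => hd.induction_on a
      (isClosed_eq ((h4 _).comp (continuous_mul_const b)) (h4 _))
      fun a => hd.induction_on b
        (isClosed_eq ((h4 _).comp (continuous_const_mul _)) (by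
          simp only [h3]
          exact (h4 _).const_smul a))
        fun b => by rw [← map_mul, h3, h3, h3, mul_smul])
    (fun x => by rw [← map_one φ, h3, one_smul])
  refine ⟨{ norm_smul_le := fun a x => ?_ }, h3⟩
  exact hd.induction_on a (isClosed_le (h4 x).norm (by fun_prop)) fun a => by
    rw [h3, norm_smul, hφ.norm_map_of_map_zero (map_zero φ)]

variable {N : Type v} [ZM N] [Coded N ℝ] [RSet N] {R : Reals N}

omit [RSet N] in
theorem RepR.le (hR : RepR R) (a b : ℝ) (ha : Intl N a) (hb : Intl N b) :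
    R.Le ZM.E (code N a) (code N b) ↔ a ≤ b := by
  rw [Reals.Le, hR.lt a b ha hb, le_iff_lt_or_eq]
  exact or_congr Iff.rfl ⟨code_inj ha hb, fun e => e ▸ rfl⟩

theorem rep2_real {K : Scalars N} (hR : RepR R) (h : IsRealScalars ZM.E R K) : RepK ℝ K where
  car := h.car ▸ hR.car
  add := h.add ▸ hR.add
  mul := h.mul ▸ hR.mul
  one := h.one ▸ hR.one
  abs a ha := by
    have h0 : code N a ∈ R.car := (hR.car _).2 ⟨a, ha, rfl⟩
    obtain ⟨r, hr, h1⟩ := (hR.car _).1 (fun_ap_mem h.abs_fun (h.car ▸ h0))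
    have h2 := h.abs_nonneg _ h0
    have h3 := h.abs_sq _ h0
    rw [← h1, hR.zero, hR.le _ _ inferInstance hr] at h2
    rw [← h1, hR.mul _ _ hr hr, hR.mul _ _ ha ha] at h3
    have h4 := code_inj inferInstance inferInstance h3
    rw [← h1, Real.norm_eq_abs, ← abs_of_nonneg h2, (abs_eq_abs.2 (mul_self_eq_mul_self_iff.1 h4))]

theorem rep2_complex {K : Scalars N} (hR : RepR R) (h : IsComplexScalars ZM.E R K) :
    RepK ℂ K := by
  have hc : ∀ (a : ℝ) [Intl N a], code N a ∈ R.car := fun a ha => (hR.car _).2 ⟨a, ha, rfl⟩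
  have hcar : ∀ x, x ∈ K.car ↔ Dom N ℂ x := fun x => by
    rw [IsCar.prod (α := ℝ) (β := ℝ) hR.car hR.car h.car x]
    constructor
    · rintro ⟨p, hp, rfl⟩
      exact ⟨⟨p.1, p.2⟩, intl_complex.2 (intl_prod.1 hp), rfl⟩
    · rintro ⟨z, hz, rfl⟩
      exact ⟨(z.re, z.im), intl_prod.2 (intl_complex.1 hz), rfl⟩
  refine ⟨hcar, fun a b ha hb => ?_, fun a b ha hb => ?_, ?_, fun a ha => ?_⟩
  · obtain ⟨h1, h2⟩ := intl_complex.1 ha
    obtain ⟨h3, h4⟩ := intl_complex.1 hb
    have := h.add _ _ _ _ (hc a.re) (hc a.im) (hc b.re) (hc b.im)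
    rwa [opair_eq, opair_eq, opair_eq, hR.add _ _ h1 h3, hR.add _ _ h2 h4] at this
  · obtain ⟨h1, h2⟩ := intl_complex.1 ha
    obtain ⟨h3, h4⟩ := intl_complex.1 hb
    have := h.mul _ _ _ _ _ (hc a.re) (hc a.im) (hc b.re) (hc b.im)
      (hc (a.re * b.re - a.im * b.im)) (by
        rw [hR.mul _ _ h2 h4, hR.mul _ _ h1 h3, hR.add _ _ inferInstance inferInstance,
          sub_add_cancel])
    rwa [opair_eq, opair_eq, opair_eq, hR.mul _ _ h1 h4, hR.mul _ _ h2 h3,
      hR.add _ _ inferInstance inferInstance] at this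
  · rw [h.one, opair_eq, hR.one, hR.zero]
    rfl
  · obtain ⟨h1, h2⟩ := intl_complex.1 ha
    have h0 : code N a ∈ K.car := (hcar _).2 ⟨a, ha, rfl⟩
    obtain ⟨r, hr, h3⟩ := (hR.car _).1 (fun_ap_mem h.abs_fun h0)
    have h4 := h.abs_nonneg _ h0
    have h5 := h.abs_sq _ _ (hc a.re) (hc a.im)
    rw [← h3, hR.zero, hR.le _ _ inferInstance hr] at h4
    rw [opair_eq, ← code_complex, ← h3, hR.mul _ _ hr hr, hR.mul _ _ h1 h1, hR.mul _ _ h2 h2,
      hR.add _ _ inferInstance inferInstance] at h5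
    have h6 := code_inj inferInstance inferInstance h5
    rw [← h3, Complex.norm_def, Complex.normSq_apply, ← h6, Real.sqrt_mul_self h4]

variable {𝕜 : Type*} [RCLike 𝕜] [Coded N 𝕜] [KSet N 𝕜] {K : Scalars N} {X : Space N}

variable (N 𝕜) in
/-- the field of the internal scalars -/
def intlField : Subfield 𝕜 where
  carrier := {c | Intl N c}
  mul_mem' {a b} (_ : Intl N a) (_ : Intl N b) := inferInstanceAs (Intl N (a * b))
  one_mem' := inferInstanceAs (Intl N (1 : 𝕜))
  add_mem' {a b} (_ : Intl N a) (_ : Intl N b) := inferInstanceAs (Intl N (a + b))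
  zero_mem' := inferInstanceAs (Intl N (0 : 𝕜))
  neg_mem' {a} (_ : Intl N a) := inferInstanceAs (Intl N (-a))
  inv_mem' a (_ : Intl N a) := inferInstanceAs (Intl N a⁻¹)

instance intl_intlField (c : intlField N 𝕜) : Intl N (c : 𝕜) := c.2

/-- the points of a Banach space of the model -/
def XF (_hR : RepR R) (_hK : RepK 𝕜 K) (_h : IsBanach ZM.E R K X) : Type v := El X.car

namespace XF

variable {hR : RepR R} {hK : RepK 𝕜 K} {h : IsBanach ZM.E R K X}

noncomputable instance : Add (XF hR hK h) := ⟨fun x y => ⟨_, ap2_mem h.add_op x.2 y.2⟩⟩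
instance : Zero (XF hR hK h) := ⟨⟨X.zero, h.zero_mem⟩⟩
noncomputable instance : Neg (XF hR hK h) :=
  ⟨fun x => ⟨(h.add_neg x.1 x.2).choose, (h.add_neg x.1 x.2).choose_spec.1⟩⟩

noncomputable instance : AddCommGroup (XF hR hK h) :=
  { AddGroup.ofRightAxioms (G := XF hR hK h) (fun a b c => Subtype.ext (h.add_assoc _ _ _ a.2 b.2 c.2))
      (fun a => Subtype.ext (h.add_zero _ a.2))
      (fun a => Subtype.ext (h.add_neg a.1 a.2).choose_spec.2) with
    add_comm := fun a b => Subtype.ext (h.add_comm _ _ a.2 b.2) }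

omit [RSet N] [KSet N 𝕜] in
theorem add_val (x y : XF hR hK h) : (x + y).1 = ap2 ZM.E X.add x.1 y.1 := rfl

omit [RSet N] [KSet N 𝕜] in
theorem zero_val : (0 : XF hR hK h).1 = X.zero := rfl

theorem kmem (hK : RepK 𝕜 K) (c : intlField N 𝕜) : code N (c : 𝕜) ∈ K.car :=
  (hK.car _).2 ⟨c, c.2, rfl⟩

noncomputable instance : SMul (intlField N 𝕜) (XF hR hK h) :=
  ⟨fun c x => ⟨_, ap2_mem h.smul_op (kmem hK c) x.2⟩⟩

theorem smul_val (c : intlField N 𝕜) (x : XF hR hK h) :
    (c • x).1 = ap2 ZM.E X.smul (code N (c : 𝕜)) x.1 := rfl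

noncomputable instance : Module (intlField N 𝕜) (XF hR hK h) :=
  Module.ofMinimalAxioms (fun a x y => Subtype.ext (h.smul_add _ _ _ (kmem hK a) x.2 y.2))
    (fun a b x => Subtype.ext (by
      have := h.add_smul _ _ _ (kmem hK a) (kmem hK b) x.2
      rwa [hK.add _ _ a.2 b.2] at this))
    (fun a b x => Subtype.ext (by
      have := h.mul_smul _ _ _ (kmem hK a) (kmem hK b) x.2
      rwa [hK.mul _ _ a.2 b.2] at this))
    (fun x => Subtype.ext (by
      have := h.one_smul _ x.2
      rwa [hK.one] at this))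

/-- the norm of a point -/
noncomputable def nrm (x : XF hR hK h) : ℝ := ((hR.car _).1 (fun_ap_mem h.norm_fun x.2)).choose

omit [RSet N] [KSet N 𝕜] in
theorem intl_nrm (x : XF hR hK h) : Intl N (nrm x) :=
  ((hR.car _).1 (fun_ap_mem h.norm_fun x.2)).choose_spec.1

omit [RSet N] [KSet N 𝕜] in
theorem code_nrm (x : XF hR hK h) : code N (nrm x) = ap ZM.E X.norm x.1 :=
  ((hR.car _).1 (fun_ap_mem h.norm_fun x.2)).choose_spec.2

theorem nrm_smul (c : intlField N 𝕜) (x : XF hR hK h) : nrm (c • x) = ‖(c : 𝕜)‖ * nrm x := by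
  have h1 := h.norm_smul _ _ (kmem hK c) x.2
  have h2 := intl_nrm x
  rw [← smul_val, ← code_nrm, ← code_nrm, hK.abs _ c.2, hR.mul _ _ inferInstance h2] at h1
  exact code_inj (intl_nrm _) inferInstance h1

noncomputable instance : NormedAddCommGroup (XF hR hK h) :=
  AddGroupNorm.toNormedAddCommGroup
    { toFun := nrm
      map_zero' := by
        have := nrm_smul (0 : intlField N 𝕜) (0 : XF hR hK h)
        rwa [zero_smul, ZeroMemClass.coe_zero, norm_zero, zero_mul] at this
      neg' := fun x => by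
        have := nrm_smul (-1 : intlField N 𝕜) x
        rwa [neg_one_smul, NegMemClass.coe_neg, norm_neg, OneMemClass.coe_one, norm_one,
          one_mul] at this
      add_le' := fun x y => by
        have h1 := h.norm_add _ _ x.2 y.2
        have h2 := intl_nrm x
        have h3 := intl_nrm y
        rwa [← add_val, ← code_nrm, ← code_nrm, ← code_nrm, hR.add _ _ h2 h3,
          hR.le _ _ (intl_nrm _) inferInstance] at h1
      eq_zero_of_map_eq_zero' := fun x hx => Subtype.ext (h.eq_zero_of_norm _ x.2 (by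
        rw [← code_nrm, hR.zero]
        exact congrArg _ hx)) }

theorem norm_eq (x : XF hR hK h) : ‖x‖ = nrm x := rfl

noncomputable instance : NormedSpace (intlField N 𝕜) (XF hR hK h) where
  norm_smul_le c x := (nrm_smul c x).le

end XF

omit [RSet N] [KSet N 𝕜] in
theorem r2_close_iff {E : Type*} [Coded N E] [NormedAddCommGroup E] [NormedSpace 𝕜 E]
    [DefAdd N E] [DefSub N E] [DefNorm N E] (hR : RepR R) (hX : RepX 𝕜 E X) (e : ℝ) (a b : E) [he : Intl N e]
    [ha : Intl N a] [hb : Intl N b] :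
    Close ZM.E R X (code N e) (code N a) (code N b) ↔ ‖a - b‖ < e := by
  constructor
  · rintro ⟨z, h1, h2, h3⟩
    obtain ⟨c, hc, rfl⟩ := (hX.car _).1 h1
    rw [hX.norm _ hc, hR.lt _ _ inferInstance he] at h3
    rw [hX.add _ _ hb hc] at h2
    rwa [code_inj ha inferInstance h2, add_sub_cancel_left]
  · intro h
    refine ⟨code N (a - b), (hX.car _).2 ⟨_, inferInstance, rfl⟩, ?_, ?_⟩
    · rw [hX.add _ _ hb inferInstance, add_sub_cancel]
    · rwa [hX.norm _ inferInstance, hR.lt _ _ inferInstance he]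

theorem rep2_space (hR : RepR R) (hK : RepK 𝕜 K) (h : IsBanach ZM.E R K X) :
    ∃ (E : Type v) (_ : NormedAddCommGroup E) (_ : NormedSpace 𝕜 E) (_ : Coded N E),
      CompleteSpace E ∧ Setting N 𝕜 E ∧ RepX 𝕜 E X := by
  obtain ⟨inst, hsm⟩ := exists_normedSpace_extend (E := Completion (XF hR hK h))
    (intlField N 𝕜).subtype isometry_subtype_coe
    (dense_intl_scalar (N := N) (𝕜 := 𝕜)).denseRange_val
  let ι : XF hR hK h → Completion (XF hR hK h) := fun x => x
  have hι : Function.Injective ι := Completion.coe_injective _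
  let _ : Coded N (Completion (XF hR hK h)) := push (A := X.car) ι hι
  have hi : ∀ a, Intl N a ↔ ∃ x, ι x = a := push_intl (A := X.car) ι hι
  have hc : ∀ x, code N (ι x) = x.1 := push_code (A := X.car) ι hι
  have hcar : IsCar N (Completion (XF hR hK h)) X.car := push_isCar (A := X.car) ι hι
  have hadd : ∀ x y, ι x + ι y = ι (x + y) := fun x y => (Completion.coe_add x y).symm
  have hneg : ∀ x, -ι x = ι (-x) := fun x => (Completion.coe_neg x).symm
  have hzero : 0 = ι 0 := Completion.coe_zero.symm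
  have hnorm : ∀ x, ‖ι x‖ = XF.nrm x := fun x => Completion.norm_coe x
  have hsmul : ∀ (c : 𝕜) (hc : Intl N c) x, c • ι x = ι ((⟨c, hc⟩ : intlField N 𝕜) • x) :=
    fun c hc x => (hsm ⟨c, hc⟩ (ι x)).trans (Completion.coe_smul _ x).symm
  have hX : RepX 𝕜 (Completion (XF hR hK h)) X :=
    { car := hcar
      add := fun a b ha hb => by
        obtain ⟨x, rfl⟩ := (hi _).1 ha
        obtain ⟨y, rfl⟩ := (hi _).1 hb
        rw [hadd, hc, hc, hc, XF.add_val]
      zero := by rw [hzero, hc, XF.zero_val]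
      smul := fun a b ha hb => by
        obtain ⟨y, rfl⟩ := (hi _).1 hb
        rw [hsmul a ha, hc, hc, XF.smul_val]
      norm := fun a ha => by
        obtain ⟨x, rfl⟩ := (hi _).1 ha
        rw [hnorm, hc, XF.code_nrm] }
  have i1 : DefAdd N (Completion (XF hR hK h)) :=
    ⟨defF_of_code (F := fun p => ap2 ZM.E X.add (code N p.1) (code N p.2))
      (fun p hp => by
        obtain ⟨x, hx⟩ := (hi _).1 (intl_prod.1 hp).1
        obtain ⟨y, hy⟩ := (hi _).1 (intl_prod.1 hp).2
        exact (hi _).2 ⟨x + y, by rw [← hadd, hx, hy]⟩) (by fun_prop)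
      fun p hp => hX.add _ _ (intl_prod.1 hp).1 (intl_prod.1 hp).2⟩
  have i2 : DefZero N (Completion (XF hR hK h)) := ⟨(hi _).2 ⟨0, hzero.symm⟩⟩
  have i3 : DefNeg N (Completion (XF hR hK h)) :=
    ⟨defF_of_rel (R := fun a b => a + b = 0) (fun a ha => by
      obtain ⟨x, rfl⟩ := (hi _).1 ha
      exact (hi _).2 ⟨-x, (hneg x).symm⟩) (by fun_prop) fun _ _ _ _ => add_eq_zero_iff_neg_eq⟩
  have i4 : DefNorm N (Completion (XF hR hK h)) :=
    ⟨defF_of_code (F := fun a => ap ZM.E X.norm (code N a))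
      (fun a ha => by
        obtain ⟨x, rfl⟩ := (hi _).1 ha
        rw [hnorm]
        exact XF.intl_nrm x) (by fun_prop) hX.norm⟩
  have i5 : DefSub N (Completion (XF hR hK h)) := ⟨by simp only [sub_eq_add_neg]; fun_prop⟩
  have i6 : Bdd N (Completion (XF hR hK h)) := hcar.bdd
  refine ⟨Completion (XF hR hK h), inferInstance, inst, inferInstance, inferInstance, ?_, hX⟩
  exact
    { add := i1
      neg := i3
      norm := i4
      zero := i2
      smul := ⟨defF_of_code (F := fun p => ap2 ZM.E X.smul (code N p.1) (code N p.2))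
        (fun p hp => by
          obtain ⟨y, hy⟩ := (hi _).1 (intl_prod.1 hp).2
          exact (hi _).2 ⟨_, by rw [← hsmul p.1 (intl_prod.1 hp).1, hy]⟩) (by fun_prop)
        fun p hp => hX.smul _ _ (intl_prod.1 hp).1 (intl_prod.1 hp).2⟩
      dense := by
        have : {x : Completion (XF hR hK h) | Intl N x} = Set.range ι := Set.ext hi
        rw [this]
        exact Completion.denseRange_coe
      lim := fun s hs hcs => by
        have h1 := DefF.ofIntl (N := N) s
        have h2 : ∀ n : ℕ, ap ZM.E (gr N s) (num n) = code N (s n) := fun n => ap_gr h1 n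
        obtain ⟨x, h3, h4⟩ := h.complete (omega N) (gr N s) (isOmega_iff.2 rfl)
          (isFunction_gr h1 isCar_omega hcar) (by
            rintro e ⟨he0, he'⟩
            obtain ⟨e, he, rfl⟩ := (hR.car _).1 he0
            rw [hR.zero, hR.lt _ _ inferInstance he] at he'
            obtain ⟨n, hn⟩ := Metric.cauchySeq_iff.1 hcs e he'
            refine ⟨num n, mem_omega.2 ⟨n, rfl⟩, fun k l hk hl h5 h6 => ?_⟩
            obtain ⟨k, rfl⟩ := mem_omega.1 hk
            obtain ⟨l, rfl⟩ := mem_omega.1 hl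
            rw [h2, h2, r2_close_iff hR hX, ← dist_eq_norm]
            exact hn k (num_mem_num.1 h5).le l (num_mem_num.1 h6).le)
        obtain ⟨x, hx, rfl⟩ := hcar.exists h3
        refine ⟨x, hx, Metric.tendsto_atTop.2 fun e he => ?_⟩
        obtain ⟨d, h5, h6, h7⟩ := exists_intl_btwn (N := N) he
        obtain ⟨n, h8, h9⟩ := h4 (code N d) ⟨(hR.car _).2 ⟨d, h5, rfl⟩, by
          rw [hR.zero, hR.lt _ _ inferInstance h5]; exact h6⟩
        obtain ⟨n, rfl⟩ := mem_omega.1 h8
        refine ⟨n + 1, fun k hk => ?_⟩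
        have := h9 (num k) (mem_omega.2 ⟨k, rfl⟩) (num_mem_num.2 hk)
        rw [h2, r2_close_iff hR hX] at this
        rw [dist_eq_norm]
        exact this.trans h7 }

end Vale.Agent.P129Z
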