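import Vale.Agent.P129Z.Setting
import Vale.Agent.P129Z.Cplx
import Vale.Agent.P129Z.Stmt
import Mathlib.SetTheory.ZFC.Ordinal
import Mathlib.Analysis.Normed.Module.Shrink
import Mathlib.Topology.Algebra.Module.TransferInstance

/-!
# Models with all subsets; the universe of sets
-/

namespace Vale.Agent.P129Z

open Filter Topology Vale.Agent.P323.Z

universe u v w

/-- Every outer subset of a set of the model is a set of the model. -/
class Full (N : Type v) [ZM N] : Prop where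
  sep : ∀ (a : N) (Q : N → Prop), ∃ b : N, ∀ x, x ∈ b ↔ x ∈ a ∧ Q x

section Full

variable {N : Type v} [ZM N] [Full N] {α β : Type*} [Coded N α] [Coded N β]

theorem Full.intl_set [Bdd N α] {s : Set α} (h : ∀ a ∈ s, Intl N a) : Intl N s := by
  obtain ⟨A, hA⟩ := Bdd.car (N := N) (α := α)
  obtain ⟨b, hb⟩ := Full.sep A fun x => ∃ a ∈ s, code N a = x
  refine P129Z.intl_set.2 ⟨h, b, fun x => (hb x).trans (and_iff_right_of_imp ?_)⟩
  rintro ⟨a, ha, rfl⟩
  exact (hA _).2 ⟨a, h a ha, rfl⟩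

theorem Full.defF [Bdd N α] [Bdd N β] {f : α → β} (h : ∀ a, Intl N a → Intl N (f a)) :
    DefF N f := by
  have hG : Intl N {p : α × β | Intl N p.1 ∧ f p.1 = p.2} :=
    Full.intl_set fun p hp => intl_prod.2 ⟨hp.1, hp.2 ▸ h _ hp.1⟩
  exact defF_of_rel (R := fun a b => (a, b) ∈ {p : α × β | Intl N p.1 ∧ f p.1 = p.2}) h
    (DefF.mem (by fun_prop) (DefF.const _)) fun a b ha _ => and_iff_right ha

theorem Full.intl_fun [Tot N α] [Bdd N β] {f : α → β} (h : ∀ a, Intl N (f a)) : Intl N f :=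
  (Full.defF fun a _ => h a).toIntl

variable [Coded N ℝ]

theorem Full.intl_of_dense {E : Type*} [Coded N E] [NormedAddCommGroup E] [NGrp N E]
    (hd : Dense {x : E | Intl N x}) (x : E) : Intl N x := by
  obtain ⟨s, h1, h2⟩ := mem_closure_iff_seq_limit.1 (hd x)
  exact intl_of_tendsto (Full.intl_fun h1) h2

theorem Full.intl_real [RSet N] (x : ℝ) : Intl N x := Full.intl_of_dense dense_intl_real x

theorem Full.intl_scalar [RSet N] {𝕜 : Type*} [RCLike 𝕜] [Coded N 𝕜] [KSet N 𝕜] (c : 𝕜) :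
    Intl N c := P129Z.intl_scalar (Full.intl_real _) (Full.intl_real _)

theorem Full.intl_point {𝕜 : Type*} [RCLike 𝕜] [Coded N 𝕜] {E : Type*} [Coded N E]
    [NormedAddCommGroup E] [NormedSpace 𝕜 E] [Setting N 𝕜 E] (x : E) : Intl N x :=
  Full.intl_of_dense (Setting.dense (𝕜 := 𝕜)) x

end Full

/-! ### The inner notions when everything is internal -/

section All

variable {N : Type v} [ZM N] {𝕜 : Type} [RCLike 𝕜] [Coded N 𝕜]
  {E : Type w} [Coded N E] [NormedAddCommGroup E] [NormedSpace 𝕜 E]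

theorem iFinCodim_iff (hk : ∀ c : 𝕜, Intl N c) (hE : ∀ x : E, Intl N x) (Y : Submodule 𝕜 E) :
    IFinCodim N 𝕜 (Y : Set E) ↔ FiniteDimensional 𝕜 (E ⧸ Y) := by
  classical
  constructor
  · rintro ⟨n, v, -, h⟩
    refine ⟨⟨(Finset.range n).image fun i => Y.mkQ (v i), eq_top_iff.2 fun z _ => ?_⟩⟩
    obtain ⟨x, rfl⟩ := Y.mkQ_surjective z
    obtain ⟨c, -, hc⟩ := h x (hE x)
    have h1 : Y.mkQ x = Y.mkQ (∑ i ∈ Finset.range n, c i • v i) :=
      (Submodule.Quotient.eq Y).2 hc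
    rw [h1, map_sum]
    refine Submodule.sum_mem _ fun i hi => ?_
    rw [map_smul]
    exact Submodule.smul_mem _ _ (Submodule.subset_span
      (Finset.mem_coe.2 (Finset.mem_image_of_mem _ hi)))
  · intro h
    obtain ⟨n, s, hs⟩ := Module.Finite.exists_fin (R := 𝕜) (M := E ⧸ Y)
    choose v hv using fun i => Y.mkQ_surjective (s i)
    refine ⟨n, fun i => if h : i < n then v ⟨i, h⟩ else 0, fun _ => hE _, fun x _ => ?_⟩
    have h1 : Y.mkQ x ∈ Submodule.span 𝕜 (Set.range s) := hs ▸ Submodule.mem_top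
    obtain ⟨c, hc⟩ := (Submodule.mem_span_range_iff_exists_fun 𝕜).1 h1
    refine ⟨fun i => if h : i < n then c ⟨i, h⟩ else 0, fun _ => hk _, ?_⟩
    refine (Submodule.Quotient.eq Y).1 (show Y.mkQ _ = Y.mkQ _ from ?_)
    rw [← hc, map_sum, Finset.sum_range]
    refine Finset.sum_congr rfl fun i _ => ?_
    simp only [i.2, dif_pos, map_smul, hv]

theorem iFinDim_iff (hk : ∀ c : 𝕜, Intl N c) (hE : ∀ x : E, Intl N x) :
    IFinDim N 𝕜 E ↔ FiniteDimensional 𝕜 E := by
  rw [IFinDim, ← Submodule.bot_coe (R := 𝕜), iFinCodim_iff hk hE]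
  exact ⟨fun _ => Module.Finite.equiv (Submodule.quotEquivOfEqBot ⊥ rfl),
    fun _ => inferInstance⟩

theorem absSQ_iff [Full N] [Bdd N E] (hk : ∀ c : 𝕜, Intl N c) (hE : ∀ x : E, Intl N x) :
    AbsSQ N 𝕜 E ↔ S.HasSeparableQuotient 𝕜 E := by
  constructor
  · rintro ⟨M, hM, hcl, hinf, d, -, hd⟩
    let Y : Submodule 𝕜 E :=
      { carrier := M
        add_mem' := fun {x y} hx hy => hM.add x hx y hy
        zero_mem' := hM.zero
        smul_mem' := fun c x hx => hM.smul c (hk c) x hx }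
    refine ⟨Y, closure_subset_iff_isClosed.1 fun x hx => hcl x (hE x) hx, ?_,
      fun h => hinf ((iFinCodim_iff hk hE Y).2 h)⟩
    refine ⟨⟨Set.range fun n => Y.mkQ (d n), Set.countable_range _, fun z => ?_⟩⟩
    obtain ⟨x, rfl⟩ := Y.mkQ_surjective z
    refine Metric.mem_closure_iff.2 fun ε hε => ?_
    obtain ⟨n, m, hm, h⟩ := hd x (hE x) ε hε
    refine ⟨_, ⟨n, rfl⟩, ?_⟩
    have h1 : Y.mkQ x - Y.mkQ (d n) = Y.mkQ (x - d n - m) := by
      have h2 : Y.mkQ m = 0 := (Submodule.Quotient.mk_eq_zero Y).2 hm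
      rw [map_sub, map_sub, h2, sub_zero]
    rw [dist_eq_norm, h1]
    exact (Submodule.Quotient.norm_mk_le Y _).trans_lt h
  · rintro ⟨Y, hY, hs, hinf⟩
    choose d hd using fun n => Y.mkQ_surjective (TopologicalSpace.denseSeq (E ⧸ Y) n)
    refine ⟨Y, ⟨Full.intl_set fun a _ => hE a, Y.zero_mem, fun x hx y hy => Y.add_mem hx hy,
      fun c _ x hx => Y.smul_mem c hx⟩, fun x _ hx => hY.closure_subset hx,
      fun h => hinf ((iFinCodim_iff hk hE Y).1 h), d, Full.intl_fun fun _ => hE _,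
      fun x _ ε hε => ?_⟩
    obtain ⟨n, hn⟩ := (TopologicalSpace.denseRange_denseSeq (E ⧸ Y)).exists_dist_lt (Y.mkQ x) hε
    rw [← hd, dist_eq_norm, ← map_sub] at hn
    obtain ⟨y, hy, hy'⟩ := Submodule.Quotient.norm_mk_lt (Y.mkQ (x - d n)) (sub_pos.2 hn)
    refine ⟨n, x - d n - y, (Submodule.Quotient.eq Y).1 hy.symm, ?_⟩
    rw [sub_sub_cancel]
    linarith

end All

/-- Transport of separable quotients along an isomorphism. -/
theorem hasSQ_of_equiv {𝕜 : Type} [RCLike 𝕜] {X : Type v} {Z : Type w} [NormedAddCommGroup X]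
    [NormedSpace 𝕜 X] [NormedAddCommGroup Z] [NormedSpace 𝕜 Z] (e : X ≃L[𝕜] Z)
    (h : S.HasSeparableQuotient 𝕜 X) : S.HasSeparableQuotient 𝕜 Z := by
  obtain ⟨M, hM, hs, hd⟩ := h
  let M' : Submodule 𝕜 Z := M.map (e : X →ₗ[𝕜] Z)
  have hM' : IsClosed (M' : Set Z) := e.toHomeomorph.isClosedMap _ hM
  let Q : (X ⧸ M) ≃ₗ[𝕜] (Z ⧸ M') := Submodule.Quotient.equiv M M' e.toLinearEquiv rfl
  refine ⟨M', hM', ?_, fun hfin => hd (Module.Finite.equiv Q.symm)⟩
  have hcont : Continuous Q := by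
    have hq : Topology.IsQuotientMap (M.mkQ : X → X ⧸ M) := isQuotientMap_quotient_mk'
    rw [hq.continuous_iff]
    have : (Q ∘ (M.mkQ : X → X ⧸ M)) = (M'.mkQ : Z → Z ⧸ M') ∘ e := by
      ext x
      simp [Q, Submodule.Quotient.equiv]
    rw [this]
    exact (continuous_quotient_mk').comp e.continuous
  exact Q.surjective.denseRange.separableSpace hcont

/-- The statement for the spaces in a universe gives the statement for the small spaces. -/
theorem hasSQ_of_small {𝕜 : Type} [RCLike 𝕜]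
    (h : ∀ (X : Type u) [NormedAddCommGroup X] [NormedSpace 𝕜 X] [CompleteSpace X],
      ¬ FiniteDimensional 𝕜 X → S.HasSeparableQuotient 𝕜 X)
    (Z : Type w) [Small.{u} Z] [NormedAddCommGroup Z] [NormedSpace 𝕜 Z] [CompleteSpace Z]
    (hZ : ¬ FiniteDimensional 𝕜 Z) : S.HasSeparableQuotient 𝕜 Z := by
  let e : Shrink.{u} Z ≃L[𝕜] Z := Shrink.continuousLinearEquiv 𝕜 Z
  have : CompleteSpace (Shrink.{u} Z) :=
    (completeSpace_congr (e := e.toLinearEquiv.toEquiv) e.isUniformEmbedding).2 inferInstance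
  exact hasSQ_of_equiv e (h _ fun hf => hZ (Module.Finite.equiv e.toLinearEquiv))

/-! ### The universe of sets -/

theorem zf_pairMem {x y f : ZFSet.{u}} : PairMem (· ∈ ·) x y f ↔ ZFSet.pair x y ∈ f := by
  have h1 : ∀ p a b : ZFSet.{u}, IsUPair (· ∈ ·) p a b ↔ p = {a, b} := fun p a b =>
    ⟨fun h => ZFSet.ext fun z => (h z).trans ZFSet.mem_pair.symm,
      fun h z => h ▸ ZFSet.mem_pair⟩
  simp only [PairMem, IsOPair, h1]
  constructor
  · rintro ⟨_, ⟨_, _, rfl, rfl, rfl⟩, h⟩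
    simpa [ZFSet.pair] using h
  · intro h
    exact ⟨_, ⟨_, _, rfl, rfl, rfl⟩, by simpa [ZFSet.pair] using h⟩

theorem zf_isZFModel : IsZFModel (fun x y : ZFSet.{u} => x ∈ y) where
  extensionality _ _ h := ZFSet.ext h
  foundation x hx := by
    obtain ⟨y, hy, hmin⟩ := ZFSet.mem_wf.has_min {y | y ∈ x} hx
    exact ⟨y, hy, hmin⟩
  pairing x y := ⟨{x, y}, fun _ => ZFSet.mem_pair⟩
  union x := ⟨ZFSet.sUnion x, fun _ => ZFSet.mem_sUnion⟩
  powerSet x := ⟨ZFSet.powerset x, fun _ => ZFSet.mem_powerset⟩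
  infinity := ⟨ZFSet.omega, ⟨∅, ZFSet.omega_zero, ZFSet.notMem_empty⟩, fun x hx =>
    ⟨insert x x, ZFSet.omega_succ hx, fun z => ZFSet.mem_insert_iff.trans or_comm⟩⟩
  separation _ _ _ a := ⟨a.sep _, fun _ => ZFSet.mem_sep⟩
  replacement n φ v a h := by
    choose f hf hf' using h
    refine ⟨ZFSet.range fun x : a => f x.1 x.2, fun y => ?_⟩
    rw [ZFSet.mem_range]
    exact ⟨fun ⟨x, hx⟩ => ⟨x.1, x.2, hx ▸ hf x.1 x.2⟩,
      fun ⟨x, hx, hy⟩ => ⟨⟨x, hx⟩, (hf' x hx y hy).symm⟩⟩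

instance zmZFSet : ZM ZFSet.{u} where
  E x y := x ∈ y
  zf := zf_isZFModel
  wf := ZFSet.mem_wf
  wo a := by
    refine ⟨ZFSet.pairSep WellOrderingRel a a, fun x y hx hy hxy => ?_, ?_⟩
    · simp only [zf_pairMem, ZFSet.mem_pairSep]
      rcases trichotomous_of WellOrderingRel x y with h | h | h
      · exact Or.inl ⟨x, hx, y, hy, rfl, h⟩
      · exact absurd h hxy
      · exact Or.inr ⟨y, hy, x, hx, rfl, h⟩
    · refine Subrelation.wf (fun {x y} h => ?_) (IsWellFounded.wf (r := WellOrderingRel))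
      obtain ⟨x', -, y', -, h1, h2⟩ := ZFSet.mem_pairSep.1 (zf_pairMem.1 h)
      obtain ⟨rfl, rfl⟩ := ZFSet.pair_inj.1 h1
      exact h2

instance : Full ZFSet.{u} := ⟨fun a Q => ⟨a.sep Q, fun _ => ZFSet.mem_sep⟩⟩

theorem small_of_all (α : Type w) [Coded ZFSet.{u} α] [Bdd ZFSet.{u} α]
    (h : ∀ a : α, Intl ZFSet.{u} a) : Small.{u} α := by
  obtain ⟨A, hA⟩ := Bdd.car (N := ZFSet.{u}) (α := α)
  exact small_of_injective (f := fun a : α => (⟨code _ a, (hA _).2 ⟨a, h a, rfl⟩⟩ : A))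
    fun a b e => code_inj (h a) (h b) (congrArg Subtype.val e)

/-- an injection of a small type into the sets -/
noncomputable def zcode (α : Type w) [Small.{u} α] (a : α) : ZFSet.{u} :=
  (embeddingToCardinal (equivShrink.{u} α a)).ord.toZFSet

theorem zcode_injective (α : Type w) [Small.{u} α] : Function.Injective (zcode.{u} α) :=
  fun _ _ h => (equivShrink.{u} α).injective (embeddingToCardinal.injective
    (Cardinal.ord_injective (Ordinal.toZFSet_injective h)))

/-- a coding of all elements of a small type -/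
@[reducible] noncomputable def codedAll (α : Type w) [Small.{u} α] : Coded ZFSet.{u} α where
  Int _ := True
  code := zcode α
  inj _ _ h := zcode_injective α h
  dom := (((DE.const 0 (ZFSet.range (zcode.{u} α))).imp (DE.mem 1 0)).all).congr fun v => by
    simp only [cons_zero, cons_one, forall_eq, true_and]
    exact ZFSet.mem_range

theorem totAll (α : Type w) [Small.{u} α] : @Tot ZFSet.{u} _ α (codedAll α) :=
  letI := codedAll.{u} α
  { car := ⟨ZFSet.range (zcode.{u} α), fun _ => ZFSet.mem_range.trans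
      ⟨fun ⟨a, h⟩ => ⟨a, ⟨trivial⟩, h⟩, fun ⟨a, _, h⟩ => ⟨a, h⟩⟩⟩
    all := fun _ => ⟨trivial⟩ }

section

variable {N : Type v} [ZM N] [Full N] [Coded N ℝ]

theorem Full.rset [Tot N ℝ] : RSet N where
  add := ⟨Full.defF fun _ _ => inferInstance⟩
  mul := ⟨Full.defF fun _ _ => inferInstance⟩
  lt := ⟨Full.defF fun _ _ => inferInstance⟩
  neg _ _ := inferInstance
  inv _ _ := inferInstance
  one := inferInstance
  sup _ _ _ _ := inferInstance

theorem Full.setting [Tot N ℝ] (𝕜 : Type*) [RCLike 𝕜] [Coded N 𝕜] [Bdd N 𝕜] (E : Type*)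
    [Coded N E] [Tot N E] [NormedAddCommGroup E] [NormedSpace 𝕜 E] [CompleteSpace E] :
    Setting N 𝕜 E where
  add := ⟨Full.defF fun _ _ => inferInstance⟩
  neg := ⟨Full.defF fun _ _ => inferInstance⟩
  norm := ⟨Full.defF fun _ _ => inferInstance⟩
  zero := ⟨inferInstance⟩
  lim s _ h := by
    obtain ⟨x, hx⟩ := cauchySeq_tendsto_of_complete h
    exact ⟨x, inferInstance, hx⟩
  smul := ⟨Full.defF fun _ _ => inferInstance⟩
  dense x := subset_closure (inferInstanceAs (Intl N x))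

end

end Vale.Agent.P129Z
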