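import Vale.Agent.P129Z.Rep3
import Vale.Agent.P129Z.Rep2
import Vale.Agent.P129Z.ZFS

/-!
# The statement in the universe of sets is the usual statement
-/

namespace Vale.Agent.P129Z

open Vale.Agent.P323.Z S

universe u v

section

variable {N : Type v} [ZM N]

/-- The statement holds if all internal spaces have internal separable quotients. -/
theorem sqReal_of_abs (h : ∀ [Coded N ℝ] [RSet N] (E : Type v) [NormedAddCommGroup E]
    [NormedSpace ℝ E] [Coded N E] [CompleteSpace E] [Setting N ℝ E],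
      ¬ IFinDim N ℝ E → AbsSQ N ℝ E) : SQReal (ZM.E : N → N → Prop) := by
  intro R K X hR hK hX hf
  obtain ⟨_, _, hR'⟩ := rep2_reals hR
  have hK' := rep2_real hR' hK
  obtain ⟨E, _, _, _, _, _, hX'⟩ := rep2_space hR' hK' hX
  exact (rep3_sq hR' hK' hX').2 (h E fun h3 => hf ((rep3_fin hK' hX').2 h3))

/-- The statement holds if all internal spaces have internal separable quotients. -/
theorem sqComplex_of_abs (h : ∀ [Coded N ℝ] [RSet N] (E : Type v) [NormedAddCommGroup E]
    [NormedSpace ℂ E] [Coded N E] [CompleteSpace E] [Setting N ℂ E],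
      ¬ IFinDim N ℂ E → AbsSQ N ℂ E) : SQComplex (ZM.E : N → N → Prop) := by
  intro R K X hR hK hX hf
  obtain ⟨_, _, hR'⟩ := rep2_reals hR
  have hK' := rep2_complex hR' hK
  obtain ⟨E, _, _, _, _, _, hX'⟩ := rep2_space hR' hK' hX
  exact (rep3_sq hR' hK' hX').2 (h E fun h3 => hf ((rep3_fin hK' hX').2 h3))

end

theorem abs_of_outer {𝕜 : Type} [RCLike 𝕜]
    (h : ∀ (X : Type u) [NormedAddCommGroup X] [NormedSpace 𝕜 X] [CompleteSpace X],
      ¬ FiniteDimensional 𝕜 X → HasSeparableQuotient 𝕜 X)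
    [Coded ZFSet.{u} ℝ] [RSet ZFSet.{u}] [Coded ZFSet.{u} 𝕜] [KSet ZFSet.{u} 𝕜] (E : Type v)
    [NormedAddCommGroup E] [NormedSpace 𝕜 E] [Coded ZFSet.{u} E] [CompleteSpace E]
    [Setting ZFSet.{u} 𝕜 E] (hE : ¬ IFinDim ZFSet.{u} 𝕜 E) : AbsSQ ZFSet.{u} 𝕜 E := by
  have h1 : ∀ c : 𝕜, Intl ZFSet.{u} c := Full.intl_scalar
  have h2 : ∀ x : E, Intl ZFSet.{u} x := Full.intl_point (𝕜 := 𝕜)
  have := small_of_all.{u} E h2
  exact (absSQ_iff h1 h2).2 (hasSQ_of_small h E fun h3 => hE ((iFinDim_iff h1 h2).2 h3))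

/-- In the universe of sets, the statement for real scalars is the usual statement. -/
theorem faithful_real : SQReal (fun x y : ZFSet.{u} => x ∈ y) ↔
    ∀ (X : Type u) [NormedAddCommGroup X] [NormedSpace ℝ X] [CompleteSpace X],
      ¬ FiniteDimensional ℝ X → HasSeparableQuotient ℝ X := by
  refine ⟨fun h X _ _ _ hX => ?_, fun h => sqReal_of_abs (N := ZFSet.{u}) fun E _ _ _ _ _ hE =>
    abs_of_outer h E hE⟩
  let _ := codedAll.{u} ℝ
  have := totAll.{u} ℝ
  have := Full.rset (N := ZFSet.{u})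
  let _ := codedAll.{u} X
  have := totAll.{u} X
  have := Full.setting (N := ZFSet.{u}) ℝ X
  have h1 : ∀ c : ℝ, Intl ZFSet.{u} c := fun _ => inferInstance
  have h2 : ∀ x : X, Intl ZFSet.{u} x := fun _ => inferInstance
  by_contra h3
  exact not_sqReal (N := ZFSet.{u}) (E := X) (fun h4 => hX ((iFinDim_iff h1 h2).1 h4))
    (fun h4 => h3 ((absSQ_iff h1 h2).1 h4)) h

/-- In the universe of sets, the statement for complex scalars is the usual statement. -/
theorem faithful_complex : SQComplex (fun x y : ZFSet.{u} => x ∈ y) ↔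
    ∀ (X : Type u) [NormedAddCommGroup X] [NormedSpace ℂ X] [CompleteSpace X],
      ¬ FiniteDimensional ℂ X → HasSeparableQuotient ℂ X := by
  refine ⟨fun h X _ _ _ hX => ?_, fun h => sqComplex_of_abs (N := ZFSet.{u})
    fun E _ _ _ _ _ hE => abs_of_outer h E hE⟩
  let _ := codedAll.{u} ℝ
  have := totAll.{u} ℝ
  have := Full.rset (N := ZFSet.{u})
  let _ := codedAll.{u} X
  have := totAll.{u} X
  have := Full.setting (N := ZFSet.{u}) ℂ X
  have h1 : ∀ c : ℂ, Intl ZFSet.{u} c := Full.intl_scalar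
  have h2 : ∀ x : X, Intl ZFSet.{u} x := fun _ => inferInstance
  by_contra h3
  exact not_sqComplex (N := ZFSet.{u}) (E := X) (fun h4 => hX ((iFinDim_iff h1 h2).1 h4))
    (fun h4 => h3 ((absSQ_iff h1 h2).1 h4)) h

end Vale.Agent.P129Z
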