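import Mathlib.Probability.Independence.InfinitePi
import Mathlib.Probability.UniformOn
import Mathlib.MeasureTheory.OuterMeasure.BorelCantelli

/-!
# Random forcing: the measure theory
-/

namespace Vale.Agent.P129Z

open MeasureTheory ProbabilityTheory Filter Set Topology
open scoped ENNReal

universe u

section General

variable {Ω : Type u} [MeasurableSpace Ω]

/-- Random forcing: the measurable sets of positive measure. -/
def RP (μ : Measure Ω) : Type u := {A : Set Ω // MeasurableSet A ∧ μ A ≠ 0}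

variable {μ : Measure Ω}

instance : Preorder (RP μ) := Preorder.lift fun p => p.1

theorem RP.le_def {p q : RP μ} : p ≤ q ↔ p.1 ⊆ q.1 := Iff.rfl

instance [IsProbabilityMeasure μ] : OrderTop (RP μ) where
  top := ⟨univ, MeasurableSet.univ, by simp⟩
  le_top p := subset_univ p.1

/-- A condition which is almost covered by countably many sets has an extension in one of them. -/
theorem RP.exists_le_of_cover {ι : Type*} [Countable ι] (q : RP μ) {A : ι → Set Ω}
    (hA : ∀ i, MeasurableSet (A i)) (h : ∀ᵐ ω ∂μ, ω ∈ q.1 → ∃ i, ω ∈ A i) :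
    ∃ i, ∃ r ≤ q, r.1 ⊆ A i := by
  by_contra hcon
  have h1 : ∀ i, μ (q.1 ∩ A i) = 0 := by
    intro i
    by_contra h2
    exact hcon ⟨i, ⟨q.1 ∩ A i, q.2.1.inter (hA i), h2⟩, inter_subset_left, inter_subset_right⟩
  refine q.2.2 (measure_eq_zero_iff_ae_notMem.2 ?_)
  filter_upwards [h, ae_all_iff.2 fun i => measure_eq_zero_iff_ae_notMem.1 (h1 i)] with ω h2 h3 hq
  obtain ⟨i, hi⟩ := h2 hq
  exact h3 i ⟨hq, hi⟩

/-- Boolean values. -/
theorem exists_bval [IsFiniteMeasure μ] (φ : RP μ → Prop) (mono : ∀ p q, q ≤ p → φ p → φ q) :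
    ∃ B, MeasurableSet B ∧ (∀ p, φ p → ∀ᵐ ω ∂μ, ω ∈ p.1 → ω ∈ B) ∧
      ∀ q : RP μ, (∀ r ≤ q, ¬ φ r) → ∀ᵐ ω ∂μ, ω ∈ q.1 → ω ∉ B := by
  let m : Set (RP μ) → ℝ≥0∞ := fun C => μ (⋃ p ∈ C, p.1)
  obtain ⟨v, -, hv, hv'⟩ := exists_seq_tendsto_sSup
    (S := m '' {C | C.Countable ∧ ∀ p ∈ C, φ p}) ⟨_, ∅, by simp, rfl⟩ (OrderTop.bddAbove _)
  choose C hC hCv using hv'
  have hc : (⋃ n, C n).Countable := countable_iUnion fun n => (hC n).1
  have hφ : ∀ p ∈ ⋃ n, C n, φ p := fun p hp => by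
    obtain ⟨n, hn⟩ := mem_iUnion.1 hp
    exact (hC n).2 p hn
  have hB : MeasurableSet (⋃ p ∈ ⋃ n, C n, (p : RP μ).1) :=
    MeasurableSet.biUnion hc fun p _ => p.2.1
  have hmax : sSup (m '' {C | C.Countable ∧ ∀ p ∈ C, φ p}) ≤ m (⋃ n, C n) := by
    refine le_of_tendsto' hv fun n => ?_
    rw [← hCv n]
    exact measure_mono (biUnion_subset_biUnion_left (subset_iUnion C n))
  refine ⟨_, hB, fun p hp => ?_, fun q hq => ?_⟩
  · have h1 : m (insert p (⋃ n, C n)) ≤ m (⋃ n, C n) :=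
      le_trans (le_sSup (by
        exact ⟨_, ⟨hc.insert p, fun q hq => hq.elim (fun e => e ▸ hp) (hφ q)⟩, rfl⟩)) hmax
    simp only [m, biUnion_insert] at h1
    rw [← measure_sdiff_add_inter _ hB, union_sdiff_right, inter_eq_right.2 subset_union_right,
      ← zero_add (μ (⋃ p ∈ ⋃ n, C n, (p : RP μ).1)), ← add_assoc, add_zero,
      ENNReal.add_le_add_iff_right (measure_ne_top _ _), nonpos_iff_eq_zero] at h1
    filter_upwards [measure_eq_zero_iff_ae_notMem.1 h1] with ω hω h2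
    by_contra h3
    exact hω ⟨h2, h3⟩
  · have h1 : ∀ p ∈ ⋃ n, C n, ∀ᵐ ω ∂μ, ω ∉ q.1 ∩ (p : RP μ).1 := by
      intro p hp
      rw [← measure_eq_zero_iff_ae_notMem]
      by_contra h2
      exact hq ⟨q.1 ∩ p.1, q.2.1.inter p.2.1, h2⟩ inter_subset_left
        (mono p _ inter_subset_right (hφ p hp))
    filter_upwards [(ae_ball_iff hc).2 h1] with ω hω h2 h3
    obtain ⟨p, hp, h4⟩ := mem_iUnion₂.1 h3
    exact hω p hp ⟨h2, h4⟩

end General

/-! ### The product space -/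

variable {K : Type u}

/-- the product space -/
abbrev RO (K : Type u) : Type u := ∀ x : K × ℕ, Fin (32 ^ x.2)

/-- the product measure -/
noncomputable def Rm (K : Type u) : Measure (RO K) :=
  Measure.infinitePi fun x : K × ℕ => (uniformOn univ : Measure (Fin (32 ^ x.2)))

instance : IsProbabilityMeasure (Rm K) := by
  rw [Rm]
  infer_instance

theorem measurableSet_eval (x : K × ℕ) (n : Fin (32 ^ x.2)) :
    MeasurableSet {ω : RO K | ω x = n} :=
  measurable_pi_apply (X := fun x : K × ℕ => Fin (32 ^ x.2)) x (measurableSet_singleton n)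

theorem Rm_eval (x : K × ℕ) (n : Fin (32 ^ x.2)) :
    Rm K {ω | ω x = n} = ((32 : ℝ≥0∞) ^ x.2)⁻¹ := by
  have h := (measurePreserving_eval_infinitePi
    (fun x : K × ℕ => (uniformOn univ : Measure (Fin (32 ^ x.2)))) x).measure_preimage
      (measurableSet_singleton n).nullMeasurableSet
  refine Eq.trans h ?_
  rw [uniformOn_univ]
  simp

theorem exists_support {ι : Type*} {X : ι → Type*} [∀ i, MeasurableSpace (X i)]
    {B : Set (∀ i, X i)} (hB : MeasurableSet B) :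
    ∃ Δ : Set ι, Δ.Countable ∧ MeasurableSet[cylinderEvents Δ] B := by
  let m : MeasurableSpace (∀ i, X i) :=
    { MeasurableSet' := fun B => ∃ Δ : Set ι, Δ.Countable ∧ MeasurableSet[cylinderEvents Δ] B
      measurableSet_empty := ⟨∅, countable_empty, @MeasurableSet.empty _ (cylinderEvents ∅)⟩
      measurableSet_compl := fun B ⟨Δ, h1, h2⟩ => ⟨Δ, h1, h2.compl⟩
      measurableSet_iUnion := fun f hf => by
        choose Δ h1 h2 using hf
        refine ⟨⋃ n, Δ n, countable_iUnion h1, MeasurableSet.iUnion fun n => ?_⟩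
        exact cylinderEvents_mono (subset_iUnion Δ n) _ (h2 n) }
  have h : (MeasurableSpace.pi : MeasurableSpace (∀ i, X i)) ≤ m := by
    refine iSup_le fun i => ?_
    rintro _ ⟨s, hs, rfl⟩
    exact ⟨{i}, countable_singleton i, measurable_cylinderEvent_apply (mem_singleton i) hs⟩
  exact h B hB

theorem Rm_inter {Δ : Set (K × ℕ)} {x : K × ℕ} (hx : x ∉ Δ) (n : Fin (32 ^ x.2))
    {B : Set (RO K)} (hB : MeasurableSet[cylinderEvents Δ] B) :
    Rm K ({ω | ω x = n} ∩ B) = ((32 : ℝ≥0∞) ^ x.2)⁻¹ * Rm K B := by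
  have h1 : iIndepFun (fun (i : K × ℕ) (ω : RO K) => ω i) (Rm K) :=
    iIndepFun_infinitePi (X := fun _ ω => ω) (by fun_prop)
  have h2 := indep_iSup_of_disjoint (fun i => (measurable_pi_apply i).comap_le) h1.iIndep
    (disjoint_singleton_left.2 hx)
  rw [← Rm_eval x n]
  refine (Indep_iff _ _ _).1 h2 _ _ ?_ hB
  exact measurable_cylinderEvent_apply (X := fun x : K × ℕ => Fin (32 ^ x.2)) (mem_singleton x)
    (measurableSet_singleton n)

/-- the points whose coordinate `x` belongs to the random set given by `B`, which is small -/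
def BadSet (x : K × ℕ) (B : ℕ → Set (RO K)) : Set (RO K) :=
  {ω | ω ∈ B (ω x) ∧ ∑ n : Fin (32 ^ x.2), (B n).indicator 1 ω ≤ (16 : ℝ≥0∞) ^ x.2}

theorem badSet_eq (x : K × ℕ) (B : ℕ → Set (RO K)) : BadSet x B = ⋃ n : Fin (32 ^ x.2),
    {ω | ω x = n} ∩ (B n ∩
      {ω | ∑ n : Fin (32 ^ x.2), (B n).indicator 1 ω ≤ (16 : ℝ≥0∞) ^ x.2}) := by
  ext ω
  simp only [BadSet, mem_ofPred_eq, mem_iUnion, mem_inter_iff]
  exact ⟨fun h => ⟨ω x, rfl, h⟩, fun ⟨n, h1, h2⟩ => h1 ▸ h2⟩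

theorem measurableSet_small {m : MeasurableSpace (RO K)} (k : ℕ) {B : ℕ → Set (RO K)}
    (hB : ∀ n, MeasurableSet[m] (B n)) :
    MeasurableSet[m] {ω | ∑ n : Fin (32 ^ k), (B n).indicator 1 ω ≤ (16 : ℝ≥0∞) ^ k} :=
  measurableSet_le (Finset.measurable_sum _ fun n _ => measurable_one.indicator (hB n))
    measurable_const

theorem measurableSet_badSet (x : K × ℕ) {B : ℕ → Set (RO K)} (hB : ∀ n, MeasurableSet (B n)) :
    MeasurableSet (BadSet x B) := by
  rw [badSet_eq]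
  exact MeasurableSet.iUnion fun n => (measurableSet_eval x n).inter
    ((hB n).inter (measurableSet_small x.2 hB))

theorem Rm_badSet {Δ : Set (K × ℕ)} {x : K × ℕ} (hx : x ∉ Δ) {B : ℕ → Set (RO K)}
    (hB : ∀ n, MeasurableSet[cylinderEvents Δ] (B n)) :
    Rm K (BadSet x B) ≤ (2⁻¹ : ℝ≥0∞) ^ x.2 := by
  classical
  have hB' : ∀ n, MeasurableSet (B n) := fun n => cylinderEvents_le_pi _ (hB n)
  set C := {ω | ∑ n : Fin (32 ^ x.2), (B n).indicator 1 ω ≤ (16 : ℝ≥0∞) ^ x.2} with hC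
  have h1 : ∑ n : Fin (32 ^ x.2), Rm K (B n ∩ C) ≤ (16 : ℝ≥0∞) ^ x.2 := by
    have h2 : ∀ n : Fin (32 ^ x.2), MeasurableSet (B n ∩ C) :=
      fun n => (hB' n).inter (measurableSet_small x.2 hB')
    calc ∑ n : Fin (32 ^ x.2), Rm K (B n ∩ C)
        = ∑ n : Fin (32 ^ x.2), ∫⁻ ω, (B n ∩ C).indicator 1 ω ∂(Rm K) :=
          Finset.sum_congr rfl fun n _ => (lintegral_indicator_one (h2 n)).symm
      _ = ∫⁻ ω, ∑ n : Fin (32 ^ x.2), (B n ∩ C).indicator 1 ω ∂(Rm K) :=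
          (lintegral_finsetSum _ fun n _ => measurable_one.indicator (h2 n)).symm
      _ ≤ ∫⁻ _, (16 : ℝ≥0∞) ^ x.2 ∂(Rm K) := by
          refine lintegral_mono fun ω => ?_
          by_cases hω : ω ∈ C
          · refine le_trans (Finset.sum_le_sum fun n _ => ?_) hω
            exact indicator_le_indicator_of_subset inter_subset_left (fun _ => zero_le_one) ω
          · rw [Finset.sum_eq_zero fun n _ => indicator_of_notMem (fun h => hω h.2) _]
            exact zero_le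
      _ = (16 : ℝ≥0∞) ^ x.2 := by simp
  rw [badSet_eq]
  refine (measure_iUnion_fintype_le _ _).trans ?_
  rw [Finset.sum_congr rfl fun n _ => Rm_inter hx n ((hB n).inter (measurableSet_small x.2 hB)),
    ← Finset.mul_sum]
  refine (mul_le_mul_right h1 _).trans (le_of_eq ?_)
  rw [ENNReal.inv_pow, ← mul_pow]
  congr 1
  rw [show (32 : ℝ≥0∞) = 2 * 16 by norm_num, ENNReal.mul_inv (by simp) (by simp), mul_assoc,
    ENNReal.inv_mul_cancel (by simp) (by simp), mul_one]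

/-- Densely many conditions avoid almost all bad sets. -/
theorem dense_avoid {Δ : Set (K × ℕ)} {a : K} (ha : ∀ k, (a, k) ∉ Δ) {B : ℕ → ℕ → Set (RO K)}
    (hB : ∀ k n, MeasurableSet[cylinderEvents Δ] (B k n)) (q : RP (Rm K)) :
    ∃ r ≤ q, ∃ k₀, ∀ k, k₀ ≤ k → ∀ ω ∈ r.1, ω ∉ BadSet (a, k) (B k) := by
  have h1 : ∑' k, Rm K (BadSet (a, k) (B k)) ≠ ∞ := by
    refine ne_top_of_le_ne_top ?_ (ENNReal.tsum_le_tsum fun k => Rm_badSet (ha k) (hB k))
    simp
  obtain ⟨k₀, r, hr, h2⟩ := q.exists_le_of_cover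
    (A := fun k₀ => ⋂ k, ⋂ (_ : k₀ ≤ k), (BadSet (a, k) (B k))ᶜ)
    (fun k₀ => MeasurableSet.iInter fun k => MeasurableSet.iInter fun _ =>
      (measurableSet_badSet _ fun n => cylinderEvents_le_pi _ (hB k n)).compl) (by
      filter_upwards [ae_eventually_notMem h1] with ω hω _
      obtain ⟨k₀, hk₀⟩ := eventually_atTop.1 hω
      exact ⟨k₀, mem_iInter₂.2 hk₀⟩)
  exact ⟨r, hr, k₀, fun k hk ω hω => mem_iInter₂.1 (h2 hω) k hk⟩

/-- the condition which decides a coordinate -/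
def evalC (x : K × ℕ) (n : Fin (32 ^ x.2)) : RP (Rm K) :=
  ⟨{ω | ω x = n}, measurableSet_eval x n, by rw [Rm_eval]; simp⟩

theorem dense_eval (x : K × ℕ) (q : RP (Rm K)) : ∃ r ≤ q, ∃ n, r ≤ evalC x n := by
  obtain ⟨n, r, hr, h⟩ := q.exists_le_of_cover (A := fun n : Fin (32 ^ x.2) => {ω | ω x = n})
    (measurableSet_eval x) (Eventually.of_forall fun ω _ => ⟨ω x, rfl⟩)
  exact ⟨r, hr, n, h⟩

theorem RP.nonempty {Ω : Type u} [MeasurableSpace Ω] {μ : Measure Ω} (p : RP μ) {Φ : Ω → Prop}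
    (h : ∀ᵐ ω ∂μ, Φ ω) : ∃ ω ∈ p.1, Φ ω := by
  by_contra hcon
  push Not at hcon
  refine p.2.2 (measure_eq_zero_iff_ae_notMem.2 ?_)
  filter_upwards [h] with ω hω hp
  exact hcon ω hp hω

end Vale.Agent.P129Z
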