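import Vale.Agent.P129Z.Force
import Vale.Agent.P129Z.Setting
import Vale.Agent.P129Z.Erdos
import Vale.Agent.P129Z.RMeas

/-!
# The free set principle holds after adding measurably many random reals
-/

namespace Vale.Agent.P129Z

open MeasureTheory Filter Set Function
open scoped ENNReal

universe u

variable {K : Type u}

/-- the name of the index set -/
noncomputable def idxN (K : Type u) : Nm (RP (Rm K)) := setN (atom : K → Nm (RP (Rm K)))

/-- the name of the family of random sequences -/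
noncomputable def ranN (K : Type u) : Nm (RP (Rm K)) :=
  .mk (Σ x : K × ℕ, Fin (32 ^ x.2)) (fun y => evalC y.1 y.2)
    (fun y => opN (atom y.1.1) (opN (numN y.1.2) (numN y.2)))

/-- the name of a finite set of indices -/
noncomputable def finN (s : Finset K) : Nm (RP (Rm K)) := setN fun a : s => atom a.1

/-- the name of a quadruple -/
noncomputable def keyN (s : Finset K) (m k n : ℕ) : Nm (RP (Rm K)) :=
  opN (finN s) (opN (numN m) (opN (numN k) (numN n)))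

/-- the name of a ground sequence of indices -/
noncomputable def seqN (γ : ℕ → K) : Nm (RP (Rm K)) :=
  setN fun j : ULift.{u} ℕ => opN (numN j.down) (atom (γ j.down))

/-- The ground model part of the argument. -/
theorem exists_ground [DecidableEq K] (hK : HasFree K) (σ : Nm (RP (Rm K))) :
    ∃ (γ : ℕ → K) (B : Finset K → ℕ → ℕ → ℕ → Set (RO K)), Injective γ ∧
      (∀ s m k n p, fmem (keyN s m k n) σ p → ∀ᵐ ω ∂(Rm K), ω ∈ p.1 → ω ∈ B s m k n) ∧
      (∀ s m k n q, (∀ r ≤ q, ¬ fmem (keyN s m k n) σ r) →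
        ∀ᵐ ω ∂(Rm K), ω ∈ q.1 → ω ∉ B s m k n) ∧
      ∀ (T : Finset ℕ) (j m : ℕ), j ∉ T → ∀ q : RP (Rm K), ∃ r ≤ q, ∃ k₀, ∀ k, k₀ ≤ k →
        ∀ ω ∈ r.1, ω ∉ BadSet (γ j, k) (B (T.image γ) m k) := by
  choose B hB1 hB2 hB3 using fun (s : Finset K) (m k n : ℕ) =>
    exists_bval (μ := Rm K) (fun p => fmem (keyN s m k n) σ p) fun p q hq h => h.mono hq
  choose Δ hΔ1 hΔ2 using fun (s : Finset K) (m k n : ℕ) => exists_support (hB1 s m k n)
  obtain ⟨γ, h1, h2⟩ := hK _ (fun s => Prod.fst '' ⋃ m, ⋃ k, ⋃ n, Δ s m k n)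
    fun s => (countable_iUnion fun m => countable_iUnion fun k => countable_iUnion fun n =>
      hΔ1 s m k n).image _
  refine ⟨γ, B, h1, hB2, hB3, fun T j m hj q => ?_⟩
  refine dense_avoid (Δ := ⋃ m, ⋃ k, ⋃ n, Δ (T.image γ) m k n)
    (fun k hk => h2 T j hj ⟨_, hk, rfl⟩) (fun k n => ?_) q
  refine cylinderEvents_mono ?_ _ (hΔ2 _ m k n)
  exact fun x hx => mem_iUnion.2 ⟨m, mem_iUnion.2 ⟨k, mem_iUnion.2 ⟨n, hx⟩⟩⟩

theorem evalC_unique (g : Gen (RP (Rm K))) {x : K × ℕ} {n n' : Fin (32 ^ x.2)}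
    (h : evalC x n ∈ g.G) (h' : evalC x n' ∈ g.G) : n = n' := by
  obtain ⟨r, -, h1, h2⟩ := g.dir h h'
  obtain ⟨ω, hω, -⟩ := r.nonempty (Eventually.of_forall fun _ => trivial)
  exact (h1 hω).symm.trans (h2 hω)

theorem ev_FS (hK : HasFree K) :
    ∀ᶠ g in gen (RP (Rm K)), FS g.N := by
  classical
  choose γ B hγ hB1 hB2 hB3 using exists_ground hK
  have e1 : ∀ᶠ g in gen (RP (Rm K)), ∀ (k : ℕ) (a : K), g.In a → ∀ p ∈ g.G,
      (∀ q ≤ p, ∃ r ≤ q, ∃ n, r ≤ evalC (a, k) n) → ∃ q ∈ g.G, q ≤ p ∧ ∃ n, q ≤ evalC (a, k) n :=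
    eventually_countable_forall.2 fun k => ev_dense _
  have e2 : ∀ᶠ g in gen (RP (Rm K)), ∀ (T : Finset ℕ) (j m : ℕ) (σ : Nm (RP (Rm K))), g.In σ →
      ∀ p ∈ g.G, (∀ q ≤ p, ∃ r ≤ q, ∃ k₀, ∀ k, k₀ ≤ k →
        ∀ ω ∈ r.1, ω ∉ BadSet (γ σ j, k) (B σ (T.image (γ σ)) m k)) →
      ∃ q ∈ g.G, q ≤ p ∧ ∃ k₀, ∀ k, k₀ ≤ k →
        ∀ ω ∈ q.1, ω ∉ BadSet (γ σ j, k) (B σ (T.image (γ σ)) m k) :=
    eventually_countable_forall.2 fun T => eventually_countable_forall.2 fun j =>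
      eventually_countable_forall.2 fun m => ev_dense _
  have e3 : ∀ᶠ g in gen (RP (Rm K)), ∀ (T : Finset ℕ) (σ : Nm (RP (Rm K))), g.In σ →
      g.In (finN (T.image (γ σ))) := eventually_countable_forall.2 fun T => ev_fun _
  filter_upwards [e1, e2, e3, ev_const (idxN K), ev_const (ranN K), ev_atom K,
    ev_fun fun σ : Nm (RP (Rm K)) => seqN (γ σ)] with g e1 e2 e3 hI hR hat hG
  replace hI := g.mem_S.2 hI
  replace hR := g.mem_S.2 hR
  have h1 : ∀ x : El (g.val (idxN K)), ∃ a : K, atom a ∈ g.S ∧ g.val (atom a) = x.1 :=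
    fun x => (g.mem_val_setN hI x.1).1 x.2
  choose ix hix1 hix2 using h1
  have h2 : ∀ (x : El (g.val (idxN K))) (k : ℕ), ∃ n : Fin (32 ^ k), evalC (ix x, k) n ∈ g.G := by
    intro x k
    obtain ⟨q, hq, -, n, hn⟩ := e1 k (ix x) ((hat _).1 (hix1 x)) ⊤ g.top
      fun q _ => dense_eval (ix x, k) q
    exact ⟨n, g.up hq hn⟩
  choose r hr using h2
  have hval : ∀ (a : K) (k n : ℕ), atom a ∈ g.S →
      opN (atom a) (opN (numN k) (numN n)) ∈ g.S ∧
        g.val (opN (atom a) (opN (numN k) (numN n))) = op (g.val (atom a)) (op (num k) (num n)) := by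
    intro a k n ha
    have h3 := g.opN_mem (g.numN_mem k) (g.numN_mem n)
    exact ⟨g.opN_mem ha h3, by
      rw [g.val_opN ha h3, g.val_opN (g.numN_mem k) (g.numN_mem n), g.val_numN, g.val_numN]⟩
  have h3 : ∀ (x : El (g.val (idxN K))) (k n : ℕ),
      code g.N (x, k, n) ∈ g.val (ranN K) ↔ (r x k : ℕ) = n := by
    intro x k n
    change op x.1 (op (num k) (num n)) ∈ g.val (ranN K) ↔ _
    rw [ranN] at hR
    rw [ranN, g.mem_val_mk hR]
    constructor
    · rintro ⟨⟨⟨a, k'⟩, n'⟩, h4, h5, h6⟩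
      have ha := (g.mem_of_opN h5).1
      rw [(hval a k' n' ha).2, op_inj, op_inj, num_inj, num_inj, ← hix2,
        g.val_atom_inj ha (hix1 x)] at h6
      obtain ⟨rfl, rfl, rfl⟩ := h6
      rw [evalC_unique g (hr x k') h4]
    · rintro rfl
      exact ⟨⟨(ix x, k), r x k⟩, hr x k, (hval _ _ _ (hix1 x)).1, by
        rw [(hval _ _ _ (hix1 x)).2, hix2]⟩
  refine ⟨g.val (idxN K), fun x k => r x k, ?_, fun x k => (r x k).2, fun S hS hcard => ?_⟩
  · refine intl_fun.2 (DefF.lam _ (defF_of_rel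
      (R := fun (p : El (g.val (idxN K)) × ℕ) (n : ℕ) => code g.N (p.1, p.2, n) ∈ g.val (ranN K))
      (fun _ _ => inferInstance) (by fun_prop) fun p n _ _ => h3 p.1 p.2 n))
  obtain ⟨σ, hσ, hσS⟩ := g.val_surj (code g.N S)
  have hΓ := g.mem_S.2 (hG σ (g.mem_S.1 hσ))
  have hγS : ∀ j, atom (γ σ j) ∈ g.S := fun j =>
    (g.mem_of_opN (g.entry_mem hΓ (hc := inferInstanceAs (Countable (ULift ℕ))) ⟨j⟩)).2
  let gg : ℕ → El (g.val (idxN K)) := fun j =>
    ⟨g.val (atom (γ σ j)), (g.mem_val_setN hI _).2 ⟨_, hγS j, rfl⟩⟩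
  have hix : ∀ j, ix (gg j) = γ σ j := fun j => (g.val_atom_inj (hix1 _) (hγS j)).1 (hix2 _)
  refine ⟨gg, ?_, fun i j h => hγ σ (by rw [← hix, ← hix, h]), fun T j hj m => ?_⟩
  · refine intl_fun.2 (defF_of_rel
      (R := fun (j : ℕ) (x : El (g.val (idxN K))) => code g.N (j, x) ∈ g.val (seqN (γ σ)))
      (fun _ _ => inferInstance) (by fun_prop) fun j x _ _ => ?_)
    change op (num j) x.1 ∈ g.val (seqN (γ σ)) ↔ _
    rw [seqN] at hΓ
    rw [seqN, g.mem_val_setN hΓ]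
    constructor
    · rintro ⟨⟨i⟩, -, h4⟩
      rw [g.val_opN (g.numN_mem _) (hγS _), g.val_numN, op_inj, num_inj] at h4
      obtain ⟨rfl, h4⟩ := h4
      exact Subtype.ext h4
    · rintro rfl
      exact ⟨⟨j⟩, g.opN_mem (g.numN_mem _) (hγS _), by
        rw [g.val_opN (g.numN_mem _) (hγS _), g.val_numN]⟩
  have hf := g.mem_S.2 (e3 T σ (g.mem_S.1 hσ))
  have h4 : g.val (finN (T.image (γ σ))) = code g.N (T.image gg) := by
    refine ext fun z => ?_
    rw [finN] at hf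
    rw [finN, g.mem_val_setN hf, code_finset, mem_code_set inferInstance]
    constructor
    · rintro ⟨⟨a, ha⟩, -, rfl⟩
      obtain ⟨i, hi, rfl⟩ := Finset.mem_image.1 ha
      exact ⟨gg i, Finset.mem_coe.2 (Finset.mem_image_of_mem gg hi), rfl⟩
    · rintro ⟨x, hx, rfl⟩
      obtain ⟨i, hi, rfl⟩ := Finset.mem_image.1 (Finset.mem_coe.1 hx)
      exact ⟨⟨γ σ i, Finset.mem_image_of_mem _ hi⟩, hγS i, rfl⟩
  have h5 : ∀ k n, keyN (T.image (γ σ)) m k n ∈ g.S ∧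
      (g.val (keyN (T.image (γ σ)) m k n) ∈ g.val σ ↔ (T.image gg, m, k, n) ∈ S) := by
    intro k n
    have a1 := g.opN_mem (g.numN_mem k) (g.numN_mem n)
    have a2 := g.opN_mem (g.numN_mem m) a1
    refine ⟨g.opN_mem hf a2, ?_⟩
    rw [← code_mem_code hS inferInstance, hσS, keyN, g.val_opN hf a2,
      g.val_opN (g.numN_mem m) a1, g.val_opN (g.numN_mem k) (g.numN_mem n), g.val_numN,
      g.val_numN, g.val_numN, h4]
    rfl
  obtain ⟨q, hq, -, k₀, hk₀⟩ := e2 T j m σ (g.mem_S.1 hσ) ⊤ g.top fun q _ => hB3 σ T j m hj q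
  refine eventually_atTop.2 ⟨k₀, fun k hk hmem => ?_⟩
  have h6 : ∀ n : ℕ, ∃ p ∈ g.G, ∀ᵐ ω ∂(Rm K), ω ∈ p.1 →
      (ω ∈ B σ (T.image (γ σ)) m k n ↔ (T.image gg, m, k, n) ∈ S) := by
    intro n
    by_cases h : (T.image gg, m, k, n) ∈ S
    · obtain ⟨p, hp, h7⟩ := (g.val_mem' (h5 k n).1 hσ).1 ((h5 k n).2.2 h)
      exact ⟨p, hp, (hB1 σ _ m k n p h7).mono fun ω hω h8 => iff_of_true (hω h8) h⟩
    · obtain ⟨p, hp, h7⟩ := (g.val_not_mem (h5 k n).1 hσ).1 fun h' => h ((h5 k n).2.1 h')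
      exact ⟨p, hp, (hB2 σ _ m k n p h7).mono fun ω hω h8 => iff_of_false (hω h8) h⟩
  choose p hp hp' using h6
  obtain ⟨p₁, hp₁, h7⟩ := g.dir_finset (Finset.range (32 ^ k)) fun n _ => hp n
  obtain ⟨p₂, -, h8, h9, h10⟩ := g.dir3 hp₁ hq (hr (gg j) k)
  obtain ⟨ω, hω, h11⟩ := p₂.nonempty (ae_all_iff.2 hp')
  have h12 : ∀ n < 32 ^ k, ω ∈ B σ (T.image (γ σ)) m k n ↔ (T.image gg, m, k, n) ∈ S :=
    fun n hn => h11 n (h7 n (Finset.mem_range.2 hn) (h8 hω))
  have h13 : ω (ix (gg j), k) = r (gg j) k := h10 hω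
  refine hk₀ k hk ω (h9 hω) ⟨?_, ?_⟩
  · rw [← hix j, h13, hix j]
    exact (h12 _ (r (gg j) k).2).2 hmem
  · have h14 := hcard (T.image gg) m k ((Finset.univ.filter fun n : Fin (32 ^ k) =>
      ω ∈ B σ (T.image (γ σ)) m k n).map Fin.valEmbedding) fun x hx => by
        obtain ⟨n, hn, rfl⟩ := Finset.mem_map.1 hx
        exact ⟨n.2, (h12 n n.2).1 (Finset.mem_filter.1 hn).2⟩
    rw [Finset.card_map] at h14
    simp only [indicator_apply, Pi.one_apply, Finset.sum_boole]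
    exact_mod_cast h14

/-- **A model of the free set principle** from a set with infinite free sets. -/
theorem exists_model_FS_of_free (hK : HasFree K) :
    ∃ (N : Type) (_ : ZM N), Countable N ∧ FS N := by
  obtain ⟨g, -, hg⟩ := exists_of_ev (ev_FS hK) ⊤
  exact ⟨g.N, g.zm, g.cntN, hg⟩

/-- **A model of the free set principle** from a countably complete nonprincipal ultrafilter. -/
theorem exists_model_FS (U : Ultrafilter K) [CountableInterFilter (U : Filter K)]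
    (hU : ∀ x : K, {x} ∉ U) : ∃ (N : Type) (_ : ZM N), Countable N ∧ FS N :=
  exists_model_FS_of_free fun _ => exists_free U hU

end Vale.Agent.P129Z
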