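import Vale.Agent.P129Z.Rep1

/-!
# Separable quotients in the model and in the coded structure
-/

namespace Vale.Agent.P129Z

open Vale.Agent.P323.Z S Filter Topology

universe v

variable {N : Type v} [ZM N] [Coded N ℝ] [RSet N] {R : Reals N}
  {𝕜 : Type*} [RCLike 𝕜] [Coded N 𝕜] [KSet N 𝕜] {K : Scalars N}
  {E : Type*} [Coded N E] [NormedAddCommGroup E] [NormedSpace 𝕜 E] [PreSet N 𝕜 E] {X : Space N}

omit [RSet N] [KSet N 𝕜] [PreSet N 𝕜 E] in
theorem RepX.exists_set (hX : RepX 𝕜 E X) {Y : N} (h : Sub ZM.E Y X.car) :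
    ∃ M : Set E, Intl N M ∧ code N M = Y :=
  exists_set_of_sub fun y hy => (hX.car y).1 (h y hy)

omit [RSet N] [KSet N 𝕜] [PreSet N 𝕜 E] in
theorem RepX.sub_car (hX : RepX 𝕜 E X) {M : Set E} (hM : Intl N M) :
    Sub ZM.E (code N M) X.car := fun y hy => by
  obtain ⟨a, ha, rfl⟩ := (mem_code_set hM).1 hy
  exact (hX.car _).2 ⟨a, hM.of_mem ha, rfl⟩

theorem sub_code_iff {α : Type*} [Coded N α] {s t : Set α} (hs : Intl N s) (ht : Intl N t) :
    Sub ZM.E (code N s) (code N t) ↔ s ⊆ t := by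
  constructor
  · intro h a ha
    exact (code_mem_code ht (hs.of_mem ha)).1 (h _ ((code_mem_code hs (hs.of_mem ha)).2 ha))
  · intro h y hy
    obtain ⟨a, ha, rfl⟩ := (mem_code_set hs).1 hy
    exact (mem_code_set ht).2 ⟨a, h ha, rfl⟩

omit [RSet N] [KSet N 𝕜] in
theorem RepX.subspace (hK : RepK 𝕜 K) (hX : RepX 𝕜 E X) {M : Set E} (hM : Intl N M) :
    IsSubspace ZM.E K X (code N M) ↔ IsISub N 𝕜 M := by
  constructor
  · rintro ⟨-, h1, h2, h3⟩
    refine ⟨hM, ?_, fun x hx y hy => ?_, fun c hc x hx => ?_⟩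
    · rw [hX.zero] at h1
      exact (code_mem_code hM inferInstance).1 h1
    · have hx' := hM.of_mem hx
      have hy' := hM.of_mem hy
      have := h2 _ _ ((code_mem_code hM hx').2 hx) ((code_mem_code hM hy').2 hy)
      rw [hX.add _ _ hx' hy'] at this
      exact (code_mem_code hM inferInstance).1 this
    · have hx' := hM.of_mem hx
      have := h3 _ _ ((hK.car _).2 ⟨c, hc, rfl⟩) ((code_mem_code hM hx').2 hx)
      rw [hX.smul _ _ hc hx'] at this
      exact (code_mem_code hM inferInstance).1 this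
  · intro h
    refine ⟨hX.sub_car hM, ?_, fun x y hx hy => ?_, fun c x hc hx => ?_⟩
    · rw [hX.zero]
      exact (code_mem_code hM inferInstance).2 h.zero
    · obtain ⟨a, ha, rfl⟩ := (mem_code_set hM).1 hx
      obtain ⟨b, hb, rfl⟩ := (mem_code_set hM).1 hy
      rw [hX.add _ _ (hM.of_mem ha) (hM.of_mem hb)]
      exact (mem_code_set hM).2 ⟨_, h.add a ha b hb, rfl⟩
    · obtain ⟨a, ha, rfl⟩ := (hK.car _).1 hc
      obtain ⟨b, hb, rfl⟩ := (mem_code_set hM).1 hx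
      rw [hX.smul _ _ ha (hM.of_mem hb)]
      exact (mem_code_set hM).2 ⟨_, h.smul a ha b hb, rfl⟩

/-- finite sets of the model are finite -/
theorem isFinite_code {α : Type*} [Coded N α] {s : Set α} (hs : Intl N s) :
    IsFinite ZM.E (code N s) ↔ s.Finite := by
  constructor
  · rintro ⟨w, n, f, hw, hn, hf, hf'⟩
    obtain rfl := isOmega_iff.1 hw
    obtain ⟨k, rfl⟩ := mem_omega.1 hn
    have h1 : ∀ a ∈ s, ∃ i, i < k ∧ op (num i) (code N a) ∈ f := by
      intro a ha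
      obtain ⟨x, hx, h⟩ := hf' _ ((mem_code_set hs).2 ⟨a, ha, rfl⟩)
      obtain ⟨i, hi, rfl⟩ := mem_num.1 hx
      exact ⟨i, hi, pairMem_iff.1 h⟩
    choose! g hg1 hg2 using h1
    refine Set.Finite.of_finite_image (f := g) ((Set.finite_Iio k).subset ?_) ?_
    · rintro _ ⟨a, ha, rfl⟩; exact hg1 a ha
    · intro a ha b hb hab
      have h2 := ap_eq hf (num_mem_num.2 (hg1 a ha)) (hg2 a ha)
      have h3 := ap_eq hf (num_mem_num.2 (hg1 b hb)) (hg2 b hb)
      rw [← hab, h2] at h3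
      exact code_inj (hs.of_mem ha) (hs.of_mem hb) h3
  · intro h
    obtain ⟨n, e, he⟩ := h.fin_param
    have h0 : ∀ i, e i ∈ s := fun i => he.2 ▸ Set.mem_range_self i
    obtain ⟨f, hf⟩ := exists_of_finite (Set.finite_range fun i : Fin n =>
      (op (num i) (code N (e i)) : N))
    refine ⟨omega N, num n, f, isOmega_iff.2 rfl, num_mem_omega n, ⟨fun p hp => ?_, fun x hx => ?_⟩,
      fun y hy => ?_⟩
    · obtain ⟨i, rfl⟩ := (hf p).1 hp
      exact ⟨_, _, num_mem_num.2 i.2, (mem_code_set hs).2 ⟨_, h0 i, rfl⟩, isOPair_iff.2 rfl⟩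
    · obtain ⟨i, hi, rfl⟩ := mem_num.1 hx
      refine ⟨_, pairMem_iff.2 ((hf _).2 ⟨⟨i, hi⟩, rfl⟩), fun y hy => ?_⟩
      obtain ⟨j, hj⟩ := (hf _).1 (pairMem_iff.1 hy)
      obtain ⟨h1, h2⟩ := op_inj.1 hj
      rw [← h2]
      congr 2
      exact Fin.ext (num_inj.1 h1)
    · obtain ⟨a, ha, rfl⟩ := (mem_code_set hs).1 hy
      obtain ⟨i, rfl⟩ : a ∈ Set.range e := he.2 ▸ ha
      exact ⟨_, num_mem_num.2 i.2, pairMem_iff.2 ((hf _).2 ⟨i, rfl⟩)⟩

omit [RSet N] [KSet N 𝕜] [PreSet N 𝕜 E] in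
theorem IsISub.sum_mem {M : Set E} (hM : IsISub N 𝕜 M) {ι : Type*} (s : Finset ι) (f : ι → E)
    (h : ∀ i ∈ s, f i ∈ M) : ∑ i ∈ s, f i ∈ M :=
  Finset.sum_induction f (· ∈ M) (fun a b ha hb => hM.add a ha b hb) hM.zero h

theorem RepX.finiteCodim (hK : RepK 𝕜 K) (hX : RepX 𝕜 E X) {M : Set E} (hM : IsISub N 𝕜 M) :
    FiniteCodim ZM.E K X (code N M) ↔ IFinCodim N 𝕜 M := by
  have hMI := hM.intl
  constructor
  · rintro ⟨F, hF, hFX, h⟩
    obtain ⟨s, hs, rfl⟩ := hX.exists_set hFX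
    obtain ⟨n, e, he⟩ := ((isFinite_code hs).1 hF).fin_param
    let v : ℕ → E := fun i => if h : i < n then e ⟨i, h⟩ else 0
    have hv : ∀ i, Intl N (v i) := fun i => by
      simp only [v]; split_ifs
      exacts [hs.of_mem (he.2 ▸ Set.mem_range_self _), inferInstance]
    have hvI : Intl N v := intl_of_eventually_const v hv n fun i hi => by
      simp only [v, dif_neg (not_lt.2 hi), dif_neg (lt_irrefl n)]
    let Z : Set E := {x | Intl N x ∧ ∃ c : ℕ → 𝕜, Intl N c ∧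
      x - ∑ i ∈ Finset.range n, c i • v i ∈ M}
    have hZ : Intl N Z := intl_setOf (by fun_prop)
    have hZ' : IsISub N 𝕜 Z := by
      refine ⟨hZ, ⟨inferInstance, 0, inferInstance, by simpa using hM.zero⟩, ?_, ?_⟩
      · rintro x ⟨hx, c, hc, h1⟩ y ⟨hy, d, hd, h2⟩
        refine ⟨inferInstance, c + d, inferInstance, ?_⟩
        have := hM.add _ h1 _ h2
        simp only [Pi.add_apply, add_smul, Finset.sum_add_distrib]
        rwa [sub_add_sub_comm] at this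
      · rintro a ha x ⟨hx, c, hc, h1⟩
        refine ⟨inferInstance, a • c, inferInstance, ?_⟩
        have := hM.smul a ha _ h1
        simp only [Pi.smul_apply, smul_eq_mul, mul_smul, ← Finset.smul_sum]
        rwa [smul_sub] at this
    have h1 := h _ ((hX.subspace hK hZ).2 hZ') ((sub_code_iff hMI hZ).2 fun x hx =>
      ⟨hMI.of_mem hx, 0, inferInstance, by simpa using hx⟩) ((sub_code_iff hs hZ).2 fun x hx => by
        obtain ⟨i, rfl⟩ : x ∈ Set.range e := he.2 ▸ hx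
        refine ⟨hs.of_mem hx, Function.update 0 i 1, inferInstance, ?_⟩
        rw [Finset.sum_eq_single (i : ℕ)]
        · simpa [v] using hM.zero
        · intro j _ hj
          simp [Function.update_of_ne hj]
        · intro hi
          exact absurd (Finset.mem_range.2 i.2) hi)
    refine ⟨n, v, hv, fun x hx => ?_⟩
    obtain ⟨-, c, hc, h2⟩ := (code_mem_code hZ hx).1 (h1 _ ((hX.car _).2 ⟨x, hx, rfl⟩))
    exact ⟨c, fun i => inferInstance, h2⟩
  · rintro ⟨n, v, hv, h⟩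
    have hfin : (v '' Set.Iio n).Finite := (Set.finite_Iio n).image v
    have hs : Intl N (v '' Set.Iio n) := intl_of_finite hfin (by rintro _ ⟨i, -, rfl⟩; exact hv i)
    refine ⟨_, (isFinite_code hs).2 hfin, hX.sub_car hs, fun Z hZ h1 h2 y hy => ?_⟩
    obtain ⟨Z', hZ', rfl⟩ := hX.exists_set hZ.1
    obtain ⟨x, hx, rfl⟩ := (hX.car y).1 hy
    have h3 := (hX.subspace hK hZ').1 hZ
    obtain ⟨c, hc, h4⟩ := h x hx
    have h5 := h3.add _ ((sub_code_iff hMI hZ').1 h1 h4) _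
      (h3.sum_mem (Finset.range n) (fun i => c i • v i) fun i hi =>
        h3.smul _ (hc i) _ ((sub_code_iff hs hZ').1 h2 ⟨i, Finset.mem_range.1 hi, rfl⟩))
    rw [sub_add_cancel] at h5
    exact (code_mem_code hZ' hx).2 h5

theorem rep3_fin (hK : RepK 𝕜 K) (hX : RepX 𝕜 E X) : FiniteDim ZM.E K X ↔ IFinDim N 𝕜 E := by
  have h0 : Intl N ({0} : Set E) := intl_of_finite (Set.finite_singleton 0)
    (by rintro _ rfl; infer_instance)
  have h1 : IsISub N 𝕜 ({0} : Set E) :=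
    ⟨h0, rfl, by rintro _ rfl _ rfl; simp, by rintro c _ _ rfl; simp⟩
  rw [IFinDim, ← hX.finiteCodim hK h1]
  refine exists_congr fun F => and_congr Iff.rfl (and_congr Iff.rfl (forall_congr' fun Z =>
    forall_congr' fun hZ => ⟨fun h _ => h, fun h => h fun y hy => ?_⟩))
  obtain ⟨_, rfl, rfl⟩ := (mem_code_set h0).1 hy
  exact hX.zero ▸ hZ.2.1

omit [KSet N 𝕜] in
theorem RepX.closedIn (hR : RepR R) (hX : RepX 𝕜 E X) {M : Set E} (hM : Intl N M) :
    IsClosedIn ZM.E R X (code N M) ↔ ∀ x : E, Intl N x → x ∈ closure M → x ∈ M := by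
  constructor
  · intro h x hx hc
    refine (code_mem_code hM hx).1 (h _ ((hX.car _).2 ⟨x, hx, rfl⟩) fun ε hε => ?_)
    obtain ⟨e, he, h0, rfl⟩ := hR.pos.1 hε
    obtain ⟨y, hy, h1⟩ := Metric.mem_closure_iff.1 hc e h0
    exact ⟨_, (mem_code_set hM).2 ⟨y, hy, rfl⟩,
      (hX.close hR he hx (hM.of_mem hy)).2 (by rwa [← dist_eq_norm])⟩
  · intro h y hy hc
    obtain ⟨x, hx, rfl⟩ := (hX.car y).1 hy
    refine (code_mem_code hM hx).2 (h x hx (Metric.mem_closure_iff.2 fun ε hε => ?_))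
    obtain ⟨e, he, h0, h1⟩ := exists_intl_btwn (N := N) hε
    obtain ⟨z, hz, h2⟩ := hc _ (hR.pos.2 ⟨e, he, h0, rfl⟩)
    obtain ⟨m, hm, rfl⟩ := (mem_code_set hM).1 hz
    refine ⟨m, hm, ?_⟩
    rw [dist_eq_norm]
    exact ((hX.close hR he hx (hM.of_mem hm)).1 h2).trans h1

omit [KSet N 𝕜] in
theorem RepX.separable (hR : RepR R) (hX : RepX 𝕜 E X) {M : Set E} (hM : Intl N M) :
    SeparableQuot ZM.E R X (code N M) ↔ ∃ d : ℕ → E, Intl N d ∧
      ∀ x : E, Intl N x → ∀ ε > 0, ∃ n, ∃ m ∈ M, ‖x - d n - m‖ < ε := by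
  constructor
  · rintro ⟨w, s, hw, hs, h⟩
    obtain rfl := isOmega_iff.1 hw
    obtain ⟨d, hd, hds⟩ := exists_seq_of_fun hX.car hs
    refine ⟨d, hd, fun x hx ε hε => ?_⟩
    obtain ⟨e, he, h0, h1⟩ := exists_intl_btwn (N := N) hε
    obtain ⟨n, y, hn, hy, h2⟩ := h _ _ ((hX.car _).2 ⟨x, hx, rfl⟩) (hR.pos.2 ⟨e, he, h0, rfl⟩)
    obtain ⟨k, rfl⟩ := mem_omega.1 hn
    obtain ⟨m, hm, rfl⟩ := (mem_code_set hM).1 hy
    have := hM.of_mem hm
    rw [hds, hX.add _ _ inferInstance this, hX.close hR he hx inferInstance] at h2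
    exact ⟨k, m, hm, by rw [sub_sub]; exact h2.trans h1⟩
  · rintro ⟨d, hd, h⟩
    obtain ⟨s, hs, hds⟩ := exists_fun_rep dom_omega hX.car (DefF.ofIntl d)
    refine ⟨_, s, isOmega_iff.2 rfl, hs, fun y ε hy hε => ?_⟩
    obtain ⟨x, hx, rfl⟩ := (hX.car y).1 hy
    obtain ⟨e, he, h0, rfl⟩ := hR.pos.1 hε
    obtain ⟨n, m, hm, h1⟩ := h x hx e h0
    have := hM.of_mem hm
    refine ⟨_, _, num_mem_omega n, (mem_code_set hM).2 ⟨m, hm, rfl⟩, ?_⟩
    rw [← code_nat, hds n inferInstance, hX.add _ _ inferInstance this,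
      hX.close hR he hx inferInstance, ← sub_sub]
    exact h1

theorem rep3_sq (hR : RepR R) (hK : RepK 𝕜 K) (hX : RepX 𝕜 E X) :
    HasSQ ZM.E R K X ↔ AbsSQ N 𝕜 E := by
  constructor
  · rintro ⟨Y, h1, h2, h3, h4⟩
    obtain ⟨M, hM, rfl⟩ := hX.exists_set h1.1
    have h5 := (hX.subspace hK hM).1 h1
    exact ⟨M, h5, (hX.closedIn hR hM).1 h2, fun h => h4 ((hX.finiteCodim hK h5).2 h),
      (hX.separable hR hM).1 h3⟩
  · rintro ⟨M, h1, h2, h3, h4⟩
    exact ⟨_, (hX.subspace hK h1.intl).2 h1, (hX.closedIn hR h1.intl).2 h2,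
      (hX.separable hR h1.intl).2 h4, fun h => h3 ((hX.finiteCodim hK h1).1 h)⟩

/-- An internal Banach space without separable quotients refutes the statement in the model. -/
theorem not_sqReal {E : Type*} [Coded N E] [NormedAddCommGroup E] [NormedSpace ℝ E]
    [PreSet N ℝ E] (h1 : ¬ IFinDim N ℝ E) (h2 : ¬ AbsSQ N ℝ E) : ¬ SQReal (ZM.E (N := N)) := by
  intro h
  obtain ⟨R, hR, hR'⟩ := rep1_reals (N := N)
  obtain ⟨K, hK, hK'⟩ := rep1_real hR'
  obtain ⟨X, hX, hX'⟩ := rep1_space ℝ E hR' hK'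
  exact h2 ((rep3_sq hR' hK' hX').1 (h R K X hR hK hX fun h3 => h1 ((rep3_fin hK' hX').1 h3)))

theorem not_sqComplex {E : Type*} [Coded N E] [NormedAddCommGroup E] [NormedSpace ℂ E]
    [PreSet N ℂ E] (h1 : ¬ IFinDim N ℂ E) (h2 : ¬ AbsSQ N ℂ E) : ¬ SQComplex (ZM.E (N := N)) := by
  intro h
  obtain ⟨R, hR, hR'⟩ := rep1_reals (N := N)
  obtain ⟨K, hK, hK'⟩ := rep1_complex hR'
  obtain ⟨X, hX, hX'⟩ := rep1_space ℂ E hR' hK'
  exact h2 ((rep3_sq hR' hK' hX').1 (h R K X hR hK hX fun h3 => h1 ((rep3_fin hK' hX').1 h3)))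

end Vale.Agent.P129Z
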