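import Vale.Agent.P129Z.A2
import Vale.Agent.P129Z.RFS
import Vale.Agent.P129Z.An
import Vale.Agent.P129Z.Rep2
import Vale.Agent.P129Z.Rep3

/-!
# The two models
-/

namespace Vale.Agent.P129Z

open S

universe u v

theorem isZFCModel (N : Type v) [ZM N] : IsZFCModel (ZM.E (N := N)) := ⟨ZM.zf, ZM.ac N⟩

/-- A model of ZFC in which the separable quotient problem has a negative answer. -/
theorem exists_model_not_sq :
    ∃ (M : Type) (E : M → M → Prop), IsZFCModel E ∧ ¬ SQReal E ∧ ¬ SQComplex E := by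
  obtain ⟨N, _, _, _, ⟨Z, _, _, _, _, h1, h2⟩, ⟨Z', _, _, _, _, h3, h4⟩⟩ := exists_model_bad
  exact ⟨N, ZM.E, isZFCModel N, not_sqReal h1 h2, not_sqComplex h3 h4⟩

theorem sqReal_of_FS {N : Type v} [ZM N] (h : FS N) : SQReal (ZM.E (N := N)) := by
  intro R K X hR hK hX hd
  obtain ⟨_, _, hR'⟩ := rep2_reals hR
  have hK' := rep2_real hR' hK
  obtain ⟨E, _, _, _, _, _, hX'⟩ := rep2_space hR' hK' hX
  exact (rep3_sq hR' hK' hX').2 (absSQ_of_FS h fun h1 => hd ((rep3_fin hK' hX').2 h1))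

theorem sqComplex_of_FS {N : Type v} [ZM N] (h : FS N) : SQComplex (ZM.E (N := N)) := by
  intro R K X hR hK hX hd
  obtain ⟨_, _, hR'⟩ := rep2_reals hR
  have hK' := rep2_complex hR' hK
  obtain ⟨E, _, _, _, _, _, hX'⟩ := rep2_space hR' hK' hX
  exact (rep3_sq hR' hK' hX').2 (absSQ_of_FS h fun h1 => hd ((rep3_fin hK' hX').2 h1))

/-- From a large cardinal, a well-founded model of ZFC with the free set principle. -/
theorem exists_FS_of_large (κ : Cardinal.{u}) (h : IsMeasurableCardinal κ ∨ ErdosArrow κ) :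
    ∃ (N : Type) (_ : ZM N), FS N := by
  rcases h with ⟨hκ, U, hU, hn⟩ | h
  · have : CountableInterFilter (U : Filter κ.out) :=
      CardinalInterFilter.toCountableInterFilter _ hκ
    obtain ⟨N, hN, h⟩ := exists_model_FS U hn
    exact ⟨N, hN, h.2⟩
  · obtain ⟨N, hN, h⟩ := exists_model_FS_of_free (hasFree_of_arrow h)
    exact ⟨N, hN, h.2⟩

/-- From a large cardinal, a model of ZFC in which the separable quotient problem has a positive
answer. -/
theorem exists_model_sq (κ : Cardinal.{u}) (h : IsMeasurableCardinal κ ∨ ErdosArrow κ) :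
    ∃ (M : Type) (E : M → M → Prop), IsZFCModel E ∧ SQReal E ∧ SQComplex E := by
  obtain ⟨N, _, h⟩ := exists_FS_of_large κ h
  exact ⟨N, ZM.E, isZFCModel N, sqReal_of_FS h, sqComplex_of_FS h⟩

end Vale.Agent.P129Z
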