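import Mathlib.Order.BoundedOrder.Basic
import Mathlib.SetTheory.Cardinal.Order
import Vale.Agent.P323.Z.Sentences

/-!
# Forcing over a preorder: names and the forcing relation

`q ≤ p` means that `q` is stronger than `p`.
-/

namespace Vale.Agent.P129Z

open Vale.Agent.P323.Z

universe u

/-- Names. -/
inductive Nm (P : Type u) : Type (u + 1)
  | mk (I : Type u) (c : I → P) (t : I → Nm P) : Nm P

namespace Nm

variable {P : Type u}

/-- the index type of the entries -/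
def I : Nm P → Type u
  | mk I _ _ => I

/-- the condition of an entry -/
def c : (σ : Nm P) → σ.I → P
  | mk _ c _ => c

/-- the name of an entry -/
def t : (σ : Nm P) → σ.I → Nm P
  | mk _ _ t => t

@[simp] theorem I_mk (I : Type u) (c : I → P) (t : I → Nm P) : (mk I c t).I = I := rfl
@[simp] theorem c_mk (I : Type u) (c : I → P) (t : I → Nm P) (i : I) : (mk I c t).c i = c i := rfl
@[simp] theorem t_mk (I : Type u) (c : I → P) (t : I → Nm P) (i : I) : (mk I c t).t i = t i := rfl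

theorem ind {Q : Nm P → Prop} (h : ∀ σ : Nm P, (∀ i, Q (σ.t i)) → Q σ) (σ : Nm P) : Q σ := by
  induction σ with
  | mk I c t ih => exact h (mk I c t) ih

instance : Inhabited (Nm P) := ⟨mk PEmpty PEmpty.elim PEmpty.elim⟩

end Nm

variable {P : Type u} [Preorder P]

/-- forced equality -/
def feq : Nm P → Nm P → P → Prop
  | .mk _ c t, .mk _ d s, p =>
    (∀ i, ∀ q ≤ p, q ≤ c i → ∃ r ≤ q, ∃ j, r ≤ d j ∧ feq (t i) (s j) r) ∧
    (∀ j, ∀ q ≤ p, q ≤ d j → ∃ r ≤ q, ∃ i, r ≤ c i ∧ feq (t i) (s j) r)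

/-- forced membership -/
def fmem (σ τ : Nm P) (p : P) : Prop :=
  ∀ q ≤ p, ∃ r ≤ q, ∃ j : τ.I, r ≤ τ.c j ∧ feq σ (τ.t j) r

theorem feq_iff (σ τ : Nm P) (p : P) : feq σ τ p ↔
    (∀ i, ∀ q ≤ p, q ≤ σ.c i → ∃ r ≤ q, ∃ j, r ≤ τ.c j ∧ feq (σ.t i) (τ.t j) r) ∧
    (∀ j, ∀ q ≤ p, q ≤ τ.c j → ∃ r ≤ q, ∃ i, r ≤ σ.c i ∧ feq (σ.t i) (τ.t j) r) := by
  cases σ
  cases τ
  rfl

theorem feq.mono {p q : P} {σ τ : Nm P} (h : feq σ τ p) (hq : q ≤ p) : feq σ τ q := by
  rw [feq_iff] at h ⊢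
  exact ⟨fun i r hr => h.1 i r (hr.trans hq), fun j r hr => h.2 j r (hr.trans hq)⟩

theorem fmem.mono {p q : P} {σ τ : Nm P} (h : fmem σ τ p) (hq : q ≤ p) : fmem σ τ q :=
  fun r hr => h r (hr.trans hq)

theorem feq.of_dense {p : P} {σ τ : Nm P} (h : ∀ q ≤ p, ∃ r ≤ q, feq σ τ r) : feq σ τ p := by
  rw [feq_iff]
  refine ⟨fun i q hq hi => ?_, fun j q hq hj => ?_⟩
  · obtain ⟨r, hr, h1⟩ := h q hq
    obtain ⟨s, hs, h2⟩ := ((feq_iff _ _ _).1 h1).1 i r le_rfl (hr.trans hi)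
    exact ⟨s, hs.trans hr, h2⟩
  · obtain ⟨r, hr, h1⟩ := h q hq
    obtain ⟨s, hs, h2⟩ := ((feq_iff _ _ _).1 h1).2 j r le_rfl (hr.trans hj)
    exact ⟨s, hs.trans hr, h2⟩

theorem fmem.of_dense {p : P} {σ τ : Nm P} (h : ∀ q ≤ p, ∃ r ≤ q, fmem σ τ r) : fmem σ τ p := by
  intro q hq
  obtain ⟨r, hr, h1⟩ := h q hq
  obtain ⟨s, hs, h2⟩ := h1 r le_rfl
  exact ⟨s, hs.trans hr, h2⟩

theorem feq.refl (σ : Nm P) (p : P) : feq σ σ p := by
  induction σ using Nm.ind generalizing p with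
  | _ σ ih =>
    rw [feq_iff]
    exact ⟨fun i q _ hi => ⟨q, le_rfl, i, hi, ih i q⟩, fun i q _ hi => ⟨q, le_rfl, i, hi, ih i q⟩⟩

theorem feq.symm {p : P} {σ τ : Nm P} (h : feq σ τ p) : feq τ σ p := by
  induction σ using Nm.ind generalizing p τ with
  | _ σ ih =>
    rw [feq_iff] at h ⊢
    refine ⟨fun j q hq hj => ?_, fun i q hq hi => ?_⟩
    · obtain ⟨r, hr, i, h1, h2⟩ := h.2 j q hq hj
      exact ⟨r, hr, i, h1, ih i h2⟩
    · obtain ⟨r, hr, j, h1, h2⟩ := h.1 i q hq hi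
      exact ⟨r, hr, j, h1, ih i h2⟩

theorem feq.trans {p : P} {σ τ ρ : Nm P} (h : feq σ τ p) (h' : feq τ ρ p) : feq σ ρ p := by
  induction σ using Nm.ind generalizing p τ ρ with
  | _ σ ih =>
    rw [feq_iff] at h h' ⊢
    refine ⟨fun i q hq hi => ?_, fun k q hq hk => ?_⟩
    · obtain ⟨r, hr, j, h1, h2⟩ := h.1 i q hq hi
      obtain ⟨s, hs, k, h3, h4⟩ := h'.1 j r (hr.trans hq) h1
      exact ⟨s, hs.trans hr, k, h3, ih i (h2.mono hs) h4⟩
    · obtain ⟨r, hr, j, h1, h2⟩ := h'.2 k q hq hk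
      obtain ⟨s, hs, i, h3, h4⟩ := h.2 j r (hr.trans hq) h1
      exact ⟨s, hs.trans hr, i, h3, ih i h4 (h2.mono hs)⟩

theorem feq_comm {p : P} {σ τ : Nm P} : feq σ τ p ↔ feq τ σ p := ⟨feq.symm, feq.symm⟩

theorem fmem_entry (τ : Nm P) (j : τ.I) {p : P} (h : p ≤ τ.c j) : fmem (τ.t j) τ p :=
  fun q hq => ⟨q, le_rfl, j, hq.trans h, feq.refl _ _⟩

theorem fmem.congr_left {p : P} {σ σ' τ : Nm P} (h : fmem σ τ p) (h' : feq σ σ' p) :
    fmem σ' τ p := by
  intro q hq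
  obtain ⟨r, hr, j, h1, h2⟩ := h q hq
  exact ⟨r, hr, j, h1, (h'.mono (hr.trans hq)).symm.trans h2⟩

theorem fmem.congr_right {p : P} {σ τ τ' : Nm P} (h : fmem σ τ p) (h' : feq τ τ' p) :
    fmem σ τ' p := by
  intro q hq
  obtain ⟨r, hr, j, h1, h2⟩ := h q hq
  obtain ⟨s, hs, k, h3, h4⟩ := ((feq_iff _ _ _).1 h').1 j r (hr.trans hq) h1
  exact ⟨s, hs.trans hr, k, h3, (h2.mono hs).trans h4⟩

theorem fmem.congr {σ σ' τ τ' : Nm P} {p : P} (h : fmem σ τ p) (h1 : feq σ σ' p)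
    (h2 : feq τ τ' p) : fmem σ' τ' p := (h.congr_left h1).congr_right h2

theorem feq_of_entries {p : P} {σ τ : Nm P}
    (h1 : ∀ i q, q ≤ p → q ≤ σ.c i → fmem (σ.t i) τ q)
    (h2 : ∀ j q, q ≤ p → q ≤ τ.c j → fmem (τ.t j) σ q) : feq σ τ p := by
  rw [feq_iff]
  refine ⟨fun i q hq hi => h1 i q hq hi q le_rfl, fun j q hq hj => ?_⟩
  obtain ⟨r, hr, i, h3, h4⟩ := h2 j q hq hj q le_rfl
  exact ⟨r, hr, i, h3, h4.symm⟩

/-- Extensionality. -/
theorem feq_ext {p : P} {σ τ : Nm P} (h : ∀ q ≤ p, ∀ ρ, fmem ρ σ q ↔ fmem ρ τ q) : feq σ τ p :=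
  feq_of_entries (fun _ q hq hi => (h q hq _).1 (fmem_entry _ _ hi))
    (fun _ q hq hj => (h q hq _).2 (fmem_entry _ _ hj))

theorem fmem_mk {p : P} {σ : Nm P} {I : Type u} {c : I → P} {t : I → Nm P} :
    fmem σ (Nm.mk I c t) p ↔ ∀ q ≤ p, ∃ r ≤ q, ∃ j, r ≤ c j ∧ feq σ (t j) r := Iff.rfl

/-- The forcing relation. -/
def Frc : ∀ {n : ℕ}, Fml n → P → (Fin n → Nm P) → Prop
  | _, .bot, _, _ => False
  | _, .eq i j, p, v => feq (v i) (v j) p
  | _, .mem i j, p, v => fmem (v i) (v j) p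
  | _, .imp φ ψ, p, v => ∀ q ≤ p, Frc φ q v → Frc ψ q v
  | _, .all φ, p, v => ∀ a, Frc φ p (Fin.snoc v a)

theorem Frc.mono {n : ℕ} {φ : Fml n} {p q : P} {v : Fin n → Nm P} (h : Frc φ p v) (hq : q ≤ p) :
    Frc φ q v := by
  induction φ generalizing p q with
  | bot => exact h
  | eq i j => exact feq.mono h hq
  | mem i j => exact fmem.mono h hq
  | imp φ ψ _ _ => exact fun r hr => h r (hr.trans hq)
  | all φ ih => exact fun a => ih (h a) hq

theorem frc_local {n : ℕ} {φ : Fml n} {p : P} {v : Fin n → Nm P}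
    (h : ∀ q ≤ p, ∃ r ≤ q, Frc φ r v) : Frc φ p v := by
  induction φ generalizing p with
  | bot =>
    obtain ⟨r, -, hr⟩ := h p le_rfl
    exact hr
  | eq i j => exact feq.of_dense h
  | mem i j => exact fmem.of_dense h
  | imp φ ψ _ ih =>
    intro q hq hφ
    refine ih fun r hr => ?_
    obtain ⟨s, hs, h1⟩ := h r (hr.trans hq)
    exact ⟨s, hs, h1 s le_rfl (hφ.mono (hs.trans hr))⟩
  | all φ ih =>
    intro a
    refine ih fun q hq => ?_
    obtain ⟨r, hr, h1⟩ := h q hq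
    exact ⟨r, hr, h1 a⟩

theorem Frc.congr {n : ℕ} {φ : Fml n} {p : P} {v w : Fin n → Nm P} (h : Frc φ p v)
    (hv : ∀ i, feq (v i) (w i) p) : Frc φ p w := by
  induction φ generalizing p with
  | bot => exact h
  | eq i j => exact ((hv i).symm.trans h).trans (hv j)
  | mem i j => exact (fmem.congr_left h (hv i)).congr_right (hv j)
  | imp φ ψ ih1 ih2 =>
    intro q hq hφ
    exact ih2 (h q hq (ih1 hφ fun i => ((hv i).mono hq).symm)) fun i => (hv i).mono hq
  | all φ ih =>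
    intro a
    refine ih (h a) fun i => ?_
    refine Fin.lastCases ?_ (fun j => ?_) i
    · simpa using feq.refl a p
    · simpa using hv j

theorem exists_frc_neg {n : ℕ} {φ : Fml n} {p : P} {v : Fin n → Nm P} (h : ¬ Frc φ p v) :
    ∃ q ≤ p, ∀ r ≤ q, ¬ Frc φ r v := by
  by_contra hcon
  push Not at hcon
  exact h (frc_local hcon)

/-! ### Standard names -/

variable [OrderTop P]

/-- the name of an unordered pair -/
def upN (σ τ : Nm P) : Nm P := .mk (ULift Bool) (fun _ => ⊤) (fun b => cond b.down σ τ)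
/-- the name of an ordered pair -/
def opN (σ τ : Nm P) : Nm P := upN (upN σ σ) (upN σ τ)
/-- the name of a numeral -/
def numN : ℕ → Nm P
  | 0 => .mk PEmpty PEmpty.elim PEmpty.elim
  | n + 1 => .mk (Option (numN n).I) (fun _ => ⊤) (fun o => o.elim (numN n) (numN n).t)
/-- the name of a ground set of names -/
def setN {α : Type u} (f : α → Nm P) : Nm P := .mk α (fun _ => ⊤) f
/-- A name for each element of a ground type: the ordinal of the element in a fixed well-order. -/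
noncomputable def atom {α : Type u} (a : α) : Nm P :=
  (WellOrderingRel.isWellOrder (α := α)).wf.fix
    (fun a f => Nm.mk {b // WellOrderingRel b a} (fun _ => ⊤) (fun b => f b.1 b.2)) a

theorem fmem_setN {α : Type u} {f : α → Nm P} {σ : Nm P} {p : P} :
    fmem σ (setN f) p ↔ ∀ q ≤ p, ∃ r ≤ q, ∃ a, feq σ (f a) r := by
  refine forall₂_congr fun q _ => exists_congr fun r => and_congr_right fun _ => ?_
  exact exists_congr fun a => and_iff_right le_top

theorem fmem_setN_self {α : Type u} (f : α → Nm P) (a : α) (p : P) : fmem (f a) (setN f) p :=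
  fmem_entry (setN f) a le_top

theorem fmem_upN {σ τ ρ : Nm P} {p : P} :
    fmem ρ (upN σ τ) p ↔ ∀ q ≤ p, ∃ r ≤ q, feq ρ σ r ∨ feq ρ τ r := by
  refine forall₂_congr fun q _ => exists_congr fun r => and_congr_right fun _ => ?_
  constructor
  · rintro ⟨⟨_ | _⟩, -, h⟩
    · exact Or.inr h
    · exact Or.inl h
  · rintro (h | h)
    · exact ⟨⟨true⟩, le_top, h⟩
    · exact ⟨⟨false⟩, le_top, h⟩

theorem fmem_upN_left (σ τ : Nm P) (p : P) : fmem σ (upN σ τ) p :=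
  fmem_upN.2 fun q _ => ⟨q, le_rfl, Or.inl (feq.refl _ _)⟩

theorem fmem_upN_right (σ τ : Nm P) (p : P) : fmem τ (upN σ τ) p :=
  fmem_upN.2 fun q _ => ⟨q, le_rfl, Or.inr (feq.refl _ _)⟩

theorem feq.upN {σ σ' τ τ' : Nm P} {p : P} (h : feq σ σ' p) (k : feq τ τ' p) :
    feq (upN σ τ) (upN σ' τ') p := by
  refine feq_of_entries ?_ ?_
  · rintro ⟨_ | _⟩ q hq -
    · exact (fmem_upN_right σ' τ' q).congr_left (k.mono hq).symm
    · exact (fmem_upN_left σ' τ' q).congr_left (h.mono hq).symm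
  · rintro ⟨_ | _⟩ q hq -
    · exact (fmem_upN_right σ τ q).congr_left (k.mono hq)
    · exact (fmem_upN_left σ τ q).congr_left (h.mono hq)

theorem feq_of_fmem_upN_self {σ ρ : Nm P} {p : P} (h : fmem ρ (upN σ σ) p) : feq ρ σ p :=
  feq.of_dense fun q hq => by
    obtain ⟨r, hr, h1⟩ := fmem_upN.1 h q hq
    exact ⟨r, hr, h1.elim id id⟩

theorem feq_opN {σ σ' τ τ' : Nm P} {p : P} :
    feq (opN σ τ) (opN σ' τ') p ↔ feq σ σ' p ∧ feq τ τ' p := by
  refine ⟨fun h => ?_, fun h => (h.1.upN h.1).upN (h.1.upN h.2)⟩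
  have first : ∀ {σ σ' τ τ' : Nm P} {p : P}, feq (opN σ τ) (opN σ' τ') p → feq σ' σ p := by
    intro σ σ' τ τ' p h
    refine feq.of_dense fun q hq => ?_
    obtain ⟨r, hr, h1⟩ := fmem_upN.1 ((fmem_upN_left (upN σ σ) (upN σ τ) p).congr_right h) q hq
    refine ⟨r, hr, feq_of_fmem_upN_self ?_⟩
    rcases h1 with h1 | h1
    · exact (fmem_upN_left σ' σ' r).congr_right h1.symm
    · exact (fmem_upN_left σ' τ' r).congr_right h1.symm
  have second : ∀ {σ σ' τ τ' : Nm P} {p : P}, feq (opN σ τ) (opN σ' τ') p →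
      ∀ q ≤ p, ∃ r ≤ q, feq τ σ' r ∨ feq τ τ' r := by
    intro σ σ' τ τ' p h q hq
    obtain ⟨r, hr, h1⟩ := fmem_upN.1 ((fmem_upN_right (upN σ σ) (upN σ τ) p).congr_right h) q hq
    rcases h1 with h1 | h1
    · exact ⟨r, hr, Or.inl (feq_of_fmem_upN_self ((fmem_upN_right σ τ r).congr_right h1))⟩
    · obtain ⟨s, hs, h2⟩ := fmem_upN.1 ((fmem_upN_right σ τ r).congr_right h1) r le_rfl
      exact ⟨s, hs.trans hr, h2⟩
  refine ⟨(first h).symm, feq.of_dense fun q hq => ?_⟩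
  obtain ⟨r, hr, h1 | h1⟩ := second h q hq
  · obtain ⟨s, hs, h2 | h2⟩ := second h.symm r (hr.trans hq)
    · exact ⟨s, hs.trans hr, ((h1.mono hs).trans ((first h).mono
        (hs.trans (hr.trans hq)))).trans h2.symm⟩
    · exact ⟨s, hs.trans hr, h2.symm⟩
  · exact ⟨r, hr, h1⟩

theorem numN_c (n : ℕ) (i : (numN n : Nm P).I) : (numN n : Nm P).c i = ⊤ := by
  cases n with
  | zero => exact i.elim
  | succ n => rfl

theorem numN_t (n : ℕ) (i : (numN n : Nm P).I) : ∃ m < n, (numN n : Nm P).t i = numN m := by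
  induction n with
  | zero => exact i.elim
  | succ n ih =>
    cases i with
    | none => exact ⟨n, Nat.lt_succ_self n, rfl⟩
    | some i =>
      obtain ⟨m, hm, h⟩ := ih i
      exact ⟨m, hm.trans (Nat.lt_succ_self n), h⟩

theorem exists_numN_t {m n : ℕ} (h : m < n) : ∃ i, (numN n : Nm P).t i = numN m := by
  induction n with
  | zero => exact absurd h (Nat.not_lt_zero m)
  | succ n ih =>
    rcases Nat.lt_succ_iff_lt_or_eq.1 h with h1 | rfl
    · obtain ⟨i, hi⟩ := ih h1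
      exact ⟨some i, hi⟩
    · exact ⟨none, rfl⟩

omit [OrderTop P] in
/-- Names indexed by a well-ordered type, whose entries are the names with a smaller index, are
forced to be distinct. -/
theorem feq_inj_of_wo {α : Type*} {r : α → α → Prop} [IsWellOrder α r] (ν : α → Nm P)
    (hc : ∀ a i p, p ≤ (ν a).c i) (h1 : ∀ a i, ∃ b, r b a ∧ (ν a).t i = ν b)
    (h2 : ∀ a b, r b a → ∃ i, (ν a).t i = ν b) {a b : α} {p : P} (h : feq (ν a) (ν b) p) :
    a = b := by
  induction a using (IsWellFounded.wf (r := r)).induction generalizing b p with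
  | _ a ih =>
    have key : ∀ x, r x a ↔ r x b := by
      intro x
      constructor
      · intro hx
        obtain ⟨i, hi⟩ := h2 a x hx
        obtain ⟨s, -, j, -, h3⟩ := ((feq_iff _ _ _).1 h).1 i p le_rfl (hc _ _ _)
        obtain ⟨y, hy, h4⟩ := h1 b j
        rw [hi, h4] at h3
        rw [ih x hx h3]
        exact hy
      · intro hx
        obtain ⟨j, hj⟩ := h2 b x hx
        obtain ⟨s, -, i, -, h3⟩ := ((feq_iff _ _ _).1 h).2 j p le_rfl (hc _ _ _)
        obtain ⟨y, hy, h4⟩ := h1 a i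
        rw [hj, h4] at h3
        rw [← ih y hy h3]
        exact hy
    rcases trichotomous_of r a b with h3 | h3 | h3
    · exact absurd ((key a).2 h3) (irrefl_of r a)
    · exact h3
    · exact absurd ((key b).1 h3) (irrefl_of r b)

theorem feq_numN {m n : ℕ} {p : P} : feq (numN m : Nm P) (numN n) p ↔ m = n :=
  ⟨feq_inj_of_wo (r := (· < ·)) numN (fun a i p => by rw [numN_c]; exact le_top) numN_t
    (fun _ _ h => exists_numN_t h), fun h => h ▸ feq.refl _ _⟩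

theorem atom_eq {α : Type u} (a : α) :
    (atom a : Nm P) = setN fun b : {b // WellOrderingRel b a} => atom b.1 := by
  rw [atom, WellFounded.fix_eq]
  rfl

theorem feq_atom {α : Type u} {a b : α} {p : P} : feq (atom a) (atom b) p ↔ a = b := by
  refine ⟨feq_inj_of_wo (r := WellOrderingRel) atom (fun a => ?_) (fun a => ?_) (fun a => ?_),
    fun h => h ▸ feq.refl _ _⟩
  · rw [atom_eq]
    exact fun _ _ => le_top
  · rw [atom_eq]
    exact fun i => ⟨i.1, i.2, rfl⟩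
  · rw [atom_eq]
    exact fun b hb => ⟨⟨b, hb⟩, rfl⟩

theorem atom_inj {α : Type u} {a b : α} : (atom a : Nm P) = atom b ↔ a = b :=
  ⟨fun h => (feq_atom (p := (⊤ : P))).1 (h ▸ feq.refl _ _), fun h => h ▸ rfl⟩

end Vale.Agent.P129Z
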