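import Mathlib.Order.Filter.CountableInter
import Mathlib.Logic.Small.Basic
import Mathlib.Data.Fin.Tuple.Basic
import Mathlib.Data.List.OfFn
import Mathlib.Algebra.Order.BigOperators.Group.List
import Vale.Agent.P323.F.End

/-!
# Generic filters together with countable sets of objects

`Raw P`: a filter `G` on `P` and a countable set `O` of objects (of arbitrary types).
`raw P` is a countably complete proper filter on `Raw P`; `∀ᶠ 𝒢 in raw P, Φ 𝒢` reads: `Φ` holds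
for all sufficiently generic `𝒢`. The main lemma is `ev_task`.
-/

namespace Vale.Agent.P129Z

open Filter

universe u v w x y

/-- Objects of arbitrary types. -/
def Ob : Type (u + 2) := Σ A : Type (u + 1), A

/-- An element of a type as an object. -/
noncomputable def ob {A : Type v} [Small.{u + 1} A] (a : A) : Ob.{u} :=
  ⟨Shrink.{u + 1} A, equivShrink A a⟩

theorem ob_inj {A : Type v} [Small.{u + 1} A] {a b : A} (h : (ob a : Ob.{u}) = ob b) : a = b :=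
  (equivShrink A).injective (eq_of_heq (Sigma.mk.inj h).2)

instance : Nonempty Ob.{u} := ⟨⟨PUnit, PUnit.unit⟩⟩

/-- A filter on `P` and a countable set of objects. -/
structure Raw (P : Type u) [Preorder P] where
  /-- the filter -/
  G : Set P
  /-- the objects -/
  O : Set Ob.{u}
  up : ∀ {p q : P}, p ∈ G → p ≤ q → q ∈ G
  dir : ∀ {p q : P}, p ∈ G → q ∈ G → ∃ r ∈ G, r ≤ p ∧ r ≤ q
  ne : G.Nonempty
  cnt : O.Countable

variable {P : Type u} [Preorder P]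

/-- The element `a` is one of the objects of `𝒢`. -/
def Raw.In (𝒢 : Raw P) {A : Type v} [Small.{u + 1} A] (a : A) : Prop := ob a ∈ 𝒢.O

theorem Raw.countable_In (𝒢 : Raw P) (A : Type v) [Small.{u + 1} A] :
    {a : A | 𝒢.In a}.Countable :=
  𝒢.cnt.preimage_of_injOn (f := fun a : A => (ob a : Ob.{u})) fun _ _ _ _ h => ob_inj h

theorem Raw.dir3 (𝒢 : Raw P) {p q r : P} (hp : p ∈ 𝒢.G) (hq : q ∈ 𝒢.G) (hr : r ∈ 𝒢.G) :
    ∃ s ∈ 𝒢.G, s ≤ p ∧ s ≤ q ∧ s ≤ r := by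
  obtain ⟨a, ha, h1, h2⟩ := 𝒢.dir hp hq
  obtain ⟨b, hb, h3, h4⟩ := 𝒢.dir ha hr
  exact ⟨b, hb, h3.trans h1, h3.trans h2, h4⟩

theorem Raw.dir_finset (𝒢 : Raw P) {ι : Type*} (s : Finset ι) {p : ι → P}
    (hp : ∀ i ∈ s, p i ∈ 𝒢.G) : ∃ q ∈ 𝒢.G, ∀ i ∈ s, q ≤ p i := by
  classical
  induction s using Finset.induction_on with
  | empty =>
    obtain ⟨q, hq⟩ := 𝒢.ne
    exact ⟨q, hq, by simp⟩
  | insert a s _ ih =>
    obtain ⟨q, hq, h1⟩ := ih fun i hi => hp i (Finset.mem_insert_of_mem hi)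
    obtain ⟨r, hr, h2, h3⟩ := 𝒢.dir hq (hp a (Finset.mem_insert_self a s))
    refine ⟨r, hr, fun i hi => ?_⟩
    rcases Finset.mem_insert.1 hi with rfl | hi
    · exact h3
    · exact h2.trans (h1 i hi)

theorem Raw.top_mem [OrderTop P] (𝒢 : Raw P) : ⊤ ∈ 𝒢.G := by
  obtain ⟨p, hp⟩ := 𝒢.ne
  exact 𝒢.up hp le_top

/-- `𝒢` meets the task `T`. -/
def Raw.Meets (𝒢 : Raw P) (T : List Ob.{u} → P → Ob.{u} → Prop) : Prop :=
  ∀ l : List Ob.{u}, (∀ o ∈ l, o ∈ 𝒢.O) → ∀ p ∈ 𝒢.G, ∃ q ∈ 𝒢.G, q ≤ p ∧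
    ((∃ b ∈ 𝒢.O, T l q b) ∨ ∀ r ≤ q, ∀ b, ¬ T l r b)

/-- The filter of sufficiently generic pairs. -/
def raw (P : Type u) [Preorder P] : Filter (Raw P) :=
  countableGenerate {s | ∃ T, s = {𝒢 : Raw P | 𝒢.Meets T}}

instance : CountableInterFilter (raw P) :=
  inferInstanceAs (CountableInterFilter (countableGenerate _))

theorem exists_meets (T : ℕ → List Ob.{u} → P → Ob.{u} → Prop) (p₀ : P) :
    ∃ 𝒢 : Raw P, p₀ ∈ 𝒢.G ∧ ∀ n, 𝒢.Meets (T n) := by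
  classical
  obtain ⟨e, he⟩ := Vale.Agent.P323.F.exists_enum (ℕ × List ℕ)
  have step : ∀ (n : ℕ) (l : List Ob.{u}) (p : P), ∃ q ≤ p, ∃ b : Ob.{u},
      T n l q b ∨ ∀ r ≤ q, ∀ b, ¬ T n l r b := by
    intro n l p
    by_cases h : ∃ r ≤ p, ∃ b, T n l r b
    · obtain ⟨r, hr, b, hb⟩ := h
      exact ⟨r, hr, b, Or.inl hb⟩
    · push Not at h
      exact ⟨p, le_rfl, Classical.arbitrary _, Or.inr h⟩
  choose Q hQ B hB using step
  let st : ℕ → P × (ℕ → Ob.{u}) := fun k => Nat.rec (p₀, fun _ => Classical.arbitrary _)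
    (fun k s => (Q (e k).1 ((e k).2.map s.2) s.1,
      Function.update s.2 k (B (e k).1 ((e k).2.map s.2) s.1))) k
  have st_succ : ∀ k, st (k + 1) = (Q (e k).1 ((e k).2.map (st k).2) (st k).1,
      Function.update (st k).2 k (B (e k).1 ((e k).2.map (st k).2) (st k).1)) := fun k => rfl
  have hanti : Antitone fun k => (st k).1 := antitone_nat_of_succ_le fun k => hQ _ _ _
  let ν : ℕ → Ob.{u} := fun i => (st (i + 1)).2 i
  have hν : ∀ i k, i < k → (st k).2 i = ν i := by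
    intro i k hik
    induction k, hik using Nat.le_induction with
    | base => rfl
    | succ k hk ih =>
      rw [st_succ]
      simp only
      rw [Function.update_of_ne (by omega), ih]
  refine ⟨⟨{q | ∃ k, (st k).1 ≤ q}, Set.range ν, ?_, ?_, ⟨p₀, 0, le_rfl⟩, Set.countable_range ν⟩,
    ⟨0, le_rfl⟩, ?_⟩
  · rintro p q ⟨k, hk⟩ hpq
    exact ⟨k, hk.trans hpq⟩
  · rintro p q ⟨k, hk⟩ ⟨m, hm⟩
    exact ⟨(st (max k m)).1, ⟨_, le_rfl⟩, (hanti (le_max_left k m)).trans hk,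
      (hanti (le_max_right k m)).trans hm⟩
  · rintro n l hl p ⟨k₀, hk₀⟩
    obtain ⟨l', hl'⟩ : ∃ l' : List ℕ, l'.map ν = l := by
      clear hk₀
      induction l with
      | nil => exact ⟨[], rfl⟩
      | cons a l ih =>
        obtain ⟨l', hl'⟩ := ih fun o ho => hl o (List.mem_cons_of_mem a ho)
        obtain ⟨i, hi⟩ := hl a List.mem_cons_self
        exact ⟨i :: l', by rw [List.map_cons, hi, hl']⟩
    obtain ⟨k, hk, hek⟩ := he (n, l') (max k₀ (l'.sum + 1))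
    have h1 : l'.map (st k).2 = l := by
      rw [← hl']
      refine List.map_congr_left fun i hi => hν i k ?_
      have := List.le_sum_of_mem hi
      omega
    have h2 : (st (k + 1)).1 = Q n l (st k).1 := by
      rw [st_succ, hek]
      simp only [h1]
    have h3 : ν k = B n l (st k).1 := by
      show (st (k + 1)).2 k = _
      rw [st_succ, hek]
      simp only [h1, Function.update_self]
    refine ⟨Q n l (st k).1, ⟨k + 1, h2.le⟩,
      (hQ _ _ _).trans ((hanti ((le_max_left _ _).trans hk)).trans hk₀), ?_⟩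
    rcases hB n l (st k).1 with h | h
    · exact Or.inl ⟨_, ⟨k, h3⟩, h⟩
    · exact Or.inr h

/-- What holds for all sufficiently generic pairs holds for some pair, below any condition. -/
theorem exists_raw {Φ : Raw P → Prop} (h : ∀ᶠ 𝒢 in raw P, Φ 𝒢) (p₀ : P) :
    ∃ 𝒢 : Raw P, p₀ ∈ 𝒢.G ∧ Φ 𝒢 := by
  obtain ⟨S, hS, hc, hsub⟩ := mem_countableGenerate_iff.1 h
  rcases S.eq_empty_or_nonempty with rfl | hne
  · obtain ⟨𝒢, h1, -⟩ := exists_meets (fun _ _ _ _ => True) p₀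
    exact ⟨𝒢, h1, hsub (by simp)⟩
  · obtain ⟨f, rfl⟩ := hc.exists_eq_range hne
    choose T hT using fun n => hS (Set.mem_range_self (f := f) n)
    obtain ⟨𝒢, h1, h2⟩ := exists_meets T p₀
    refine ⟨𝒢, h1, hsub ?_⟩
    rintro _ ⟨n, rfl⟩
    rw [hT n]
    exact h2 n

theorem Raw.ev_meets (T : List Ob.{u} → P → Ob.{u} → Prop) : ∀ᶠ 𝒢 in raw P, 𝒢.Meets T :=
  CountableGenerateSets.basic ⟨T, rfl⟩

/-- Tasks with parameters given by an injective list of objects. -/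
theorem Raw.ev_list {A : Type v} {B : Type w} [Small.{u + 1} B] (par : A → List Ob.{u})
    (hpar : Function.Injective par) (R : A → P → B → Prop) :
    ∀ᶠ 𝒢 in raw P, ∀ a, (∀ o ∈ par a, o ∈ 𝒢.O) → ∀ p ∈ 𝒢.G,
      (∀ q ≤ p, ∃ r ≤ q, ∃ b, R a r b) → ∃ q ∈ 𝒢.G, q ≤ p ∧ ∃ b, 𝒢.In b ∧ R a q b := by
  filter_upwards [ev_meets fun l q o => ∃ a b, par a = l ∧ ob b = o ∧ R a q b] with 𝒢 h a ha p hp
    hd
  obtain ⟨q, hq, hqp, h1 | h1⟩ := h (par a) ha p hp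
  · obtain ⟨o, ho, a', b, h2, rfl, h3⟩ := h1
    obtain rfl := hpar h2
    exact ⟨q, hq, hqp, b, ho, h3⟩
  · obtain ⟨r, hr, b, hb⟩ := hd q hqp
    exact absurd ⟨a, b, rfl, rfl, hb⟩ (h1 r hr (ob b))

namespace Raw

variable {A : Type v} {A' : Type w} {A'' : Type x} {B : Type y} [Small.{u + 1} A]
  [Small.{u + 1} A'] [Small.{u + 1} A''] [Small.{u + 1} B]

/-- **Tasks.** If the parameter `a` is an object and `R a r b` can be arranged densely below a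
member of the filter, then it is arranged by a member of the filter, with an object `b`. -/
theorem ev_task (R : A → P → B → Prop) :
    ∀ᶠ 𝒢 in raw P, ∀ a, 𝒢.In a → ∀ p ∈ 𝒢.G,
      (∀ q ≤ p, ∃ r ≤ q, ∃ b, R a r b) → ∃ q ∈ 𝒢.G, q ≤ p ∧ ∃ b, 𝒢.In b ∧ R a q b := by
  filter_upwards [ev_list (fun a : A => [ob a]) (fun a b h => ob_inj (List.head_eq_of_cons_eq h))
    R] with 𝒢 h a ha
  exact h a (by simpa [Raw.In] using ha)

theorem ev_task₂ (R : A → A' → P → B → Prop) :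
    ∀ᶠ 𝒢 in raw P, ∀ a a', 𝒢.In a → 𝒢.In a' → ∀ p ∈ 𝒢.G,
      (∀ q ≤ p, ∃ r ≤ q, ∃ b, R a a' r b) → ∃ q ∈ 𝒢.G, q ≤ p ∧ ∃ b, 𝒢.In b ∧ R a a' q b := by
  filter_upwards [ev_list (fun a : A × A' => [ob a.1, ob a.2]) (fun a b h => by
    simp only [List.cons.injEq, and_true] at h
    exact Prod.ext (ob_inj h.1) (ob_inj h.2)) fun a => R a.1 a.2] with 𝒢 h a a' ha ha'
  exact h (a, a') (by simpa using ⟨ha, ha'⟩)

theorem ev_task₃ (R : A → A' → A'' → P → B → Prop) :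
    ∀ᶠ 𝒢 in raw P, ∀ a a' a'', 𝒢.In a → 𝒢.In a' → 𝒢.In a'' → ∀ p ∈ 𝒢.G,
      (∀ q ≤ p, ∃ r ≤ q, ∃ b, R a a' a'' r b) →
        ∃ q ∈ 𝒢.G, q ≤ p ∧ ∃ b, 𝒢.In b ∧ R a a' a'' q b := by
  filter_upwards [ev_list (fun a : A × A' × A'' => [ob a.1, ob a.2.1, ob a.2.2]) (fun a b h => by
    simp only [List.cons.injEq, and_true] at h
    exact Prod.ext (ob_inj h.1) (Prod.ext (ob_inj h.2.1) (ob_inj h.2.2)))
    fun a => R a.1 a.2.1 a.2.2] with 𝒢 h a a' a'' ha ha' ha''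
  exact h (a, a', a'') (by simpa using ⟨ha, ha', ha''⟩)

/-- Tasks with a finite tuple of parameters. -/
theorem ev_taskV {n : ℕ} (R : (Fin n → A) → P → B → Prop) :
    ∀ᶠ 𝒢 in raw P, ∀ v : Fin n → A, (∀ i, 𝒢.In (v i)) → ∀ p ∈ 𝒢.G,
      (∀ q ≤ p, ∃ r ≤ q, ∃ b, R v r b) → ∃ q ∈ 𝒢.G, q ≤ p ∧ ∃ b, 𝒢.In b ∧ R v q b := by
  filter_upwards [ev_list (fun v : Fin n → A => List.ofFn fun i => ob (v i)) (fun v w h => by
    funext i
    exact ob_inj (congrFun (List.ofFn_injective h) i)) R] with 𝒢 h v hv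
  refine h v fun o ho => ?_
  obtain ⟨i, rfl⟩ := List.mem_ofFn.1 ho
  exact hv i

/-- Tasks without parameters. -/
theorem ev_task₀ (R : P → B → Prop) :
    ∀ᶠ 𝒢 in raw P, ∀ p ∈ 𝒢.G,
      (∀ q ≤ p, ∃ r ≤ q, ∃ b, R r b) → ∃ q ∈ 𝒢.G, q ≤ p ∧ ∃ b, 𝒢.In b ∧ R q b := by
  filter_upwards [ev_list (fun _ : Unit => []) (fun _ _ _ => rfl) fun _ => R] with 𝒢 h
  exact h () (by simp)

/-- every given element is an object -/
theorem ev_const (b : B) : ∀ᶠ 𝒢 in raw P, 𝒢.In b := by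
  filter_upwards [ev_task₀ fun (_ : P) (b' : B) => b' = b] with 𝒢 h
  obtain ⟨p, hp⟩ := 𝒢.ne
  obtain ⟨q, -, -, b', hb, rfl⟩ := h p hp fun q _ => ⟨q, le_rfl, b, rfl⟩
  exact hb

/-- the objects are closed under a given function -/
theorem ev_fun (f : A → B) : ∀ᶠ 𝒢 in raw P, ∀ a, 𝒢.In a → 𝒢.In (f a) := by
  filter_upwards [ev_task fun a (_ : P) (b : B) => b = f a] with 𝒢 h a ha
  obtain ⟨p, hp⟩ := 𝒢.ne
  obtain ⟨q, -, -, b', hb, rfl⟩ := h a ha p hp fun q _ => ⟨q, le_rfl, _, rfl⟩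
  exact hb

theorem ev_fun₂ (f : A → A' → B) :
    ∀ᶠ 𝒢 in raw P, ∀ a a', 𝒢.In a → 𝒢.In a' → 𝒢.In (f a a') := by
  filter_upwards [ev_task₂ fun a a' (_ : P) (b : B) => b = f a a'] with 𝒢 h a a' ha ha'
  obtain ⟨p, hp⟩ := 𝒢.ne
  obtain ⟨q, -, -, b', hb, rfl⟩ := h a a' ha ha' p hp fun q _ => ⟨q, le_rfl, _, rfl⟩
  exact hb

theorem ev_fun₃ (f : A → A' → A'' → B) :
    ∀ᶠ 𝒢 in raw P, ∀ a a' a'', 𝒢.In a → 𝒢.In a' → 𝒢.In a'' → 𝒢.In (f a a' a'') := by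
  filter_upwards [ev_task₃ fun a a' a'' (_ : P) (b : B) => b = f a a' a''] with 𝒢 h a a' a''
    ha ha' ha''
  obtain ⟨p, hp⟩ := 𝒢.ne
  obtain ⟨q, -, -, b', hb, rfl⟩ := h a a' a'' ha ha' ha'' p hp fun q _ => ⟨q, le_rfl, _, rfl⟩
  exact hb

theorem ev_funV {n : ℕ} (f : (Fin n → A) → B) :
    ∀ᶠ 𝒢 in raw P, ∀ v : Fin n → A, (∀ i, 𝒢.In (v i)) → 𝒢.In (f v) := by
  filter_upwards [ev_taskV fun (v : Fin n → A) (_ : P) (b : B) => b = f v] with 𝒢 h v hv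
  obtain ⟨p, hp⟩ := 𝒢.ne
  obtain ⟨q, -, -, b', hb, rfl⟩ := h v hv p hp fun q _ => ⟨q, le_rfl, _, rfl⟩
  exact hb

/-- the objects are closed under a function with countable sets as values -/
theorem ev_countable (f : A → Set B) :
    ∀ᶠ 𝒢 in raw P, ∀ a, 𝒢.In a → (f a).Countable → ∀ b ∈ f a, 𝒢.In b := by
  classical
  by_cases hB : Nonempty B
  · have h1 : ∀ a, ∃ g : ℕ → B, (f a).Countable → f a ⊆ Set.range g := by
      intro a
      by_cases h : (f a).Countable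
      · obtain ⟨g, hg⟩ := (Set.countable_iff_exists_subset_range).1 h
        exact ⟨g, fun _ => hg⟩
      · exact ⟨fun _ => Classical.arbitrary B, fun h' => absurd h' h⟩
    choose g hg using h1
    filter_upwards [eventually_countable_forall.2 fun m : ℕ => ev_fun (P := P) fun a => g a m]
      with 𝒢 h a ha hc b hb
    obtain ⟨m, rfl⟩ := hg a hc hb
    exact h m a ha
  · exact Eventually.of_forall fun _ _ _ _ b _ => absurd ⟨b⟩ hB

/-- all elements of a countable type are objects -/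
theorem ev_all (B : Type y) [Small.{u + 1} B] [Countable B] : ∀ᶠ 𝒢 in raw P, ∀ b : B, 𝒢.In b :=
  eventually_countable_forall.2 fun b => ev_const b

/-- the filter is generated by objects -/
theorem ev_cond : ∀ᶠ 𝒢 in raw P, ∀ p ∈ 𝒢.G, ∃ q ∈ 𝒢.G, q ≤ p ∧ 𝒢.In q := by
  filter_upwards [ev_task₀ fun (q : P) (b : P) => b = q] with 𝒢 h p hp
  obtain ⟨q, hq, hqp, b, hb, rfl⟩ := h p hp fun q _ => ⟨q, le_rfl, q, rfl⟩
  exact ⟨b, hq, hqp, hb⟩

end Raw

end Vale.Agent.P129Z
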