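import Mathlib.SetTheory.ZFC.Basic
import Vale.Agent.P129Z.ForceA
import Vale.Agent.P129Z.ForceB

/-!
# The values of names; the tasks which make the values a model
-/

namespace Vale.Agent.P129Z

open Filter Vale.Agent.P323.Z

universe u

variable {P : Type u} [Preorder P] [OrderTop P]

/-! ### Names for the axioms -/

/-- a name which contains the union -/
def unionN (σ : Nm P) : Nm P := setN fun x : Σ i : σ.I, (σ.t i).I => (σ.t x.1).t x.2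

/-- a subname -/
def subN (σ : Nm P) (S : Set (σ.I × P)) : Nm P := .mk S (fun x => x.1.2) (fun x => σ.t x.1.1)

/-- a name which contains the power set -/
def powN (σ : Nm P) : Nm P := setN fun S : Set (σ.I × P) => subN σ S

/-- the canonical name of the part of `ρ` inside the entries of `σ` -/
def canN (σ ρ : Nm P) : Nm P := subN σ {x | fmem (σ.t x.1) ρ x.2}

/-- the name for Separation -/
def sepN {n : ℕ} (φ : Fml (n + 1)) (v : Fin n → Nm P) (σ : Nm P) : Nm P :=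
  subN σ {x | x.2 ≤ σ.c x.1 ∧ Frc φ x.2 (Fin.snoc v (σ.t x.1))}

/-- the name for Collection -/
noncomputable def collN {n : ℕ} (φ : Fml (n + 2)) (v : Fin n → Nm P) (σ : Nm P) : Nm P :=
  setN fun x : {x : σ.I × P // ∃ τ,
    Frc φ x.2 (Fin.snoc (Fin.snoc v (σ.t x.1) : Fin (n + 1) → Nm P) τ)} => x.2.choose

/-- the name of the set of natural numbers -/
def omegaN : Nm P := setN fun n : ULift.{u} ℕ => numN n.down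

/-- `q` decides that the entry `j` is the least entry of `σ` equal to `ρ` -/
def LeastEnt (σ ρ : Nm P) (q : P) (j : σ.I) : Prop :=
  feq ρ (σ.t j) q ∧ ∀ j', embeddingToCardinal j' < embeddingToCardinal j →
    ∀ s ≤ q, ¬ feq ρ (σ.t j') s

/-- the name of a well-order of `σ` -/
def woN (σ : Nm P) : Nm P :=
  .mk {x : σ.I × σ.I × P // ∃ j j', embeddingToCardinal j < embeddingToCardinal j' ∧
      LeastEnt σ (σ.t x.1) x.2.2 j ∧ LeastEnt σ (σ.t x.2.1) x.2.2 j'}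
    (fun x => x.1.2.2) (fun x => opN (σ.t x.1.1) (σ.t x.1.2.1))

omit [OrderTop P] in
theorem LeastEnt.mono {σ ρ : Nm P} {p q : P} {j : σ.I} (h : LeastEnt σ ρ p j) (hq : q ≤ p) :
    LeastEnt σ ρ q j := ⟨h.1.mono hq, fun j' hj s hs => h.2 j' hj s (hs.trans hq)⟩

omit [OrderTop P] in
theorem exists_leastEnt (σ : Nm P) (i : σ.I) (p : P) : ∃ q ≤ p, ∃ j, LeastEnt σ (σ.t i) q j := by
  obtain ⟨_, ⟨j, ⟨q, hq, h1⟩, rfl⟩, hmin⟩ := (wellFounded_lt (α := Cardinal.{u})).has_min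
    (embeddingToCardinal '' {j : σ.I | ∃ q ≤ p, feq (σ.t i) (σ.t j) q})
    ⟨_, i, ⟨p, le_rfl, feq.refl _ _⟩, rfl⟩
  exact ⟨q, hq, j, h1, fun j' hj s hs h => hmin _ ⟨j', ⟨s, hs.trans hq, h⟩, rfl⟩ hj⟩

namespace Raw

/-- The basic tasks. -/
structure Good (𝒢 : Raw P) : Prop where
  entry : ∀ ρ τ : Nm P, 𝒢.In ρ → 𝒢.In τ → ∀ p ∈ 𝒢.G, fmem ρ τ p →
    ∃ q ∈ 𝒢.G, ∃ j, 𝒢.In (τ.t j) ∧ q ≤ τ.c j ∧ feq ρ (τ.t j) q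
  deq : ∀ σ τ : Nm P, 𝒢.In σ → 𝒢.In τ → ∃ q ∈ 𝒢.G, feq σ τ q ∨
    (∃ i, 𝒢.In (σ.t i) ∧ q ≤ σ.c i ∧ ∀ s ≤ q, ¬ fmem (σ.t i) τ s) ∨
    (∃ j, 𝒢.In (τ.t j) ∧ q ≤ τ.c j ∧ ∀ s ≤ q, ¬ fmem (τ.t j) σ s)
  dec : ∀ (n : ℕ) (φ : Fml n) (v : Fin n → Nm P), (∀ i, 𝒢.In (v i)) →
    ∃ q ∈ 𝒢.G, Frc φ q v ∨ ∀ s ≤ q, ¬ Frc φ s v
  wit : ∀ (n : ℕ) (φ : Fml (n + 1)) (v : Fin n → Nm P), (∀ i, 𝒢.In (v i)) →
    ∃ q ∈ 𝒢.G, Frc φ.all q v ∨ ∃ a : Nm P, 𝒢.In a ∧ ∀ s ≤ q, ¬ Frc φ s (Fin.snoc v a)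
  cntE : ∀ σ : Nm P, 𝒢.In σ → Countable σ.I → ∀ i, 𝒢.In (σ.t i)
  upN_in : ∀ σ τ : Nm P, 𝒢.In σ → 𝒢.In τ → 𝒢.In (upN σ τ)
  unionN_in : ∀ σ : Nm P, 𝒢.In σ → 𝒢.In (unionN σ)
  powN_in : ∀ σ : Nm P, 𝒢.In σ → 𝒢.In (powN σ)
  canN_in : ∀ σ τ : Nm P, 𝒢.In σ → 𝒢.In τ → 𝒢.In (canN σ τ)
  sepN_in : ∀ (n : ℕ) (φ : Fml (n + 1)) (v : Fin n → Nm P) (σ : Nm P), (∀ i, 𝒢.In (v i)) →
    𝒢.In σ → 𝒢.In (sepN φ v σ)
  collN_in : ∀ (n : ℕ) (φ : Fml (n + 2)) (v : Fin n → Nm P) (σ : Nm P), (∀ i, 𝒢.In (v i)) →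
    𝒢.In σ → 𝒢.In (collN φ v σ)
  coll : ∀ (n : ℕ) (φ : Fml (n + 2)) (v : Fin n → Nm P) (σ : Nm P) (i : σ.I) (τ : Nm P),
    (∀ i, 𝒢.In (v i)) → 𝒢.In σ → 𝒢.In (σ.t i) → ∀ p ∈ 𝒢.G,
    Frc φ p (Fin.snoc (Fin.snoc v (σ.t i) : Fin (n + 1) → Nm P) τ) →
    ∃ q ∈ 𝒢.G, ∃ x, 𝒢.In ((collN φ v σ).t x) ∧
      Frc φ q (Fin.snoc (Fin.snoc v (σ.t i) : Fin (n + 1) → Nm P) ((collN φ v σ).t x))
  numN_in : ∀ n, 𝒢.In (numN n : Nm P)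
  omegaN_in : 𝒢.In (omegaN : Nm P)
  woN_in : ∀ σ : Nm P, 𝒢.In σ → 𝒢.In (woN σ)
  least : ∀ (σ : Nm P) (i : σ.I), 𝒢.In σ → 𝒢.In (σ.t i) → ∃ q ∈ 𝒢.G, ∃ j, LeastEnt σ (σ.t i) q j

omit [OrderTop P] in
theorem ev_vec (A : Type (u + 1)) :
    ∀ᶠ 𝒢 in raw P, ∀ (n : ℕ) (v : Fin n → A), (∀ i, 𝒢.In (v i)) → 𝒢.In v :=
  eventually_countable_forall.2 fun _ => ev_funV fun v => v

theorem ev_good : ∀ᶠ 𝒢 in raw P, 𝒢.Good := by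
  have h1 := ev_task₂ (P := P) fun (ρ τ : Nm P) q (b : Nm P) =>
    ∃ j, b = τ.t j ∧ q ≤ τ.c j ∧ feq ρ (τ.t j) q
  have h2 := ev_task₂ (P := P) fun (σ τ : Nm P) q (b : Nm P) => feq σ τ q ∨
    (∃ i, b = σ.t i ∧ q ≤ σ.c i ∧ ∀ s ≤ q, ¬ fmem (σ.t i) τ s) ∨
    (∃ j, b = τ.t j ∧ q ≤ τ.c j ∧ ∀ s ≤ q, ¬ fmem (τ.t j) σ s)
  have h3 : ∀ᶠ 𝒢 in raw P, ∀ (n : ℕ) (φ : Fml n) (v : Fin n → Nm P), (∀ i, 𝒢.In (v i)) →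
      ∃ q ∈ 𝒢.G, Frc φ q v ∨ ∀ s ≤ q, ¬ Frc φ s v := by
    refine eventually_countable_forall.2 fun n => eventually_countable_forall.2 fun φ => ?_
    filter_upwards [ev_taskV (P := P) fun (v : Fin n → Nm P) q (_ : PUnit.{1}) =>
      Frc φ q v ∨ ∀ s ≤ q, ¬ Frc φ s v] with 𝒢 h v hv
    obtain ⟨q, hq, -, -, -, h1⟩ := h v hv ⊤ 𝒢.top_mem fun q _ => by
      by_cases hφ : Frc φ q v
      · exact ⟨q, le_rfl, ⟨⟩, Or.inl hφ⟩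
      · obtain ⟨r, hr, h1⟩ := exists_frc_neg hφ
        exact ⟨r, hr, ⟨⟩, Or.inr h1⟩
    exact ⟨q, hq, h1⟩
  have h4 : ∀ᶠ 𝒢 in raw P, ∀ (n : ℕ) (φ : Fml (n + 1)) (v : Fin n → Nm P), (∀ i, 𝒢.In (v i)) →
      ∃ q ∈ 𝒢.G, Frc φ.all q v ∨ ∃ a : Nm P, 𝒢.In a ∧ ∀ s ≤ q, ¬ Frc φ s (Fin.snoc v a) := by
    refine eventually_countable_forall.2 fun n => eventually_countable_forall.2 fun φ => ?_
    filter_upwards [ev_taskV (P := P) fun (v : Fin n → Nm P) q (a : Nm P) =>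
      Frc φ.all q v ∨ ∀ s ≤ q, ¬ Frc φ s (Fin.snoc v a)] with 𝒢 h v hv
    obtain ⟨q, hq, -, a, ha, h1⟩ := h v hv ⊤ 𝒢.top_mem fun q _ => by
      by_cases hφ : Frc φ.all q v
      · exact ⟨q, le_rfl, default, Or.inl hφ⟩
      · obtain ⟨a, ha⟩ := not_forall.1 (show ¬ ∀ a, Frc φ q (Fin.snoc v a) from hφ)
        obtain ⟨r, hr, h1⟩ := exists_frc_neg ha
        exact ⟨r, hr, a, Or.inr h1⟩
    exact ⟨q, hq, h1.imp id fun h2 => ⟨a, ha, h2⟩⟩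
  have h5 := ev_countable (P := P) fun σ : Nm P => Set.range σ.t
  have h6 : ∀ᶠ 𝒢 in raw P, ∀ (n : ℕ) (φ : Fml (n + 1)) (v : Fin n → Nm P) (σ : Nm P),
      𝒢.In v → 𝒢.In σ → 𝒢.In (sepN φ v σ) :=
    eventually_countable_forall.2 fun n => eventually_countable_forall.2 fun φ => ev_fun₂ _
  have h7 : ∀ᶠ 𝒢 in raw P, ∀ (n : ℕ) (φ : Fml (n + 2)) (v : Fin n → Nm P) (σ : Nm P),
      𝒢.In v → 𝒢.In σ → 𝒢.In (collN φ v σ) :=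
    eventually_countable_forall.2 fun n => eventually_countable_forall.2 fun φ => ev_fun₂ _
  have h8 : ∀ᶠ 𝒢 in raw P, ∀ (n : ℕ) (φ : Fml (n + 2)) (v : Fin n → Nm P) (σ ρ : Nm P),
      𝒢.In v → 𝒢.In σ → 𝒢.In ρ → ∀ p ∈ 𝒢.G, (∀ q ≤ p, ∃ r ≤ q, ∃ b, ∃ x,
        b = (collN φ v σ).t x ∧ Frc φ r (Fin.snoc (Fin.snoc v ρ : Fin (n + 1) → Nm P) b)) →
      ∃ q ∈ 𝒢.G, q ≤ p ∧ ∃ b, 𝒢.In b ∧ ∃ x,
        b = (collN φ v σ).t x ∧ Frc φ q (Fin.snoc (Fin.snoc v ρ : Fin (n + 1) → Nm P) b) :=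
    eventually_countable_forall.2 fun n => eventually_countable_forall.2 fun φ => ev_task₃ _
  have h9 : ∀ᶠ 𝒢 in raw P, ∀ n, 𝒢.In (numN n : Nm P) :=
    eventually_countable_forall.2 fun n => ev_const _
  have h10 := ev_task₂ (P := P) fun (σ ρ : Nm P) q (_ : PUnit.{1}) => ∃ j, LeastEnt σ ρ q j
  filter_upwards [h1, h2, h3, h4, h5, h6, h7, h8, h9, h10, ev_vec (Nm P),
    ev_fun₂ (P := P) (upN (P := P)), ev_fun (P := P) (unionN (P := P)),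
    ev_fun (P := P) (powN (P := P)), ev_fun₂ (P := P) (canN (P := P)),
    ev_const (P := P) (omegaN : Nm P), ev_fun (P := P) (woN (P := P))]
    with 𝒢 h1 h2 h3 h4 h5 h6 h7 h8 h9 h10 hv a1 a2 a3 a4 a5 a6
  refine ⟨?_, ?_, h3, h4, ?_, a1, a2, a3, a4, fun n φ v σ h h' => h6 n φ v σ (hv n v h) h',
    fun n φ v σ h h' => h7 n φ v σ (hv n v h) h', ?_, h9, a5, a6, ?_⟩
  · intro ρ τ hρ hτ p hp h
    obtain ⟨q, hq, -, _, hb, j, rfl, h3⟩ := h1 ρ τ hρ hτ p hp fun q hq => by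
      obtain ⟨r, hr, j, h3⟩ := h q hq
      exact ⟨r, hr, _, j, rfl, h3⟩
    exact ⟨q, hq, j, hb, h3⟩
  · intro σ τ hσ hτ
    obtain ⟨q, hq, -, b, hb, h3⟩ := h2 σ τ hσ hτ ⊤ 𝒢.top_mem fun q _ => by
      by_cases h : feq σ τ q
      · exact ⟨q, le_rfl, default, Or.inl h⟩
      · by_contra hcon
        push Not at hcon
        refine h (feq_of_entries (fun i r hr hi => fmem.of_dense fun s hs => ?_)
          (fun j r hr hj => fmem.of_dense fun s hs => ?_))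
        · exact (hcon s (hs.trans hr) (σ.t i)).2.1 i rfl (hs.trans hi)
        · exact (hcon s (hs.trans hr) (τ.t j)).2.2 j rfl (hs.trans hj)
    refine ⟨q, hq, h3.imp id (Or.imp ?_ ?_)⟩
    · rintro ⟨i, rfl, h⟩
      exact ⟨i, hb, h⟩
    · rintro ⟨i, rfl, h⟩
      exact ⟨i, hb, h⟩
  · intro σ hσ hc i
    exact h5 σ hσ (Set.countable_range _) _ ⟨i, rfl⟩
  · intro n φ v σ i τ hv' hσ hi p hp h
    obtain ⟨q, hq, -, _, hb, x, rfl, h3⟩ := h8 n φ v σ (σ.t i) (hv n v hv') hσ hi p hp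
      fun q hq => ⟨q, le_rfl, _, ⟨(i, q), τ, h.mono hq⟩, rfl,
        Exists.choose_spec (⟨τ, h.mono hq⟩ : ∃ τ,
          Frc φ q (Fin.snoc (Fin.snoc v (σ.t i) : Fin (n + 1) → Nm P) τ))⟩
    exact ⟨q, hq, x, hb, h3⟩
  · intro σ i hσ hi
    obtain ⟨q, hq, -, -, -, h⟩ := h10 σ (σ.t i) hσ hi ⊤ 𝒢.top_mem fun q _ => by
      obtain ⟨r, hr, h⟩ := exists_leastEnt σ i q
      exact ⟨r, hr, ⟨⟩, h⟩
    exact ⟨q, hq, h⟩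

/-! ### Values in the cumulative hierarchy -/

omit [OrderTop P] in
/-- the value of a name as a set -/
noncomputable def zv (𝒢 : Raw P) : Nm P → ZFSet.{u}
  | .mk I c t => ZFSet.range fun i : {i : I // c i ∈ 𝒢.G ∧ 𝒢.In (t i)} => zv 𝒢 (t i.1)

omit [OrderTop P] in
theorem mem_zv (𝒢 : Raw P) (τ : Nm P) (x : ZFSet.{u}) :
    x ∈ 𝒢.zv τ ↔ ∃ i, τ.c i ∈ 𝒢.G ∧ 𝒢.In (τ.t i) ∧ 𝒢.zv (τ.t i) = x := by
  cases τ with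
  | mk I c t =>
    rw [zv, ZFSet.mem_range]
    exact ⟨fun ⟨i, h⟩ => ⟨i.1, i.2.1, i.2.2, h⟩, fun ⟨i, h1, h2, h⟩ => ⟨⟨i, h1, h2⟩, h⟩⟩

variable {𝒢 : Raw P}

theorem Good.zv_eq_of (h : 𝒢.Good) {σ τ : Nm P} (hσ : 𝒢.In σ) (hτ : 𝒢.In τ) {p : P}
    (hp : p ∈ 𝒢.G) (he : feq σ τ p) : 𝒢.zv σ = 𝒢.zv τ := by
  induction σ using Nm.ind generalizing τ p with
  | _ σ ih =>
    ext x
    rw [mem_zv, mem_zv]
    constructor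
    · rintro ⟨i, h1, h2, rfl⟩
      obtain ⟨q, hq, h3, h4⟩ := 𝒢.dir hp h1
      obtain ⟨r, hr, j, h5, h6, h7⟩ := h.entry _ τ h2 hτ q hq
        ((fmem_entry σ i h4).congr_right (he.mono h3))
      exact ⟨j, 𝒢.up hr h6, h5, (ih i h2 h5 hr h7).symm⟩
    · rintro ⟨j, h1, h2, rfl⟩
      obtain ⟨q, hq, h3, h4⟩ := 𝒢.dir hp h1
      obtain ⟨r, hr, i, h5, h6, h7⟩ := h.entry _ σ h2 hσ q hq
        ((fmem_entry τ j h4).congr_right (he.mono h3).symm)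
      exact ⟨i, 𝒢.up hr h6, h5, ih i h5 h2 hr h7.symm⟩

theorem Good.feq_of (h : 𝒢.Good) {σ τ : Nm P} (hσ : 𝒢.In σ) (hτ : 𝒢.In τ)
    (he : 𝒢.zv σ = 𝒢.zv τ) : ∃ p ∈ 𝒢.G, feq σ τ p := by
  induction σ using Nm.ind generalizing τ with
  | _ σ ih =>
    obtain ⟨q, hq, h1 | ⟨i, h1, h2, h3⟩ | ⟨j, h1, h2, h3⟩⟩ := h.deq σ τ hσ hτ
    · exact ⟨q, hq, h1⟩
    · exfalso
      have h4 : 𝒢.zv (σ.t i) ∈ 𝒢.zv τ := he ▸ (mem_zv _ _ _).2 ⟨i, 𝒢.up hq h2, h1, rfl⟩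
      obtain ⟨j, h5, h6, h7⟩ := (mem_zv _ _ _).1 h4
      obtain ⟨r, hr, h8⟩ := ih i h1 h6 h7.symm
      obtain ⟨s, -, s1, s2, s3⟩ := 𝒢.dir3 hq h5 hr
      exact h3 s s1 ((fmem_entry τ j s2).congr_left (h8.mono s3).symm)
    · exfalso
      have h4 : 𝒢.zv (τ.t j) ∈ 𝒢.zv σ := he ▸ (mem_zv _ _ _).2 ⟨j, 𝒢.up hq h2, h1, rfl⟩
      obtain ⟨i, h5, h6, h7⟩ := (mem_zv _ _ _).1 h4
      obtain ⟨r, hr, h8⟩ := ih i h6 h1 h7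
      obtain ⟨s, -, s1, s2, s3⟩ := 𝒢.dir3 hq h5 hr
      exact h3 s s1 ((fmem_entry σ i s2).congr_left (h8.mono s3))

theorem Good.zv_eq (h : 𝒢.Good) {σ τ : Nm P} (hσ : 𝒢.In σ) (hτ : 𝒢.In τ) :
    𝒢.zv σ = 𝒢.zv τ ↔ ∃ p ∈ 𝒢.G, feq σ τ p :=
  ⟨h.feq_of hσ hτ, fun ⟨_, hp, he⟩ => h.zv_eq_of hσ hτ hp he⟩

theorem Good.zv_mem (h : 𝒢.Good) {σ τ : Nm P} (hσ : 𝒢.In σ) (hτ : 𝒢.In τ) :
    𝒢.zv σ ∈ 𝒢.zv τ ↔ ∃ p ∈ 𝒢.G, fmem σ τ p := by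
  rw [mem_zv]
  constructor
  · rintro ⟨j, h1, h2, h3⟩
    obtain ⟨p, hp, h4⟩ := h.feq_of h2 hσ h3
    obtain ⟨q, hq, h5, h6⟩ := 𝒢.dir hp h1
    exact ⟨q, hq, (fmem_entry τ j h6).congr_left (h4.mono h5)⟩
  · rintro ⟨p, hp, h1⟩
    obtain ⟨q, hq, j, h2, h3, h4⟩ := h.entry σ τ hσ hτ p hp h1
    exact ⟨j, 𝒢.up hq h3, h2, (h.zv_eq_of hσ h2 hq h4).symm⟩

end Raw

end Vale.Agent.P129Z
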