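import Mathlib.Logic.Small.List
import Mathlib.Logic.Equiv.List
import Vale.Agent.P129Z.ForceC
import Vale.Agent.P129Z.DE

/-!
# The generic model

The values of the names which are objects form a countable well-founded model of ZF with
well-orders.
-/

namespace Vale.Agent.P129Z

open Filter Vale.Agent.P323.Z

universe u

variable {P : Type u} [Preorder P] [OrderTop P]

theorem isOPair_inj {M : Type*} {E : M → M → Prop} {p x y x' y' : M} (h : IsOPair E p x y)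
    (h' : IsOPair E p x' y') : x = x' ∧ y = y' := by
  have first : ∀ {x y x' y' : M}, IsOPair E p x y → IsOPair E p x' y' → x' = x := by
    rintro x y x' y' ⟨s, t, hs, ht, hp⟩ ⟨s', t', hs', ht', hp'⟩
    rcases (hp' s).1 ((hp s).2 (Or.inl rfl)) with rfl | rfl
    · exact ((hs x').1 ((hs' x').2 (Or.inl rfl))).elim id id
    · exact ((hs x').1 ((ht' x').2 (Or.inl rfl))).elim id id
  have second : ∀ {x y x' y' : M}, IsOPair E p x y → IsOPair E p x' y' → y = x' ∨ y = y' := by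
    rintro x y x' y' ⟨s, t, hs, ht, hp⟩ ⟨s', t', hs', ht', hp'⟩
    rcases (hp' t).1 ((hp t).2 (Or.inr rfl)) with rfl | rfl
    · exact Or.inl (((hs' y).1 ((ht y).2 (Or.inr rfl))).elim id id)
    · exact (ht' y).1 ((ht y).2 (Or.inr rfl))
  refine ⟨(first h h').symm, ?_⟩
  rcases second h h' with h1 | h1
  · rcases second h' h with h2 | h2
    · rw [h1, h2, first h h']
    · exact h2.symm
  · exact h1

namespace Raw

omit [OrderTop P] in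
/-- the values of the names which are objects -/
def Car (𝒢 : Raw P) : Type (u + 1) := {x : ZFSet.{u} // ∃ σ : Nm P, 𝒢.In σ ∧ 𝒢.zv σ = x}

omit [OrderTop P] in
instance (𝒢 : Raw P) : Countable 𝒢.Car := by
  have h : (𝒢.zv '' {σ : Nm P | 𝒢.In σ}).Countable := (𝒢.countable_In (Nm P)).image _
  exact h.to_subtype

omit [OrderTop P] in
/-- the underlying set of the model -/
def N (𝒢 : Raw P) : Type := Shrink.{0} 𝒢.Car

variable {𝒢 : Raw P}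

omit [OrderTop P] in
instance : Countable 𝒢.N := (equivShrink.{0} 𝒢.Car).symm.injective.countable

omit [OrderTop P] in
/-- elements of the model as sets -/
noncomputable def toZ (x : 𝒢.N) : ZFSet.{u} := ((equivShrink.{0} 𝒢.Car).symm x).1

omit [OrderTop P] in
theorem toZ_inj {x y : 𝒢.N} (h : toZ x = toZ y) : x = y :=
  (equivShrink.{0} 𝒢.Car).symm.injective (Subtype.ext h)

omit [OrderTop P] in
/-- membership in the model -/
def E (x y : 𝒢.N) : Prop := toZ x ∈ toZ y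

namespace Good

variable (h : 𝒢.Good)

open Classical in
/-- the value of a name -/
noncomputable def val (σ : Nm P) : 𝒢.N :=
  if hσ : 𝒢.In σ then equivShrink.{0} 𝒢.Car ⟨𝒢.zv σ, σ, hσ, rfl⟩
  else equivShrink.{0} 𝒢.Car ⟨𝒢.zv omegaN, omegaN, h.omegaN_in, rfl⟩

theorem toZ_val {σ : Nm P} (hσ : 𝒢.In σ) : toZ (h.val σ) = 𝒢.zv σ := by
  have e : h.val σ = equivShrink.{0} 𝒢.Car ⟨𝒢.zv σ, σ, hσ, rfl⟩ := dif_pos hσ
  rw [e]
  exact congrArg Subtype.val ((equivShrink.{0} 𝒢.Car).symm_apply_apply _)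

theorem val_surj (x : 𝒢.N) : ∃ τ : Nm P, 𝒢.In τ ∧ h.val τ = x := by
  obtain ⟨τ, h1, h2⟩ := ((equivShrink.{0} 𝒢.Car).symm x).2
  exact ⟨τ, h1, toZ_inj ((h.toZ_val h1).trans h2)⟩

theorem val_eq {σ τ : Nm P} (hσ : 𝒢.In σ) (hτ : 𝒢.In τ) :
    h.val σ = h.val τ ↔ ∃ p ∈ 𝒢.G, feq σ τ p := by
  rw [← h.zv_eq hσ hτ, ← h.toZ_val hσ, ← h.toZ_val hτ]
  exact ⟨fun e => e ▸ rfl, toZ_inj⟩

theorem val_mem {σ τ : Nm P} (hσ : 𝒢.In σ) (hτ : 𝒢.In τ) :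
    E (h.val σ) (h.val τ) ↔ ∃ p ∈ 𝒢.G, fmem σ τ p := by
  rw [← h.zv_mem hσ hτ, E, h.toZ_val hσ, h.toZ_val hτ]

theorem mem_val {τ : Nm P} (hτ : 𝒢.In τ) (x : 𝒢.N) :
    E x (h.val τ) ↔ ∃ i, τ.c i ∈ 𝒢.G ∧ 𝒢.In (τ.t i) ∧ h.val (τ.t i) = x := by
  rw [E, h.toZ_val hτ, mem_zv]
  refine exists_congr fun i => and_congr_right fun _ => and_congr_right fun hi => ?_
  rw [← h.toZ_val hi]
  exact ⟨toZ_inj, fun e => e ▸ rfl⟩

include h in
theorem ext {x y : 𝒢.N} (e : ∀ z, E z x ↔ E z y) : x = y := by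
  have key : ∀ {x y : 𝒢.N}, (∀ z, E z x → E z y) → ∀ w ∈ toZ x, w ∈ toZ y := by
    intro x y e w hw
    obtain ⟨τ, hτ, rfl⟩ := h.val_surj x
    rw [h.toZ_val hτ, mem_zv] at hw
    obtain ⟨i, h1, h2, rfl⟩ := hw
    rw [← h.toZ_val h2]
    exact e _ ((h.mem_val hτ _).2 ⟨i, h1, h2, rfl⟩)
  refine toZ_inj (ZFSet.ext fun w => ⟨key (fun z => (e z).1) w, key (fun z => (e z).2) w⟩)

omit [OrderTop P] in
theorem wf : WellFounded (E (𝒢 := 𝒢)) := InvImage.wf (r := (· ∈ ·)) toZ ZFSet.mem_wf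

theorem snoc_val {n : ℕ} (v : Fin n → Nm P) (a : Nm P) :
    (fun i => h.val ((Fin.snoc v a : Fin (n + 1) → Nm P) i)) =
      Fin.snoc (fun i => h.val (v i)) (h.val a) := by
  funext i
  refine Fin.lastCases ?_ (fun j => ?_) i
  · simp
  · simp

omit [OrderTop P] in
theorem snoc_in {n : ℕ} {v : Fin n → Nm P} {a : Nm P} (hv : ∀ i, 𝒢.In (v i)) (ha : 𝒢.In a)
    (i : Fin (n + 1)) : 𝒢.In ((Fin.snoc v a : Fin (n + 1) → Nm P) i) := by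
  refine Fin.lastCases ?_ (fun j => ?_) i
  · simpa using ha
  · simpa using hv j

/-- The truth lemma. -/
theorem truth {n : ℕ} (φ : Fml n) (v : Fin n → Nm P) (hv : ∀ i, 𝒢.In (v i)) :
    φ.Sat E (fun i => h.val (v i)) ↔ ∃ p ∈ 𝒢.G, Frc φ p v := by
  induction φ with
  | bot => exact ⟨False.elim, fun ⟨_, _, h⟩ => h⟩
  | eq i j => exact h.val_eq (hv i) (hv j)
  | mem i j => exact h.val_mem (hv i) (hv j)
  | imp φ ψ ih1 ih2 =>
    rw [Fml.sat_imp, ih1 v hv, ih2 v hv]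
    constructor
    · intro H
      obtain ⟨q, hq, h1 | h1⟩ := h.dec _ φ v hv
      · obtain ⟨r, hr, h2⟩ := H ⟨q, hq, h1⟩
        exact ⟨r, hr, fun s hs _ => h2.mono hs⟩
      · exact ⟨q, hq, fun s hs h2 => absurd h2 (h1 s hs)⟩
    · rintro ⟨p, hp, h1⟩ ⟨q, hq, h2⟩
      obtain ⟨r, hr, h3, h4⟩ := 𝒢.dir hp hq
      exact ⟨r, hr, h1 r h3 (h2.mono h4)⟩
  | all φ ih =>
    rw [Fml.sat_all]
    constructor
    · intro H
      obtain ⟨q, hq, h1 | ⟨a, ha, h1⟩⟩ := h.wit _ φ v hv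
      · exact ⟨q, hq, h1⟩
      · have h2 := H (h.val a)
        rw [← h.snoc_val, ih _ (snoc_in hv ha)] at h2
        obtain ⟨r, hr, h2⟩ := h2
        obtain ⟨s, -, h3, h4⟩ := 𝒢.dir hq hr
        exact absurd (h2.mono h4) (h1 s h3)
    · rintro ⟨p, hp, h1⟩ x
      obtain ⟨a, ha, rfl⟩ := h.val_surj x
      rw [← h.snoc_val, ih _ (snoc_in hv ha)]
      exact ⟨p, hp, h1 a⟩

theorem mem_val_setN {α : Type u} {f : α → Nm P} (hf : 𝒢.In (setN f)) (x : 𝒢.N) :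
    E x (h.val (setN f)) ↔ ∃ a, 𝒢.In (f a) ∧ h.val (f a) = x :=
  (h.mem_val hf x).trans (exists_congr fun _ => and_iff_right 𝒢.top_mem)

theorem mem_val_subN {σ : Nm P} {S : Set (σ.I × P)} (hS : 𝒢.In (subN σ S)) (x : 𝒢.N) :
    E x (h.val (subN σ S)) ↔ ∃ i p, (i, p) ∈ S ∧ p ∈ 𝒢.G ∧ 𝒢.In (σ.t i) ∧ h.val (σ.t i) = x :=
  (h.mem_val hS x).trans ⟨fun ⟨y, hy⟩ => ⟨y.1.1, y.1.2, y.2, hy⟩,
    fun ⟨i, p, h1, h2⟩ => ⟨⟨(i, p), h1⟩, h2⟩⟩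

theorem isUPair_val {σ τ : Nm P} (hσ : 𝒢.In σ) (hτ : 𝒢.In τ) :
    IsUPair E (h.val (upN σ τ)) (h.val σ) (h.val τ) := by
  intro z
  rw [h.mem_val (h.upN_in σ τ hσ hτ)]
  constructor
  · rintro ⟨⟨_ | _⟩, -, -, h1⟩
    · exact Or.inr h1.symm
    · exact Or.inl h1.symm
  · rintro (rfl | rfl)
    · exact ⟨⟨true⟩, 𝒢.top_mem, hσ, rfl⟩
    · exact ⟨⟨false⟩, 𝒢.top_mem, hτ, rfl⟩

include h in
theorem opN_in {σ τ : Nm P} (hσ : 𝒢.In σ) (hτ : 𝒢.In τ) : 𝒢.In (opN σ τ) :=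
  h.upN_in _ _ (h.upN_in _ _ hσ hσ) (h.upN_in _ _ hσ hτ)

include h in
theorem in_of_upN {σ τ : Nm P} (hp : 𝒢.In (upN σ τ)) : 𝒢.In σ ∧ 𝒢.In τ :=
  ⟨h.cntE _ hp (inferInstanceAs (Countable (ULift Bool))) ⟨true⟩,
    h.cntE _ hp (inferInstanceAs (Countable (ULift Bool))) ⟨false⟩⟩

include h in
theorem in_of_opN {σ τ : Nm P} (hp : 𝒢.In (opN σ τ)) : 𝒢.In σ ∧ 𝒢.In τ :=
  h.in_of_upN (h.in_of_upN hp).2

theorem isOPair_val {σ τ : Nm P} (hσ : 𝒢.In σ) (hτ : 𝒢.In τ) :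
    IsOPair E (h.val (opN σ τ)) (h.val σ) (h.val τ) :=
  ⟨_, _, h.isUPair_val hσ hσ, h.isUPair_val hσ hτ,
    h.isUPair_val (h.upN_in _ _ hσ hσ) (h.upN_in _ _ hσ hτ)⟩

theorem mem_val_numN_succ (n : ℕ) (z : 𝒢.N) :
    E z (h.val (numN (n + 1))) ↔ E z (h.val (numN n)) ∨ z = h.val (numN n) := by
  rw [h.mem_val (h.numN_in _), h.mem_val (h.numN_in _)]
  constructor
  · rintro ⟨_ | i, -, h1, h2⟩
    · exact Or.inr h2.symm
    · exact Or.inl ⟨i, by rw [numN_c]; exact 𝒢.top_mem, h1, h2⟩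
  · rintro (⟨i, -, h1, h2⟩ | rfl)
    · exact ⟨some i, 𝒢.top_mem, h1, h2⟩
    · exact ⟨none, 𝒢.top_mem, h.numN_in n, rfl⟩

theorem not_mem_val_numN_zero (z : 𝒢.N) : ¬ E z (h.val (numN 0)) := by
  rw [h.mem_val (h.numN_in _)]
  rintro ⟨i, -⟩
  exact i.elim

theorem exists_vec {n : ℕ} (v : Fin n → 𝒢.N) :
    ∃ w : Fin n → Nm P, (∀ i, 𝒢.In (w i)) ∧ (fun i => h.val (w i)) = v := by
  choose w h1 h2 using fun i => h.val_surj (v i)
  exact ⟨w, h1, funext h2⟩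

include h in
theorem weakZF : WeakZF (E (𝒢 := 𝒢)) where
  extensionality _ _ := h.ext
  foundation x hx := by
    obtain ⟨y, hy, hmin⟩ := wf.has_min {y | E y x} hx
    exact ⟨y, hy, hmin⟩
  pairing x y := by
    obtain ⟨σ, hσ, rfl⟩ := h.val_surj x
    obtain ⟨τ, hτ, rfl⟩ := h.val_surj y
    exact ⟨_, (h.isUPair_val hσ hτ _).2 (Or.inl rfl), (h.isUPair_val hσ hτ _).2 (Or.inr rfl)⟩
  union x := by
    obtain ⟨σ, hσ, rfl⟩ := h.val_surj x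
    refine ⟨h.val (unionN σ), fun y z hy hz => ?_⟩
    obtain ⟨i, -, hi, rfl⟩ := (h.mem_val hσ y).1 hy
    obtain ⟨j, -, hj, rfl⟩ := (h.mem_val hi z).1 hz
    exact (h.mem_val_setN (h.unionN_in σ hσ) _).2 ⟨⟨i, j⟩, hj, rfl⟩
  powerSet x := by
    obtain ⟨σ, hσ, rfl⟩ := h.val_surj x
    refine ⟨h.val (powN σ), fun z hz => ?_⟩
    obtain ⟨ρ, hρ, rfl⟩ := h.val_surj z
    have hc := h.canN_in σ ρ hσ hρ
    refine (h.mem_val_setN (h.powN_in σ hσ) _).2 ⟨_, hc, h.ext fun w => ?_⟩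
    rw [h.mem_val_subN hc]
    constructor
    · rintro ⟨i, p, h1, h2, h3, rfl⟩
      exact (h.val_mem h3 hρ).2 ⟨p, h2, h1⟩
    · intro hw
      obtain ⟨i, -, hi, rfl⟩ := (h.mem_val hσ w).1 (hz w hw)
      obtain ⟨p, h1, h2⟩ := (h.val_mem hi hρ).1 hw
      exact ⟨i, p, h2, h1, hi, rfl⟩
  infinity := by
    refine ⟨h.val omegaN, ⟨h.val (numN 0), ?_, h.not_mem_val_numN_zero⟩, fun x hx => ?_⟩
    · exact (h.mem_val_setN h.omegaN_in _).2 ⟨⟨0⟩, h.numN_in 0, rfl⟩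
    · obtain ⟨n, -, rfl⟩ := (h.mem_val_setN h.omegaN_in _).1 hx
      exact ⟨h.val (numN (n.down + 1)),
        (h.mem_val_setN h.omegaN_in _).2 ⟨⟨n.down + 1⟩, h.numN_in _, rfl⟩,
        h.mem_val_numN_succ _⟩
  separation n φ v a := by
    obtain ⟨w, hw, rfl⟩ := h.exists_vec v
    obtain ⟨σ, hσ, rfl⟩ := h.val_surj a
    have hs := h.sepN_in n φ w σ hw hσ
    refine ⟨h.val (sepN φ w σ), fun x => ?_⟩
    rw [sepN] at hs
    rw [sepN, h.mem_val_subN hs]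
    constructor
    · rintro ⟨i, p, ⟨h1, h1'⟩, h2, h3, rfl⟩
      refine ⟨(h.mem_val hσ _).2 ⟨i, 𝒢.up h2 h1, h3, rfl⟩, ?_⟩
      rw [← h.snoc_val, h.truth _ _ (snoc_in hw h3)]
      exact ⟨p, h2, h1'⟩
    · rintro ⟨h1, h2⟩
      obtain ⟨i, h3, hi, rfl⟩ := (h.mem_val hσ x).1 h1
      rw [← h.snoc_val, h.truth _ _ (snoc_in hw hi)] at h2
      obtain ⟨p, hp, h2⟩ := h2
      obtain ⟨q, hq, h4, h5⟩ := 𝒢.dir hp h3
      exact ⟨i, q, ⟨h5, h2.mono h4⟩, hq, hi, rfl⟩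
  collection n φ v a H := by
    obtain ⟨w, hw, rfl⟩ := h.exists_vec v
    obtain ⟨σ, hσ, rfl⟩ := h.val_surj a
    have hs := h.collN_in n φ w σ hw hσ
    refine ⟨h.val (collN φ w σ), fun x hx => ?_⟩
    obtain ⟨y, hy⟩ := H x hx
    obtain ⟨i, -, hi, rfl⟩ := (h.mem_val hσ x).1 hx
    obtain ⟨τ, hτ, rfl⟩ := h.val_surj y
    rw [← h.snoc_val, ← h.snoc_val, h.truth _ _ (snoc_in (snoc_in hw hi) hτ)] at hy
    obtain ⟨p, hp, hy⟩ := hy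
    obtain ⟨q, hq, z, h1, h2⟩ := h.coll n φ w σ i τ hw hσ hi p hp hy
    refine ⟨h.val ((collN φ w σ).t z), (h.mem_val hs _).2 ⟨z, 𝒢.top_mem, h1, rfl⟩, ?_⟩
    rw [← h.snoc_val, ← h.snoc_val, h.truth _ _ (snoc_in (snoc_in hw hi) h1)]
    exact ⟨q, hq, h2⟩

include h in
theorem wo (a : 𝒢.N) : ∃ r : 𝒢.N,
    (∀ x y, E x a → E y a → x ≠ y → PairMem E x y r ∨ PairMem E y x r) ∧
    WellFounded (fun x y => PairMem E x y r) := by
  obtain ⟨σ, hσ, rfl⟩ := h.val_surj a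
  have hw := h.woN_in σ hσ
  refine ⟨h.val (woN σ), fun x y hx hy hxy => ?_, ?_⟩
  · obtain ⟨i, -, hi, rfl⟩ := (h.mem_val hσ x).1 hx
    obtain ⟨i', -, hi', rfl⟩ := (h.mem_val hσ y).1 hy
    obtain ⟨q, hq, j, h1⟩ := h.least σ i hσ hi
    obtain ⟨q', hq', j', h1'⟩ := h.least σ i' hσ hi'
    obtain ⟨r, hr, h2, h2'⟩ := 𝒢.dir hq hq'
    rcases lt_trichotomy (embeddingToCardinal j) (embeddingToCardinal j') with h3 | h3 | h3
    · exact Or.inl ⟨_, h.isOPair_val hi hi', (h.mem_val hw _).2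
        ⟨⟨(i, i', r), j, j', h3, h1.mono h2, h1'.mono h2'⟩, hr, h.opN_in hi hi', rfl⟩⟩
    · obtain rfl := embeddingToCardinal.injective h3
      exact absurd ((h.val_eq hi hi').2 ⟨r, hr, (h1.1.mono h2).trans (h1'.1.mono h2').symm⟩) hxy
    · exact Or.inr ⟨_, h.isOPair_val hi' hi, (h.mem_val hw _).2
        ⟨⟨(i', i, r), j', j, h3, h1'.mono h2', h1.mono h2⟩, hr, h.opN_in hi' hi, rfl⟩⟩
  · let f : 𝒢.N → Cardinal.{u} := fun x => sInf (embeddingToCardinal ''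
      {j : σ.I | ∃ ρ : Nm P, 𝒢.In ρ ∧ h.val ρ = x ∧ ∃ p ∈ 𝒢.G, feq ρ (σ.t j) p})
    have hf : ∀ (ρ : Nm P) (p : P) (j : σ.I), 𝒢.In ρ → p ∈ 𝒢.G → LeastEnt σ ρ p j →
        f (h.val ρ) = embeddingToCardinal j := by
      intro ρ p j hρ hp hl
      refine IsLeast.csInf_eq ⟨⟨j, ⟨ρ, hρ, rfl, p, hp, hl.1⟩, rfl⟩, ?_⟩
      rintro _ ⟨j', ⟨ρ', hρ', h1, q, hq, h2⟩, rfl⟩
      by_contra hlt
      obtain ⟨r, hr, h3⟩ := (h.val_eq hρ' hρ).1 h1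
      obtain ⟨s, -, s1, s2, s3⟩ := 𝒢.dir3 hp hq hr
      exact hl.2 j' (not_le.1 hlt) s s1 ((h3.mono s3).symm.trans (h2.mono s2))
    refine Subrelation.wf (r := InvImage (· < ·) f) ?_ (InvImage.wf f wellFounded_lt)
    rintro x y ⟨z, hz, h1⟩
    obtain ⟨⟨⟨i, i', r⟩, j, j', h3, h4, h5⟩, hr, h6, rfl⟩ := (h.mem_val hw _).1 h1
    obtain ⟨hi, hi'⟩ := h.in_of_opN h6
    obtain ⟨rfl, rfl⟩ := isOPair_inj hz (h.isOPair_val hi hi')
    show f _ < f _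
    rw [hf _ r j hi hr h4, hf _ r j' hi' hr h5]
    exact h3

/-- the model -/
@[reducible] def zm : ZM 𝒢.N where
  E := E
  zf := h.weakZF.isZFModel
  wf := wf
  wo := h.wo

end Good

end Raw

end Vale.Agent.P129Z
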