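import Vale.Agent.P129Z.Coded
import Vale.Agent.P129Z.ForceD

/-!
# Forcing: countable generic models (API)

`Gen P` : a filter `G`, a countable set of objects (`g.In a`; `g.S` is the set of names which are
objects), and the generic model `g.N` with the value map `g.val`.
`gen P` : the countably complete filter of sufficiently generic models; `exists_of_ev` gives a
model with any property that holds eventually; `ev_task`, `ev_fun`, ... produce such properties.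
-/

namespace Vale.Agent.P129Z

open Filter Vale.Agent.P323.Z

universe u v w x y

variable {P : Type u} [Preorder P] [OrderTop P]

/-- A countable generic model. `S` is the set of names that have a value. -/
structure Gen (P : Type u) [Preorder P] [OrderTop P] extends Raw P where
  S : Set (Nm P)
  mem_S : ∀ {σ : Nm P}, σ ∈ S ↔ toRaw.In σ
  good : toRaw.Good
  N : Type
  cntN : Countable N
  zm : ZM N
  val : Nm P → N
  val_surj : ∀ x, ∃ τ ∈ S, val τ = x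
  val_eq : ∀ {σ τ}, σ ∈ S → τ ∈ S → (val σ = val τ ↔ ∃ p ∈ G, feq σ τ p)
  val_mem : ∀ {σ τ}, σ ∈ S → τ ∈ S → (ZM.E (val σ) (val τ) ↔ ∃ p ∈ G, fmem σ τ p)
  mem_val : ∀ {τ}, τ ∈ S → ∀ x,
    ZM.E x (val τ) ↔ ∃ i, τ.c i ∈ G ∧ τ.t i ∈ S ∧ val (τ.t i) = x
  truth : ∀ {n : ℕ} (φ : Fml n) (v : Fin n → Nm P), (∀ i, v i ∈ S) →
    (φ.Sat ZM.E (fun i => val (v i)) ↔ ∃ p ∈ G, Frc φ p v)

attribute [instance] Gen.zm Gen.cntN

/-- The generic model of a good pair. -/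
noncomputable def Raw.Good.gen {𝒢 : Raw P} (h : 𝒢.Good) : Gen P where
  toRaw := 𝒢
  S := {σ | 𝒢.In σ}
  mem_S := Iff.rfl
  good := h
  N := 𝒢.N
  cntN := inferInstance
  zm := h.zm
  val := h.val
  val_surj := h.val_surj
  val_eq := h.val_eq
  val_mem := h.val_mem
  mem_val := h.mem_val
  truth := h.truth

/-- The filter of sufficiently generic models. -/
def gen (P : Type u) [Preorder P] [OrderTop P] : Filter (Gen P) := comap Gen.toRaw (raw P)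

instance : CountableInterFilter (gen P) :=
  inferInstanceAs (CountableInterFilter (comap _ _))

/-- What holds for all sufficiently generic models holds for some model, below any condition. -/
theorem exists_of_ev {Φ : Gen P → Prop} (h : ∀ᶠ g in gen P, Φ g) (p₀ : P) :
    ∃ g : Gen P, p₀ ∈ g.G ∧ Φ g := by
  obtain ⟨𝒢, h1, h2, h3⟩ := exists_raw (Raw.ev_good.and (eventually_comap.1 h)) p₀
  exact ⟨h2.gen, h1, h3 _ rfl⟩

theorem ev_of_raw {Φ : Raw P → Prop} (h : ∀ᶠ 𝒢 in raw P, Φ 𝒢) : ∀ᶠ g in gen P, Φ g.toRaw :=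
  h.comap Gen.toRaw

section

variable {A : Type v} {A' : Type w} {A'' : Type x} {B : Type y} [Small.{u + 1} A]
  [Small.{u + 1} A'] [Small.{u + 1} A''] [Small.{u + 1} B]

/-- **Tasks.** If the parameter `a` is an object and `R a r b` can be arranged densely below a
member of the filter, then it is arranged by a member of the filter, with an object `b`. -/
theorem ev_task (R : A → P → B → Prop) :
    ∀ᶠ g in gen P, ∀ a, g.In a → ∀ p ∈ g.G,
      (∀ q ≤ p, ∃ r ≤ q, ∃ b, R a r b) → ∃ q ∈ g.G, q ≤ p ∧ ∃ b, g.In b ∧ R a q b :=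
  ev_of_raw (Raw.ev_task R)

theorem ev_task₀ (R : P → B → Prop) :
    ∀ᶠ g in gen P, ∀ p ∈ g.G,
      (∀ q ≤ p, ∃ r ≤ q, ∃ b, R r b) → ∃ q ∈ g.G, q ≤ p ∧ ∃ b, g.In b ∧ R q b :=
  ev_of_raw (Raw.ev_task₀ R)

theorem ev_task₂ (R : A → A' → P → B → Prop) :
    ∀ᶠ g in gen P, ∀ a a', g.In a → g.In a' → ∀ p ∈ g.G,
      (∀ q ≤ p, ∃ r ≤ q, ∃ b, R a a' r b) → ∃ q ∈ g.G, q ≤ p ∧ ∃ b, g.In b ∧ R a a' q b :=
  ev_of_raw (Raw.ev_task₂ R)

theorem ev_task₃ (R : A → A' → A'' → P → B → Prop) :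
    ∀ᶠ g in gen P, ∀ a a' a'', g.In a → g.In a' → g.In a'' → ∀ p ∈ g.G,
      (∀ q ≤ p, ∃ r ≤ q, ∃ b, R a a' a'' r b) →
        ∃ q ∈ g.G, q ≤ p ∧ ∃ b, g.In b ∧ R a a' a'' q b :=
  ev_of_raw (Raw.ev_task₃ R)

theorem ev_taskV {n : ℕ} (R : (Fin n → A) → P → B → Prop) :
    ∀ᶠ g in gen P, ∀ v : Fin n → A, (∀ i, g.In (v i)) → ∀ p ∈ g.G,
      (∀ q ≤ p, ∃ r ≤ q, ∃ b, R v r b) → ∃ q ∈ g.G, q ≤ p ∧ ∃ b, g.In b ∧ R v q b :=
  ev_of_raw (Raw.ev_taskV R)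

/-- dense sets given by an object are met -/
theorem ev_dense (D : A → P → Prop) :
    ∀ᶠ g in gen P, ∀ a, g.In a → ∀ p ∈ g.G,
      (∀ q ≤ p, ∃ r ≤ q, D a r) → ∃ q ∈ g.G, q ≤ p ∧ D a q := by
  filter_upwards [ev_task fun a q (_ : PUnit.{1}) => D a q] with g h a ha p hp hd
  obtain ⟨q, hq, h1, -, -, h2⟩ := h a ha p hp fun q hq => by
    obtain ⟨r, hr, h2⟩ := hd q hq
    exact ⟨r, hr, ⟨⟩, h2⟩
  exact ⟨q, hq, h1, h2⟩

theorem ev_const (b : B) : ∀ᶠ g in gen P, g.In b := ev_of_raw (Raw.ev_const b)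

theorem ev_fun (f : A → B) : ∀ᶠ g in gen P, ∀ a, g.In a → g.In (f a) := ev_of_raw (Raw.ev_fun f)

theorem ev_fun₂ (f : A → A' → B) :
    ∀ᶠ g in gen P, ∀ a a', g.In a → g.In a' → g.In (f a a') := ev_of_raw (Raw.ev_fun₂ f)

theorem ev_fun₃ (f : A → A' → A'' → B) :
    ∀ᶠ g in gen P, ∀ a a' a'', g.In a → g.In a' → g.In a'' → g.In (f a a' a'') :=
  ev_of_raw (Raw.ev_fun₃ f)

theorem ev_funV {n : ℕ} (f : (Fin n → A) → B) :
    ∀ᶠ g in gen P, ∀ v : Fin n → A, (∀ i, g.In (v i)) → g.In (f v) := ev_of_raw (Raw.ev_funV f)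

theorem ev_countable (f : A → Set B) :
    ∀ᶠ g in gen P, ∀ a, g.In a → (f a).Countable → ∀ b ∈ f a, g.In b :=
  ev_of_raw (Raw.ev_countable f)

theorem ev_all (B : Type y) [Small.{u + 1} B] [Countable B] : ∀ᶠ g in gen P, ∀ b : B, g.In b :=
  ev_of_raw (Raw.ev_all B)

theorem ev_cond : ∀ᶠ g in gen P, ∀ p ∈ g.G, ∃ q ∈ g.G, q ≤ p ∧ g.In q := ev_of_raw Raw.ev_cond

/-- pairs of objects are objects, and conversely -/
theorem ev_prod (A : Type v) (A' : Type w) [Small.{u + 1} A] [Small.{u + 1} A'] :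
    ∀ᶠ g in gen P, ∀ (a : A) (a' : A'), g.In (a, a') ↔ g.In a ∧ g.In a' := by
  filter_upwards [ev_fun₂ (P := P) (Prod.mk : A → A' → A × A'),
    ev_fun (P := P) (Prod.fst : A × A' → A), ev_fun (P := P) (Prod.snd : A × A' → A')]
    with g h1 h2 h3 a a'
  exact ⟨fun h => ⟨h2 _ h, h3 _ h⟩, fun h => h1 a a' h.1 h.2⟩

/-- an injective function reflects objects -/
theorem ev_inj {f : A → B} (hf : Function.Injective f) :
    ∀ᶠ g in gen P, ∀ a, g.In (f a) ↔ g.In a := by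
  filter_upwards [ev_fun (P := P) f, ev_countable (P := P) fun b : B => f ⁻¹' {b}] with g h1 h2 a
  exact ⟨fun h => h2 (f a) h ((Set.countable_singleton _).preimage hf) a rfl, h1 a⟩

/-- finite sets of objects are objects, and conversely -/
theorem ev_finset (A : Type v) [Small.{u + 1} A] [Small.{u + 1} (Finset A)] :
    ∀ᶠ g in gen P, ∀ s : Finset A, g.In s ↔ ∀ a ∈ s, g.In a := by
  classical
  filter_upwards [ev_countable (P := P) fun s : Finset A => (s : Set A),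
    ev_fun₂ (P := P) fun (a : A) (s : Finset A) => insert a s,
    ev_const (P := P) (∅ : Finset A)] with g h1 h2 h3 s
  refine ⟨fun h a ha => h1 s h s.countable_toSet a ha, fun h => ?_⟩
  induction s using Finset.induction_on with
  | empty => exact h3
  | insert a s _ ih =>
    exact h2 a s (h a (Finset.mem_insert_self a s))
      (ih fun b hb => h b (Finset.mem_insert_of_mem hb))

end

/-- The generic model meets the task `T`: inputs, condition, outputs. -/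
def Gen.Meets (g : Gen P) (T : List (Nm P) → P → List (Nm P) → Prop) : Prop :=
  ∀ l : List (Nm P), (∀ τ ∈ l, τ ∈ g.S) → (∀ p ∈ g.G, ∃ q ≤ p, ∃ out, T l q out) →
    ∃ q ∈ g.G, ∃ out, (∀ τ ∈ out, τ ∈ g.S) ∧ T l q out

theorem ev_meets (T : List (Nm P) → P → List (Nm P) → Prop) : ∀ᶠ g in gen P, g.Meets T := by
  filter_upwards [ev_of_raw (Raw.ev_meets (P := P) fun l q o => ∃ l' out : List (Nm P),
      l'.map ob = l ∧ ob out = o ∧ T l' q out),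
    ev_countable (P := P) fun l : List (Nm P) => {τ | τ ∈ l}] with g h1 h2 l hl hd
  have hinj : Function.Injective (List.map (ob : Nm P → Ob.{u})) :=
    List.map_injective_iff.2 fun _ _ h => ob_inj h
  obtain ⟨q, hq, -, ⟨_, hb, l', out, h3, rfl, h4⟩ | h3⟩ := h1 (l.map ob) (fun o ho => by
    obtain ⟨τ, hτ, rfl⟩ := List.mem_map.1 ho
    exact g.mem_S.1 (hl τ hτ)) ⊤ g.top_mem
  · obtain rfl := hinj h3
    exact ⟨q, hq, out, fun τ hτ => g.mem_S.2 (h2 out hb (List.finite_toSet out).countable τ hτ),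
      h4⟩
  · obtain ⟨r, hr, out, h4⟩ := hd q hq
    exact absurd ⟨l, out, rfl, rfl, h4⟩ (h3 r hr (ob out))

/-- Main theorem of the forcing core. -/
theorem exists_gen {ι : Type} [Countable ι] (T : ι → List (Nm P) → P → List (Nm P) → Prop) :
    ∃ g : Gen P, ∀ i, g.Meets (T i) := by
  obtain ⟨g, -, h⟩ := exists_of_ev (eventually_countable_forall.2 fun i => ev_meets (T i)) ⊤
  exact ⟨g, h⟩

namespace Gen

variable (g : Gen P)

theorem top : ⊤ ∈ g.G := g.top_mem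

theorem upN_mem {σ τ : Nm P} (h : σ ∈ g.S) (k : τ ∈ g.S) : upN σ τ ∈ g.S :=
  g.mem_S.2 (g.good.upN_in _ _ (g.mem_S.1 h) (g.mem_S.1 k))

theorem numN_mem (n : ℕ) : numN n ∈ g.S := g.mem_S.2 (g.good.numN_in n)

theorem omegaN_mem : omegaN ∈ g.S := g.mem_S.2 g.good.omegaN_in

theorem opN_mem {σ τ : Nm P} (h : σ ∈ g.S) (k : τ ∈ g.S) : opN σ τ ∈ g.S :=
  g.upN_mem (g.upN_mem h h) (g.upN_mem h k)

/-- the entries of a countable name with a value have values -/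
theorem entry_mem {σ : Nm P} (h : σ ∈ g.S) [hc : Countable σ.I] (i : σ.I) : σ.t i ∈ g.S :=
  g.mem_S.2 (g.good.cntE σ (g.mem_S.1 h) hc i)

theorem mem_of_opN {σ τ : Nm P} (h : opN σ τ ∈ g.S) : σ ∈ g.S ∧ τ ∈ g.S :=
  (g.good.in_of_opN (g.mem_S.1 h)).imp g.mem_S.2 g.mem_S.2

theorem opN_mem_iff {σ τ : Nm P} : opN σ τ ∈ g.S ↔ σ ∈ g.S ∧ τ ∈ g.S :=
  ⟨g.mem_of_opN, fun h => g.opN_mem h.1 h.2⟩

/-- every formula is decided -/
theorem decideF {n : ℕ} (φ : Fml n) {v : Fin n → Nm P} (hv : ∀ i, v i ∈ g.S) :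
    ∃ p ∈ g.G, Frc φ p v ∨ ∀ q ≤ p, ¬ Frc φ q v := g.good.dec n φ v fun i => g.mem_S.1 (hv i)

theorem decide {σ τ : Nm P} (h : σ ∈ g.S) (k : τ ∈ g.S) :
    ∃ p ∈ g.G, fmem σ τ p ∨ ∀ q ≤ p, ¬ fmem σ τ q :=
  g.decideF (n := 2) (.mem 0 1) (v := ![σ, τ]) (by simp [Fin.forall_fin_two, h, k])

theorem decide_eq {σ τ : Nm P} (h : σ ∈ g.S) (k : τ ∈ g.S) :
    ∃ p ∈ g.G, feq σ τ p ∨ ∀ q ≤ p, ¬ feq σ τ q :=
  g.decideF (n := 2) (.eq 0 1) (v := ![σ, τ]) (by simp [Fin.forall_fin_two, h, k])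

theorem val_mem' {σ τ : Nm P} (h : σ ∈ g.S) (k : τ ∈ g.S) :
    g.val σ ∈ g.val τ ↔ ∃ p ∈ g.G, fmem σ τ p := g.val_mem h k

theorem mem_val' {τ : Nm P} (h : τ ∈ g.S) (x : g.N) :
    x ∈ g.val τ ↔ ∃ i, τ.c i ∈ g.G ∧ τ.t i ∈ g.S ∧ g.val (τ.t i) = x := g.mem_val h x

theorem val_not_mem {σ τ : Nm P} (h : σ ∈ g.S) (k : τ ∈ g.S) :
    g.val σ ∉ g.val τ ↔ ∃ p ∈ g.G, ∀ q ≤ p, ¬ fmem σ τ q := by
  rw [g.val_mem' h k]
  constructor
  · intro H
    obtain ⟨p, hp, h1 | h1⟩ := g.decide h k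
    · exact absurd ⟨p, hp, h1⟩ H
    · exact ⟨p, hp, h1⟩
  · rintro ⟨p, hp, h1⟩ ⟨q, hq, h2⟩
    obtain ⟨r, -, h3, h4⟩ := g.dir hp hq
    exact h1 r h3 (h2.mono h4)

theorem val_ne {σ τ : Nm P} (h : σ ∈ g.S) (k : τ ∈ g.S) :
    g.val σ ≠ g.val τ ↔ ∃ p ∈ g.G, ∀ q ≤ p, ¬ feq σ τ q := by
  rw [Ne, g.val_eq h k]
  constructor
  · intro H
    obtain ⟨p, hp, h1 | h1⟩ := g.decide_eq h k
    · exact absurd ⟨p, hp, h1⟩ H
    · exact ⟨p, hp, h1⟩
  · rintro ⟨p, hp, h1⟩ ⟨q, hq, h2⟩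
    obtain ⟨r, -, h3, h4⟩ := g.dir hp hq
    exact h1 r h3 (h2.mono h4)

theorem mem_val_mk {I : Type u} {c : I → P} {t : I → Nm P} (h : Nm.mk I c t ∈ g.S) (x : g.N) :
    x ∈ g.val (Nm.mk I c t) ↔ ∃ i, c i ∈ g.G ∧ t i ∈ g.S ∧ g.val (t i) = x := g.mem_val h x

theorem mem_val_setN {α : Type u} {f : α → Nm P} (hf : setN f ∈ g.S) (x : g.N) :
    x ∈ g.val (setN f) ↔ ∃ a, f a ∈ g.S ∧ g.val (f a) = x :=
  (g.mem_val hf x).trans (exists_congr fun _ => and_iff_right g.top)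

theorem val_upN {σ τ : Nm P} (h : σ ∈ g.S) (k : τ ∈ g.S) :
    g.val (upN σ τ) = upair (g.val σ) (g.val τ) := by
  refine ext fun z => ?_
  rw [mem_upair, g.mem_val' (g.upN_mem h k)]
  constructor
  · rintro ⟨⟨_ | _⟩, -, -, h1⟩
    · exact Or.inr h1.symm
    · exact Or.inl h1.symm
  · rintro (rfl | rfl)
    · exact ⟨⟨true⟩, g.top, h, rfl⟩
    · exact ⟨⟨false⟩, g.top, k, rfl⟩

theorem val_opN {σ τ : Nm P} (h : σ ∈ g.S) (k : τ ∈ g.S) :
    g.val (opN σ τ) = op (g.val σ) (g.val τ) := by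
  rw [opN, g.val_upN (g.upN_mem h h) (g.upN_mem h k), g.val_upN h h, g.val_upN h k, op]

theorem val_numN (n : ℕ) : g.val (numN n) = num n := by
  induction n using Nat.strong_induction_on with
  | _ n ih =>
    refine ext fun z => ?_
    rw [mem_num, g.mem_val' (g.numN_mem n)]
    constructor
    · rintro ⟨i, -, -, rfl⟩
      obtain ⟨m, hm, h⟩ := numN_t (P := P) n i
      exact ⟨m, hm, by rw [h, ih m hm]⟩
    · rintro ⟨m, hm, rfl⟩
      obtain ⟨i, hi⟩ := exists_numN_t (P := P) hm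
      exact ⟨i, by rw [numN_c]; exact g.top, by rw [hi]; exact g.numN_mem m, by rw [hi, ih m hm]⟩

theorem val_omegaN : g.val omegaN = omega g.N := by
  refine ext fun z => ?_
  rw [mem_omega, omegaN, g.mem_val_setN g.omegaN_mem]
  exact ⟨fun ⟨n, _, h⟩ => ⟨n.down, by rw [← h, g.val_numN]⟩,
    fun ⟨n, h⟩ => ⟨⟨n⟩, g.numN_mem n, by rw [h, g.val_numN]⟩⟩

theorem val_atom_inj {α : Type u} {a b : α} (h : (atom a : Nm P) ∈ g.S)
    (k : (atom b : Nm P) ∈ g.S) : g.val (atom a) = g.val (atom b) ↔ a = b := by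
  rw [g.val_eq h k]
  exact ⟨fun ⟨_, _, e⟩ => feq_atom.1 e, fun e => ⟨⊤, g.top, feq_atom.2 e⟩⟩

end Gen

/-- the atom of an element has a value iff the element is an object -/
theorem ev_atom (α : Type u) : ∀ᶠ g in gen P, ∀ a : α, (atom a : Nm P) ∈ g.S ↔ g.In a := by
  filter_upwards [ev_inj (P := P) (f := fun a : α => (atom a : Nm P)) fun _ _ h => atom_inj.1 h]
    with g h a
  rw [g.mem_S]
  exact h a

/-- Choice holds in every `ZM`. -/
theorem ZM.ac (N : Type*) [ZM N] : Vale.Agent.P323.Z.AC (ZM.E (N := N)) := by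
  intro F hF
  obtain ⟨r, hr, hwf⟩ := ZM.wo (sUnion F)
  simp only [pairMem_iff] at hr hwf
  obtain ⟨Pr, hPr⟩ := exists_prod F (sUnion F)
  have hD : DefF N fun p : N => ∃ A x : N, p = op A x ∧ x ∈ A ∧ ∀ y : N, y ∈ A → ¬ op y x ∈ r := by
    fun_prop
  obtain ⟨c, hc⟩ := hD.sep Pr
  have key : ∀ A x : N, op A x ∈ c ↔ A ∈ F ∧ x ∈ A ∧ ∀ y : N, y ∈ A → ¬ op y x ∈ r := by
    intro A x
    rw [hc, hPr]
    constructor
    · rintro ⟨⟨A', x', h1, -, h2⟩, A'', x'', h3, h4⟩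
      obtain ⟨rfl, rfl⟩ := op_inj.1 h2
      obtain ⟨rfl, rfl⟩ := op_inj.1 h3
      exact ⟨h1, h4⟩
    · rintro ⟨h1, h2, h3⟩
      exact ⟨⟨A, x, h1, mem_sUnion.2 ⟨A, h1, h2⟩, rfl⟩, A, x, rfl, h2, h3⟩
  refine ⟨c, sUnion F, ⟨fun p hp => ?_, fun A hA => ?_⟩, fun A x h => ?_⟩
  · obtain ⟨A, x, h1, h2, h3⟩ := (hPr p).1 ((hc p).1 hp).1
    exact ⟨A, x, h1, h2, isOPair_iff.2 h3⟩
  · simp only [pairMem_iff, key]
    obtain ⟨x, hx, hmin⟩ := hwf.has_min {x | x ∈ A} (hF A hA)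
    refine ⟨x, ⟨hA, hx, hmin⟩, ?_⟩
    rintro y ⟨-, hy, hy'⟩
    by_contra hne
    rcases hr y x (mem_sUnion.2 ⟨A, hA, hy⟩) (mem_sUnion.2 ⟨A, hA, hx⟩) hne with h | h
    · exact hmin y hy h
    · exact hy' x hx h
  · exact ((key A x).1 (pairMem_iff.1 h)).2.1

end Vale.Agent.P129Z
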