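import Vale.Agent.P129Z.Reals

/-!
# Zorn's lemma and the Hahn-Banach theorem, internally
-/

namespace Vale.Agent.P129Z

open Filter Topology

universe v

variable {N : Type v} [ZM N]
variable {α β : Type*} [Coded N α] [Coded N β]

/-- An internal set carries a definable well-order. -/
theorem exists_defF_wo (B : Set α) [hB : Intl N B] : ∃ lt : α → α → Prop,
    DefF N (fun p : α × α => lt p.1 p.2) ∧ WellFounded lt ∧
      (∀ x ∈ B, ∀ y ∈ B, x = y ∨ lt x y ∨ lt y x) ∧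
      ∀ x ∈ B, ∀ y ∈ B, ∀ z ∈ B, lt x y → lt y z → lt x z := by
  obtain ⟨r, hr1, hr2⟩ := ZM.wo (code N B)
  simp only [pairMem_iff] at hr1 hr2
  have wf : WellFounded fun x y : α => op (code N x) (code N y) ∈ r := InvImage.wf (code N) hr2
  have tot : ∀ x ∈ B, ∀ y ∈ B, x = y ∨ op (code N x) (code N y) ∈ r ∨
      op (code N y) (code N x) ∈ r := by
    intro x hx y hy
    by_cases h : x = y
    · exact Or.inl h
    · exact Or.inr (hr1 _ _ ((code_mem_code hB (hB.of_mem hx)).2 hx)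
        ((code_mem_code hB (hB.of_mem hy)).2 hy)
        fun e => h (code_inj (hB.of_mem hx) (hB.of_mem hy) e))
  refine ⟨fun x y => op (code N x) (code N y) ∈ r, by fun_prop, wf, tot,
    fun x hx y _ z hz h1 h2 => ?_⟩
  rcases tot x hx z hz with rfl | h | h
  · exact absurd h2 (wf.asymm.asymm _ _ h1)
  · exact h
  · obtain ⟨m, hm, hmin⟩ := wf.has_min {x, y, z} ⟨x, by simp⟩
    rcases hm with rfl | rfl | rfl
    · exact absurd h (hmin z (by simp))
    · exact absurd h1 (hmin x (by simp))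
    · exact absurd h2 (hmin y (by simp))

/-- Zorn's lemma. -/
theorem intl_zorn (B : Set α) [hB : Intl N B] {le : α → α → Prop}
    (hle : DefF N (fun p : α × α => le p.1 p.2))
    (trans : ∀ x y z, le x y → le y z → le x z)
    (hch : ∀ C : Set α, Intl N C → C ⊆ B → (∀ x ∈ C, ∀ y ∈ C, x = y ∨ le x y ∨ le y x) →
      ∃ u ∈ B, ∀ x ∈ C, le x u) : ∃ m ∈ B, ∀ w ∈ B, le m w → le w m := by
  obtain ⟨lt, hlt, wf, tot, tr⟩ := exists_defF_wo (N := N) B
  let C₀ : α → Prop := wf.fix fun x rec => x ∈ B ∧ ∀ y (h : lt y x), rec y h → le y x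
  have hC₀ : ∀ x, C₀ x ↔ x ∈ B ∧ ∀ y, lt y x → C₀ y → le y x := fun x => by
    simp only [C₀]
    rw [wf.fix_eq]
  let Good : α → Set α → Prop := fun x D => ∀ z ∈ B, (z = x ∨ lt z x) →
    (z ∈ D ↔ ∀ y ∈ B, lt y z → y ∈ D → le y z)
  have hGood : ∀ x ∈ B, ∀ D, Good x D → ∀ z, z ∈ B → (z = x ∨ lt z x) → (z ∈ D ↔ C₀ z) := by
    intro x hx D hD z
    induction z using wf.induction with
    | _ z ih =>
      intro hz hzx
      have h1 : ∀ y ∈ B, lt y z → (y ∈ D ↔ C₀ y) := fun y hy hyz => ih y hyz hy (Or.inr (by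
        rcases hzx with rfl | h
        exacts [hyz, tr y hy z hz x hx hyz h]))
      rw [hD z hz hzx, hC₀]
      constructor
      · intro H
        exact ⟨hz, fun y hyz hy => H y ((hC₀ y).1 hy).1 hyz ((h1 y ((hC₀ y).1 hy).1 hyz).2 hy)⟩
      · intro H y hy hyz hyD
        exact H.2 y hyz ((h1 y hy hyz).1 hyD)
  let Φ : α → Prop := fun x => ∃ D : Set α, Intl N D ∧ Good x D ∧ x ∈ D
  have hΦ : DefF N Φ := by
    simp only [Φ, Good]
    fun_prop
  have key : ∀ x, x ∈ B → (Φ x ↔ C₀ x) := by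
    intro x
    induction x using wf.induction with
    | _ x ih =>
      intro hx
      have hxI := hB.of_mem hx
      refine ⟨fun ⟨D, _, hD, hxD⟩ => (hGood x hx D hD x hx (Or.inl rfl)).1 hxD, fun H => ?_⟩
      have h1 : Intl N {z | z ∈ B ∧ (z = x ∨ (lt z x ∧ Φ z))} := intl_sep (by fun_prop) B
      have h2 : ∀ z ∈ B, (z = x ∨ lt z x) →
          (z ∈ {z | z ∈ B ∧ (z = x ∨ (lt z x ∧ Φ z))} ↔ C₀ z) := by
        rintro z hz (rfl | hzx)
        · exact iff_of_true ⟨hz, Or.inl rfl⟩ H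
        · rw [← ih z hzx hz]
          constructor
          · rintro ⟨-, rfl | h⟩
            · exact absurd hzx (wf.irrefl.irrefl _)
            · exact h.2
          · exact fun h => ⟨hz, Or.inr ⟨hzx, h⟩⟩
      refine ⟨_, h1, fun z hz hzx => ?_, hx, Or.inl rfl⟩
      have h3 : ∀ y ∈ B, lt y z → (y = x ∨ lt y x) := fun y hy hyz => Or.inr (by
        rcases hzx with rfl | h
        exacts [hyz, tr y hy z hz x hx hyz h])
      rw [h2 z hz hzx, hC₀]
      constructor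
      · intro H' y hy hyz hyD
        exact H'.2 y hyz ((h2 y hy (h3 y hy hyz)).1 hyD)
      · intro H'
        exact ⟨hz, fun y hyz hy => H' y ((hC₀ y).1 hy).1 hyz
          ((h2 y ((hC₀ y).1 hy).1 (h3 y ((hC₀ y).1 hy).1 hyz)).2 hy)⟩
  obtain ⟨u, hu, hub⟩ := hch {z | z ∈ B ∧ Φ z} (intl_sep hΦ B) (fun z hz => hz.1)
    fun x hx y hy => by
      rcases tot x hx.1 y hy.1 with h | h | h
      · exact Or.inl h
      · exact Or.inr (Or.inl (((hC₀ y).1 ((key y hy.1).1 hy.2)).2 x h ((key x hx.1).1 hx.2)))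
      · exact Or.inr (Or.inr (((hC₀ x).1 ((key x hx.1).1 hx.2)).2 y h ((key y hy.1).1 hy.2)))
  refine ⟨u, hu, fun w hw huw => hub w ⟨hw, (key w hw).2 ((hC₀ w).2 ⟨hw, fun y _ hy => ?_⟩)⟩⟩
  have hyB := ((hC₀ y).1 hy).1
  exact trans _ _ _ (hub y ⟨hyB, (key y hyB).2 hy⟩) huw

section HB

variable [Coded N ℝ] [RSet N] {W : Type*} [AddCommGroup W] [Module ℝ W] [Coded N W] [Bdd N W]
  [DefAdd N W] [DefSMul N ℝ W]

/-- The Hahn-Banach theorem for a definable sublinear function on an internal real vector space. -/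
theorem exists_defF_linear (V : Set W) [hV : Intl N V]
    (Vadd : ∀ x ∈ V, ∀ y ∈ V, x + y ∈ V) (Vsmul : ∀ c : ℝ, Intl N c → ∀ x ∈ V, c • x ∈ V)
    (p : W → ℝ) (hp : DefF N p) (padd : ∀ x ∈ V, ∀ y ∈ V, p (x + y) ≤ p x + p y)
    (psmul : ∀ c : ℝ, Intl N c → 0 < c → ∀ x ∈ V, p (c • x) = c * p x) {x₀ : W} (hx₀ : x₀ ∈ V) :
    ∃ l : W → ℝ, DefF N l ∧ (∀ x ∈ V, ∀ y ∈ V, l (x + y) = l x + l y) ∧
      (∀ c : ℝ, Intl N c → ∀ x ∈ V, l (c • x) = c * l x) ∧ (∀ x ∈ V, l x ≤ p x) ∧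
      l x₀ = p x₀ := by
  classical
  have hx₀I := hV.of_mem hx₀
  have hpx₀ := hp.intl x₀
  have V0 : (0 : W) ∈ V := by simpa using Vsmul 0 inferInstance x₀ hx₀
  have p0 : p 0 = 0 := by
    have := psmul 2 inferInstance two_pos 0 V0
    rw [smul_zero] at this
    linarith
  -- the dominated linear relations
  let Ok : Set (W × ℝ) → Prop := fun G => (∀ z ∈ G, z.1 ∈ V ∧ z.2 ≤ p z.1) ∧ (x₀, p x₀) ∈ G ∧
    (∀ z ∈ G, ∀ w ∈ G, (z.1 + w.1, z.2 + w.2) ∈ G) ∧
    ∀ c : ℝ, Intl N c → ∀ z ∈ G, (c • z.1, c * z.2) ∈ G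
  have hOk : DefF N Ok := by
    simp only [Ok]
    fun_prop
  have hB : Intl N {G : Set (W × ℝ) | Intl N G ∧ Ok G} := intl_setOf hOk
  have hbase : ∃ G, Intl N G ∧ Ok G := by
    refine ⟨{z | Intl N z ∧ ∃ t : ℝ, Intl N t ∧ z = (t • x₀, t * p x₀)}, intl_setOf (by fun_prop),
      ?_, ⟨inferInstance, 1, inferInstance, by simp⟩, ?_, ?_⟩
    · rintro z ⟨-, t, ht, rfl⟩
      refine ⟨Vsmul t ht x₀ hx₀, ?_⟩
      show t * p x₀ ≤ p (t • x₀)
      rcases lt_trichotomy t 0 with h | h | h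
      · have h1 := padd _ (Vsmul t ht x₀ hx₀) _ (Vsmul (-t) inferInstance x₀ hx₀)
        rw [← add_smul, add_neg_cancel, zero_smul, p0,
          psmul (-t) inferInstance (neg_pos.2 h) x₀ hx₀] at h1
        linarith
      · rw [h, zero_smul, p0, zero_mul]
      · rw [psmul t ht h x₀ hx₀]
    · rintro z ⟨-, t, ht, rfl⟩ w ⟨-, s, hs, rfl⟩
      exact ⟨inferInstance, t + s, inferInstance, by simp [add_smul, add_mul]⟩
    · rintro c hc z ⟨-, t, ht, rfl⟩
      exact ⟨inferInstance, c * t, inferInstance, by simp [mul_smul, mul_assoc]⟩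
  obtain ⟨G, ⟨hG, hG1, hG2, hG3, hG4⟩, hmax⟩ := intl_zorn (N := N)
    {G : Set (W × ℝ) | Intl N G ∧ Ok G}
    (le := fun G H => G ⊆ H) (by fun_prop) (fun _ _ _ => Set.Subset.trans) fun C hC hCB hch => by
      rcases C.eq_empty_or_nonempty with rfl | ⟨G₀, hG₀⟩
      · obtain ⟨G, hG⟩ := hbase
        exact ⟨G, hG, fun x hx => hx.elim⟩
      · refine ⟨{z | Intl N z ∧ ∃ G ∈ C, z ∈ G}, ⟨intl_setOf (by fun_prop), ?_,
          ⟨intl_mk x₀ (p x₀), G₀, hG₀, (hCB hG₀).2.2.1⟩, ?_, ?_⟩,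
          fun G hG z hz => ⟨(hCB hG).1.of_mem hz, G, hG, hz⟩⟩
        · rintro z ⟨-, G, hG, hz⟩
          exact (hCB hG).2.1 z hz
        · rintro z ⟨hz', G, hG, hz⟩ w ⟨hw', H, hH, hw⟩
          refine ⟨inferInstance, ?_⟩
          rcases hch G hG H hH with rfl | h | h
          · exact ⟨G, hG, (hCB hG).2.2.2.1 z hz w hw⟩
          · exact ⟨H, hH, (hCB hH).2.2.2.1 z (h hz) w hw⟩
          · exact ⟨G, hG, (hCB hG).2.2.2.1 z hz w (h hw)⟩
        · rintro c hc z ⟨hz', G, hG, hz⟩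
          exact ⟨inferInstance, G, hG, (hCB hG).2.2.2.2 c hc z hz⟩
  have G0 : ((0 : W), (0 : ℝ)) ∈ G := by simpa using hG4 0 inferInstance _ hG2
  have uniq : ∀ x t t', (x, t) ∈ G → (x, t') ∈ G → t = t' := by
    have : ∀ x t t', (x, t) ∈ G → (x, t') ∈ G → t ≤ t' := by
      intro x t t' h h'
      have h1 := (hG1 _ (hG3 _ h _ (hG4 (-1) inferInstance _ h'))).2
      simp only [neg_smul, one_smul, add_neg_cancel, p0] at h1
      linarith
    exact fun x t t' h h' => le_antisymm (this x t t' h h') (this x t' t h' h)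
  have tot : ∀ y ∈ V, ∃ c, (y, c) ∈ G := by
    intro y hy
    have hyI := hV.of_mem hy
    have hny := Vsmul (-1) inferInstance y hy
    let S : Set ℝ := (fun z : W × ℝ => z.2 - p (z.1 + (-1 : ℝ) • y)) '' G
    have hS : Intl N S := intl_image (by fun_prop) G
    have hub : ∀ w ∈ G, ∀ s ∈ S, s ≤ p (w.1 + y) - w.2 := by
      rintro w hw _ ⟨z, hz, rfl⟩
      have h1 := (hG1 _ (hG3 z hz w hw)).2
      have h2 := padd _ (Vadd _ (hG1 z hz).1 _ hny) _ (Vadd _ (hG1 w hw).1 _ hy)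
      have h3 : z.1 + (-1 : ℝ) • y + (w.1 + y) = z.1 + w.1 := by
        rw [neg_smul, one_smul]; abel
      rw [h3] at h2
      simp only at h1 ⊢
      linarith
    have hne : S.Nonempty := ⟨_, _, G0, rfl⟩
    have hbdd : BddAbove S := ⟨_, hub _ G0⟩
    have hc1 : ∀ z ∈ G, z.2 - p (z.1 + (-1 : ℝ) • y) ≤ sSup S :=
      fun z hz => le_csSup hbdd ⟨z, hz, rfl⟩
    have hc2 : ∀ w ∈ G, sSup S ≤ p (w.1 + y) - w.2 := fun w hw => csSup_le hne (hub w hw)
    have hcI : Intl N (sSup S) := inferInstance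
    generalize sSup S = c at hc1 hc2 hcI
    let G' : Set (W × ℝ) :=
      {z | Intl N z ∧ ∃ w ∈ G, ∃ s : ℝ, Intl N s ∧ z = (w.1 + s • y, w.2 + s * c)}
    have hsub : G ⊆ G' := fun z hz => ⟨hG.of_mem hz, z, hz, 0, inferInstance, by simp⟩
    have hG' : Intl N G' ∧ Ok G' := by
      refine ⟨intl_setOf (by fun_prop), ?_, hsub hG2, ?_, ?_⟩
      · rintro z ⟨-, w, hw, s, hs, rfl⟩
        have hwV := (hG1 w hw).1
        refine ⟨Vadd _ hwV _ (Vsmul s hs y hy), ?_⟩
        show w.2 + s * c ≤ p (w.1 + s • y)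
        rcases lt_trichotomy s 0 with h | h | h
        · have h0 : 0 < -s := neg_pos.2 h
          have h1 := hc1 _ (hG4 (-s)⁻¹ inferInstance w hw)
          have h2 := psmul (-s) inferInstance h0 _
            (Vadd _ (Vsmul (-s)⁻¹ inferInstance _ hwV) _ hny)
          rw [smul_add, smul_smul, smul_smul, mul_inv_cancel₀ h0.ne', one_smul, mul_neg_one,
            neg_neg] at h2
          simp only at h1
          have h3 := mul_le_mul_of_nonneg_left h1 h0.le
          rw [mul_sub, ← mul_assoc, mul_inv_cancel₀ h0.ne', one_mul] at h3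
          linarith
        · rw [h, zero_smul, zero_mul, add_zero, add_zero]
          exact (hG1 w hw).2
        · have h1 := hc2 _ (hG4 s⁻¹ inferInstance w hw)
          have h2 := psmul s hs h _ (Vadd _ (Vsmul s⁻¹ inferInstance _ hwV) _ hy)
          rw [smul_add, smul_smul, mul_inv_cancel₀ h.ne', one_smul] at h2
          simp only at h1
          have h3 := mul_le_mul_of_nonneg_left h1 h.le
          rw [mul_sub, ← mul_assoc, mul_inv_cancel₀ h.ne', one_mul] at h3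
          linarith
      · rintro z ⟨hz', w, hw, s, hs, rfl⟩ z' ⟨hz'', w', hw', s', hs', rfl⟩
        have := hG.of_mem hw
        have := hG.of_mem hw'
        refine ⟨inferInstance, _, hG3 w hw w' hw', s + s', inferInstance, Prod.ext ?_ ?_⟩
        · simp only [add_smul]; abel
        · simp only; ring
      · rintro a ha z ⟨hz', w, hw, s, hs, rfl⟩
        have := hG.of_mem hw
        refine ⟨inferInstance, _, hG4 a ha w hw, a * s, inferInstance, Prod.ext ?_ ?_⟩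
        · simp only [smul_add, mul_smul]
        · simp only; ring
    exact ⟨c, hmax G' hG' hsub ⟨inferInstance, _, G0, 1, inferInstance, by simp⟩⟩
  choose! l₀ hl₀ using tot
  let l : W → ℝ := fun x => if x ∈ V then l₀ x else 0
  have hl : ∀ x ∈ V, (x, l x) ∈ G := fun x hx => by
    simp only [l, if_pos hx]; exact hl₀ x hx
  refine ⟨l, defF_of_rel (R := fun x (t : ℝ) => (x ∈ V ∧ (x, t) ∈ G) ∨ (¬ x ∈ V ∧ t = 0))
    (fun x _ => ?_) (by fun_prop) fun x t _ _ => ?_, fun x hx y hy => ?_, fun c hc x hx => ?_,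
    fun x hx => (hG1 _ (hl x hx)).2, uniq _ _ _ (hl x₀ hx₀) hG2⟩
  · by_cases hx : x ∈ V
    · exact (intl_prod.1 (hG.of_mem (hl x hx))).2
    · simp only [l, if_neg hx]; infer_instance
  · by_cases hx : x ∈ V
    · simp only [hx, true_and, not_true_eq_false, false_and, or_false]
      exact ⟨fun h => uniq _ _ _ (hl x hx) h, fun h => h ▸ hl x hx⟩
    · simp only [hx, false_and, not_false_eq_true, true_and, false_or, l, if_false, eq_comm]
  · exact uniq _ _ _ (hl _ (Vadd x hx y hy)) (hG3 _ (hl x hx) _ (hl y hy))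
  · exact uniq _ _ _ (hl _ (Vsmul c hc x hx)) (hG4 c hc _ (hl x hx))

end HB

/-! ### Pointwise operations -/

instance [Tot N α] [Add β] [DefAdd N β] : DefAdd N (α → β) := ⟨by
  have : DefF N (fun p : (α → β) × (α → β) => fun a => p.1 a + p.2 a) := by fun_prop
  exact this⟩

instance [Tot N α] [Sub β] [DefSub N β] : DefSub N (α → β) := ⟨by
  have : DefF N (fun p : (α → β) × (α → β) => fun a => p.1 a - p.2 a) := by fun_prop
  exact this⟩

instance [Tot N α] [Neg β] [DefNeg N β] : DefNeg N (α → β) := ⟨by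
  have : DefF N (fun p : α → β => fun a => -p a) := by fun_prop
  exact this⟩

instance [Tot N α] [Zero β] [DefZero N β] : DefZero N (α → β) := ⟨intl_const (0 : β)⟩

instance {γ : Type*} [Coded N γ] [Tot N α] [SMul γ β] [DefSMul N γ β] : DefSMul N γ (α → β) := ⟨by
  have : DefF N (fun p : γ × (α → β) => fun a => p.1 • p.2 a) := by fun_prop
  exact this⟩

/-- A generalized limit of the bounded internal sequences. -/
theorem exists_intl_limit [Coded N ℝ] [RSet N] : ∃ L : (ℕ → ℝ) → ℝ, DefF N L ∧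
    (∀ u w : ℕ → ℝ, Intl N u → Intl N w → (∃ C, ∀ n, |u n| ≤ C) → (∃ C, ∀ n, |w n| ≤ C) →
      L (fun n => u n + w n) = L u + L w) ∧
    (∀ (c : ℝ) (u : ℕ → ℝ), Intl N c → Intl N u → (∃ C, ∀ n, |u n| ≤ C) →
      L (fun n => c * u n) = c * L u) ∧
    ∀ u : ℕ → ℝ, Intl N u → (∃ C, ∀ n, |u n| ≤ C) →
      (∀ b : ℝ, (∀ᶠ n in atTop, u n ≤ b) → L u ≤ b) ∧
        ∀ b : ℝ, (∀ᶠ n in atTop, b ≤ u n) → b ≤ L u := by
  let V : Set (ℕ → ℝ) := {u | Intl N u ∧ ∃ C : ℝ, Intl N C ∧ ∀ n, |u n| ≤ C}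
  have hV : Intl N V := intl_setOf (by fun_prop)
  have memV : ∀ u : ℕ → ℝ, Intl N u → (∃ C, ∀ n, |u n| ≤ C) → u ∈ V := by
    rintro u hu ⟨C, hC⟩
    obtain ⟨D, hD, hCD⟩ := exists_intl_gt (N := N) C
    exact ⟨hu, D, hD, fun n => (hC n).trans hCD.le⟩
  let S : (ℕ → ℝ) → Set ℝ := fun u => {b | Intl N b ∧ ∀ᶠ n in atTop, u n ≤ b}
  have hne : ∀ u ∈ V, (S u).Nonempty := by
    rintro u ⟨-, C, hC, h⟩
    exact ⟨C, hC, Eventually.of_forall fun n => (le_abs_self _).trans (h n)⟩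
  have hbdd : ∀ u ∈ V, BddBelow (S u) := by
    rintro u ⟨-, C, hC, h⟩
    refine ⟨-C, fun b hb => ?_⟩
    obtain ⟨n, hn⟩ := hb.2.exists
    linarith [neg_abs_le (u n), h n]
  have hle : ∀ u ∈ V, ∀ b : ℝ, (∀ᶠ n in atTop, u n ≤ b) → sInf (S u) ≤ b := by
    intro u hu b hb
    refine le_of_forall_gt_imp_ge_of_dense fun c hc => ?_
    obtain ⟨d, hd, h1, h2⟩ := exists_intl_btwn (N := N) hc
    exact (csInf_le (hbdd u hu) ⟨hd, hb.mono fun n hn => hn.trans h1.le⟩).trans h2.le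
  have hev : ∀ u ∈ V, ∀ ε > 0, ∀ᶠ n in atTop, u n ≤ sInf (S u) + ε := by
    intro u hu ε hε
    obtain ⟨b, hb, h⟩ := exists_lt_of_csInf_lt (hne u hu) (lt_add_of_pos_right _ hε)
    exact hb.2.mono fun n hn => hn.trans h.le
  have Vadd : ∀ x ∈ V, ∀ y ∈ V, x + y ∈ V := by
    rintro x ⟨hx, C, hC, h⟩ y ⟨hy, D, hD, h'⟩
    exact ⟨inferInstance, C + D, inferInstance, fun n =>
      (abs_add_le _ _).trans (add_le_add (h n) (h' n))⟩
  have Vsmul : ∀ c : ℝ, Intl N c → ∀ x ∈ V, c • x ∈ V := by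
    rintro c hc x ⟨hx, C, hC, h⟩
    refine ⟨inferInstance, |c| * C, inferInstance, fun n => ?_⟩
    rw [Pi.smul_apply, smul_eq_mul, abs_mul]
    exact mul_le_mul_of_nonneg_left (h n) (abs_nonneg c)
  have hsm : ∀ c : ℝ, Intl N c → 0 < c → ∀ x ∈ V, sInf (S (c • x)) ≤ c * sInf (S x) := by
    intro c hc h0 x hx
    refine le_of_forall_pos_le_add fun ε hε => hle _ (Vsmul c hc x hx) _ ?_
    filter_upwards [hev x hx (ε / c) (div_pos hε h0)] with n hn
    have := mul_le_mul_of_nonneg_left hn h0.le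
    rwa [mul_add, mul_div_cancel₀ _ h0.ne'] at this
  have key := exists_defF_linear V Vadd Vsmul (fun u => sInf (S u))
    (by simp only [S]; fun_prop) (fun x hx y hy => ?_) (fun c hc h0 x hx => ?_) (x₀ := 0)
    (memV 0 inferInstance ⟨0, fun n => by simp⟩)
  · obtain ⟨L, h1, h2, h3, h4, -⟩ := key
    refine ⟨L, h1, fun u w hu hw hu' hw' => h2 u (memV u hu hu') w (memV w hw hw'),
      fun c u hc hu hu' => h3 c hc u (memV u hu hu'), fun u hu hu' => ⟨fun b hb =>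
        (h4 u (memV u hu hu')).trans (hle u (memV u hu hu') b hb), fun b hb => ?_⟩⟩
    have h5 := Vsmul (-1) inferInstance u (memV u hu hu')
    have h6 := (h4 _ h5).trans (hle _ h5 (-b) (hb.mono fun n hn => by simpa using hn))
    rw [h3 (-1) inferInstance u (memV u hu hu')] at h6
    linarith
  · refine le_of_forall_pos_le_add fun ε hε => hle _ (Vadd x hx y hy) _ ?_
    filter_upwards [hev x hx _ (half_pos hε), hev y hy _ (half_pos hε)] with n h1 h2
    rw [Pi.add_apply]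
    linarith
  · refine le_antisymm (hsm c hc h0 x hx) ?_
    have h1 := hsm c⁻¹ inferInstance (inv_pos.2 h0) _ (Vsmul c hc x hx)
    rw [smul_smul, inv_mul_cancel₀ h0.ne', one_smul] at h1
    have h2 := mul_le_mul_of_nonneg_left h1 h0.le
    rwa [← mul_assoc, mul_inv_cancel₀ h0.ne', one_mul] at h2

end Vale.Agent.P129Z
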