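import Vale.Agent.P129Z.Rep3
import Vale.Agent.P129Z.An5
import Mathlib.Analysis.Normed.Lp.lpSpace

/-!
# Every model has real numbers and infinite-dimensional Banach spaces
-/

set_option linter.all false

namespace Vale.Agent.P129Z

open Filter Topology S

universe v

namespace NV

/-- the rational number given by a triple -/
noncomputable def val (p : ℕ × ℕ × ℕ) : ℝ := ((p.1 : ℝ) - p.2.1) / (p.2.2 + 1)

/-- sum of triples -/
def tadd (p q : ℕ × ℕ × ℕ) : ℕ × ℕ × ℕ :=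
  (p.1 * (q.2.2 + 1) + q.1 * (p.2.2 + 1), p.2.1 * (q.2.2 + 1) + q.2.1 * (p.2.2 + 1),
    p.2.2 * q.2.2 + p.2.2 + q.2.2)

/-- product of triples -/
def tmul (p q : ℕ × ℕ × ℕ) : ℕ × ℕ × ℕ :=
  (p.1 * q.1 + p.2.1 * q.2.1, p.1 * q.2.1 + p.2.1 * q.1, p.2.2 * q.2.2 + p.2.2 + q.2.2)

theorem val_tadd (p q : ℕ × ℕ × ℕ) : val p + val q = val (tadd p q) := by
  have e : ((p.2.2 * q.2.2 + p.2.2 + q.2.2 : ℕ) : ℝ) + 1 = (p.2.2 + 1) * (q.2.2 + 1) := by
    push_cast; ring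
  simp only [val, tadd, e]
  push_cast
  field_simp
  ring

theorem val_tmul (p q : ℕ × ℕ × ℕ) : val p * val q = val (tmul p q) := by
  have e : ((p.2.2 * q.2.2 + p.2.2 + q.2.2 : ℕ) : ℝ) + 1 = (p.2.2 + 1) * (q.2.2 + 1) := by
    push_cast; ring
  simp only [val, tmul, e]
  push_cast
  field_simp
  ring

theorem val_lt (p q : ℕ × ℕ × ℕ) : val p < val q ↔
    p.1 * (q.2.2 + 1) + q.2.1 * (p.2.2 + 1) < q.1 * (p.2.2 + 1) + p.2.1 * (q.2.2 + 1) := by
  rw [val, val, div_lt_div_iff₀ (by positivity) (by positivity), ← Nat.cast_lt (α := ℝ)]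
  push_cast
  constructor <;> intro h <;> linarith

theorem exists_btwn {x y : ℝ} (h : x < y) : ∃ p, x < val p ∧ val p < y := by
  obtain ⟨q, hq⟩ := exists_rat_btwn h
  refine ⟨(q.num.toNat, (-q.num).toNat, q.den - 1), ?_⟩
  have e1 : ((q.num.toNat : ℕ) : ℝ) - ((-q.num).toNat : ℕ) = (q.num : ℝ) := by
    exact_mod_cast Int.toNat_sub_toNat_neg q.num
  have e2 : ((q.den - 1 : ℕ) : ℝ) + 1 = (q.den : ℝ) := by
    exact_mod_cast Nat.sub_add_cancel q.pos
  simp only [val, e1, e2]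
  rwa [← Rat.cast_def]

/-- the lower cut -/
def cut (r : ℝ) : Set (ℕ × ℕ × ℕ) := {p | val p < r}

theorem lt_iff {a b : ℝ} : a < b ↔ ∃ p, ¬ val p < a ∧ val p < b :=
  ⟨fun h => by
    obtain ⟨p, h1, h2⟩ := exists_btwn h
    exact ⟨p, not_lt.2 h1.le, h2⟩, fun ⟨p, h1, h2⟩ => (not_lt.1 h1).trans_lt h2⟩

theorem lt_add_iff {x a b : ℝ} : x < a + b ↔ ∃ p q, val p < a ∧ val q < b ∧ x < val p + val q := by
  refine ⟨fun h => ?_, fun ⟨p, q, h1, h2, h3⟩ => by linarith⟩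
  obtain ⟨p, h1, h2⟩ := exists_btwn (show x - b < a by linarith)
  obtain ⟨q, h3, h4⟩ := exists_btwn (show x - val p < b by linarith)
  exact ⟨p, q, h2, h4, by linarith⟩

theorem lt_mul_iff {x a b : ℝ} : x < a * b ↔ ∃ p p' q q', val p < a ∧ a < val p' ∧ val q < b ∧
    b < val q' ∧ x < val p * val q ∧ x < val p * val q' ∧ x < val p' * val q ∧
    x < val p' * val q' := by
  have lin : ∀ {x u w a y : ℝ}, u < a → a < w → x < u * y → x < w * y → x < a * y := by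
    intro x u w a y h1 h2 h3 h4
    rcases le_total 0 y with h | h <;> nlinarith
  constructor
  · intro h
    have h1 : ∀ᶠ z : ℝ × ℝ in 𝓝 (a, b), x < z.1 * z.2 :=
      (continuous_fst.mul continuous_snd).continuousAt.eventually (lt_mem_nhds h)
    obtain ⟨ε, hε, h2⟩ := Metric.eventually_nhds_iff.1 h1
    obtain ⟨p, k1, k2⟩ := exists_btwn (show a - ε < a by linarith)
    obtain ⟨p', k3, k4⟩ := exists_btwn (show a < a + ε by linarith)
    obtain ⟨q, k5, k6⟩ := exists_btwn (show b - ε < b by linarith)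
    obtain ⟨q', k7, k8⟩ := exists_btwn (show b < b + ε by linarith)
    have h3 : ∀ u w : ℝ, a - ε < u → u < a + ε → b - ε < w → w < b + ε → x < u * w := by
      intro u w m1 m2 m3 m4
      refine @h2 (u, w) ?_
      rw [Prod.dist_eq, max_lt_iff, Real.dist_eq, Real.dist_eq, abs_lt, abs_lt]
      refine ⟨⟨?_, ?_⟩, ?_, ?_⟩ <;> simp only <;> linarith
    refine ⟨p, p', q, q', k2, k3, k6, k7, ?_, ?_, ?_, ?_⟩ <;> apply h3 <;> linarith
  · rintro ⟨p, p', q, q', k1, k2, k3, k4, k5, k6, k7, k8⟩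
    rw [mul_comm]
    refine lin k3 k4 ?_ ?_ <;> rw [mul_comm]
    · exact lin k1 k2 k5 k7
    · exact lin k1 k2 k6 k8

variable {N : Type v} [ZM N] {α : Type*} [Coded N α]

theorem defF_lt {f g : α → ℕ × ℕ × ℕ} (hf : DefF N f) (hg : DefF N g) :
    DefF N (fun a => val (f a) < val (g a)) := by
  simp only [val_lt]
  fun_prop

@[fun_prop] theorem defF_tadd {f g : α → ℕ × ℕ × ℕ} (hf : DefF N f) (hg : DefF N g) :
    DefF N (fun a => tadd (f a) (g a)) := by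
  unfold tadd
  fun_prop

@[fun_prop] theorem defF_tmul {f g : α → ℕ × ℕ × ℕ} (hf : DefF N f) (hg : DefF N g) :
    DefF N (fun a => tmul (f a) (g a)) := by
  unfold tmul
  fun_prop

variable (N) in
/-- the real numbers, coded by cuts -/
@[reducible] noncomputable def codedReal : Coded N ℝ :=
  Coded.pull (α := Set (ℕ × ℕ × ℕ)) cut
    (fun a b _ _ h => by
      have h1 : ∀ p, val p < a ↔ val p < b := fun p => Set.ext_iff.1 h p
      refine le_antisymm (not_lt.1 fun h2 => ?_) (not_lt.1 fun h2 => ?_)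
      · obtain ⟨p, k1, k2⟩ := lt_iff.1 h2
        exact k1 ((h1 p).1 k2)
      · obtain ⟨p, k1, k2⟩ := lt_iff.1 h2
        exact k1 ((h1 p).2 k2))
    (by
      have : DefF N (fun s : Set (ℕ × ℕ × ℕ) => (∃ p, p ∈ s) ∧ (∃ p, ¬ p ∈ s) ∧
          ∀ p, p ∈ s ↔ ∃ q, q ∈ s ∧ val p < val q) := by
        simp only [val_lt]
        fun_prop
      refine this.congrP fun s _ => ⟨?_, ?_⟩
      · rintro ⟨⟨p₀, h0⟩, ⟨p₁, h1⟩, h2⟩
        have hb : BddAbove (val '' s) := ⟨val p₁, by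
          rintro _ ⟨q, hq, rfl⟩
          exact not_lt.1 fun h => h1 ((h2 p₁).2 ⟨q, hq, h⟩)⟩
        refine ⟨sSup (val '' s), Set.ext fun p => ?_⟩
        rw [h2 p]
        refine (lt_csSup_iff hb ⟨_, p₀, h0, rfl⟩).trans ⟨?_, ?_⟩
        · rintro ⟨_, ⟨q, hq, rfl⟩, h⟩
          exact ⟨q, hq, h⟩
        · rintro ⟨q, hq, h⟩
          exact ⟨_, ⟨q, hq, rfl⟩, h⟩
      · rintro ⟨r, rfl⟩
        obtain ⟨p, -, h1⟩ := exists_btwn (sub_one_lt r)
        obtain ⟨q, h2, -⟩ := exists_btwn (lt_add_one r)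
        refine ⟨⟨p, h1⟩, ⟨q, not_lt.2 h2.le⟩, fun p => ⟨fun h => ?_, ?_⟩⟩
        · obtain ⟨q, k1, k2⟩ := exists_btwn h
          exact ⟨q, k2, k1⟩
        · rintro ⟨q, k1, k2⟩
          exact k2.trans k1)

section

attribute [local instance] codedReal

theorem defF_cut : DefF N cut :=
  ⟨fun _ h => intl_iff.1 h, (DefF.id (N := N) (α := ℝ)).2⟩

theorem defF_val_lt {f : α → ℕ × ℕ × ℕ} {g : α → ℝ} (hf : DefF N f) (hg : DefF N g) :
    DefF N (fun a => val (f a) < g a) := hf.mem (defF_cut.comp hg)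

theorem defF_real {f : α → ℝ} (h : DefF N (fun p : α × ℕ × ℕ × ℕ => val p.2 < f p.1)) :
    DefF N f := by
  have h1 : DefF N (fun a => cut (f a)) := DefF.setOfT (P := fun a p => val p < f a) h
  exact ⟨fun a ha => intl_iff.2 (h1.1 a ha), h1.2⟩

theorem intl_real {x : ℝ} (h : DefF N (fun p : ℕ × ℕ × ℕ => val p < x)) : Intl N x :=
  intl_iff.2 (intl_setOfT h)

@[fun_prop] theorem defF_val {f : α → ℕ × ℕ × ℕ} (hf : DefF N f) : DefF N (fun a => val (f a)) :=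
  DefF.comp (f := val) (defF_real (defF_lt DefF.id.snd DefF.id.fst)) hf

theorem defLT : DefLT N ℝ := ⟨by
  have : DefF N (fun z : ℝ × ℝ => ∃ p, ¬ val p < z.1 ∧ val p < z.2) :=
    DefF.exT (P := fun (z : ℝ × ℝ) p => ¬ val p < z.1 ∧ val p < z.2)
      ((defF_val_lt DefF.id.snd DefF.id.fst.fst).not.and (defF_val_lt DefF.id.snd DefF.id.fst.snd))
  exact this.congrP fun _ _ => lt_iff.symm⟩

attribute [local instance] defLT

theorem defAdd : DefAdd N ℝ := ⟨defF_real (by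
  have : DefF N (fun z : (ℝ × ℝ) × ℕ × ℕ × ℕ =>
      ∃ p q, val p < z.1.1 ∧ val q < z.1.2 ∧ val z.2 < val (tadd p q)) := by fun_prop
  exact this.congrP fun z _ => by simp only [← val_tadd]; exact lt_add_iff.symm)⟩

theorem defMul : DefMul N ℝ := ⟨defF_real (by
  have : DefF N (fun z : (ℝ × ℝ) × ℕ × ℕ × ℕ =>
      ∃ p p' q q', val p < z.1.1 ∧ z.1.1 < val p' ∧ val q < z.1.2 ∧ z.1.2 < val q' ∧
        val z.2 < val (tmul p q) ∧ val z.2 < val (tmul p q') ∧ val z.2 < val (tmul p' q) ∧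
        val z.2 < val (tmul p' q')) := by fun_prop
  exact this.congrP fun z _ => by simp only [← val_tmul]; exact lt_mul_iff.symm)⟩

attribute [local instance] defAdd defMul

theorem rset : RSet N := by
  have h0 : Intl N (0 : ℝ) := by
    have := (defF_val (N := N) DefF.id).intl ((0, 0, 0) : ℕ × ℕ × ℕ)
    simpa [val] using this
  have h1 : Intl N (1 : ℝ) := by
    have := (defF_val (N := N) DefF.id).intl ((1, 0, 0) : ℕ × ℕ × ℕ)
    simpa [val] using this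
  refine { car := ?_, add := defAdd, mul := defMul, lt := defLT, neg := fun a ha => ?_,
           inv := fun a ha => ?_, one := h1, sup := fun s hs h2 h3 => ?_ }
  · have h2 : Intl N {s : Set (ℕ × ℕ × ℕ) | Intl N s ∧ Dom N ℝ (code N s)} :=
      intl_setOf (by fun_prop)
    refine ⟨code N _, fun x => (mem_code_set h2).trans ?_⟩
    constructor
    · rintro ⟨s, ⟨-, f, hf, h⟩, rfl⟩; exact ⟨f, hf, h⟩
    · rintro ⟨f, hf, rfl⟩; exact ⟨cut f, ⟨intl_iff.1 hf, f, hf, rfl⟩, rfl⟩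
  · have : DefF N (fun p : ℕ × ℕ × ℕ => val p + a < 0) := by fun_prop
    exact intl_real (this.congrP fun p _ => by constructor <;> intro h <;> linarith)
  · rcases lt_trichotomy a 0 with h | rfl | h
    · have : DefF N (fun p : ℕ × ℕ × ℕ => 1 < val p * a) := by fun_prop
      exact intl_real (this.congrP fun p _ => by rw [← one_div, lt_div_iff_of_neg h])
    · rwa [inv_zero]
    · have : DefF N (fun p : ℕ × ℕ × ℕ => val p * a < 1) := by fun_prop
      exact intl_real (this.congrP fun p _ => by rw [← one_div, lt_div_iff₀ h])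
  · have : DefF N (fun p : ℕ × ℕ × ℕ => ∃ y ∈ s, val p < y) := by fun_prop
    exact intl_real (this.congrP fun p _ => (lt_csSup_iff h3 h2).symm)

end

section Space

variable [Coded N ℝ] [RSet N] (𝕜 : Type*) [RCLike 𝕜] [Coded N 𝕜] [KSet N 𝕜]

variable (N) in
/-- the bounded sequences -/
@[reducible] noncomputable def codedLp : Coded N (lp (fun _ : ℕ => 𝕜) ⊤) :=
  Coded.pull (α := ℕ → 𝕜) (fun x => (x : ℕ → 𝕜)) (fun _ _ _ _ h => lp.ext h) (by
    have : DefF N (fun a : ℕ → 𝕜 => ∃ c : ℕ, ∀ n, ‖a n‖ ≤ c) := by fun_prop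
    refine this.congrP fun a _ => ⟨?_, ?_⟩
    · rintro ⟨c, hc⟩
      exact ⟨⟨a, memℓp_infty ⟨c, by rintro _ ⟨n, rfl⟩; exact hc n⟩⟩, rfl⟩
    · rintro ⟨x, rfl⟩
      obtain ⟨c, hc⟩ := exists_nat_ge ‖x‖
      exact ⟨c, fun n => (lp.norm_apply_le_norm ENNReal.top_ne_zero x n).trans hc⟩)

attribute [local instance] codedLp

variable {𝕜}

theorem defF_coe : DefF N (fun x : lp (fun _ : ℕ => 𝕜) ⊤ => (x : ℕ → 𝕜)) :=
  ⟨fun _ h => intl_iff.1 h, (DefF.id (N := N) (α := lp (fun _ : ℕ => 𝕜) ⊤)).2⟩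

theorem defF_co {f : α → lp (fun _ : ℕ => 𝕜) ⊤} {g : α → ℕ} (hf : DefF N f) (hg : DefF N g) :
    DefF N (fun a => f a (g a)) := (defF_coe.comp hf).ap hg

theorem defF_lp {f : α → lp (fun _ : ℕ => 𝕜) ⊤} (h : DefF N (fun p : α × ℕ => f p.1 p.2)) :
    DefF N f := by
  have h1 : DefF N (fun a n => f a n) := DefF.lam _ h
  exact ⟨fun a ha => intl_iff.2 (h1.1 a ha), h1.2⟩

theorem intl_lp {x : lp (fun _ : ℕ => 𝕜) ⊤} (h : DefF N (fun n => x n)) : Intl N x :=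
  intl_iff.2 h.toIntl

variable (𝕜)

theorem preSet : PreSet N 𝕜 (lp (fun _ : ℕ => 𝕜) ⊤) where
  car := by
    have h2 : Intl N {s : ℕ → 𝕜 | Intl N s ∧ Dom N (lp (fun _ : ℕ => 𝕜) ⊤) (code N s)} :=
      intl_setOf (by fun_prop)
    refine ⟨code N _, fun x => (mem_code_set h2).trans ?_⟩
    constructor
    · rintro ⟨s, ⟨-, f, hf, h⟩, rfl⟩; exact ⟨f, hf, h⟩
    · rintro ⟨f, hf, rfl⟩; exact ⟨f, ⟨intl_iff.1 hf, f, hf, rfl⟩, rfl⟩
  add := ⟨defF_lp (((defF_co DefF.id.fst.fst DefF.id.snd).add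
    (defF_co DefF.id.fst.snd DefF.id.snd)).congr fun _ _ => rfl)⟩
  neg := ⟨defF_lp ((defF_co DefF.id.fst DefF.id.snd).neg.congr fun _ _ => rfl)⟩
  norm := ⟨(DefF.iSup (f := fun (x : lp (fun _ : ℕ => 𝕜) ⊤) n => ‖x n‖)
    (defF_co DefF.id.fst DefF.id.snd).norm).congr fun x _ => (lp.norm_eq_ciSup x).symm⟩
  zero := ⟨intl_lp ((DefF.const (0 : 𝕜)).congr fun _ _ => rfl)⟩
  lim s hs h := by
    obtain ⟨x, hx⟩ := cauchySeq_tendsto_of_complete h
    refine ⟨x, intl_lp (defF_of_tendsto (u := fun k n => s n k)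
      (defF_co ((DefF.ofIntl s).comp DefF.id.snd) DefF.id.fst) fun k _ => ?_), hx⟩
    rw [tendsto_iff_norm_sub_tendsto_zero] at hx ⊢
    exact squeeze_zero (fun _ => norm_nonneg _)
      (fun n => lp.norm_apply_le_norm ENNReal.top_ne_zero (s n - x) k) hx
  smul := ⟨defF_lp ((DefF.id.fst.fst.mul (defF_co DefF.id.fst.snd DefF.id.snd)).congr
    fun _ _ => rfl)⟩

theorem not_iFinDim : ¬ IFinDim N 𝕜 (lp (fun _ : ℕ => 𝕜) ⊤) := by
  rintro ⟨n, w, -, hw⟩
  have h1 : ∀ j m : ℕ, (lp.single ⊤ j (1 : 𝕜) : lp (fun _ : ℕ => 𝕜) ⊤) m =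
      if m = j then 1 else 0 := fun j m => by
    rw [lp.single_apply]
    simp [Pi.single_apply]
  choose c hc1 hc2 using fun j => hw (lp.single ⊤ j (1 : 𝕜))
    (intl_lp (by simp only [h1]; fun_prop))
  refine not_factor n c (fun m i => w i m) fun m j => ?_
  have h2 : (lp.single ⊤ j (1 : 𝕜) : lp (fun _ : ℕ => 𝕜) ⊤) =
      ∑ i ∈ Finset.range n, c j i • w i := sub_eq_zero.1 (hc2 j)
  rw [← h1, h2, lp.coeFn_sum, Finset.sum_apply]
  rfl

end Space

end NV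

variable (N : Type v) [ZM N]

/-- Every model has an infinite-dimensional real Banach space. -/
theorem exists_infinite_dim_real : ∃ (R : Reals N) (K : Scalars N) (X : Space N),
    IsReals ZM.E R ∧ IsRealScalars ZM.E R K ∧ IsBanach ZM.E R K X ∧ ¬ FiniteDim ZM.E K X := by
  letI := NV.codedReal N
  haveI := NV.rset (N := N)
  letI := NV.codedLp N ℝ
  haveI := NV.preSet (N := N) ℝ
  obtain ⟨R, hR, hR'⟩ := rep1_reals (N := N)
  obtain ⟨K, hK, hK'⟩ := rep1_real hR'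
  obtain ⟨X, hX, hX'⟩ := rep1_space ℝ (lp (fun _ : ℕ => ℝ) ⊤) hR' hK'
  exact ⟨R, K, X, hR, hK, hX, fun h => NV.not_iFinDim ℝ ((rep3_fin hK' hX').1 h)⟩

/-- Every model has an infinite-dimensional complex Banach space. -/
theorem exists_infinite_dim_complex : ∃ (R : Reals N) (K : Scalars N) (X : Space N),
    IsReals ZM.E R ∧ IsComplexScalars ZM.E R K ∧ IsBanach ZM.E R K X ∧ ¬ FiniteDim ZM.E K X := by
  letI := NV.codedReal N
  haveI := NV.rset (N := N)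
  letI := NV.codedLp N ℂ
  haveI := NV.preSet (N := N) ℂ
  obtain ⟨R, hR, hR'⟩ := rep1_reals (N := N)
  obtain ⟨K, hK, hK'⟩ := rep1_complex hR'
  obtain ⟨X, hX, hX'⟩ := rep1_space ℂ (lp (fun _ : ℕ => ℂ) ⊤) hR' hK'
  exact ⟨R, K, X, hR, hK, hX, fun h => NV.not_iFinDim ℂ ((rep3_fin hK' hX').1 h)⟩

end Vale.Agent.P129Z
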