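import Mathlib.Order.Filter.Ultrafilter.Basic
import Mathlib.Order.Filter.CountableInter
import Mathlib.SetTheory.Cardinal.Continuum
import Mathlib.SetTheory.Cardinal.Arithmetic

/-!
# Infinite free sets from a countably complete nonprincipal ultrafilter
-/

namespace Vale.Agent.P129Z

open Filter Function Cardinal

universe u

variable {K : Type u}

/-- A countably complete ultrafilter is closed under intersections of continuum many sets. -/
theorem ultra_forall (U : Ultrafilter K) [CountableInterFilter (U : Filter K)] {ι : Type u}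
    (hι : #ι ≤ continuum) {Φ : ι → K → Prop} (h : ∀ i, ∀ᶠ x in (U : Filter K), Φ i x) :
    ∀ᶠ x in (U : Filter K), ∀ i, Φ i x := by
  classical
  by_contra hcon
  rw [← Ultrafilter.eventually_not] at hcon
  obtain ⟨e⟩ : Nonempty (ι ↪ (ULift.{u} ℕ → Prop)) := by
    rw [← Cardinal.le_def]
    simpa using hι
  obtain ⟨x₀, hx₀⟩ := hcon.exists
  obtain ⟨i₀, -⟩ := not_forall.1 hx₀
  have h1 : ∀ x, ∃ i, (¬ ∀ i, Φ i x) → ¬ Φ i x := by
    intro x
    by_cases hx : ∀ i, Φ i x
    · exact ⟨i₀, fun h => absurd hx h⟩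
    · obtain ⟨i, hi⟩ := not_forall.1 hx
      exact ⟨i, fun _ => hi⟩
  choose f hf using h1
  have h2 : ∀ n, ∃ b : Prop, ∀ᶠ x in (U : Filter K), (e (f x) n ↔ b) := by
    intro n
    rcases U.em fun x => e (f x) n with h3 | h3
    · exact ⟨True, h3.mono fun x hx => iff_true_intro hx⟩
    · exact ⟨False, h3.mono fun x hx => iff_false_intro hx⟩
  choose b hb using h2
  have h3 := eventually_countable_forall.2 hb
  obtain ⟨x, hx⟩ := h3.exists
  obtain ⟨y, hy1, hy2, hy3⟩ := (h3.and (hcon.and (h (f x)))).exists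
  have h4 : f y = f x := e.injective (funext fun n => propext ((hy1 n).trans (hx n).symm))
  exact hf y hy2 (h4 ▸ hy3)

/-- Iterated quantifier: `Φ` holds for almost all values at `k`, ..., `k + n - 1`. -/
def AE (U : Filter K) (Φ : (ℕ → K) → Prop) : ℕ → ℕ → (ℕ → K) → Prop
  | 0, _, g => Φ g
  | n + 1, k, g => ∀ᶠ x in U, AE U Φ n (k + 1) (update g k x)

theorem AE.exists {U : Filter K} [NeBot U] {Φ : (ℕ → K) → Prop} {n k : ℕ} {g : ℕ → K}
    (h : AE U Φ n k g) : ∃ g', Φ g' := by
  induction n generalizing k g with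
  | zero => exact ⟨g, h⟩
  | succ n ih =>
    obtain ⟨x, hx⟩ := Eventually.exists h
    exact ih hx

theorem ae_not (U : Ultrafilter K) {Φ : (ℕ → K) → Prop} {n k : ℕ} {g : ℕ → K}
    (h : ¬ AE U Φ n k g) : AE U (fun g => ¬ Φ g) n k g := by
  induction n generalizing k g with
  | zero => exact h
  | succ n ih => exact (Ultrafilter.eventually_not.2 h).mono fun x hx => ih hx

theorem ae_forall (U : Ultrafilter K) [CountableInterFilter (U : Filter K)] {ι : Type u}
    (hι : #ι ≤ continuum) {Φ : ι → (ℕ → K) → Prop} {n k : ℕ} {g : ℕ → K}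
    (h : ∀ i, AE U (Φ i) n k g) : AE U (fun g => ∀ i, Φ i g) n k g := by
  induction n generalizing k g with
  | zero => exact h
  | succ n ih => exact (ultra_forall U hι h).mono fun x hx => ih hx

theorem AE.of_update {U : Filter K} {Φ Ψ : (ℕ → K) → Prop} {j : ℕ} {a : K}
    (H : ∀ g, Φ (update g j a) → Ψ g) {n k : ℕ} (hj : j < k) {g : ℕ → K}
    (h : AE U Φ n k (update g j a)) : AE U Ψ n k g := by
  induction n generalizing k g with
  | zero => exact H g h
  | succ n ih =>
    refine Eventually.mono h fun x hx => ih (hj.trans (Nat.lt_succ_self k)) ?_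
    rwa [update_comm hj.ne] at hx

theorem ae_of_le {U : Filter K} {Φ : (ℕ → K) → Prop} {n j : ℕ} (h : ∀ g, AE U Φ n j g) (i : ℕ)
    (hi : i ≤ j) (g : ℕ → K) : AE U Φ (i + n) (j - i) g := by
  induction i generalizing g with
  | zero => simpa using h g
  | succ i ih =>
    have e1 : i + 1 + n = (i + n) + 1 := by omega
    have e2 : j - (i + 1) + 1 = j - i := by omega
    rw [e1]
    refine Eventually.of_forall fun x => ?_
    rw [e2]
    exact ih (by omega) _

theorem exists_seq_of_ae (U : Filter K) [NeBot U] [CountableInterFilter U] {ι : Type*}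
    [Countable ι] (Φ : ι → (ℕ → K) → Prop) (N : ι → ℕ)
    (hdep : ∀ i g g', (∀ k < N i, g k = g' k) → Φ i g → Φ i g') (g₀ : ℕ → K)
    (h : ∀ i, AE U (Φ i) (N i) 0 g₀) : ∃ g, ∀ i, Φ i g := by
  have step : ∀ (k : ℕ) (g : ℕ → K), (∀ i n, k + n = N i → AE U (Φ i) n k g) →
      ∃ x, ∀ i n, k + 1 + n = N i → AE U (Φ i) n (k + 1) (update g k x) := by
    intro k g hg
    refine Eventually.exists (f := U) ?_
    refine eventually_countable_forall.2 fun i => eventually_countable_forall.2 fun n => ?_
    by_cases hn : k + 1 + n = N i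
    · exact Eventually.mono (hg i (n + 1) (by omega)) fun x hx _ => hx
    · exact Eventually.of_forall fun x hx => absurd hx hn
  have : Nonempty K := ⟨g₀ 0⟩
  choose! X hX using step
  let G : ℕ → ℕ → K := fun k => Nat.rec g₀ (fun k g => update g k (X k g)) k
  have hG : ∀ k, G (k + 1) = update (G k) k (X k (G k)) := fun k => rfl
  have inv : ∀ k i n, k + n = N i → AE U (Φ i) n k (G k) := by
    intro k
    induction k with
    | zero =>
      intro i n hn
      rw [zero_add] at hn
      rw [hn]
      exact h i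
    | succ k ih => exact hX k (G k) ih
  have stab : ∀ j k, j < k → G k j = G (j + 1) j := by
    intro j k hjk
    induction k, hjk using Nat.le_induction with
    | base => rfl
    | succ k hk ih => rw [hG, update_of_ne (by omega), ih]
  refine ⟨fun j => G (j + 1) j, fun i => hdep i (G (N i)) _ (fun k hk => stab k _ hk) ?_⟩
  exact inv (N i) i 0 rfl

/-- **Free sets.** A map from finite sets to countable sets has an infinite free set. -/
theorem exists_free [DecidableEq K] (U : Ultrafilter K) [CountableInterFilter (U : Filter K)]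
    (hU : ∀ x : K, {x} ∉ U) (F : Finset K → Set K) (hF : ∀ s, (F s).Countable) :
    ∃ g : ℕ → K, Injective g ∧ ∀ (T : Finset ℕ) (j : ℕ), j ∉ T → g j ∉ F (T.image g) := by
  classical
  let F' : Finset K → Set K := fun s => F s ∪ s
  have hF' : ∀ s, (F' s).Countable := fun s => (hF s).union s.countable_toSet
  have hc : ∀ A : Set K, A.Countable → A ∉ U := by
    intro A hA hAU
    have h1 : ∀ᶠ y in (U : Filter K), ∀ x ∈ A, y ≠ x :=
      (eventually_countable_ball hA).2 fun x _ => Ultrafilter.compl_mem_iff_notMem.2 (hU x)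
    obtain ⟨y, hy1, hy2⟩ := (h1.and hAU).exists
    exact hy1 y hy2 rfl
  obtain ⟨x₀, -⟩ := Filter.nonempty_of_mem (Filter.univ_mem (f := (U : Filter K)))
  refine (exists_seq_of_ae (U : Filter K)
    (fun (i : {i : Finset ℕ × ℕ // i.2 ∉ i.1}) g => g i.1.2 ∉ F' (i.1.1.image g))
    (fun i => i.1.2 + (i.1.1.sup id + 1)) ?_ (fun _ => x₀) ?_).elim fun g hg => ?_
  rotate_left 2
  · refine ⟨g, fun i j hij => ?_, fun T j hj h => hg ⟨(T, j), hj⟩ (Or.inl h)⟩
    by_contra hne
    refine hg ⟨({j}, i), by simpa using hne⟩ (Or.inr ?_)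
    simpa using hij
  · rintro ⟨⟨T, j⟩, hj⟩ g g' h1 h2
    have e : T.image g = T.image g' := Finset.image_congr fun k hk => h1 k (by
      have : k ≤ T.sup id := Finset.le_sup (f := id) hk
      dsimp only
      omega)
    have e' : g j = g' j := h1 j (by dsimp only; omega)
    dsimp only at h2 ⊢
    rwa [← e, ← e']
  · rintro ⟨⟨T, j⟩, hj⟩
    dsimp only at hj ⊢
    have key := ae_of_le (U := (U : Filter K)) (Φ := fun g => g j ∉ F' (T.image g))
      (n := T.sup id + 1) (j := j) ?_ j le_rfl fun _ => x₀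
    · rwa [Nat.sub_self] at key
    intro g
    by_contra hcon
    have h1 := ae_not U hcon
    have h2 : {x | AE U (fun g' => x ∈ F' (T.image g')) (T.sup id) (j + 1) g} ∈ U := by
      refine Eventually.mono h1 fun x hx => AE.of_update (fun g' hg' => ?_) (Nat.lt_succ_self j) hx
      rw [not_not, update_self] at hg'
      have e : T.image (update g' j x) = T.image g' :=
        Finset.image_congr fun k hk => update_of_ne (by rintro rfl; exact hj hk) _ _
      rwa [e] at hg'
    have h3 : ℵ₁ ≤ #{x | AE U (fun g' => x ∈ F' (T.image g')) (T.sup id) (j + 1) g} := by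
      rw [← Cardinal.succ_aleph0, Order.succ_le_iff, ← not_le, le_aleph0_iff_set_countable]
      exact fun h => hc _ h h2
    obtain ⟨A, hA, hA'⟩ := le_mk_iff_exists_subset.1 h3
    have h4 := ae_forall U (ι := A) (hA'.le.trans aleph_one_le_continuum)
      (Φ := fun x g' => x.1 ∈ F' (T.image g')) fun x => hA x.2
    obtain ⟨g', hg'⟩ := h4.exists
    have h5 : A.Countable := (hF' _).mono fun x hx => hg' ⟨x, hx⟩
    rw [← le_aleph0_iff_set_countable, hA'] at h5
    exact absurd h5 (not_le.2 aleph0_lt_aleph_one)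

end Vale.Agent.P129Z
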