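import Vale.Agent.P129Z.Coded4
import Mathlib.Analysis.RCLike.Basic
import Mathlib.Analysis.SpecificLimits.Basic
import Mathlib.Topology.MetricSpace.HausdorffDistance

/-!
# Internal real numbers, scalars and normed groups
-/

namespace Vale.Agent.P129Z

open Filter Topology

universe v

variable {N : Type v} [ZM N]
variable {α β γ : Type*} [Coded N α] [Coded N β] [Coded N γ]

/-- The internal real numbers form a set of the model and a subfield which is complete for
internal sets. -/
class RSet (N : Type v) [ZM N] [Coded N ℝ] : Prop extends Bdd N ℝ where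
  add : DefAdd N ℝ
  mul : DefMul N ℝ
  lt : DefLT N ℝ
  neg : ∀ a : ℝ, Intl N a → Intl N (-a)
  inv : ∀ a : ℝ, Intl N a → Intl N a⁻¹
  one : Intl N (1 : ℝ)
  sup : ∀ s : Set ℝ, Intl N s → s.Nonempty → BddAbove s → Intl N (sSup s)

attribute [instance] RSet.add RSet.mul RSet.lt

/-- the norm is definable -/
class DefNorm (N : Type v) [ZM N] [Coded N ℝ] (β : Type*) [Coded N β] [Norm β] : Prop where
  out : DefF N (fun x : β => ‖x‖)

@[fun_prop] theorem DefF.norm [Coded N ℝ] [Norm β] [h : DefNorm N β] {f : α → β}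
    (hf : DefF N f) : DefF N (fun a => ‖f a‖) := h.out.comp hf

instance intl_norm [Coded N ℝ] [Norm β] [h : DefNorm N β] (a : β) [Intl N a] : Intl N ‖a‖ :=
  h.out.intl a

section Real

variable [Coded N ℝ] [RSet N]

instance : DefOne N ℝ := ⟨RSet.one⟩

instance : DefZero N ℝ := ⟨by
  have := RSet.neg (N := N) 1 inferInstance
  rw [← add_neg_cancel (1 : ℝ)]; infer_instance⟩

instance : DefNeg N ℝ := ⟨defF_of_rel (R := fun a b : ℝ => a + b = 0) RSet.neg (by fun_prop)
  fun _ _ _ _ => add_eq_zero_iff_neg_eq⟩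

instance : DefSub N ℝ := ⟨by simp only [sub_eq_add_neg]; fun_prop⟩

instance : DefInv N ℝ := ⟨defF_of_rel (R := fun a b : ℝ => (a = 0 ∧ b = 0) ∨ a * b = 1) RSet.inv
  (by fun_prop) fun a b _ _ => by
    constructor
    · rintro (⟨rfl, rfl⟩ | h)
      · exact inv_zero
      · exact inv_eq_of_mul_eq_one_right h
    · rintro rfl
      by_cases h : a = 0
      · exact Or.inl ⟨h, by rw [h, inv_zero]⟩
      · exact Or.inr (mul_inv_cancel₀ h)⟩

instance : DefDiv N ℝ := ⟨by simp only [div_eq_mul_inv]; fun_prop⟩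

instance : DefLE N ℝ := ⟨by simp only [← not_lt]; fun_prop⟩

instance : DefPow N ℝ := defPow_of_mul

instance : DefSMul N ℝ ℝ := ⟨by simp only [smul_eq_mul]; fun_prop⟩

@[fun_prop] theorem DefF.abs {f : α → ℝ} (hf : DefF N f) : DefF N (fun a => |f a|) := by
  simp only [abs_eq_max_neg]; fun_prop

instance intl_abs (a : ℝ) [Intl N a] : Intl N |a| := (DefF.abs DefF.id).intl a

instance : DefNorm N ℝ := ⟨by simp only [Real.norm_eq_abs]; fun_prop⟩

end Real

/-- casts of natural numbers -/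
@[fun_prop] theorem DefF.natCast [AddMonoidWithOne β] [DefAdd N β] [DefZero N β] [DefOne N β]
    {f : α → ℕ} (hf : DefF N f) : DefF N (fun a => (f a : β)) := by
  have := defF_of_rec (N := N) (α := ℕ) (F := fun (_ n : ℕ) => (n : β)) (s := fun _ _ b => b + 1)
    ((DefF.const 0).congr fun _ _ => Nat.cast_zero.symm) (by fun_prop)
    fun _ _ n => Nat.cast_succ n
  exact this.comp2 (F := fun (_ n : ℕ) => (n : β)) (DefF.const 0) hf

instance intl_natCast [AddMonoidWithOne β] [DefAdd N β] [DefZero N β] [DefOne N β] (n : ℕ) :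
    Intl N (n : β) := (DefF.natCast DefF.id).intl n

instance intl_ofNat [AddMonoidWithOne β] [DefAdd N β] [DefZero N β] [DefOne N β] (n : ℕ)
    [n.AtLeastTwo] : Intl N (ofNat(n) : β) := intl_natCast n

section Real

variable [Coded N ℝ] [RSet N]

instance intl_intCast (n : ℤ) : Intl N (n : ℝ) := by
  cases n with
  | ofNat n => rw [Int.ofNat_eq_natCast, Int.cast_natCast]; infer_instance
  | negSucc n => rw [Int.cast_negSucc]; infer_instance

instance intl_ratCast (q : ℚ) : Intl N (q : ℝ) := by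
  rw [Rat.cast_def]; infer_instance

theorem exists_intl_btwn {a b : ℝ} (h : a < b) : ∃ c : ℝ, Intl N c ∧ a < c ∧ c < b := by
  obtain ⟨q, hq⟩ := exists_rat_btwn h
  exact ⟨q, inferInstance, hq⟩

theorem exists_intl_gt (a : ℝ) : ∃ c : ℝ, Intl N c ∧ a < c := by
  obtain ⟨c, h1, h2, -⟩ := exists_intl_btwn (N := N) (lt_add_one a)
  exact ⟨c, h1, h2⟩

theorem dense_intl_real : Dense {c : ℝ | Intl N c} :=
  dense_of_exists_between fun _ _ h => exists_intl_btwn h

theorem bddAbove_iff_intl {s : Set ℝ} : BddAbove s ↔ ∃ c : ℝ, Intl N c ∧ ∀ x ∈ s, x ≤ c := by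
  constructor
  · rintro ⟨b, hb⟩
    obtain ⟨c, h1, h2⟩ := exists_intl_gt (N := N) b
    exact ⟨c, h1, fun x hx => (hb hx).trans h2.le⟩
  · rintro ⟨c, -, h⟩
    exact ⟨c, h⟩

instance intl_sSup (s : Set ℝ) [hs : Intl N s] : Intl N (sSup s) := by
  rcases s.eq_empty_or_nonempty with rfl | h
  · rw [Real.sSup_empty]; infer_instance
  · by_cases h2 : BddAbove s
    · exact RSet.sup s hs h h2
    · rw [Real.sSup_of_not_bddAbove h2]; infer_instance

@[fun_prop] theorem DefF.bddAbove {s : α → Set ℝ} (hs : DefF N s) :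
    DefF N (fun a => BddAbove (s a)) := by
  simp only [bddAbove_iff_intl (N := N)]; fun_prop

@[fun_prop] theorem DefF.nonempty {s : α → Set β} (hs : DefF N s) :
    DefF N (fun a => (s a).Nonempty) := by
  have : DefF N (fun a => ∃ b ∈ s a, True) := by fun_prop
  exact this.congrP fun a _ => by simp [Set.Nonempty]

@[fun_prop] theorem DefF.sSup {s : α → Set ℝ} (hs : DefF N s) : DefF N (fun a => sSup (s a)) := by
  refine defF_of_rel (R := fun a (b : ℝ) => (((s a).Nonempty ∧ BddAbove (s a)) ∧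
    (∀ x ∈ s a, x ≤ b) ∧ ∀ c : ℝ, Intl N c → (∀ x ∈ s a, x ≤ c) → b ≤ c) ∨
    (¬ ((s a).Nonempty ∧ BddAbove (s a)) ∧ b = 0))
    (fun a ha => by have := hs.1 a ha; infer_instance) (by fun_prop) fun a b ha hb => ?_
  have h0 := hs.1 a ha
  by_cases h : (s a).Nonempty ∧ BddAbove (s a)
  · simp only [h, and_self, not_true_eq_false, false_and, or_false, true_and]
    constructor
    · rintro ⟨h1, h2⟩
      exact le_antisymm (csSup_le h.1 h1) (h2 _ inferInstance fun x hx => le_csSup h.2 hx)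
    · rintro rfl
      exact ⟨fun x hx => le_csSup h.2 hx, fun c _ hc => csSup_le h.1 hc⟩
  · have h1 : SupSet.sSup (s a) = 0 := by
      rcases not_and_or.1 h with h2 | h2
      · rw [Set.not_nonempty_iff_eq_empty.1 h2, Real.sSup_empty]
      · exact Real.sSup_of_not_bddAbove h2
    simp only [h, false_and, not_false_eq_true, true_and, false_or, h1, eq_comm]

end Real

/-- uniform replacement -/
@[fun_prop] theorem DefF.imageSet {s : α → Set β} {f : α → β → γ}
    (hf : DefF N (fun p : α × β => f p.1 p.2)) (hs : DefF N s) :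
    DefF N (fun a => f a '' s a) :=
  defF_set (fun a ha => by
      have := hs.1 a ha
      exact intl_image (hf.comp2 (DefF.const a) DefF.id) _)
    (by simp only [Set.mem_image]; fun_prop)

@[fun_prop] theorem DefF.rangeSet [Tot N β] {f : α → β → γ}
    (hf : DefF N (fun p : α × β => f p.1 p.2)) : DefF N (fun a => Set.range (f a)) := by
  simp only [← Set.image_univ]; fun_prop

section Real

variable [Coded N ℝ] [RSet N]

@[fun_prop] theorem DefF.sInf {s : α → Set ℝ} (hs : DefF N s) : DefF N (fun a => sInf (s a)) := by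
  have : DefF N (fun a => -SupSet.sSup ((fun x : ℝ => -x) '' s a)) := by fun_prop
  exact this.congr fun a _ => by rw [Real.sInf_def, Set.image_neg_eq_neg]

instance intl_sInf (s : Set ℝ) [hs : Intl N s] : Intl N (sInf s) := (DefF.sInf DefF.id).intl s

@[fun_prop] theorem DefF.iSup [Tot N β] {f : α → β → ℝ}
    (hf : DefF N (fun p : α × β => f p.1 p.2)) : DefF N (fun a => ⨆ b, f a b) :=
  hf.rangeSet.sSup

@[fun_prop] theorem DefF.iInf [Tot N β] {f : α → β → ℝ}
    (hf : DefF N (fun p : α × β => f p.1 p.2)) : DefF N (fun a => ⨅ b, f a b) :=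
  hf.rangeSet.sInf

/-- A real number whose internal lower cut is definable is internal. -/
theorem intl_of_cut {x : ℝ} (h : DefF N (fun r : ℝ => r < x)) : Intl N x := by
  have h1 : Intl N {r : ℝ | Intl N r ∧ r < x} := intl_setOf h
  have h2 : sSup {r : ℝ | Intl N r ∧ r < x} = x := by
    obtain ⟨c, hc, -, hc'⟩ := exists_intl_btwn (N := N) (sub_one_lt x)
    refine csSup_eq_of_forall_le_of_forall_lt_exists_gt ⟨c, hc, hc'⟩ (fun a ha => ha.2.le)
      fun w hw => ?_
    obtain ⟨d, hd, h3, h4⟩ := exists_intl_btwn (N := N) hw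
    exact ⟨d, ⟨hd, h4⟩, h3⟩
  rw [← h2]; infer_instance

/-- A real function whose internal lower cuts are uniformly definable is definable. -/
theorem defF_of_cut {x : α → ℝ} (h : DefF N (fun p : α × ℝ => p.2 < x p.1)) : DefF N x := by
  refine defF_of_rel (R := fun a (b : ℝ) => ∀ r : ℝ, Intl N r → (r < x a ↔ r < b))
    (fun a _ => intl_of_cut (h.comp2 (F := fun a (r : ℝ) => r < x a) (DefF.const a) DefF.id)) ?_
    fun a b _ _ => ⟨fun H => ?_, ?_⟩
  · have h1 : DefF N (fun q : (α × ℝ) × ℝ => q.2 < x q.1.1) :=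
      h.comp2 (F := fun a (r : ℝ) => r < x a) (by fun_prop) (by fun_prop)
    exact DefF.all (P := fun (p : α × ℝ) (r : ℝ) => (r < x p.1 ↔ r < p.2))
      (h1.iff (by fun_prop))
  · rcases lt_trichotomy (x a) b with h1 | h1 | h1
    · obtain ⟨c, hc, h2, h3⟩ := exists_intl_btwn (N := N) h1
      exact absurd ((H c hc).2 h3) (not_lt.2 h2.le)
    · exact h1
    · obtain ⟨c, hc, h2, h3⟩ := exists_intl_btwn (N := N) h1
      exact absurd ((H c hc).1 h3) (not_lt.2 h2.le)
  · rintro rfl _ _; rfl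

@[fun_prop] theorem DefF.sqrt {f : α → ℝ} (hf : DefF N f) : DefF N (fun a => √(f a)) := by
  refine defF_of_cut ?_
  have : DefF N (fun p : α × ℝ => p.2 < 0 ∨ p.2 ^ 2 < f p.1) := by fun_prop
  refine this.congrP fun p _ => ?_
  by_cases h : p.2 < 0
  · simp only [h, true_or, true_iff]
    exact h.trans_le (Real.sqrt_nonneg _)
  · simp only [h, false_or]
    exact (Real.lt_sqrt (not_lt.1 h)).symm

instance intl_sqrt (a : ℝ) [Intl N a] : Intl N √a := (DefF.sqrt DefF.id).intl a

/-- quantifiers over all positive real numbers may be restricted to the numbers `1 / (k + 1)` -/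
theorem forall_pos_iff_nat {P : ℝ → Prop} (hP : ∀ a b, a ≤ b → P a → P b) :
    (∀ ε > 0, P ε) ↔ ∀ k : ℕ, P (1 / ((k : ℝ) + 1)) := by
  refine ⟨fun h k => h _ Nat.one_div_pos_of_nat, fun h ε hε => ?_⟩
  obtain ⟨k, hk⟩ := exists_nat_one_div_lt hε
  exact hP _ _ hk.le (h k)

end Real

/-! ### Normed groups -/

/-- The internal points form a set of the model and a subgroup, the norm is definable, and internal
Cauchy sequences have internal limits. -/
class NGrp (N : Type v) [ZM N] [Coded N ℝ] (E : Type*) [Coded N E] [NormedAddCommGroup E] : Prop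
    extends Bdd N E where
  add : DefAdd N E
  neg : DefNeg N E
  norm : DefNorm N E
  zero : DefZero N E
  lim : ∀ s : ℕ → E, Intl N s → CauchySeq s → ∃ x, Intl N x ∧ Tendsto s atTop (𝓝 x)

attribute [instance] NGrp.add NGrp.neg NGrp.norm NGrp.zero

section NGrp

variable [Coded N ℝ] {E : Type*} [Coded N E] [NormedAddCommGroup E] [NGrp N E]

instance : DefSub N E := ⟨by simp only [sub_eq_add_neg]; fun_prop⟩

theorem intl_of_tendsto {s : ℕ → E} (hs : Intl N s) {x : E} (h : Tendsto s atTop (𝓝 x)) :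
    Intl N x := by
  obtain ⟨y, hy, h'⟩ := NGrp.lim s hs h.cauchySeq
  rwa [tendsto_nhds_unique h h']

@[fun_prop] theorem DefF.dist {f g : α → E} (hf : DefF N f) (hg : DefF N g) :
    DefF N (fun a => dist (f a) (g a)) := by
  simp only [dist_eq_norm]; fun_prop

variable [RSet N]

@[fun_prop] theorem DefF.tendsto {u : α → ℕ → E} {x : α → E}
    (hu : DefF N (fun p : α × ℕ => u p.1 p.2)) (hx : DefF N x) :
    DefF N (fun a => Tendsto (u a) atTop (𝓝 (x a))) := by
  have : DefF N (fun a => ∀ k : ℕ, ∀ᶠ n in atTop, ‖u a n - x a‖ < 1 / ((k : ℝ) + 1)) := by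
    fun_prop
  refine this.congrP fun a _ => ?_
  rw [Metric.tendsto_nhds]
  simp only [dist_eq_norm]
  exact (forall_pos_iff_nat (P := fun ε => ∀ᶠ n in atTop, ‖u a n - x a‖ < ε)
    fun a b hab h => h.mono fun n hn => hn.trans_le hab).symm

/-- Limits of definable families of sequences are definable. -/
theorem defF_of_tendsto {u : α → ℕ → E} {x : α → E} (hu : DefF N (fun p : α × ℕ => u p.1 p.2))
    (h : ∀ a, Intl N a → Tendsto (u a) atTop (𝓝 (x a))) : DefF N x := by
  refine defF_of_rel (R := fun a (y : E) => Tendsto (u a) atTop (𝓝 y))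
    (fun a ha => intl_of_tendsto (hu.comp2 (DefF.const a) DefF.id).toIntl (h a ha)) (by fun_prop)
    fun a y ha _ => ⟨fun H => tendsto_nhds_unique (h a ha) H, fun H => H ▸ h a ha⟩

@[fun_prop] theorem DefF.infDist {x : α → E} {s : α → Set E} (hx : DefF N x) (hs : DefF N s) :
    DefF N (fun a => Metric.infDist (x a) (s a)) := by
  have : DefF N (fun a => InfSet.sInf ((fun y => Dist.dist (x a) y) '' s a)) := by fun_prop
  exact this.congr fun a _ => by rw [Metric.infDist_eq_iInf, sInf_image']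

@[fun_prop] theorem DefF.memClosure {x : α → E} {s : α → Set E} (hx : DefF N x) (hs : DefF N s) :
    DefF N (fun a => x a ∈ closure (s a)) := by
  have : DefF N (fun a => ∀ k : ℕ, ∃ y ∈ s a, Dist.dist (x a) y < 1 / ((k : ℝ) + 1)) := by
    fun_prop
  refine this.congrP fun a _ => ?_
  rw [Metric.mem_closure_iff]
  exact (forall_pos_iff_nat (P := fun ε => ∃ y ∈ s a, Dist.dist (x a) y < ε)
    fun a b hab ⟨y, hy, h⟩ => ⟨y, hy, h.trans_le hab⟩).symm

end NGrp

instance ngrpReal [Coded N ℝ] [RSet N] : NGrp N ℝ where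
  add := inferInstance
  neg := inferInstance
  norm := inferInstance
  zero := inferInstance
  lim s hs h := by
    obtain ⟨x, hx⟩ := cauchySeq_tendsto_of_complete h
    refine ⟨x, intl_of_cut ?_, hx⟩
    have : DefF N (fun r : ℝ => ∃ c : ℝ, Intl N c ∧ r < c ∧ ∀ᶠ n in atTop, c < s n) := by fun_prop
    refine this.congrP fun r _ => ⟨?_, fun H => ?_⟩
    · rintro ⟨c, -, h1, h2⟩
      exact h1.trans_le (ge_of_tendsto hx (h2.mono fun n hn => hn.le))
    · obtain ⟨c, hc, h1, h2⟩ := exists_intl_btwn (N := N) H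
      exact ⟨c, hc, h1, hx.eventually (lt_mem_nhds h2)⟩

/-! ### Scalars -/

/-- The internal scalars are those with internal real and imaginary parts. -/
class KSet (N : Type v) [ZM N] [Coded N ℝ] (𝕜 : Type*) [RCLike 𝕜] [Coded N 𝕜] : Prop
    extends Bdd N 𝕜 where
  re : DefF N (fun c : 𝕜 => RCLike.re c)
  im : DefF N (fun c : 𝕜 => RCLike.im c)
  mk' : ∀ a b : ℝ, Intl N a → Intl N b → Intl N ((a : 𝕜) + (b : 𝕜) * RCLike.I)

instance ksetReal [Coded N ℝ] [RSet N] : KSet N ℝ where
  re := DefF.id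
  im := (DefF.const (0 : ℝ)).congr fun _ _ => rfl
  mk' a b ha _ := by simpa using ha

section KSet

variable [Coded N ℝ] {𝕜 : Type*} [RCLike 𝕜] [Coded N 𝕜] [KSet N 𝕜]

@[fun_prop] theorem DefF.re {f : α → 𝕜} (hf : DefF N f) : DefF N (fun a => RCLike.re (f a)) :=
  KSet.re.comp hf

@[fun_prop] theorem DefF.im {f : α → 𝕜} (hf : DefF N f) : DefF N (fun a => RCLike.im (f a)) :=
  KSet.im.comp hf

instance intl_re (c : 𝕜) [Intl N c] : Intl N (RCLike.re c) := KSet.re.intl c
instance intl_im (c : 𝕜) [Intl N c] : Intl N (RCLike.im c) := KSet.im.intl c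

theorem intl_scalar {c : 𝕜} (h1 : Intl N (RCLike.re c)) (h2 : Intl N (RCLike.im c)) :
    Intl N c := by
  rw [← RCLike.re_add_im c]; exact KSet.mk' _ _ h1 h2

/-- A scalar function is definable if its real and imaginary parts are. -/
theorem defF_scalar {f : α → 𝕜} (h1 : DefF N (fun a => RCLike.re (f a)))
    (h2 : DefF N (fun a => RCLike.im (f a))) : DefF N f :=
  defF_of_rel (R := fun a (c : 𝕜) => RCLike.re (f a) = RCLike.re c ∧ RCLike.im (f a) = RCLike.im c)
    (fun a ha => intl_scalar (h1.1 a ha) (h2.1 a ha))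
    ((h1.comp DefF.id.fst).eq (by fun_prop) |>.and ((h2.comp DefF.id.fst).eq (by fun_prop)))
    fun _ _ _ _ => RCLike.ext_iff.symm

variable [RSet N]

instance : DefZero N 𝕜 := ⟨intl_scalar (by simp only [map_zero]; infer_instance)
  (by simp only [map_zero]; infer_instance)⟩
instance : DefOne N 𝕜 := ⟨intl_scalar (by simp only [RCLike.one_re]; infer_instance)
  (by simp only [RCLike.one_im]; infer_instance)⟩
instance : DefAdd N 𝕜 := ⟨defF_scalar (by simp only [map_add]; fun_prop)
  (by simp only [map_add]; fun_prop)⟩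
instance : DefNeg N 𝕜 := ⟨defF_scalar (by simp only [map_neg]; fun_prop)
  (by simp only [map_neg]; fun_prop)⟩
instance : DefSub N 𝕜 := ⟨defF_scalar (by simp only [map_sub]; fun_prop)
  (by simp only [map_sub]; fun_prop)⟩
instance : DefMul N 𝕜 := ⟨defF_scalar (by simp only [RCLike.mul_re]; fun_prop)
  (by simp only [RCLike.mul_im]; fun_prop)⟩
instance : DefPow N 𝕜 := defPow_of_mul
instance : DefSMul N 𝕜 𝕜 := ⟨by simp only [smul_eq_mul]; fun_prop⟩

@[fun_prop] theorem DefF.ofReal {f : α → ℝ} (hf : DefF N f) : DefF N (fun a => (f a : 𝕜)) :=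
  defF_scalar (by simp only [RCLike.ofReal_re]; fun_prop) (by simp only [RCLike.ofReal_im]; fun_prop)

instance intl_ofReal (a : ℝ) [Intl N a] : Intl N (a : 𝕜) := (DefF.ofReal DefF.id).intl a

instance intl_I : Intl N (RCLike.I : 𝕜) := by
  have := KSet.mk' (N := N) (𝕜 := 𝕜) 0 1 inferInstance inferInstance
  simpa using this

@[fun_prop] theorem DefF.conj {f : α → 𝕜} (hf : DefF N f) :
    DefF N (fun a => (starRingEnd 𝕜) (f a)) :=
  defF_scalar (by simp only [RCLike.conj_re]; fun_prop) (by simp only [RCLike.conj_im]; fun_prop)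

instance intl_conj (c : 𝕜) [Intl N c] : Intl N ((starRingEnd 𝕜) c) := (DefF.conj DefF.id).intl c

instance : DefNorm N 𝕜 := ⟨by
  simp only [← RCLike.sqrt_normSq_eq_norm, RCLike.normSq_apply]; fun_prop⟩

instance : DefInv N 𝕜 := ⟨by
  have : DefF N (fun c : 𝕜 => (starRingEnd 𝕜) c * (((‖c‖ ^ 2)⁻¹ : ℝ) : 𝕜)) := by fun_prop
  exact this.congr fun c _ => (RCLike.inv_def c).symm⟩

instance : DefDiv N 𝕜 := ⟨by simp only [div_eq_mul_inv]; fun_prop⟩

theorem dense_intl_scalar : Dense {c : 𝕜 | Intl N c} := by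
  intro c
  rw [Metric.mem_closure_iff]
  intro ε hε
  obtain ⟨a, ha, h1⟩ := Metric.mem_closure_iff.1 (dense_intl_real (N := N) (RCLike.re c)) (ε / 2)
    (half_pos hε)
  obtain ⟨b, hb, h2⟩ := Metric.mem_closure_iff.1 (dense_intl_real (N := N) (RCLike.im c)) (ε / 2)
    (half_pos hε)
  refine ⟨a + b * RCLike.I, KSet.mk' a b ha hb, ?_⟩
  rw [dist_eq_norm] at h1 h2 ⊢
  have h3 : c - (a + b * RCLike.I) =
      ((RCLike.re c - a : ℝ) : 𝕜) + ((RCLike.im c - b : ℝ) : 𝕜) * RCLike.I := by
    conv_lhs => rw [← RCLike.re_add_im c]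
    push_cast; ring
  rw [h3]
  refine (norm_add_le _ _).trans_lt ?_
  rw [norm_mul, RCLike.norm_ofReal, RCLike.norm_ofReal]
  have h4 : ‖(RCLike.I : 𝕜)‖ ≤ 1 := by
    by_cases h : (RCLike.I : 𝕜) = 0
    · rw [h, norm_zero]; exact zero_le_one
    · exact (RCLike.norm_I_of_ne_zero h).le
  rw [Real.norm_eq_abs] at h1 h2
  nlinarith [abs_nonneg (RCLike.im c - b)]

instance ngrpScalar : NGrp N 𝕜 where
  add := inferInstance
  neg := inferInstance
  norm := inferInstance
  zero := inferInstance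
  lim s hs h := by
    obtain ⟨x, hx⟩ := cauchySeq_tendsto_of_complete h
    refine ⟨x, intl_scalar ?_ ?_, hx⟩
    · exact intl_of_tendsto (s := fun n => RCLike.re (s n)) (DefF.toIntl (by fun_prop))
        ((RCLike.continuous_re.tendsto x).comp hx)
    · exact intl_of_tendsto (s := fun n => RCLike.im (s n)) (DefF.toIntl (by fun_prop))
        ((RCLike.continuous_im.tendsto x).comp hx)

end KSet

end Vale.Agent.P129Z
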