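import Vale.Agent.P129Z.Setting
import Vale.Agent.P129Z.Cplx
import Vale.Agent.P129Z.Stmt

/-!
# Structures of the model which represent coded structures
-/

namespace Vale.Agent.P129Z

open Vale.Agent.P323.Z S

universe v

variable {N : Type v} [ZM N]

theorem opair_eq (x y : N) : opair ZM.E x y = op x y := by
  have h : ∃! p, IsOPair ZM.E p x y := ⟨op x y, isOPair_iff.2 rfl, fun p hp => isOPair_iff.1 hp⟩
  rw [opair, dif_pos h]
  exact isOPair_iff.1 h.choose_spec.1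

theorem ap_eq {f X Y x y : N} (hf : IsFunction ZM.E f X Y) (hx : x ∈ X) (h : op x y ∈ f) :
    ap ZM.E f x = y := by
  have h1 := hf.value x hx
  rw [ap, dif_pos h1]
  exact h1.unique h1.choose_spec.1 (pairMem_iff.2 h)

theorem op_ap_mem {f X Y x : N} (hf : IsFunction ZM.E f X Y) (hx : x ∈ X) :
    op x (ap ZM.E f x) ∈ f := by
  obtain ⟨y, hy, -⟩ := hf.value x hx
  rw [ap_eq hf hx (pairMem_iff.1 hy)]
  exact pairMem_iff.1 hy

theorem ap_mem {f X Y x : N} (hf : IsFunction ZM.E f X Y) (hx : x ∈ X) : ap ZM.E f x ∈ Y := by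
  obtain ⟨a, b, -, hb, h⟩ := hf.pairs _ (op_ap_mem hf hx)
  rw [(op_inj.1 (isOPair_iff.1 h)).2]
  exact hb

theorem isProd_iff {P A B : N} :
    IsProd ZM.E P A B ↔ ∀ p, p ∈ P ↔ ∃ a b, a ∈ A ∧ b ∈ B ∧ p = op a b := by
  simp only [IsProd, isOPair_iff]
  rfl

theorem ap2_mem {f A B C a b : N} (hf : IsOp2 ZM.E f A B C) (ha : a ∈ A) (hb : b ∈ B) :
    ap2 ZM.E f a b ∈ C := by
  obtain ⟨P, hP, hf⟩ := hf
  rw [ap2, opair_eq]
  exact ap_mem hf ((isProd_iff.1 hP _).2 ⟨a, b, ha, hb, rfl⟩)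

theorem ap2_eq_iff {f A B C a b c : N} (hf : IsOp2 ZM.E f A B C) (ha : a ∈ A) (hb : b ∈ B) :
    ap2 ZM.E f a b = c ↔ op (op a b) c ∈ f := by
  obtain ⟨P, hP, hf⟩ := hf
  have h := (isProd_iff.1 hP _).2 ⟨a, b, ha, hb, rfl⟩
  rw [ap2, opair_eq]
  exact ⟨fun e => e ▸ op_ap_mem hf h, ap_eq hf h⟩

theorem isOmega_iff {w : N} : IsOmega ZM.E w ↔ w = omega N := by
  have hind : ∀ u : N, IsInductive ZM.E u ↔ Ind u := fun u => by
    constructor
    · rintro ⟨⟨e, he, he'⟩, h⟩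
      refine ⟨eq_emp he' ▸ he, fun x hx => ?_⟩
      obtain ⟨s, hs, hs'⟩ := h x hx
      have : s = ins x x := ext fun z => (hs' z).trans mem_ins.symm
      exact this ▸ hs
    · rintro ⟨h1, h2⟩
      exact ⟨⟨_, h1, not_mem_emp⟩, fun x hx => ⟨_, h2 x hx, fun z => mem_ins⟩⟩
  have h0 : Ind (omega N) := ⟨mem_omega.2 ⟨0, rfl⟩, fun x hx => by
    obtain ⟨n, rfl⟩ := mem_omega.1 hx
    exact mem_omega.2 ⟨n + 1, rfl⟩⟩
  have h1 : ∀ u : N, Ind u → Sub ZM.E (omega N) u := fun u hu x hx => by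
    obtain ⟨n, rfl⟩ := mem_omega.1 hx
    exact hu.num_mem n
  constructor
  · rintro ⟨h2, h3⟩
    exact ext fun z => ⟨h3 _ ((hind _).2 h0) z, h1 w ((hind _).1 h2) z⟩
  · rintro rfl
    exact ⟨(hind _).2 h0, fun u hu => h1 u ((hind _).1 hu)⟩

variable [Coded N ℝ]

/-- `R` represents the internal real numbers. -/
structure RepR (R : Reals N) : Prop where
  car : ∀ x, x ∈ R.car ↔ Dom N ℝ x
  add : ∀ a b : ℝ, Intl N a → Intl N b →
    ap2 ZM.E R.add (code N a) (code N b) = code N (a + b)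
  mul : ∀ a b : ℝ, Intl N a → Intl N b →
    ap2 ZM.E R.mul (code N a) (code N b) = code N (a * b)
  zero : R.zero = code N (0 : ℝ)
  one : R.one = code N (1 : ℝ)
  lt : ∀ a b : ℝ, Intl N a → Intl N b → (R.Lt ZM.E (code N a) (code N b) ↔ a < b)

/-- `K` represents the internal scalars. -/
structure RepK (𝕜 : Type*) [RCLike 𝕜] [Coded N 𝕜] (K : Scalars N) : Prop where
  car : ∀ x, x ∈ K.car ↔ Dom N 𝕜 x
  add : ∀ a b : 𝕜, Intl N a → Intl N b →
    ap2 ZM.E K.add (code N a) (code N b) = code N (a + b)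
  mul : ∀ a b : 𝕜, Intl N a → Intl N b →
    ap2 ZM.E K.mul (code N a) (code N b) = code N (a * b)
  one : K.one = code N (1 : 𝕜)
  abs : ∀ a : 𝕜, Intl N a → ap ZM.E K.abs (code N a) = code N ‖a‖

/-- `X` represents the internal points of `E`. -/
structure RepX (𝕜 : Type*) [RCLike 𝕜] [Coded N 𝕜] (E : Type*) [Coded N E] [NormedAddCommGroup E]
    [NormedSpace 𝕜 E] (X : Space N) : Prop where
  car : ∀ x, x ∈ X.car ↔ Dom N E x
  add : ∀ a b : E, Intl N a → Intl N b →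
    ap2 ZM.E X.add (code N a) (code N b) = code N (a + b)
  zero : X.zero = code N (0 : E)
  smul : ∀ (a : 𝕜) (b : E), Intl N a → Intl N b →
    ap2 ZM.E X.smul (code N a) (code N b) = code N (a • b)
  norm : ∀ a : E, Intl N a → ap ZM.E X.norm (code N a) = code N ‖a‖

end Vale.Agent.P129Z
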