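import Vale.Agent.P129Z.Rep

/-!
# Sets and functions of the statement, in a well-founded model
-/

namespace Vale.Agent.P129Z.R0

open Vale.Agent.P323.Z

universe v

variable {N : Type v} [ZM N] {α β γ : Type*} [Coded N α] [Coded N β] [Coded N γ]

theorem ap2_eq (f x y : N) : S.ap2 ZM.E f x y = S.ap ZM.E f (op x y) := by
  rw [S.ap2, opair_eq]

theorem ap_eq' {f x y : N} (h : op x y ∈ f) (hu : ∀ z, op x z ∈ f → z = y) :
    S.ap ZM.E f x = y := by
  have h1 : ∃! y, PairMem ZM.E x y f :=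
    ⟨y, pairMem_iff.2 h, fun z hz => hu z (pairMem_iff.1 hz)⟩
  rw [S.ap, dif_pos h1]
  exact hu _ (pairMem_iff.1 h1.choose_spec.1)

theorem defF_ap : DefF N (fun p : N × N => S.ap ZM.E p.1 p.2) := by
  refine defF_of_rel (R := fun (p : N × N) (y : N) =>
    (op p.2 y ∈ p.1 ∧ ∀ z : N, op p.2 z ∈ p.1 → z = y) ∨
      ((¬ ∃ w : N, op p.2 w ∈ p.1 ∧ ∀ z : N, op p.2 z ∈ p.1 → z = w) ∧ y = p.2))
    (fun _ _ => inferInstance) (by fun_prop) fun p y _ _ => ?_
  constructor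
  · rintro (⟨h1, h2⟩ | ⟨h1, rfl⟩)
    · exact ap_eq' h1 h2
    · rw [S.ap, dif_neg]
      rintro ⟨w, h2, h3⟩
      exact h1 ⟨w, pairMem_iff.1 h2, fun z hz => h3 z (pairMem_iff.2 hz)⟩
  · rintro rfl
    by_cases h : ∃ w : N, op p.2 w ∈ p.1 ∧ ∀ z : N, op p.2 z ∈ p.1 → z = w
    · obtain ⟨w, h1, h2⟩ := h
      rw [ap_eq' h1 h2]
      exact Or.inl ⟨h1, h2⟩
    · refine Or.inr ⟨h, ?_⟩
      rw [S.ap, dif_neg]
      rintro ⟨w, h2, h3⟩
      exact h ⟨w, pairMem_iff.1 h2, fun z hz => h3 z (pairMem_iff.2 hz)⟩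

@[fun_prop] theorem defF_sap {f x : α → N} (hf : DefF N f) (hx : DefF N x) :
    DefF N (fun a => S.ap ZM.E (f a) (x a)) :=
  DefF.comp2 (F := fun f x : N => S.ap ZM.E f x) defF_ap hf hx

@[fun_prop] theorem defF_sap2 {f x y : α → N} (hf : DefF N f) (hx : DefF N x) (hy : DefF N y) :
    DefF N (fun a => S.ap2 ZM.E (f a) (x a) (y a)) := by
  simp only [ap2_eq]
  fun_prop

/-- A function with internal values is definable if the code of its value is definable. -/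
theorem defF_of_code {f : α → β} {F : α → N} (h1 : ∀ a, Intl N a → Intl N (f a)) (hF : DefF N F)
    (h2 : ∀ a, Intl N a → F a = code N (f a)) : DefF N f :=
  defF_of_rel (R := fun a b => F a = code N b) h1 (by fun_prop) fun a b ha hb => by
    rw [h2 a ha]
    exact ⟨code_inj (h1 a ha) hb, fun e => e ▸ rfl⟩

theorem isFunction_iff {f A B : N} : IsFunction ZM.E f A B ↔
    (∀ p, p ∈ f → ∃ x y, x ∈ A ∧ y ∈ B ∧ p = op x y) ∧ ∀ x, x ∈ A → ∃! y, op x y ∈ f := by
  simp only [← isOPair_iff (N := N)]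
  simp only [← pairMem_iff (N := N)]
  exact ⟨fun h => ⟨h.pairs, h.value⟩, fun h => ⟨h.1, h.2⟩⟩

theorem fun_op_ap {f A B x : N} (h : IsFunction ZM.E f A B) (hx : x ∈ A) :
    op x (S.ap ZM.E f x) ∈ f := by
  obtain ⟨y, h1, h2⟩ := (isFunction_iff.1 h).2 x hx
  rwa [ap_eq' h1 h2]

theorem fun_mem {f A B x y : N} (h : IsFunction ZM.E f A B) (hxy : op x y ∈ f) :
    x ∈ A ∧ y ∈ B ∧ S.ap ZM.E f x = y := by
  obtain ⟨x', y', h1, h2, h3⟩ := (isFunction_iff.1 h).1 _ hxy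
  obtain ⟨rfl, rfl⟩ := op_inj.1 h3
  obtain ⟨z, -, h5⟩ := (isFunction_iff.1 h).2 x h1
  exact ⟨h1, h2, ap_eq' hxy fun w hw => (h5 w hw).trans (h5 y hxy).symm⟩

theorem fun_ap_mem {f A B x : N} (h : IsFunction ZM.E f A B) (hx : x ∈ A) :
    S.ap ZM.E f x ∈ B := (fun_mem h (fun_op_ap h hx)).2.1

theorem isFinite_iff {F : N} : S.IsFinite ZM.E F ↔ {x | x ∈ F}.Finite := by
  constructor
  · rintro ⟨w, n, f, hw, hn, hf, hs⟩
    rw [isOmega_iff] at hw
    subst hw
    obtain ⟨k, rfl⟩ := mem_omega.1 hn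
    refine ((Set.finite_Iio k).image fun i => S.ap ZM.E f (num i)).subset fun y hy => ?_
    obtain ⟨x, hx, hxy⟩ := hs y hy
    obtain ⟨i, hi, rfl⟩ := mem_num.1 hx
    exact ⟨i, hi, (fun_mem hf (pairMem_iff.1 hxy)).2.2⟩
  · intro h
    obtain ⟨n, e, he, hF⟩ := h.fin_param
    obtain ⟨f, hf⟩ := exists_of_finite (Set.finite_range fun i : Fin n => op (num i) (e i))
    refine ⟨omega N, num n, f, isOmega_iff.2 rfl, mem_omega.2 ⟨n, rfl⟩,
      isFunction_iff.2 ⟨fun p hp => ?_, fun x hx => ?_⟩, fun y hy => ?_⟩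
    · obtain ⟨i, rfl⟩ := (hf p).1 hp
      exact ⟨_, _, num_mem_num.2 i.2, (hF.subset ⟨i, rfl⟩ :), rfl⟩
    · obtain ⟨i, hi, rfl⟩ := mem_num.1 hx
      refine ⟨e ⟨i, hi⟩, (hf _).2 ⟨⟨i, hi⟩, rfl⟩, fun y hy => ?_⟩
      obtain ⟨j, hj⟩ := (hf _).1 hy
      obtain ⟨h1, rfl⟩ := op_inj.1 hj
      rw [show j = ⟨i, hi⟩ from Fin.ext (num_inj.1 h1)]
    · obtain ⟨i, rfl⟩ := hF.symm.subset hy
      exact ⟨num i, num_mem_num.2 i.2, pairMem_iff.2 ((hf _).2 ⟨i, rfl⟩)⟩

/-! ### The set of codes; graphs -/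

/-- `A` is the set of the codes of the internal elements of `α`. -/
def IsCar (N : Type v) [ZM N] (α : Type*) [Coded N α] (A : N) : Prop := ∀ x, x ∈ A ↔ Dom N α x

theorem IsCar.code_mem {A : N} (h : IsCar N α A) (a : α) [ha : Intl N a] : code N a ∈ A :=
  (h _).2 ⟨a, ha, rfl⟩

theorem IsCar.exists {A x : N} (h : IsCar N α A) (hx : x ∈ A) : ∃ a : α, Intl N a ∧ code N a = x :=
  (h x).1 hx

theorem IsCar.bdd {A : N} (h : IsCar N α A) : Bdd N α := ⟨A, h⟩

theorem isCar_omega : IsCar N ℕ (omega N) := fun _ => mem_omega.trans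
  ⟨fun ⟨n, h⟩ => ⟨n, inferInstance, h.symm⟩, fun ⟨n, _, h⟩ => ⟨n, h.symm⟩⟩

theorem IsCar.prod {A B P : N} (hA : IsCar N α A) (hB : IsCar N β B) (h : S.IsProd ZM.E P A B) :
    IsCar N (α × β) P := by
  intro x
  rw [isProd_iff.1 h]
  constructor
  · rintro ⟨a, b, ha, hb, rfl⟩
    obtain ⟨a, _, rfl⟩ := hA.exists ha
    obtain ⟨b, _, rfl⟩ := hB.exists hb
    exact ⟨(a, b), inferInstance, rfl⟩
  · rintro ⟨p, hp, rfl⟩
    exact ⟨_, _, hA.code_mem p.1, hB.code_mem p.2, rfl⟩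

theorem IsCar.isProd {A B P : N} (hA : IsCar N α A) (hB : IsCar N β B)
    (h : IsCar N (α × β) P) : S.IsProd ZM.E P A B := by
  refine isProd_iff.2 fun x => (h x).trans ?_
  constructor
  · rintro ⟨p, hp, rfl⟩
    exact ⟨_, _, hA.code_mem p.1, hB.code_mem p.2, rfl⟩
  · rintro ⟨a, b, ha, hb, rfl⟩
    obtain ⟨a, _, rfl⟩ := hA.exists ha
    obtain ⟨b, _, rfl⟩ := hB.exists hb
    exact ⟨(a, b), inferInstance, rfl⟩

/-- the set of the codes -/
noncomputable def car (N : Type v) [ZM N] (α : Type*) [Coded N α] [Bdd N α] : N :=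
  (Bdd.car (N := N) (α := α)).choose

theorem isCar_car [Bdd N α] : IsCar N α (car N α) := (Bdd.car (N := N) (α := α)).choose_spec

/-- the graph of a function, as a set of the model -/
noncomputable def gr (N : Type v) [ZM N] {α β : Type*} [Coded N α] [Coded N β] (f : α → β) : N :=
  code N {p : α × β | Intl N p ∧ f p.1 = p.2}

section

variable [Bdd N α] [Bdd N β] {f : α → β}

theorem mem_gr (hf : DefF N f) {p : N} :
    p ∈ gr N f ↔ ∃ a, Intl N a ∧ p = op (code N a) (code N (f a)) := by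
  rw [gr, mem_code_set (intl_setOf (by fun_prop))]
  constructor
  · rintro ⟨⟨a, b⟩, ⟨h1, h2⟩, rfl⟩
    obtain rfl : f a = b := h2
    exact ⟨a, (intl_prod.1 h1).1, rfl⟩
  · rintro ⟨a, ha, rfl⟩
    exact ⟨(a, f a), ⟨intl_prod.2 ⟨ha, hf.intl a⟩, rfl⟩, rfl⟩

theorem ap_gr (hf : DefF N f) (a : α) [ha : Intl N a] :
    S.ap ZM.E (gr N f) (code N a) = code N (f a) := by
  refine ap_eq' ((mem_gr hf).2 ⟨a, ha, rfl⟩) fun z hz => ?_
  obtain ⟨b, hb, h⟩ := (mem_gr hf).1 hz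
  obtain ⟨h1, rfl⟩ := op_inj.1 h
  rw [code_inj ha hb h1]

theorem isFunction_gr (hf : DefF N f) {A B : N} (hA : IsCar N α A) (hB : IsCar N β B) :
    IsFunction ZM.E (gr N f) A B := by
  refine isFunction_iff.2 ⟨fun p hp => ?_, fun x hx => ?_⟩
  · obtain ⟨a, ha, rfl⟩ := (mem_gr hf).1 hp
    have := hf.intl a
    exact ⟨_, _, hA.code_mem a, hB.code_mem (f a), rfl⟩
  · obtain ⟨a, ha, rfl⟩ := hA.exists hx
    refine ⟨code N (f a), (mem_gr hf).2 ⟨a, ha, rfl⟩, fun z hz => ?_⟩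
    obtain ⟨b, hb, h⟩ := (mem_gr hf).1 hz
    obtain ⟨h1, rfl⟩ := op_inj.1 h
    rw [code_inj ha hb h1]

theorem ap2_gr [Bdd N γ] {f : α × β → γ} (hf : DefF N f) (a : α) (b : β) [Intl N a] [Intl N b] :
    S.ap2 ZM.E (gr N f) (code N a) (code N b) = code N (f (a, b)) := by
  rw [ap2_eq]
  exact ap_gr hf (a, b)

theorem isOp2_gr [Bdd N γ] {f : α × β → γ} (hf : DefF N f) {A B C : N} (hA : IsCar N α A)
    (hB : IsCar N β B) (hC : IsCar N γ C) : S.IsOp2 ZM.E (gr N f) A B C :=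
  ⟨car N (α × β), hA.isProd hB isCar_car, isFunction_gr hf isCar_car hC⟩

end

/-- A sequence of the model is the code of an internal sequence. -/
theorem exists_seq_of_fun {s B : N} (hB : IsCar N β B) (h : IsFunction ZM.E s (omega N) B) :
    ∃ f : ℕ → β, Intl N f ∧ ∀ n, S.ap ZM.E s (num n) = code N (f n) := by
  choose f h1 h2 using fun n : ℕ => hB.exists (fun_ap_mem h (mem_omega.2 ⟨n, rfl⟩))
  refine ⟨f, (defF_of_code (F := fun n : ℕ => S.ap ZM.E s (code N n)) (fun n _ => h1 n)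
    (by fun_prop) fun n _ => (h2 n).symm).toIntl, fun n => (h2 n).symm⟩

/-- A subset of the set of codes is the code of an internal set. -/
theorem IsCar.exists_set {A Y : N} (hA : IsCar N α A) (h : S.Sub ZM.E Y A) :
    ∃ s : Set α, Intl N s ∧ code N s = Y := exists_set_of_sub fun x hx => hA.exists (h x hx)

theorem IsCar.sub_code {A : N} (hA : IsCar N α A) {s : Set α} (hs : Intl N s) :
    S.Sub ZM.E (code N s) A := by
  intro x hx
  obtain ⟨a, ha, rfl⟩ := (mem_code_set hs).1 hx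
  have := hs.of_mem ha
  exact hA.code_mem a

/-! ### Codings along an embedding of the elements of a set -/

open Classical in
/-- A coding of `σ` whose internal elements are the images of the elements of `A`. -/
@[reducible] noncomputable def push {σ : Type*} {A : N} (ι : El A → σ)
    (hι : Function.Injective ι) : Coded N σ where
  Int s := s ∈ Set.range ι
  code s := if h : s ∈ Set.range ι then h.choose.1 else A
  inj {s t} hs ht h := by
    rw [dif_pos hs, dif_pos ht] at h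
    rw [← hs.choose_spec, ← ht.choose_spec, Subtype.ext h]
  dom := (((DE.const 0 A).imp (DE.mem 1 0)).all).congr fun v => by
    simp only [cons_zero, cons_one, forall_eq]
    constructor
    · intro h
      have h1 : ι ⟨v 0, h⟩ ∈ Set.range ι := ⟨_, rfl⟩
      exact ⟨_, h1, by rw [dif_pos h1, hι h1.choose_spec]⟩
    · rintro ⟨s, hs, h⟩
      rw [dif_pos hs] at h
      exact h ▸ hs.choose.2

theorem push_intl {σ : Type*} {A : N} (ι : El A → σ) (hι : Function.Injective ι) (s : σ) :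
    @Intl N _ σ (push ι hι) s ↔ s ∈ Set.range ι := @intl_iff N _ σ (push ι hι) s

theorem push_code {σ : Type*} {A : N} (ι : El A → σ) (hι : Function.Injective ι) (x : El A) :
    @code N _ σ (push ι hι) (ι x) = x.1 := by
  have h1 : ι x ∈ Set.range ι := ⟨_, rfl⟩
  exact (dif_pos h1).trans (congrArg Subtype.val (hι h1.choose_spec))

theorem push_isCar {σ : Type*} {A : N} (ι : El A → σ) (hι : Function.Injective ι) :
    @IsCar N _ σ (push ι hι) A := by
  intro x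
  constructor
  · intro hx
    exact ⟨ι ⟨x, hx⟩, (push_intl ι hι _).2 ⟨_, rfl⟩, push_code ι hι _⟩
  · rintro ⟨s, hs, rfl⟩
    obtain ⟨y, rfl⟩ := (push_intl ι hι _).1 hs
    rw [push_code]
    exact y.2

end Vale.Agent.P129Z.R0
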