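import Vale.Agent.P129Z.Rep

/-!
# From coded structures to structures of the model
-/

namespace Vale.Agent.P129Z

open Vale.Agent.P323.Z S Filter Topology

universe v

variable {N : Type v} [ZM N]
variable {α β γ : Type*} [Coded N α] [Coded N β] [Coded N γ]

theorem exists_fun_rep [Bdd N α] [Bdd N β] {A B : N} (hA : ∀ x, x ∈ A ↔ Dom N α x)
    (hB : ∀ x, x ∈ B ↔ Dom N β x) {f : α → β} (hf : DefF N f) :
    ∃ F : N, IsFunction ZM.E F A B ∧ ∀ a, Intl N a → ap ZM.E F (code N a) = code N (f a) := by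
  have hs : Intl N {p : α × β | Intl N p ∧ f p.1 = p.2} := intl_setOf (by fun_prop)
  have h1 : ∀ a, Intl N a → op (code N a) (code N (f a)) ∈
      code N {p : α × β | Intl N p ∧ f p.1 = p.2} := fun a ha =>
    (mem_code_set hs).2 ⟨(a, f a), ⟨intl_prod.2 ⟨ha, hf.1 a ha⟩, rfl⟩, rfl⟩
  have h2 : IsFunction ZM.E (code N {p : α × β | Intl N p ∧ f p.1 = p.2}) A B := by
    constructor
    · intro x hx
      obtain ⟨p, ⟨hp, -⟩, rfl⟩ := (mem_code_set hs).1 hx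
      exact ⟨_, _, (hA _).2 ⟨p.1, inferInstance, rfl⟩, (hB _).2 ⟨p.2, inferInstance, rfl⟩,
        isOPair_iff.2 rfl⟩
    · intro x hx
      obtain ⟨a, ha, rfl⟩ := (hA _).1 hx
      refine ⟨_, pairMem_iff.2 (h1 a ha), fun y hy => ?_⟩
      obtain ⟨p, ⟨hp, hp'⟩, h⟩ := (mem_code_set hs).1 (pairMem_iff.1 hy)
      obtain ⟨h3, h4⟩ := op_inj.1 h
      rw [← h4, ← hp', code_inj inferInstance ha h3]
  exact ⟨_, h2, fun a ha => ap_eq h2 ((hA _).2 ⟨a, ha, rfl⟩) (h1 a ha)⟩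

theorem isProd_of_dom {A B P : N} (hA : ∀ x, x ∈ A ↔ Dom N α x) (hB : ∀ x, x ∈ B ↔ Dom N β x)
    (hP : ∀ x, x ∈ P ↔ Dom N (α × β) x) : IsProd ZM.E P A B := by
  refine isProd_iff.2 fun p => (hP p).trans ⟨?_, ?_⟩
  · rintro ⟨q, hq, rfl⟩
    exact ⟨_, _, (hA _).2 ⟨q.1, inferInstance, rfl⟩, (hB _).2 ⟨q.2, inferInstance, rfl⟩, rfl⟩
  · rintro ⟨_, _, ha, hb, rfl⟩
    replace ha := (hA _).1 ha
    obtain ⟨a, ha, rfl⟩ := ha
    replace hb := (hB _).1 hb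
    obtain ⟨b, hb, rfl⟩ := hb
    exact ⟨(a, b), inferInstance, rfl⟩

theorem exists_op_rep [Bdd N α] [Bdd N β] [Bdd N γ] {A B C : N} (hA : ∀ x, x ∈ A ↔ Dom N α x)
    (hB : ∀ x, x ∈ B ↔ Dom N β x) (hC : ∀ x, x ∈ C ↔ Dom N γ x) {f : α → β → γ}
    (hf : DefF N (fun p : α × β => f p.1 p.2)) :
    ∃ F : N, IsOp2 ZM.E F A B C ∧ ∀ a b, Intl N a → Intl N b →
      ap2 ZM.E F (code N a) (code N b) = code N (f a b) := by
  obtain ⟨P, hP⟩ := Bdd.car (N := N) (α := α × β)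
  obtain ⟨F, h1, h2⟩ := exists_fun_rep hP hC hf
  refine ⟨F, ⟨P, isProd_of_dom hA hB hP, h1⟩, fun a b ha hb => ?_⟩
  rw [ap2, opair_eq]
  exact h2 (a, b) inferInstance

theorem dom_omega (x : N) : x ∈ omega N ↔ Dom N ℕ x :=
  mem_omega.trans ⟨fun ⟨n, h⟩ => ⟨n, inferInstance, h.symm⟩, fun ⟨n, _, h⟩ => ⟨n, h.symm⟩⟩

theorem num_mem_omega (n : ℕ) : (num n : N) ∈ omega N := mem_omega.2 ⟨n, rfl⟩

/-- A function of the model on `ω` is an internal sequence. -/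
theorem exists_seq_of_fun {A s : N} (hA : ∀ x, x ∈ A ↔ Dom N α x)
    (hs : IsFunction ZM.E s (omega N) A) :
    ∃ t : ℕ → α, Intl N t ∧ ∀ n, ap ZM.E s (num n) = code N (t n) := by
  choose t ht1 ht2 using fun n => (hA _).1 (ap_mem hs (num_mem_omega n))
  refine ⟨t, DefF.toIntl (defF_of_rel (R := fun (n : ℕ) (a : α) => op (code N n) (code N a) ∈ s)
    (fun n _ => ht1 n) (by fun_prop) fun n a _ ha => ⟨fun h => ?_, ?_⟩), fun n => (ht2 n).symm⟩
  · exact code_inj (ht1 n) ha ((ht2 n).trans (ap_eq hs (num_mem_omega n) h))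
  · rintro rfl
    rw [ht2]
    exact op_ap_mem hs (num_mem_omega n)

variable [Coded N ℝ] {R : Reals N}

theorem RepR.le (hR : RepR R) {a b : ℝ} (ha : Intl N a) (hb : Intl N b) :
    R.Le ZM.E (code N a) (code N b) ↔ a ≤ b := by
  rw [Reals.Le, hR.lt a b ha hb, le_iff_lt_or_eq]
  exact or_congr Iff.rfl ⟨code_inj ha hb, fun h => h ▸ rfl⟩

variable [RSet N]

theorem RepR.pos (hR : RepR R) {ε : N} :
    R.Pos ZM.E ε ↔ ∃ e : ℝ, Intl N e ∧ 0 < e ∧ code N e = ε := by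
  constructor
  · rintro ⟨h1, h2⟩
    obtain ⟨e, he, rfl⟩ := (hR.car _).1 h1
    rw [hR.zero, hR.lt _ _ inferInstance he] at h2
    exact ⟨e, he, h2, rfl⟩
  · rintro ⟨e, he, h, rfl⟩
    refine ⟨(hR.car _).2 ⟨e, he, rfl⟩, ?_⟩
    rw [hR.zero, hR.lt _ _ inferInstance he]
    exact h

theorem rep1_reals : ∃ R : Reals N, IsReals ZM.E R ∧ RepR R := by
  obtain ⟨A, hA⟩ := Bdd.car (N := N) (α := ℝ)
  obtain ⟨Fa, ha1, ha2⟩ := exists_op_rep hA hA hA (f := fun a b : ℝ => a + b) (by fun_prop)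
  obtain ⟨Fm, hm1, hm2⟩ := exists_op_rep hA hA hA (f := fun a b : ℝ => a * b) (by fun_prop)
  have hl : Intl N {p : ℝ × ℝ | Intl N p ∧ p.1 < p.2} := intl_setOf (by fun_prop)
  let R : Reals N := ⟨A, Fa, Fm, code N (0 : ℝ), code N (1 : ℝ),
    code N {p : ℝ × ℝ | Intl N p ∧ p.1 < p.2}⟩
  have hR : RepR R := ⟨hA, ha2, hm2, rfl, rfl, fun a b ha hb => by
    rw [Reals.Lt, pairMem_iff]
    exact (code_mem_code hl (a := (a, b)) inferInstance).trans
      ⟨fun h => h.2, fun h => ⟨inferInstance, h⟩⟩⟩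
  have hm : ∀ a : ℝ, Intl N a → ZM.E (code N a) R.car := fun a ha => (hA _).2 ⟨a, ha, rfl⟩
  have he : ∀ x, ZM.E x R.car → ∃ a : ℝ, Intl N a ∧ code N a = x := fun x hx => (hA _).1 hx
  refine ⟨R, ?_, hR⟩
  constructor
  · exact ha1
  · exact hm1
  · exact hm 0 inferInstance
  · exact hm 1 inferInstance
  · intro x y z hx hy hz
    obtain ⟨a, ha, rfl⟩ := he x hx
    obtain ⟨b, hb, rfl⟩ := he y hy
    obtain ⟨c, hc, rfl⟩ := he z hz
    rw [hR.add _ _ ha hb, hR.add _ _ hb hc, hR.add _ _ inferInstance hc,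
      hR.add _ _ ha inferInstance, add_assoc]
  · intro x y hx hy
    obtain ⟨a, ha, rfl⟩ := he x hx
    obtain ⟨b, hb, rfl⟩ := he y hy
    rw [hR.add _ _ ha hb, hR.add _ _ hb ha, add_comm]
  · intro x hx
    obtain ⟨a, ha, rfl⟩ := he x hx
    rw [hR.zero, hR.add _ _ ha inferInstance, add_zero]
  · intro x hx
    obtain ⟨a, ha, rfl⟩ := he x hx
    exact ⟨_, hm (-a) inferInstance, by rw [hR.zero, hR.add _ _ ha inferInstance, add_neg_cancel]⟩
  · intro x y z hx hy hz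
    obtain ⟨a, ha, rfl⟩ := he x hx
    obtain ⟨b, hb, rfl⟩ := he y hy
    obtain ⟨c, hc, rfl⟩ := he z hz
    rw [hR.mul _ _ ha hb, hR.mul _ _ hb hc, hR.mul _ _ inferInstance hc,
      hR.mul _ _ ha inferInstance, mul_assoc]
  · intro x y hx hy
    obtain ⟨a, ha, rfl⟩ := he x hx
    obtain ⟨b, hb, rfl⟩ := he y hy
    rw [hR.mul _ _ ha hb, hR.mul _ _ hb ha, mul_comm]
  · intro x hx
    obtain ⟨a, ha, rfl⟩ := he x hx
    rw [hR.one, hR.mul _ _ ha inferInstance, mul_one]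
  · intro x hx h0
    obtain ⟨a, ha, rfl⟩ := he x hx
    have h1 : a ≠ 0 := fun h => h0 (by rw [h, hR.zero])
    exact ⟨_, hm a⁻¹ inferInstance, by rw [hR.one, hR.mul _ _ ha inferInstance, mul_inv_cancel₀ h1]⟩
  · intro x y z hx hy hz
    obtain ⟨a, ha, rfl⟩ := he x hx
    obtain ⟨b, hb, rfl⟩ := he y hy
    obtain ⟨c, hc, rfl⟩ := he z hz
    rw [hR.add _ _ hb hc, hR.mul _ _ ha hb, hR.mul _ _ ha hc, hR.mul _ _ ha inferInstance,
      hR.add _ _ inferInstance inferInstance, mul_add]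
  · rw [hR.zero, hR.one]
    exact fun h => zero_ne_one (code_inj inferInstance inferInstance h)
  · intro x hx
    obtain ⟨a, ha, rfl⟩ := he x hx
    rw [hR.lt _ _ ha ha]
    exact lt_irrefl a
  · intro x y z hx hy hz
    obtain ⟨a, ha, rfl⟩ := he x hx
    obtain ⟨b, hb, rfl⟩ := he y hy
    obtain ⟨c, hc, rfl⟩ := he z hz
    rw [hR.lt _ _ ha hb, hR.lt _ _ hb hc, hR.lt _ _ ha hc]
    exact lt_trans
  · intro x y hx hy
    obtain ⟨a, ha, rfl⟩ := he x hx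
    obtain ⟨b, hb, rfl⟩ := he y hy
    rw [hR.lt _ _ ha hb, hR.lt _ _ hb ha]
    rcases lt_trichotomy a b with h | h | h
    exacts [Or.inl h, Or.inr (Or.inl (h ▸ rfl)), Or.inr (Or.inr h)]
  · intro x y z hx hy hz
    obtain ⟨a, ha, rfl⟩ := he x hx
    obtain ⟨b, hb, rfl⟩ := he y hy
    obtain ⟨c, hc, rfl⟩ := he z hz
    rw [hR.lt _ _ ha hb, hR.add _ _ ha hc, hR.add _ _ hb hc,
      hR.lt _ _ inferInstance inferInstance]
    exact fun h => by linarith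
  · intro x y hx hy
    obtain ⟨a, ha, ha', rfl⟩ := hR.pos.1 hx
    obtain ⟨b, hb, hb', rfl⟩ := hR.pos.1 hy
    exact hR.pos.2 ⟨a * b, inferInstance, mul_pos ha' hb', (hR.mul _ _ ha hb).symm⟩
  · rintro B hB ⟨x, hx⟩ ⟨b, hb, hb'⟩
    obtain ⟨s, hs, rfl⟩ := exists_set_of_sub (α := ℝ) fun y hy => he y (hB y hy)
    have hub : ∀ c : ℝ, Intl N c → ((∀ y, ZM.E y (code N s) → R.Le ZM.E y (code N c)) ↔
        ∀ y ∈ s, y ≤ c) := by
      intro c hc
      constructor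
      · intro h y hy
        exact (hR.le (hs.of_mem hy) hc).1 (h _ ((mem_code_set hs).2 ⟨y, hy, rfl⟩))
      · intro h y hy
        obtain ⟨a, ha, rfl⟩ := (mem_code_set hs).1 hy
        exact (hR.le (hs.of_mem ha) hc).2 (h a ha)
    obtain ⟨a, ha, -⟩ := (mem_code_set hs).1 hx
    replace hb := he b hb
    obtain ⟨b, hb, rfl⟩ := hb
    have hbdd : BddAbove s := ⟨b, (hub b hb).1 hb'⟩
    refine ⟨_, hm (sSup s) inferInstance, (hub _ inferInstance).2 fun y hy => le_csSup hbdd hy,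
      fun c hc hc' => ?_⟩
    replace hc := he c hc
    obtain ⟨c, hc, rfl⟩ := hc
    exact (hR.le inferInstance hc).2 (csSup_le ⟨a, ha⟩ ((hub c hc).1 hc'))

theorem rep1_real (hR : RepR R) : ∃ K : Scalars N, IsRealScalars ZM.E R K ∧ RepK ℝ K := by
  obtain ⟨F, h1, h2⟩ := exists_fun_rep hR.car hR.car (f := fun a : ℝ => ‖a‖) (by fun_prop)
  refine ⟨⟨R.car, R.add, R.mul, R.one, F⟩, ⟨rfl, rfl, rfl, rfl, h1, fun x hx => ?_, fun x hx => ?_⟩,
    ⟨hR.car, hR.add, hR.mul, hR.one, h2⟩⟩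
  · obtain ⟨a, ha, rfl⟩ := (hR.car x).1 hx
    rw [h2 a ha, hR.zero, hR.le inferInstance inferInstance]
    exact norm_nonneg a
  · obtain ⟨a, ha, rfl⟩ := (hR.car x).1 hx
    rw [h2 a ha, hR.mul _ _ ha ha, hR.mul _ _ inferInstance inferInstance, Real.norm_eq_abs,
      abs_mul_abs_self]

theorem rep1_complex (hR : RepR R) : ∃ K : Scalars N, IsComplexScalars ZM.E R K ∧ RepK ℂ K := by
  obtain ⟨A, hA⟩ := Bdd.car (N := N) (α := ℂ)
  obtain ⟨Fa, ha1, ha2⟩ := exists_op_rep hA hA hA (f := fun a b : ℂ => a + b) (by fun_prop)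
  obtain ⟨Fm, hm1, hm2⟩ := exists_op_rep hA hA hA (f := fun a b : ℂ => a * b) (by fun_prop)
  obtain ⟨F, h1, h2⟩ := exists_fun_rep hA hR.car (f := fun a : ℂ => ‖a‖) (by fun_prop)
  have hc : ∀ a b : ℝ, opair ZM.E (code N a) (code N b) = code N (⟨a, b⟩ : ℂ) :=
    fun a b => opair_eq _ _
  have hi : ∀ a b : ℝ, Intl N a → Intl N b → Intl N (⟨a, b⟩ : ℂ) :=
    fun a b ha hb => intl_complex.2 ⟨ha, hb⟩
  refine ⟨⟨A, Fa, Fm, code N (1 : ℂ), F⟩, ⟨isProd_of_dom hR.car hR.car fun x => (hA x).trans ?_,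
    ha1, hm1, fun a b c d ha hb hc' hd => ?_, fun a b c d u ha hb hc' hd hu h => ?_, ?_, h1,
    fun x hx => ?_, fun a b ha hb => ?_⟩, ⟨hA, ha2, hm2, rfl, h2⟩⟩
  · constructor
    · rintro ⟨z, hz, rfl⟩
      exact ⟨(z.re, z.im), intl_prod.2 (intl_complex.1 hz), rfl⟩
    · rintro ⟨p, hp, rfl⟩
      exact ⟨⟨p.1, p.2⟩, intl_complex.2 (intl_prod.1 hp), rfl⟩
  · replace ha := (hR.car _).1 ha
    obtain ⟨a, ha, rfl⟩ := ha
    replace hb := (hR.car _).1 hb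
    obtain ⟨b, hb, rfl⟩ := hb
    replace hc' := (hR.car _).1 hc'
    obtain ⟨c, hc', rfl⟩ := hc'
    replace hd := (hR.car _).1 hd
    obtain ⟨d, hd, rfl⟩ := hd
    rw [hR.add _ _ ha hc', hR.add _ _ hb hd, hc, hc, hc, ha2 _ _ (hi _ _ ha hb) (hi _ _ hc' hd)]
    rfl
  · replace ha := (hR.car _).1 ha
    obtain ⟨a, ha, rfl⟩ := ha
    replace hb := (hR.car _).1 hb
    obtain ⟨b, hb, rfl⟩ := hb
    replace hc' := (hR.car _).1 hc'
    obtain ⟨c, hc', rfl⟩ := hc'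
    replace hd := (hR.car _).1 hd
    obtain ⟨d, hd, rfl⟩ := hd
    replace hu := (hR.car _).1 hu
    obtain ⟨u, hu, rfl⟩ := hu
    rw [hR.mul _ _ hb hd, hR.mul _ _ ha hc', hR.add _ _ hu inferInstance] at h
    have h3 := code_inj inferInstance inferInstance h
    rw [hR.mul _ _ ha hd, hR.mul _ _ hb hc', hR.add _ _ inferInstance inferInstance, hc, hc, hc,
      hm2 _ _ (hi _ _ ha hb) (hi _ _ hc' hd)]
    congr 1
    refine Complex.ext ?_ ?_
    · simp only [Complex.mul_re]; linarith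
    · simp only [Complex.mul_im]
  · rw [hR.one, hR.zero, hc]
    rfl
  · obtain ⟨a, ha, rfl⟩ := (hA x).1 hx
    rw [h2 a ha, hR.zero, hR.le inferInstance inferInstance]
    exact norm_nonneg a
  · replace ha := (hR.car _).1 ha
    obtain ⟨a, ha, rfl⟩ := ha
    replace hb := (hR.car _).1 hb
    obtain ⟨b, hb, rfl⟩ := hb
    have := hi _ _ ha hb
    rw [hc, h2 _ this, hR.mul _ _ ha ha, hR.mul _ _ hb hb, hR.mul _ _ inferInstance inferInstance,
      hR.add _ _ inferInstance inferInstance, ← sq, ← Complex.normSq_eq_norm_sq,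
      Complex.normSq_mk]

variable {𝕜 : Type*} [RCLike 𝕜] [Coded N 𝕜] [KSet N 𝕜] {K : Scalars N}
  {E : Type*} [Coded N E] [NormedAddCommGroup E] [NormedSpace 𝕜 E] [PreSet N 𝕜 E] {X : Space N}

omit [RSet N] [KSet N 𝕜] in
theorem RepX.close (hR : RepR R) (hX : RepX 𝕜 E X) {e : ℝ} {x y : E} (he : Intl N e)
    (hx : Intl N x) (hy : Intl N y) :
    Close ZM.E R X (code N e) (code N x) (code N y) ↔ ‖x - y‖ < e := by
  constructor
  · rintro ⟨z, hz, h1, h2⟩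
    replace hz := (hX.car z).1 hz
    obtain ⟨z, hz, rfl⟩ := hz
    rw [hX.add _ _ hy hz] at h1
    rw [hX.norm _ hz, hR.lt _ _ inferInstance he] at h2
    rwa [code_inj hx inferInstance h1, add_sub_cancel_left]
  · intro h
    refine ⟨_, (hX.car _).2 ⟨x - y, inferInstance, rfl⟩, ?_, ?_⟩
    · rw [hX.add _ _ hy inferInstance, add_sub_cancel]
    · rwa [hX.norm _ inferInstance, hR.lt _ _ inferInstance he]

variable (𝕜 E) in
theorem rep1_space (hR : RepR R) (hK : RepK 𝕜 K) :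
    ∃ X : Space N, IsBanach ZM.E R K X ∧ RepX 𝕜 E X := by
  obtain ⟨A, hA⟩ := Bdd.car (N := N) (α := E)
  obtain ⟨Fa, ha1, ha2⟩ := exists_op_rep hA hA hA (f := fun a b : E => a + b) (by fun_prop)
  obtain ⟨Fs, hs1, hs2⟩ := exists_op_rep hK.car hA hA (f := fun (a : 𝕜) (b : E) => a • b)
    (by fun_prop)
  obtain ⟨F, h1, h2⟩ := exists_fun_rep hA hR.car (f := fun a : E => ‖a‖) (by fun_prop)
  let X : Space N := ⟨A, Fa, code N (0 : E), Fs, F⟩
  have hX : RepX 𝕜 E X := ⟨hA, ha2, rfl, hs2, h2⟩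
  have hm : ∀ a : E, Intl N a → ZM.E (code N a) X.car := fun a ha => (hA _).2 ⟨a, ha, rfl⟩
  have he : ∀ x, ZM.E x X.car → ∃ a : E, Intl N a ∧ code N a = x := fun x hx => (hA _).1 hx
  have hk : ∀ x, ZM.E x K.car → ∃ a : 𝕜, Intl N a ∧ code N a = x := fun x hx => (hK.car _).1 hx
  refine ⟨X, ?_, hX⟩
  constructor
  · exact ha1
  · exact hs1
  · exact h1
  · exact hm 0 inferInstance
  · intro x y z hx hy hz
    obtain ⟨a, ha, rfl⟩ := he x hx
    obtain ⟨b, hb, rfl⟩ := he y hy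
    obtain ⟨c, hc, rfl⟩ := he z hz
    rw [hX.add _ _ ha hb, hX.add _ _ hb hc, hX.add _ _ inferInstance hc,
      hX.add _ _ ha inferInstance, add_assoc]
  · intro x y hx hy
    obtain ⟨a, ha, rfl⟩ := he x hx
    obtain ⟨b, hb, rfl⟩ := he y hy
    rw [hX.add _ _ ha hb, hX.add _ _ hb ha, add_comm]
  · intro x hx
    obtain ⟨a, ha, rfl⟩ := he x hx
    rw [hX.zero, hX.add _ _ ha inferInstance, add_zero]
  · intro x hx
    obtain ⟨a, ha, rfl⟩ := he x hx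
    exact ⟨_, hm (-a) inferInstance, by rw [hX.zero, hX.add _ _ ha inferInstance, add_neg_cancel]⟩
  · intro x hx
    obtain ⟨a, ha, rfl⟩ := he x hx
    rw [hK.one, hX.smul _ _ inferInstance ha, one_smul]
  · intro x y z hx hy hz
    obtain ⟨a, ha, rfl⟩ := hk x hx
    obtain ⟨b, hb, rfl⟩ := hk y hy
    obtain ⟨c, hc, rfl⟩ := he z hz
    rw [hK.mul _ _ ha hb, hX.smul _ _ hb hc, hX.smul _ _ inferInstance hc,
      hX.smul _ _ ha inferInstance, mul_smul]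
  · intro x y z hx hy hz
    obtain ⟨a, ha, rfl⟩ := hk x hx
    obtain ⟨b, hb, rfl⟩ := hk y hy
    obtain ⟨c, hc, rfl⟩ := he z hz
    rw [hK.add _ _ ha hb, hX.smul _ _ hb hc, hX.smul _ _ ha hc, hX.smul _ _ inferInstance hc,
      hX.add _ _ inferInstance inferInstance, add_smul]
  · intro x y z hx hy hz
    obtain ⟨a, ha, rfl⟩ := hk x hx
    obtain ⟨b, hb, rfl⟩ := he y hy
    obtain ⟨c, hc, rfl⟩ := he z hz
    rw [hX.add _ _ hb hc, hX.smul _ _ ha hb, hX.smul _ _ ha hc, hX.smul _ _ ha inferInstance,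
      hX.add _ _ inferInstance inferInstance, smul_add]
  · intro x hx h
    obtain ⟨a, ha, rfl⟩ := he x hx
    rw [hX.norm _ ha, hR.zero] at h
    rw [hX.zero, norm_eq_zero.1 (code_inj inferInstance inferInstance h)]
  · intro x y hx hy
    obtain ⟨a, ha, rfl⟩ := hk x hx
    obtain ⟨b, hb, rfl⟩ := he y hy
    rw [hX.smul _ _ ha hb, hX.norm _ hb, hX.norm _ inferInstance, hK.abs _ ha,
      hR.mul _ _ inferInstance inferInstance, norm_smul]
  · intro x y hx hy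
    obtain ⟨a, ha, rfl⟩ := he x hx
    obtain ⟨b, hb, rfl⟩ := he y hy
    rw [hX.add _ _ ha hb, hX.norm _ hb, hX.norm _ ha, hX.norm _ inferInstance,
      hR.add _ _ inferInstance inferInstance, hR.le inferInstance inferInstance]
    exact norm_add_le a b
  · intro w s hw hs hc
    obtain rfl := isOmega_iff.1 hw
    obtain ⟨t, ht, hts⟩ := exists_seq_of_fun hA hs
    have h3 : CauchySeq t := by
      rw [Metric.cauchySeq_iff]
      intro ε hε
      obtain ⟨e, he, h0, h4⟩ := exists_intl_btwn (N := N) hε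
      obtain ⟨n, hn, h5⟩ := hc _ (hR.pos.2 ⟨e, he, h0, rfl⟩)
      obtain ⟨n, rfl⟩ := mem_omega.1 hn
      refine ⟨n + 1, fun k hk l hl => ?_⟩
      have h6 := h5 _ _ (num_mem_omega k) (num_mem_omega l) (num_mem_num.2 hk) (num_mem_num.2 hl)
      rw [hts, hts, hX.close hR he inferInstance inferInstance] at h6
      rw [dist_eq_norm]
      exact h6.trans h4
    obtain ⟨x, hx, h4⟩ := NGrp.lim t ht h3
    refine ⟨_, hm x hx, fun ε hε => ?_⟩
    obtain ⟨e, he, h0, rfl⟩ := hR.pos.1 hε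
    obtain ⟨n, hn⟩ := Metric.tendsto_atTop.1 h4 e h0
    refine ⟨_, num_mem_omega n, fun k hk hnk => ?_⟩
    obtain ⟨k, rfl⟩ := mem_omega.1 hk
    rw [hts, hX.close hR he inferInstance hx, ← dist_eq_norm]
    exact hn k (num_mem_num.1 hnk).le

end Vale.Agent.P129Z
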