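import Vale.Agent.P129Z.Rep0
import Mathlib.Algebra.Field.MinimalAxioms
import Mathlib.Algebra.Order.Archimedean.Real.Hom

/-!
# A complete ordered field of the model is a subfield of the real numbers
-/

namespace Vale.Agent.P129Z

open Vale.Agent.P323.Z S R0

universe v

variable {N : Type v} [ZM N]

/-- the elements of a complete ordered field of the model -/
def RF {R : Reals N} (_h : IsReals ZM.E R) : Type v := El R.car

namespace RF

variable {R : Reals N} {h : IsReals ZM.E R}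

noncomputable instance : Coded N (RF h) := inferInstanceAs (Coded N (El R.car))
instance : Tot N (RF h) := inferInstanceAs (Tot N (El R.car))

theorem code_eq (x : RF h) : code N x = x.1 := rfl

noncomputable instance : Add (RF h) := ⟨fun x y => ⟨_, ap2_mem h.add_op x.2 y.2⟩⟩
noncomputable instance : Mul (RF h) := ⟨fun x y => ⟨_, ap2_mem h.mul_op x.2 y.2⟩⟩
instance : Zero (RF h) := ⟨⟨R.zero, h.zero_mem⟩⟩
instance : One (RF h) := ⟨⟨R.one, h.one_mem⟩⟩
noncomputable instance : Neg (RF h) :=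
  ⟨fun x => ⟨(h.add_neg x.1 x.2).choose, (h.add_neg x.1 x.2).choose_spec.1⟩⟩
open Classical in
noncomputable instance : Inv (RF h) :=
  ⟨fun x => if hx : x.1 = R.zero then 0 else
    ⟨(h.mul_inv x.1 x.2 hx).choose, (h.mul_inv x.1 x.2 hx).choose_spec.1⟩⟩

theorem add_val (x y : RF h) : (x + y).1 = ap2 ZM.E R.add x.1 y.1 := rfl
theorem mul_val (x y : RF h) : (x * y).1 = ap2 ZM.E R.mul x.1 y.1 := rfl
theorem zero_val : (0 : RF h).1 = R.zero := rfl
theorem one_val : (1 : RF h).1 = R.one := rfl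

noncomputable instance : Field (RF h) :=
  Field.ofMinimalAxioms (RF h)
    (fun a b c => Subtype.ext (h.add_assoc _ _ _ a.2 b.2 c.2))
    (fun a => Subtype.ext ((h.add_comm _ _ h.zero_mem a.2).trans (h.add_zero _ a.2)))
    (fun a => Subtype.ext ((h.add_comm _ _ (-a).2 a.2).trans (h.add_neg a.1 a.2).choose_spec.2))
    (fun a b c => Subtype.ext (h.mul_assoc _ _ _ a.2 b.2 c.2))
    (fun a b => Subtype.ext (h.mul_comm _ _ a.2 b.2))
    (fun a => Subtype.ext ((h.mul_comm _ _ h.one_mem a.2).trans (h.mul_one _ a.2)))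
    (fun a ha => by
      have hx : ¬ a.1 = R.zero := fun e => ha (Subtype.ext e)
      have : a⁻¹ = ⟨(h.mul_inv a.1 a.2 hx).choose, (h.mul_inv a.1 a.2 hx).choose_spec.1⟩ :=
        dif_neg hx
      rw [this]
      exact Subtype.ext (h.mul_inv a.1 a.2 hx).choose_spec.2)
    (dif_pos rfl)
    (fun a b c => Subtype.ext (h.mul_add _ _ _ a.2 b.2 c.2))
    ⟨0, 1, fun e => h.zero_ne_one (congrArg Subtype.val e)⟩

instance : IsStrictTotalOrder (RF h) (fun x y => R.Lt ZM.E x.1 y.1) where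
  trichotomous a b h1 h2 := by
    rcases h.lt_total _ _ a.2 b.2 with h3 | h3 | h3
    exacts [absurd h3 h1, Subtype.ext h3, absurd h3 h2]
  irrefl a := h.lt_irrefl _ a.2
  trans a b c := h.lt_trans _ _ _ a.2 b.2 c.2

open Classical in
noncomputable instance : LinearOrder (RF h) := linearOrderOfSTO (fun x y => R.Lt ZM.E x.1 y.1)

theorem lt_iff {x y : RF h} : x < y ↔ R.Lt ZM.E x.1 y.1 := Iff.rfl

theorem le_iff {x y : RF h} : x ≤ y ↔ R.Le ZM.E x.1 y.1 := by
  rw [le_iff_lt_or_eq, lt_iff, Reals.Le]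
  exact or_congr Iff.rfl Subtype.ext_iff

instance : IsOrderedAddMonoid (RF h) where
  add_le_add_left a b hab c := by
    rcases hab.lt_or_eq with h1 | rfl
    · exact le_of_lt (h.add_lt_add _ _ _ a.2 b.2 c.2 h1)
    · exact le_rfl

theorem mul_pos' (a b : RF h) (ha : 0 < a) (hb : 0 < b) : 0 < a * b :=
  (h.mul_pos _ _ ⟨a.2, ha⟩ ⟨b.2, hb⟩).2

instance : ZeroLEOneClass (RF h) where
  zero_le_one := by
    by_contra h1
    have h2 : (0 : RF h) < -1 := neg_pos.2 (not_le.1 h1)
    have h3 := mul_pos' _ _ h2 h2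
    rw [neg_mul_neg, one_mul] at h3
    exact h1 h3.le

instance : IsStrictOrderedRing (RF h) := IsStrictOrderedRing.of_mul_pos mul_pos'

theorem lub {A : N} (hA : Sub ZM.E A R.car) (hne : ∃ x, x ∈ A)
    (hb : BddAbove {x : RF h | x.1 ∈ A}) : ∃ s : RF h, IsLUB {x : RF h | x.1 ∈ A} s := by
  obtain ⟨b, hb⟩ := hb
  obtain ⟨s, h1, h2, h3⟩ := h.lub A hA hne
    ⟨b.1, b.2, fun x hx => le_iff.1 (hb (a := ⟨x, hA x hx⟩) hx)⟩
  exact ⟨⟨s, h1⟩, fun x hx => le_iff.2 (h2 _ hx), fun c hc =>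
    le_iff.2 (h3 c.1 c.2 fun x hx => le_iff.1 (hc (a := ⟨x, hA x hx⟩) hx))⟩

instance : DefAdd N (RF h) :=
  ⟨defF_of_code (F := fun p : RF h × RF h => ap2 ZM.E R.add (code N p.1) (code N p.2))
    (fun _ _ => inferInstance) (by fun_prop) fun _ _ => rfl⟩
instance : DefZero N (RF h) := ⟨inferInstance⟩
instance : DefOne N (RF h) := ⟨inferInstance⟩

instance : Archimedean (RF h) := by
  refine archimedean_iff_nat_lt.2 fun b => ?_
  by_contra! hb
  have h1 : Intl N (fun n : ℕ => (n : RF h)) := (DefF.natCast DefF.id).toIntl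
  have h2 := intl_range (N := N) (fun n : ℕ => (n : RF h))
  have h3 : {x : RF h | x.1 ∈ code N (Set.range fun n : ℕ => (n : RF h))} =
      Set.range fun n : ℕ => (n : RF h) :=
    Set.ext fun x => code_mem_code h2 (a := x) inferInstance
  obtain ⟨s, hs⟩ := lub (h := h) (A := code N (Set.range fun n : ℕ => (n : RF h)))
    (fun x hx => by
      obtain ⟨a, -, rfl⟩ := (mem_code_set h2).1 hx
      exact a.2)
    ⟨_, (code_mem_code h2 (a := ((0 : ℕ) : RF h)) inferInstance).2 ⟨0, rfl⟩⟩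
    (by rw [h3]; exact ⟨b, by rintro _ ⟨n, rfl⟩; exact hb n⟩)
  rw [h3] at hs
  have h4 : s ≤ s - 1 := hs.2 (by
    rintro _ ⟨n, rfl⟩
    have := hs.1 ⟨n + 1, rfl⟩
    simp only [Nat.cast_add, Nat.cast_one] at this
    exact le_sub_iff_add_le.2 this)
  exact absurd h4 (not_le.2 (sub_one_lt s))

end RF

theorem rep2_reals {R : Reals N} (h : IsReals ZM.E R) :
    ∃ _ : Coded N ℝ, RSet N ∧ RepR R := by
  obtain ⟨ι⟩ : Nonempty (RF h →+*o ℝ) := inferInstance
  have hι : Function.Injective ι := ι.toRingHom.injective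
  have hm : StrictMono ι := ι.monotone'.strictMono_of_injective hι
  let _ : Coded N ℝ := push (A := R.car) ι hι
  have hi : ∀ a : ℝ, Intl N a ↔ ∃ x : RF h, ι x = a := push_intl (A := R.car) ι hι
  have hc : ∀ x : RF h, code N (ι x) = x.1 := push_code (A := R.car) ι hι
  have hcar : IsCar N ℝ R.car := push_isCar (A := R.car) ι hι
  have hR : RepR R :=
    { car := hcar
      add := fun a b ha hb => by
        obtain ⟨x, rfl⟩ := (hi _).1 ha
        obtain ⟨y, rfl⟩ := (hi _).1 hb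
        rw [← map_add, hc, hc, hc, RF.add_val]
      mul := fun a b ha hb => by
        obtain ⟨x, rfl⟩ := (hi _).1 ha
        obtain ⟨y, rfl⟩ := (hi _).1 hb
        rw [← map_mul, hc, hc, hc, RF.mul_val]
      zero := by rw [← map_zero ι, hc, RF.zero_val]
      one := by rw [← map_one ι, hc, RF.one_val]
      lt := fun a b ha hb => by
        obtain ⟨x, rfl⟩ := (hi _).1 ha
        obtain ⟨y, rfl⟩ := (hi _).1 hb
        rw [hc, hc, hm.lt_iff_lt, RF.lt_iff] }
  refine ⟨inferInstance, ?_, hR⟩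
  exact
    { car := ⟨_, hcar⟩
      add := ⟨defF_of_code (F := fun p : ℝ × ℝ => ap2 ZM.E R.add (code N p.1) (code N p.2))
        (fun p hp => by
          obtain ⟨x, hx⟩ := (hi _).1 (intl_prod.1 hp).1
          obtain ⟨y, hy⟩ := (hi _).1 (intl_prod.1 hp).2
          exact (hi _).2 ⟨x + y, by rw [map_add, hx, hy]⟩) (by fun_prop)
        fun p hp => hR.add _ _ (intl_prod.1 hp).1 (intl_prod.1 hp).2⟩
      mul := ⟨defF_of_code (F := fun p : ℝ × ℝ => ap2 ZM.E R.mul (code N p.1) (code N p.2))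
        (fun p hp => by
          obtain ⟨x, hx⟩ := (hi _).1 (intl_prod.1 hp).1
          obtain ⟨y, hy⟩ := (hi _).1 (intl_prod.1 hp).2
          exact (hi _).2 ⟨x * y, by rw [map_mul, hx, hy]⟩) (by fun_prop)
        fun p hp => hR.mul _ _ (intl_prod.1 hp).1 (intl_prod.1 hp).2⟩
      lt := ⟨DefF.congrP (P := fun p : ℝ × ℝ => op (code N p.1) (code N p.2) ∈ R.lt) (by fun_prop)
        fun p hp => pairMem_iff.symm.trans (hR.lt _ _ (intl_prod.1 hp).1 (intl_prod.1 hp).2)⟩
      neg := fun a ha => by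
        obtain ⟨x, rfl⟩ := (hi _).1 ha
        exact (hi _).2 ⟨-x, map_neg ι x⟩
      inv := fun a ha => by
        obtain ⟨x, rfl⟩ := (hi _).1 ha
        exact (hi _).2 ⟨x⁻¹, map_inv₀ ι x⟩
      one := (hi _).2 ⟨1, map_one ι⟩
      sup := fun s hs hne hb => by
        have h1 : ∀ x : RF h, x.1 ∈ code N s ↔ ι x ∈ s := fun x => by
          rw [← hc, code_mem_code hs ((hi _).2 ⟨x, rfl⟩)]
        obtain ⟨u, hu⟩ := RF.lub (h := h) (hcar.sub_code hs)
          (by
            obtain ⟨a, ha⟩ := hne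
            exact ⟨_, (code_mem_code hs (hs.of_mem ha)).2 ha⟩)
          (by
            obtain ⟨b, hb⟩ := hb
            obtain ⟨n, hn⟩ := exists_nat_ge b
            refine ⟨n, fun x hx => hm.le_iff_le.1 ?_⟩
            rw [map_natCast]
            exact (hb ((h1 x).1 hx)).trans hn)
        refine (hi _).2 ⟨u, (csSup_eq_of_forall_le_of_forall_lt_exists_gt hne
          (fun a ha => ?_) fun c hc => ?_).symm⟩
        · obtain ⟨x, rfl⟩ := (hi _).1 (hs.of_mem ha)
          exact hm.monotone (hu.1 ((h1 x).2 ha))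
        · obtain ⟨q, h2, h3⟩ := exists_rat_btwn hc
          rw [← map_ratCast ι] at h2 h3
          obtain ⟨x, h4, h5, -⟩ := hu.exists_between (hm.lt_iff_lt.1 h3)
          exact ⟨ι x, (h1 x).1 h4, h2.trans (hm h5)⟩ }

end Vale.Agent.P129Z
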